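import Vale.Agent.P067.BarOrbit

/-!
Homology of groups acting on acyclic complexes, with coefficients in the field with two elements.
-/

namespace Vale.Agent.P067

open Finset BarAction

variable {G H : Type*} [Group G] [Group H] {V W : Type*} [DecidableEq V] [DecidableEq W]
  {ρ : G →* Equiv.Perm V} {K : Set (Finset V)} {π : V → W}

lemma acyclic_trunc {n j : ℕ} (hj : j + 1 ≤ n) (h : Acyclic K j) :
    Acyclic {s | s ∈ K ∧ s.card ≤ n} j := by
  intro z hz hb
  obtain ⟨y, hy, hby⟩ := h z (chainsOf_mono (fun s hs _ => hs.1) hz) hb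
  refine ⟨y, chainsOf_mono ?_ hy, hby⟩
  exact fun s hs hc => ⟨hs, hc.trans_le hj⟩

/-- The truncation of a complex satisfies the setup of the double complex. -/
lemma setup_trunc (hK : DownClosed K) (hinv : ∀ g, ∀ s ∈ K, s.image (ρ g) ∈ K)
    (hpi : ∀ g v, π (ρ g v) = π v) {n : ℕ} (hinj : ∀ s ∈ K, s.card ≤ n → Set.InjOn π s)
    (hlift : ∀ s ∈ K, ∀ t ∈ K, s.card ≤ n → t.card ≤ n → s.image π = t.image π →
      ∃ g, s.image (ρ g) = t) :
    Setup ρ {s | s ∈ K ∧ s.card ≤ n} π where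
  down := fun s hs t hts => ⟨hK s hs.1 t hts, (Finset.card_le_card hts).trans hs.2⟩
  inv := fun g s hs => ⟨hinv g s hs.1, Finset.card_image_le.trans hs.2⟩
  orbit := hpi
  inj := fun s hs => hinj s hs.1 hs.2
  lift := fun s hs t ht => hlift s hs.1 t ht.1 hs.2 ht.2

lemma exists_shrink (π : V → W) (s : Finset V) :
    ∃ t, t ⊆ s ∧ t.card = (s.image π).card ∧ t.image π = s.image π := by
  have hc : ∀ Q ∈ s.image π, ∃ v ∈ s, π v = Q := fun Q hQ => Finset.mem_image.1 hQ
  choose f hf hfπ using hc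
  refine ⟨(s.image π).attach.image (fun Q => f Q.1 Q.2), ?_, ?_, ?_⟩
  · intro v hv
    obtain ⟨Q, -, rfl⟩ := Finset.mem_image.1 hv
    exact hf _ _
  · rw [Finset.card_image_of_injective _ (fun Q R hQR => Subtype.ext (by rw [← hfπ _ Q.2, hQR, hfπ _ R.2])),
      Finset.card_attach]
  · rw [Finset.image_image]
    conv_rhs => rw [← Finset.attach_image_val (s := s.image π)]
    exact Finset.image_congr fun Q _ => hfπ _ Q.2

lemma image_trunc_acyclic (hK : DownClosed K) {n j : ℕ} (hj : j + 1 ≤ n)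
    (h : Acyclic (Set.image (Finset.image π) K) j) :
    Acyclic (Set.image (Finset.image π) {s | s ∈ K ∧ s.card ≤ n}) j := by
  classical
  intro z hz hb
  obtain ⟨y, hy, hby⟩ := h z (chainsOf_mono
    (fun Q hQ _ => Set.image_mono (fun s (hs : s ∈ {s | s ∈ K ∧ s.card ≤ n}) => hs.1) hQ) hz) hb
  refine ⟨y, chainsOf_mono ?_ hy, hby⟩
  rintro _ ⟨s, hs, rfl⟩ hQ
  obtain ⟨t, hts, hcard, him⟩ := exists_shrink π s
  exact ⟨t, ⟨hK s hs t hts, by omega⟩, him⟩

/-- The relative isotropy criterion. A homomorphism kills the homology in degree `q`, provided it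
does so on the stabilisers of vertices. The maps of bar chains are written out. -/
theorem mapNull_of_stab (f : G →* H) (ρ : G →* Equiv.Perm V) (K : Set (Finset V)) (hK : DownClosed K)
    (hempty : (∅ : Finset V) ∈ K) (hinv : ∀ g, ∀ s ∈ K, s.image (ρ g) ∈ K) (π : V → W)
    (hpi : ∀ g v, π (ρ g v) = π v) (q : ℕ)
    (hinj : ∀ s ∈ K, s.card ≤ q + 2 → Set.InjOn π s)
    (hlift : ∀ s ∈ K, ∀ t ∈ K, s.card ≤ q + 2 → t.card ≤ q + 2 → s.image π = t.image π →
      ∃ g, s.image (ρ g) = t)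
    (hac : ∀ j ≤ q, Acyclic K j) (hquot : Acyclic (Set.image (Finset.image π) K) (q + 1))
    (hstab : ∀ s ∈ K, 2 ≤ s.card → s.card ≤ q → ∀ S : Subgroup G,
      (∀ g, g ∈ S ↔ ∀ v ∈ s, ρ g v = v) → GroupAcyclic S (q + 1 - s.card))
    (hv : ∀ v, ({v} : Finset V) ∈ K → ∀ S : Subgroup G, (∀ g, g ∈ S ↔ ρ g v = v) →
      ∀ z : BarChain S (q + 1), barBdry q z ∈ coinvKer S q →
        ∃ y, tmap (fun s : S => f s) (q + 1) z + barBdry (q + 1) y ∈ coinvKer H (q + 1)) :
    ∀ z : BarChain G (q + 1), barBdry q z ∈ coinvKer G q →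
      ∃ y, tmap f (q + 1) z + barBdry (q + 1) y ∈ coinvKer H (q + 1) := by
  classical
  intro z hz
  have hs := setup_trunc hK hinv hpi hinj hlift
  obtain ⟨T, w, hT, hw⟩ := hs.zigzag (q := q) ⟨hempty, by simp⟩
    (fun j hj => acyclic_trunc (by omega) (hac j hj)) (image_trunc_acyclic hK (by omega) hquot)
    (fun σ hσ h2 h3 => by
      rcases Nat.lt_or_ge q σ.card with h | h
      · rw [show q + 1 - σ.card = 0 by omega]; exact groupAcyclic_zero _
      · exact hstab σ hσ.1 h2 h _ (fun g => mem_fixer)) hz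
  let M : Submodule (ZMod 2) (BarChain H (q + 1)) :=
    coinvKer H (q + 1) ⊔ LinearMap.range (barBdry (G := H) (q + 1))
  have hf : ∀ x ∈ coinvKer G (q + 1), tmap f (q + 1) x ∈ coinvKer H (q + 1) := by
    intro x hx
    have hle : coinvKer G (q + 1) ≤ (coinvKer H (q + 1)).comap (tmap f (q + 1)) := by
      refine Submodule.span_le.2 ?_
      rintro _ ⟨⟨g, t⟩, rfl⟩
      show tmap f (q + 1) _ ∈ coinvKer H (q + 1)
      rw [map_add, tmap_single, tmap_single]
      refine Submodule.subset_span ⟨(f g, fun i => f (t i)), ?_⟩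
      simp [map_mul]
    exact hle hx
  have hMb : ∀ y : BarChain G (q + 2), tmap f (q + 1) (barBdry (q + 1) y) ∈ M := fun y =>
    Submodule.mem_sup_right ⟨tmap f (q + 2) y, barBdry_tmap _ _⟩
  have hwM : ∀ σ ∈ T, tmap f (q + 1) (w σ) ∈ M := by
    intro σ hσ
    obtain ⟨hσK, hcard, hcyc⟩ := hT σ hσ
    obtain ⟨v, rfl⟩ := Finset.card_eq_one.1 hcard
    obtain ⟨z', y, hz', hy⟩ := column_step _ (w {v}) hcyc
    obtain ⟨y', hy'⟩ := hv v hσK.1 (fixer ρ {v}) (fun g => by simp [mem_fixer]) z' hz'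
    have h1 : tmap f (q + 1) (tmap (Subtype.val : fixer ρ {v} → G) (q + 1) z') ∈ M := by
      rw [tmap_tmap]
      exact mem_of_add (Submodule.mem_sup_left hy') (Submodule.mem_sup_right ⟨y', rfl⟩)
    have h2 : tmap f (q + 1) (w {v} + tmap (Subtype.val : fixer ρ {v} → G) (q + 1) z'
        + barBdry (q + 1) y) ∈ M := Submodule.mem_sup_left (hf _ (coinvSub_le _ _ hy))
    rw [map_add, map_add] at h2
    exact mem_of_add (mem_of_add h2 (hMb y)) h1
  have hzM : tmap f (q + 1) z ∈ M := by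
    have h2 : tmap f (q + 1) (z + ∑ σ ∈ T, w σ) ∈ M := Submodule.mem_sup_left (hf _ hw)
    rw [map_add, map_sum] at h2
    exact mem_of_add h2 (Submodule.sum_mem _ hwM)
  obtain ⟨a, ha, b, ⟨y, rfl⟩, hab⟩ := Submodule.mem_sup.1 hzM
  refine ⟨y, ?_⟩
  rwa [← hab, add_assoc, two, add_zero]

/-- A group acting with finite stabilisers of odd order on an acyclic complex with acyclic
quotient is acyclic. -/
theorem groupAcyclic_of_quotient (ρ : G →* Equiv.Perm V) (K : Set (Finset V)) (hK : DownClosed K)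
    (hempty : (∅ : Finset V) ∈ K) (hinv : ∀ g, ∀ s ∈ K, s.image (ρ g) ∈ K) (π : V → W)
    (hpi : ∀ g v, π (ρ g v) = π v) (q : ℕ)
    (hinj : ∀ s ∈ K, s.card ≤ q + 2 → Set.InjOn π s)
    (hlift : ∀ s ∈ K, ∀ t ∈ K, s.card ≤ q + 2 → t.card ≤ q + 2 → s.image π = t.image π →
      ∃ g, s.image (ρ g) = t)
    (hfin : ∀ s ∈ K, 1 ≤ s.card → s.card ≤ q + 1 → ∀ S : Subgroup G,
      (∀ g, g ∈ S ↔ ∀ v ∈ s, ρ g v = v) → Finite S ∧ Odd (Nat.card S))
    (hac : ∀ j ≤ q, Acyclic K j) (hquot : Acyclic (Set.image (Finset.image π) K) (q + 1)) :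
    GroupAcyclic G q := by
  intro z hz
  have := mapNull_of_stab (MonoidHom.id G) ρ K hK hempty hinv π hpi q hinj hlift hac hquot
    (fun s hs h2 h3 S hS => by
      obtain ⟨h4, h5⟩ := hfin s hs (by omega) (by omega) S hS
      exact groupAcyclic_of_odd S h5 _)
    (fun v hv S hS z hz => by
      obtain ⟨h4, h5⟩ := hfin {v} hv (by simp) (by simp) S (fun g => by simp [hS])
      obtain ⟨y, hy⟩ := groupAcyclic_of_odd S h5 q z hz
      refine ⟨tmap (fun s : S => (s : G)) (q + 2) y, ?_⟩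
      rw [barBdry_tmap]
      simp only [MonoidHom.id_apply]
      rw [← map_add]
      have hle : coinvKer S (q + 1) ≤ (coinvKer G (q + 1)).comap (tmap (fun s : S => (s : G)) (q + 1)) := by
        refine Submodule.span_le.2 ?_
        rintro _ ⟨⟨g, t⟩, rfl⟩
        show tmap _ (q + 1) _ ∈ coinvKer G (q + 1)
        rw [map_add, tmap_single, tmap_single]
        exact Submodule.subset_span ⟨((g : G), fun i => (t i : G)), rfl⟩
      exact hle hy) z hz
  have hid : tmap (fun g : G => (MonoidHom.id G) g) (q + 1) z = z := by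
    simp only [tmap, MonoidHom.id_apply, Finsupp.lmapDomain_apply]
    exact Finsupp.mapDomain_id
  obtain ⟨y, hy⟩ := this
  exact ⟨y, by rwa [show tmap (⇑(MonoidHom.id G)) (q + 1) z = z from hid] at hy⟩

/-- The quotient of an acyclic complex by a free action of an acyclic group is acyclic. -/
theorem acyclic_image_of_free (ρ : G →* Equiv.Perm V) (K : Set (Finset V)) (hK : DownClosed K)
    (hinv : ∀ g, ∀ s ∈ K, s.image (ρ g) ∈ K) (π : V → W)
    (hpi : ∀ g v, π (ρ g v) = π v) (k : ℕ) (hk : 1 ≤ k)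
    (hinj : ∀ s ∈ K, s.card ≤ k + 1 → Set.InjOn π s)
    (hlift : ∀ s ∈ K, ∀ t ∈ K, s.card ≤ k + 1 → t.card ≤ k + 1 → s.image π = t.image π →
      ∃ g, s.image (ρ g) = t)
    (hfree : ∀ g v, ({v} : Finset V) ∈ K → ρ g v = v → g = 1)
    (hac : ∀ j ≤ k, Acyclic K j) (hgrp : GroupAcyclic G (k - 1)) :
    Acyclic (Set.image (Finset.image π) K) k := by
  classical
  have hs := setup_trunc hK hinv hpi hinj hlift
  have h := hs.acyclic_quotient hk (fun j hj => acyclic_trunc (by omega) (hac j hj)) hgrp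
    (fun σ hσ hne r => by
      obtain ⟨v, hv⟩ := hne
      have : Subsingleton (fixer ρ σ) := ⟨fun a b => Subtype.ext (by
        rw [hfree a v (hK σ hσ.1 _ (by simpa using hv)) (mem_fixer.1 a.2 v hv),
          hfree b v (hK σ hσ.1 _ (by simpa using hv)) (mem_fixer.1 b.2 v hv)])⟩
      exact groupAcyclic_of_odd _ (by rw [Nat.card_of_subsingleton (1 : fixer ρ σ)]; exact odd_one) r)
  intro z hz hb
  have hz' : z ∈ chainsOf (Set.image (Finset.image π) {s | s ∈ K ∧ s.card ≤ k + 1}) k := by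
    refine chainsOf_mono ?_ hz
    rintro _ ⟨s, hs', rfl⟩ hQ
    obtain ⟨t, hts, hcard, him⟩ := exists_shrink π s
    refine ⟨t, ⟨hK s hs' t hts, ?_⟩, him⟩
    rw [hcard, hQ]
    omega
  obtain ⟨y, hy, hby⟩ := h z hz' hb
  refine ⟨y, chainsOf_mono ?_ hy, hby⟩
  rintro _ ⟨s, hs', rfl⟩ -
  exact ⟨s, hs'.1, rfl⟩

end Vale.Agent.P067
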