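import Vale.Agent.P067.BarPrism

/-!
The double complex of a group acting on a simplicial complex: chains of the complex tensored with
bar chains, modulo the diagonal action.
-/

set_option linter.unusedSectionVars false

namespace Vale.Agent.P067.BarAction

open Finset

variable {G : Type*} [Group G] {V W : Type*} [DecidableEq V] [DecidableEq W]

/-- Chains of the double complex. -/
abbrev DChain (V G : Type*) (p : ℕ) := (Finset V × (Fin p → G)) →₀ ZMod 2

/-- Attach a tuple. -/
noncomputable def emb1 {p : ℕ} (t : Fin p → G) : Chain V →ₗ[ZMod 2] DChain V G p :=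
  Finsupp.lmapDomain (ZMod 2) (ZMod 2) (fun s => (s, t))

/-- Attach a simplex. -/
noncomputable def emb2 (s : Finset V) (p : ℕ) : BarChain G p →ₗ[ZMod 2] DChain V G p :=
  Finsupp.lmapDomain (ZMod 2) (ZMod 2) (fun t => (s, t))

/-- Forget the simplex. -/
noncomputable def forget (V G : Type*) (p : ℕ) : DChain V G p →ₗ[ZMod 2] BarChain G p :=
  Finsupp.lmapDomain (ZMod 2) (ZMod 2) Prod.snd

/-- Horizontal differential. -/
noncomputable def dK (p : ℕ) : DChain V G p →ₗ[ZMod 2] DChain V G p :=
  Finsupp.linearCombination (ZMod 2) (fun x => emb1 x.2 (bdryS x.1))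

/-- Vertical differential. -/
noncomputable def dG (p : ℕ) : DChain V G (p + 1) →ₗ[ZMod 2] DChain V G p :=
  Finsupp.linearCombination (ZMod 2) (fun x => emb2 x.1 p (barBdry p (Finsupp.single x.2 1)))

/-- The diagonal action on basis elements. -/
def actX (ρ : G →* Equiv.Perm V) {p : ℕ} (g : G) (x : Finset V × (Fin p → G)) :
    Finset V × (Fin p → G) :=
  (x.1.image (ρ g), fun i => g * x.2 i)

/-- The diagonal action. -/
noncomputable def actC (ρ : G →* Equiv.Perm V) (g : G) (p : ℕ) :
    DChain V G p →ₗ[ZMod 2] DChain V G p :=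
  Finsupp.lmapDomain (ZMod 2) (ZMod 2) (actX ρ g)

/-- The kernel of the projection to coinvariants. -/
noncomputable def coinvD (ρ : G →* Equiv.Perm V) (p : ℕ) : Submodule (ZMod 2) (DChain V G p) :=
  Submodule.span (ZMod 2) (Set.range fun y : G × (Finset V × (Fin p → G)) =>
    Finsupp.single (actX ρ y.1 y.2) 1 + Finsupp.single y.2 1)

/-- Elements over simplices of `K` with `j` vertices. -/
noncomputable def Dsub (K : Set (Finset V)) (j p : ℕ) : Submodule (ZMod 2) (DChain V G p) :=
  Finsupp.supported (ZMod 2) (ZMod 2) {x | x.1 ∈ K ∧ x.1.card = j}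

section basic

variable (ρ : G →* Equiv.Perm V)

omit [Group G] [DecidableEq V] in
lemma emb1_single {p : ℕ} (t : Fin p → G) (s : Finset V) (a : ZMod 2) :
    emb1 t (Finsupp.single s a) = Finsupp.single (s, t) a := by
  simp [emb1, Finsupp.mapDomain_single]

omit [Group G] [DecidableEq V] in
lemma emb2_single {p : ℕ} (t : Fin p → G) (s : Finset V) (a : ZMod 2) :
    emb2 s p (Finsupp.single t a) = Finsupp.single (s, t) a := by
  simp [emb2, Finsupp.mapDomain_single]

omit [Group G] [DecidableEq V] in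
lemma forget_single {p : ℕ} (x : Finset V × (Fin p → G)) (a : ZMod 2) :
    forget V G p (Finsupp.single x a) = Finsupp.single x.2 a := by
  simp [forget, Finsupp.mapDomain_single]

omit [Group G] in
lemma dK_single {p : ℕ} (x : Finset V × (Fin p → G)) :
    dK p (Finsupp.single x 1) = ∑ v ∈ x.1, Finsupp.single (x.1.erase v, x.2) 1 := by
  simp [dK, bdryS, map_sum, emb1_single]

omit [DecidableEq V] in
lemma dG_single {p : ℕ} (x : Finset V × (Fin (p + 1) → G)) :
    dG p (Finsupp.single x 1)
      = ∑ i : Fin (p + 1), Finsupp.single (x.1, fun j => x.2 (i.succAbove j)) 1 := by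
  simp [dG, barBdry_single, map_sum, emb2_single]

lemma dG_emb2 (s : Finset V) {p : ℕ} (z : BarChain G (p + 1)) :
    dG p (emb2 s (p + 1) z) = emb2 s p (barBdry p z) := by
  refine lin_ext (f := (dG p).comp (emb2 s (p + 1))) (g := (emb2 s p).comp (barBdry p)) (fun t => ?_) z
  simp [emb2_single, dG_single, barBdry_single, map_sum]

lemma forget_dG {p : ℕ} (c : DChain V G (p + 1)) :
    forget V G p (dG p c) = barBdry p (forget V G (p + 1) c) := by
  refine lin_ext (f := (forget V G p).comp (dG p)) (g := (barBdry p).comp (forget V G (p + 1)))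
    (fun x => ?_) c
  simp [dG_single, forget_single, barBdry_single, map_sum]

lemma dK_dG {p : ℕ} (c : DChain V G (p + 1)) : dK p (dG p c) = dG p (dK (p + 1) c) := by
  rw [← LinearMap.comp_apply, ← LinearMap.comp_apply]
  refine lin_ext (fun x => ?_) c
  simp only [LinearMap.comp_apply, dG_single, dK_single, map_sum]
  exact Finset.sum_comm

lemma dK_dK {p : ℕ} (c : DChain V G p) : dK p (dK p c) = 0 := by
  rw [← LinearMap.comp_apply]
  refine lin_ext (g := 0) (fun x => ?_) c
  have h : ∀ y : Chain V, dK p (emb1 x.2 y) = emb1 x.2 (bdry y) := fun y =>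
    lin_ext (f := (dK p).comp (emb1 x.2)) (g := (emb1 x.2).comp bdry) (fun s => by
      simp [emb1_single, dK_single, bdry_single_one, bdryS, map_sum]) y
  have h0 : dK p (Finsupp.single x 1) = emb1 x.2 (bdryS x.1) := by simp [dK]
  rw [LinearMap.comp_apply, h0, h, bdry_bdryS, map_zero]
  rfl

lemma dG_dG {p : ℕ} (c : DChain V G (p + 2)) : dG p (dG (p + 1) c) = 0 := by
  refine lin_ext (f := (dG p).comp (dG (p + 1))) (g := 0) (fun x => ?_) c
  rw [LinearMap.comp_apply, show Finsupp.single x (1 : ZMod 2) = emb2 x.1 (p + 2) (Finsupp.single x.2 1) by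
    rw [emb2_single], dG_emb2, dG_emb2, barBdry_barBdry, map_zero]
  rfl

lemma actC_single {p : ℕ} (g : G) (x : Finset V × (Fin p → G)) (a : ZMod 2) :
    actC ρ g p (Finsupp.single x a) = Finsupp.single (actX ρ g x) a := by
  simp [actC, Finsupp.mapDomain_single]

lemma dK_actC {p : ℕ} (g : G) (c : DChain V G p) : dK p (actC ρ g p c) = actC ρ g p (dK p c) := by
  refine lin_ext (f := (dK p).comp (actC ρ g p)) (g := (actC ρ g p).comp (dK p)) (fun x => ?_) c
  simp only [LinearMap.comp_apply, actC_single, dK_single, map_sum, actX]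
  rw [Finset.sum_image (fun a _ b _ h => (ρ g).injective h)]
  refine Finset.sum_congr rfl fun v _ => ?_
  rw [Finset.image_erase (ρ g).injective]

lemma dG_actC {p : ℕ} (g : G) (c : DChain V G (p + 1)) :
    dG p (actC ρ g (p + 1) c) = actC ρ g p (dG p c) := by
  refine lin_ext (f := (dG p).comp (actC ρ g (p + 1))) (g := (actC ρ g p).comp (dG p)) (fun x => ?_) c
  simp [actC_single, dG_single, map_sum, actX]

lemma coinvD_le {p : ℕ} {M : Type*} [AddCommGroup M] [Module (ZMod 2) M]
    (f : DChain V G p →ₗ[ZMod 2] M) {N : Submodule (ZMod 2) M}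
    (h : ∀ g x, f (actC ρ g p (Finsupp.single x 1)) + f (Finsupp.single x 1) ∈ N)
    {c : DChain V G p} (hc : c ∈ coinvD ρ p) : f c ∈ N := by
  have hle : coinvD ρ p ≤ N.comap f := by
    refine Submodule.span_le.2 ?_
    rintro _ ⟨⟨g, x⟩, rfl⟩
    have := h g x
    rwa [actC_single, ← map_add] at this
  exact hle hc

lemma act_mem_coinvD {p : ℕ} (g : G) (c : DChain V G p) : actC ρ g p c + c ∈ coinvD ρ p := by
  refine lin_mem (f := actC ρ g p + LinearMap.id) (fun x => ?_) c
  rw [LinearMap.add_apply, actC_single, LinearMap.id_apply]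
  exact Submodule.subset_span ⟨(g, x), rfl⟩

lemma dK_coinvD {p : ℕ} {c : DChain V G p} (hc : c ∈ coinvD ρ p) : dK p c ∈ coinvD ρ p := by
  refine coinvD_le ρ (dK p) (fun g x => ?_) hc
  rw [dK_actC]
  exact act_mem_coinvD ρ g _

lemma dG_coinvD {p : ℕ} {c : DChain V G (p + 1)} (hc : c ∈ coinvD ρ (p + 1)) :
    dG p c ∈ coinvD ρ p := by
  refine coinvD_le ρ (dG p) (fun g x => ?_) hc
  rw [dG_actC]
  exact act_mem_coinvD ρ g _

lemma forget_coinvD {p : ℕ} {c : DChain V G p} (hc : c ∈ coinvD ρ p) :
    forget V G p c ∈ coinvKer G p := by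
  refine coinvD_le ρ (forget V G p) (fun g x => ?_) hc
  rw [actC_single, forget_single, forget_single]
  exact Submodule.subset_span ⟨(g, x.2), rfl⟩

lemma emb2_coinvSub {s : Finset V} {S : Subgroup G} (hS : ∀ a ∈ S, s.image (ρ a) = s) {p : ℕ}
    {z : BarChain G p} (hz : z ∈ coinvSub S p) : emb2 s p z ∈ coinvD ρ p := by
  refine coinvSub_map S (emb2 s p) (fun a ha t => ?_) hz
  rw [tmap_single, emb2_single, emb2_single]
  exact Submodule.subset_span ⟨(a, (s, t)), by simp [actX, hS a ha]⟩

lemma emb2_empty_coinvKer {p : ℕ} {z : BarChain G p} (hz : z ∈ coinvKer G p) :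
    emb2 (∅ : Finset V) p z ∈ coinvD ρ p := by
  have hle : coinvKer G p ≤ (coinvD ρ p).comap (emb2 (∅ : Finset V) p) := by
    refine Submodule.span_le.2 ?_
    rintro _ ⟨⟨g, t⟩, rfl⟩
    show emb2 (∅ : Finset V) p _ ∈ coinvD ρ p
    rw [map_add, emb2_single, emb2_single]
    exact Submodule.subset_span ⟨(g, ((∅ : Finset V), t)), by simp [actX]⟩
  exact hle hz

end basic

section supp

variable {K : Set (Finset V)}

omit [Group G] [DecidableEq V] in
lemma single_mem_Dsub {j p : ℕ} {x : Finset V × (Fin p → G)} (h1 : x.1 ∈ K) (h2 : x.1.card = j) :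
    Finsupp.single x (1 : ZMod 2) ∈ Dsub (G := G) K j p :=
  Finsupp.single_mem_supported _ _ ⟨h1, h2⟩

omit [Group G] [DecidableEq V] in
lemma Dsub_map {j p : ℕ} {M : Type*} [AddCommGroup M] [Module (ZMod 2) M]
    (f : DChain V G p →ₗ[ZMod 2] M) {N : Submodule (ZMod 2) M}
    (h : ∀ x : Finset V × (Fin p → G), x.1 ∈ K → x.1.card = j → f (Finsupp.single x 1) ∈ N)
    {c : DChain V G p} (hc : c ∈ Dsub K j p) : f c ∈ N := by
  rw [Dsub, Finsupp.supported_eq_span_single] at hc
  have hle : Submodule.span (ZMod 2) ((fun x => Finsupp.single x (1 : ZMod 2)) ''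
      {x : Finset V × (Fin p → G) | x.1 ∈ K ∧ x.1.card = j}) ≤ N.comap f := by
    refine Submodule.span_le.2 ?_
    rintro _ ⟨x, hx, rfl⟩
    exact h x hx.1 hx.2
  exact hle hc

lemma dK_mem (hK : DownClosed K) {j p : ℕ} {c : DChain V G p} (hc : c ∈ Dsub K (j + 1) p) :
    dK p c ∈ Dsub K j p := by
  refine Dsub_map (dK p) (fun x h1 h2 => ?_) hc
  rw [dK_single]
  refine Submodule.sum_mem _ fun v hv => single_mem_Dsub (hK _ h1 _ (Finset.erase_subset _ _)) ?_
  rw [Finset.card_erase_of_mem hv, h2]; omega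

lemma dK_zero {p : ℕ} {c : DChain V G p} (hc : c ∈ Dsub K 0 p) : dK p c = 0 := by
  refine (Submodule.mem_bot (ZMod 2)).1 (Dsub_map (dK p) (fun x _ h2 => ?_) hc)
  rw [dK_single, Finset.card_eq_zero.1 h2, Finset.sum_empty]
  exact Submodule.zero_mem _

lemma dG_mem {j p : ℕ} {c : DChain V G (p + 1)} (hc : c ∈ Dsub K j (p + 1)) :
    dG p c ∈ Dsub K j p := by
  refine Dsub_map (dG p) (fun x h1 h2 => ?_) hc
  rw [dG_single]
  exact Submodule.sum_mem _ fun i _ => single_mem_Dsub h1 h2

omit [Group G] [DecidableEq V] in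
lemma emb2_mem {j p : ℕ} {s : Finset V} (h1 : s ∈ K) (h2 : s.card = j) (z : BarChain G p) :
    emb2 s p z ∈ Dsub K j p :=
  lin_mem (f := emb2 s p) (fun t => by rw [emb2_single]; exact single_mem_Dsub h1 h2) z

omit [Group G] [DecidableEq V] in
lemma emb2_forget {p : ℕ} {c : DChain V G p} (hc : c ∈ Dsub K 0 p) :
    emb2 (∅ : Finset V) p (forget V G p c) = c := by
  refine eq_of_add ((Submodule.mem_bot (ZMod 2)).1
    (Dsub_map ((emb2 (∅ : Finset V) p).comp (forget V G p) + LinearMap.id) (fun x _ h2 => ?_) hc))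
  have hx : x = ((∅ : Finset V), x.2) := Prod.ext (Finset.card_eq_zero.1 h2) rfl
  rw [Submodule.mem_bot, LinearMap.add_apply, LinearMap.comp_apply, forget_single, emb2_single,
    LinearMap.id_apply, ← hx, two]

end supp

/-- Row exactness: the bar complex is free. -/
theorem exact_row (ρ : G →* Equiv.Perm V) {K : Set (Finset V)}
    (hinv : ∀ g, ∀ s ∈ K, s.image (ρ g) ∈ K) {j p : ℕ} (hac : Acyclic K j)
    {c : DChain V G (p + 1)} (hc : c ∈ Dsub K j (p + 1)) (hd : dK (p + 1) c ∈ coinvD ρ (p + 1)) :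
    ∃ y ∈ Dsub K (j + 1) (p + 1), c + dK (p + 1) y ∈ coinvD ρ (p + 1) := by
  classical
  let nrm : DChain V G (p + 1) →ₗ[ZMod 2] DChain V G (p + 1) :=
    Finsupp.lmapDomain (ZMod 2) (ZMod 2) (fun x => actX ρ (x.2 0)⁻¹ x)
  have hns : ∀ x, nrm (Finsupp.single x 1) = Finsupp.single (actX ρ (x.2 0)⁻¹ x) 1 := fun x => by
    simp [nrm, Finsupp.mapDomain_single]
  have hcomm : ∀ c, dK (p + 1) (nrm c) = nrm (dK (p + 1) c) := by
    refine fun c => lin_ext (f := (dK (p + 1)).comp nrm) (g := nrm.comp (dK (p + 1))) (fun x => ?_) c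
    simp only [LinearMap.comp_apply, hns, dK_single, map_sum, actX]
    rw [Finset.sum_image (fun a _ b _ h => (ρ _).injective h)]
    refine Finset.sum_congr rfl fun v _ => ?_
    rw [Finset.image_erase (ρ _).injective]
  have hkill : ∀ c ∈ coinvD ρ (p + 1), nrm c = 0 := by
    intro c hc
    refine (Submodule.mem_bot (ZMod 2)).1 (coinvD_le ρ nrm (fun g x => ?_) hc)
    rw [Submodule.mem_bot, actC_single, hns, hns]
    have : actX ρ ((actX ρ g x).2 0)⁻¹ (actX ρ g x) = actX ρ (x.2 0)⁻¹ x := by
      refine Prod.ext ?_ ?_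
      · simp only [actX, Finset.image_image]
        congr 1
        funext v
        rw [Function.comp_apply, ← Equiv.Perm.mul_apply, ← map_mul, mul_inv_rev,
          inv_mul_cancel_right]
      · funext i
        simp [actX, mul_assoc]
    rw [this, two]
  have hd0 : dK (p + 1) (nrm c) = 0 := by rw [hcomm, hkill _ hd]
  have hn : c + nrm c ∈ coinvD ρ (p + 1) := by
    refine lin_mem (f := LinearMap.id + nrm) (fun x => ?_) c
    rw [LinearMap.add_apply, LinearMap.id_apply, hns]
    exact add_comm_mem (Submodule.subset_span ⟨((x.2 0)⁻¹, x), rfl⟩)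
  have hnm : nrm c ∈ Dsub K j (p + 1) := by
    refine Dsub_map nrm (fun x h1 h2 => ?_) hc
    rw [hns]
    exact single_mem_Dsub (hinv _ _ h1) (by rw [actX, Finset.card_image_of_injective _ (ρ _).injective, h2])
  set cn := nrm c with hcn
  let slice : (Fin (p + 1) → G) → (DChain V G (p + 1) →ₗ[ZMod 2] Chain V) := fun t =>
    Finsupp.linearCombination (ZMod 2) (fun x => if x.2 = t then Finsupp.single x.1 1 else 0)
  have hsb : ∀ t c, bdry (slice t c) = slice t (dK (p + 1) c) := by
    refine fun t c => lin_ext (f := bdry.comp (slice t)) (g := (slice t).comp (dK (p + 1))) (fun x => ?_) c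
    simp only [LinearMap.comp_apply, dK_single, map_sum, slice, Finsupp.linearCombination_single, one_smul]
    by_cases hx : x.2 = t <;> simp [hx, bdry_single_one, bdryS]
  have hfill : ∀ t, ∃ y ∈ chainsOf K (j + 1), bdry y = slice t cn := by
    refine fun t => hac _ (Dsub_map (slice t) (fun x h1 h2 => ?_) hnm) (by rw [hsb, hd0, map_zero])
    simp only [slice, Finsupp.linearCombination_single, one_smul]
    by_cases hx : x.2 = t
    · rw [if_pos hx]; exact single_mem_chainsOf h1 h2 1
    · rw [if_neg hx]; exact Submodule.zero_mem _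
  choose y hy hby using hfill
  set T := cn.support.image Prod.snd with hT
  refine ⟨∑ t ∈ T, emb1 t (y t), Submodule.sum_mem _ fun t _ => ?_, ?_⟩
  · have : chainsOf K (j + 1) ≤ (Dsub (G := G) K (j + 1) (p + 1)).comap (emb1 t) := by
      rw [chainsOf, Finsupp.supported_eq_span_single]
      refine Submodule.span_le.2 ?_
      rintro _ ⟨s, hs, rfl⟩
      show emb1 t _ ∈ Dsub K (j + 1) (p + 1)
      rw [emb1_single]
      exact single_mem_Dsub hs.1 hs.2
    exact this (hy t)
  · have heq : dK (p + 1) (∑ t ∈ T, emb1 t (y t)) = cn := by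
      have h1 : ∀ t, dK (p + 1) (emb1 t (y t)) = emb1 t (slice t cn) := by
        intro t
        rw [← hby]
        exact lin_ext (f := (dK (p + 1)).comp (emb1 t)) (g := (emb1 t).comp bdry) (fun s => by
          simp [emb1_single, dK_single, bdry_single_one, bdryS, map_sum]) (y t)
      rw [map_sum, Finset.sum_congr rfl fun t _ => h1 t]
      conv_lhs => arg 2; ext t; rw [← Finsupp.sum_single cn, map_finsuppSum, map_finsuppSum]
      conv_rhs => rw [← Finsupp.sum_single cn]
      simp only [Finsupp.sum]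
      rw [Finset.sum_comm]
      refine Finset.sum_congr rfl fun x hx => ?_
      rw [Finset.sum_eq_single x.2]
      · rw [← Finsupp.smul_single_one x, map_smul, map_smul]
        simp [slice, emb1_single]
      · intro t _ ht
        rw [← Finsupp.smul_single_one x, map_smul, map_smul]
        simp [slice, Ne.symm ht]
      · exact fun h => absurd (Finset.mem_image_of_mem _ hx) h
    rw [heq]
    exact hn

/-- The projection to the quotient complex. -/
noncomputable def proj (G : Type*) (π : V → W) : DChain V G 0 →ₗ[ZMod 2] Chain W :=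
  Finsupp.lmapDomain (ZMod 2) (ZMod 2) (fun x => x.1.image π)

omit [Group G] [DecidableEq V] in
lemma proj_single (π : V → W) (x : Finset V × (Fin 0 → G)) (a : ZMod 2) :
    proj G π (Finsupp.single x a) = Finsupp.single (x.1.image π) a := by
  simp [proj, Finsupp.mapDomain_single]

lemma proj_coinvD (ρ : G →* Equiv.Perm V) {π : V → W} (hπ : ∀ g v, π (ρ g v) = π v)
    {c : DChain V G 0} (hc : c ∈ coinvD ρ 0) : proj G π c = 0 := by
  refine (Submodule.mem_bot (ZMod 2)).1 (coinvD_le ρ (proj G π) (fun g x => ?_) hc)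
  have : (actX ρ g x).1.image π = x.1.image π := by
    simp only [actX, Finset.image_image]
    exact Finset.image_congr fun v _ => hπ g v
  rw [Submodule.mem_bot, actC_single, proj_single, proj_single, this, two]

lemma proj_dK {π : V → W} {K : Set (Finset V)} {j : ℕ}
    (hinj : ∀ s ∈ K, s.card = j → Set.InjOn π s) {c : DChain V G 0} (hc : c ∈ Dsub K j 0) :
    proj G π (dK 0 c) = bdry (proj G π c) := by
  refine eq_of_add ((Submodule.mem_bot (ZMod 2)).1
    (Dsub_map ((proj G π).comp (dK 0) + bdry.comp (proj G π)) (fun x h1 h2 => ?_) hc))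
  rw [Submodule.mem_bot, LinearMap.add_apply, LinearMap.comp_apply, LinearMap.comp_apply, dK_single,
    proj_single, bdry_single_one, bdryS, map_sum, Finset.sum_image (hinj _ h1 h2)]
  have : ∀ v ∈ x.1, proj G π (Finsupp.single (x.1.erase v, x.2) 1)
      = Finsupp.single ((x.1.image π).erase (π v)) 1 := by
    intro v hv
    rw [proj_single]
    congr 1
    ext w
    simp only [Finset.mem_image, Finset.mem_erase]
    constructor
    · rintro ⟨u, ⟨hu1, hu2⟩, rfl⟩
      exact ⟨fun h => hu1 (hinj _ h1 h2 hu2 hv h), u, hu2, rfl⟩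
    · rintro ⟨hw, u, hu, rfl⟩
      exact ⟨u, ⟨fun h => hw (by rw [h]), hu⟩, rfl⟩
  rw [Finset.sum_congr rfl this, two]

end Vale.Agent.P067.BarAction
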