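import Vale.Agent.P067.BarAction

/-!
Maps induced on group homology with coefficients in the field with two elements: functoriality,
invariance under conjugation, change along a projection with locally finite kernel of odd order,
and transfer.
-/

set_option linter.unusedSectionVars false

namespace Vale.Agent.P067

open Finset BarAction

variable {G H L : Type*} [Group G] [Group H] [Group L]

/-- The map of bar chains induced by a homomorphism. -/
noncomputable def barMap (f : G →* H) {k : ℕ} : BarChain G k →ₗ[ZMod 2] BarChain H k :=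
  tmap f k

/-- The induced map vanishes on homology in degree `q`. -/
def HomZero (f : G →* H) (q : ℕ) : Prop :=
  ∀ z : BarChain G (q + 1), barBdry q z ∈ coinvKer G q →
    ∃ y, barMap f z + barBdry (q + 1) y ∈ coinvKer H (q + 1)

/-- Two homomorphisms induce the same map on homology in degree `q`. -/
def HomEq (f g : G →* H) (q : ℕ) : Prop :=
  ∀ z : BarChain G (q + 1), barBdry q z ∈ coinvKer G q →
    ∃ y, barMap f z + barMap g z + barBdry (q + 1) y ∈ coinvKer H (q + 1)

lemma barMap_single (f : G →* H) {k : ℕ} (t : Fin k → G) (a : ZMod 2) :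
    barMap f (Finsupp.single t a) = Finsupp.single (fun i => f (t i)) a := tmap_single _ t a

lemma barMap_comp (f : G →* H) (g : H →* L) {k : ℕ} (z : BarChain G k) :
    barMap (g.comp f) z = barMap g (barMap f z) := (tmap_tmap f g z).symm

lemma barMap_id {k : ℕ} (z : BarChain G k) : barMap (MonoidHom.id G) z = z := by
  refine lin_ext (f := barMap (MonoidHom.id G)) (g := LinearMap.id) (fun t => ?_) z
  rw [barMap_single]; rfl

lemma barBdry_barMap (f : G →* H) {k : ℕ} (z : BarChain G (k + 1)) :
    barBdry k (barMap f z) = barMap f (barBdry k z) := barBdry_tmap f z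

lemma barMap_coinvKer (f : G →* H) {k : ℕ} {z : BarChain G k} (hz : z ∈ coinvKer G k) :
    barMap f z ∈ coinvKer H k := by
  have hle : coinvKer G k ≤ (coinvKer H k).comap (barMap f) := by
    refine Submodule.span_le.2 ?_
    rintro _ ⟨⟨g, t⟩, rfl⟩
    show barMap f _ ∈ coinvKer H k
    rw [map_add, barMap_single, barMap_single]
    exact Submodule.subset_span ⟨(f g, fun i => f (t i)), by simp [map_mul]⟩
  exact hle hz

lemma cycle_barMap (f : G →* H) {q : ℕ} {z : BarChain G (q + 1)} (hz : barBdry q z ∈ coinvKer G q) :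
    barBdry q (barMap f z) ∈ coinvKer H q := by
  rw [barBdry_barMap]; exact barMap_coinvKer f hz

lemma HomEq.refl (f : G →* H) (q : ℕ) : HomEq f f q := fun z _ =>
  ⟨0, by simp [two]⟩

lemma HomEq.symm {f g : G →* H} {q : ℕ} (h : HomEq f g q) : HomEq g f q := fun z hz => by
  obtain ⟨y, hy⟩ := h z hz
  exact ⟨y, by rwa [add_comm (barMap g z)]⟩

lemma HomEq.trans {f g h : G →* H} {q : ℕ} (h1 : HomEq f g q) (h2 : HomEq g h q) :
    HomEq f h q := fun z hz => by
  obtain ⟨y, hy⟩ := h1 z hz
  obtain ⟨y', hy'⟩ := h2 z hz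
  refine ⟨y + y', ?_⟩
  have := Submodule.add_mem _ hy hy'
  rw [show barMap f z + barMap g z + barBdry (q + 1) y + (barMap g z + barMap h z + barBdry (q + 1) y')
    = barMap f z + barMap h z + (barBdry (q + 1) y + barBdry (q + 1) y') + (barMap g z + barMap g z) by abel,
    two, add_zero, ← map_add] at this
  exact this

lemma HomEq.comp_left {f g : G →* H} {q : ℕ} (h : HomEq f g q) (u : H →* L) :
    HomEq (u.comp f) (u.comp g) q := fun z hz => by
  obtain ⟨y, hy⟩ := h z hz
  refine ⟨barMap u y, ?_⟩
  have := barMap_coinvKer u hy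
  rwa [map_add, map_add, ← barBdry_barMap, ← barMap_comp, ← barMap_comp] at this

lemma HomEq.comp_right {f g : G →* H} {q : ℕ} (h : HomEq f g q) (u : L →* G) :
    HomEq (f.comp u) (g.comp u) q := fun z hz => by
  obtain ⟨y, hy⟩ := h _ (cycle_barMap u hz)
  exact ⟨y, by rwa [barMap_comp, barMap_comp]⟩

lemma HomZero.comp_left {f : G →* H} {q : ℕ} (h : HomZero f q) (u : H →* L) :
    HomZero (u.comp f) q := fun z hz => by
  obtain ⟨y, hy⟩ := h z hz
  refine ⟨barMap u y, ?_⟩
  have := barMap_coinvKer u hy
  rwa [map_add, ← barBdry_barMap, ← barMap_comp] at this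

lemma HomZero.comp_right {f : G →* H} {q : ℕ} (h : HomZero f q) (u : L →* G) :
    HomZero (f.comp u) q := fun z hz => by
  obtain ⟨y, hy⟩ := h _ (cycle_barMap u hz)
  exact ⟨y, by rwa [barMap_comp]⟩

lemma HomZero.of_homEq {f g : G →* H} {q : ℕ} (h : HomEq f g q) (hg : HomZero g q) :
    HomZero f q := fun z hz => by
  obtain ⟨y, hy⟩ := h z hz
  obtain ⟨y', hy'⟩ := hg z hz
  refine ⟨y + y', ?_⟩
  have := Submodule.add_mem _ hy hy'
  rw [show barMap f z + barMap g z + barBdry (q + 1) y + (barMap g z + barBdry (q + 1) y')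
    = barMap f z + (barBdry (q + 1) y + barBdry (q + 1) y') + (barMap g z + barMap g z) by abel,
    two, add_zero, ← map_add] at this
  exact this

lemma groupAcyclic_iff_homZero (q : ℕ) : GroupAcyclic G q ↔ HomZero (MonoidHom.id G) q :=
  ⟨fun h z hz => by rw [barMap_id]; exact h z hz, fun h z hz => by
    obtain ⟨y, hy⟩ := h z hz; exact ⟨y, by rwa [barMap_id] at hy⟩⟩

lemma GroupAcyclic.homZero_from {q : ℕ} (h : GroupAcyclic G q) (f : G →* H) : HomZero f q := by
  simpa using ((groupAcyclic_iff_homZero q).1 h).comp_left f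

lemma GroupAcyclic.homZero_to {q : ℕ} (h : GroupAcyclic H q) (f : G →* H) : HomZero f q := by
  simpa using ((groupAcyclic_iff_homZero q).1 h).comp_right f

lemma groupAcyclic_congr (e : G ≃* H) {q : ℕ} (h : GroupAcyclic G q) : GroupAcyclic H q := by
  rw [groupAcyclic_iff_homZero]
  have := (h.homZero_from e.toMonoidHom).comp_right e.symm.toMonoidHom
  rwa [show e.toMonoidHom.comp e.symm.toMonoidHom = MonoidHom.id H from
    MonoidHom.ext fun x => e.apply_symm_apply x] at this

/-! ### Right translations and conjugation -/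

/-- Right translation is homotopic to the identity on coinvariants. -/
lemma rmul_homotopic (d : G) {q : ℕ} {w : BarChain G (q + 1)} (hw : barBdry q w ∈ coinvKer G q) :
    ∃ y, w + tmap (· * d) (q + 1) w + barBdry (q + 1) y ∈ coinvKer G (q + 1) := by
  refine ⟨prism (· * d) (q + 1) w, ?_⟩
  rw [← prism_spec (fun x => x * d) w, cancel3]
  have hle : coinvKer G q ≤ (coinvKer G (q + 1)).comap (prism (· * d) q) := by
    refine Submodule.span_le.2 ?_
    rintro _ ⟨⟨g, t⟩, rfl⟩
    show prism (· * d) q _ ∈ coinvKer G (q + 1)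
    rw [map_add, show Finsupp.single (fun j => g * t j) (1 : ZMod 2) = tmap (g * ·) q (Finsupp.single t 1) by
      rw [tmap_single], prism_tmap _ _ (fun x => by simp [mul_assoc])]
    exact lmul_mem_coinvKer g _
  exact hle hw

/-- Inner automorphisms of the target act trivially on homology. -/
theorem homEq_conj (h : H) (f : G →* H) (q : ℕ) :
    HomEq ((MulAut.conj h).toMonoidHom.comp f) f q := fun z hz => by
  obtain ⟨y, hy⟩ := rmul_homotopic h⁻¹ (cycle_barMap f hz)
  refine ⟨y, ?_⟩
  have he : barMap ((MulAut.conj h).toMonoidHom.comp f) z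
      = tmap (h * ·) (q + 1) (tmap (· * h⁻¹) (q + 1) (barMap f z)) := by
    rw [tmap_tmap, barMap, barMap, tmap_tmap]
    congr 2
    funext x
    simp [MulAut.conj_apply, mul_assoc]
  have h2 := Submodule.add_mem _ hy (lmul_mem_coinvKer h (tmap (· * h⁻¹) (q + 1) (barMap f z)))
  rw [← he, show barMap f z + tmap (· * h⁻¹) (q + 1) (barMap f z) + barBdry (q + 1) y
      + (barMap ((MulAut.conj h).toMonoidHom.comp f) z + tmap (· * h⁻¹) (q + 1) (barMap f z))
    = barMap ((MulAut.conj h).toMonoidHom.comp f) z + barMap f z + barBdry (q + 1) y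
      + (tmap (· * h⁻¹) (q + 1) (barMap f z) + tmap (· * h⁻¹) (q + 1) (barMap f z)) by abel,
    two, add_zero] at h2
  exact h2

/-! ### Averaging over a finite subgroup of odd order -/

section average

variable (A : Subgroup G) [Fintype A]

/-- Prepend the average of a coset. -/
noncomputable def bavg (x : G) (k : ℕ) : BarChain G k →ₗ[ZMod 2] BarChain G (k + 1) :=
  ∑ a : A, bcons (x * a) k

/-- Average each entry of a tuple over its coset. -/
noncomputable def avgS : ∀ k, (Fin k → G) → BarChain G k
  | 0, t => Finsupp.single t 1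
  | k + 1, t => bavg A (t 0) k (avgS k (Fin.tail t))

/-- Average each entry over its coset. -/
noncomputable def avgMap (k : ℕ) : BarChain G k →ₗ[ZMod 2] BarChain G k :=
  Finsupp.linearCombination (ZMod 2) (avgS A k)

/-- The prism between the identity and the average, on a tuple. -/
noncomputable def avgPrismS : ∀ k, (Fin k → G) → BarChain G (k + 1)
  | 0, _ => 0
  | k + 1, t => bavg A (t 0) (k + 1) (Finsupp.single t 1 + avgPrismS k (Fin.tail t))

/-- The prism between the identity and the average. -/
noncomputable def avgPrism (k : ℕ) : BarChain G k →ₗ[ZMod 2] BarChain G (k + 1) :=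
  Finsupp.linearCombination (ZMod 2) (avgPrismS A k)

lemma avgMap_single {k : ℕ} (t : Fin k → G) : avgMap A k (Finsupp.single t 1) = avgS A k t := by
  simp [avgMap]

lemma avgPrism_single {k : ℕ} (t : Fin k → G) :
    avgPrism A k (Finsupp.single t 1) = avgPrismS A k t := by
  simp [avgPrism]

lemma avgMap_bcons (x : G) {k : ℕ} (w : BarChain G k) :
    avgMap A (k + 1) (bcons x k w) = bavg A x k (avgMap A k w) := by
  rw [← LinearMap.comp_apply, ← LinearMap.comp_apply]
  refine lin_ext (fun t => ?_) w
  simp [bcons_single, avgMap_single, avgS]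

lemma avgPrism_bcons (x : G) {k : ℕ} (w : BarChain G k) :
    avgPrism A (k + 1) (bcons x k w) = bavg A x (k + 1) (bcons x k w + avgPrism A k w) := by
  rw [← LinearMap.comp_apply, map_add, ← LinearMap.comp_apply, ← LinearMap.comp_apply,
    ← LinearMap.add_apply]
  refine lin_ext (fun t => ?_) w
  simp [bcons_single, avgPrism_single, avgPrismS]

lemma bavg_apply (x : G) {k : ℕ} (w : BarChain G k) : bavg A x k w = ∑ a : A, bcons (x * a) k w := by
  simp [bavg, LinearMap.sum_apply]

lemma odd_smul (hA : Odd (Nat.card A)) {M : Type*} [AddCommGroup M] [Module (ZMod 2) M] (x : M) :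
    ∑ _a : A, x = x := by
  rw [Finset.sum_const, Finset.card_univ, ← Nat.card_eq_fintype_card, ← Nat.cast_smul_eq_nsmul (ZMod 2),
    ZMod.natCast_eq_one_iff_odd.2 hA, one_smul]

lemma barBdry_bavg_zero (hA : Odd (Nat.card A)) (x : G) (w : BarChain G 0) :
    barBdry 0 (bavg A x 0 w) = w := by
  simp only [bavg_apply, map_sum, barBdry_bcons_zero]
  exact odd_smul A hA w

lemma barBdry_bavg (hA : Odd (Nat.card A)) (x : G) {k : ℕ} (w : BarChain G (k + 1)) :
    barBdry (k + 1) (bavg A x (k + 1) w) = w + bavg A x k (barBdry k w) := by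
  simp only [bavg_apply, map_sum, barBdry_bcons, Finset.sum_add_distrib]
  rw [odd_smul A hA w]

lemma avgMap_zero (w : BarChain G 0) : avgMap A 0 w = w :=
  lin_ext (f := avgMap A 0) (g := LinearMap.id) (fun t => by simp [avgMap_single, avgS]) w

lemma avgPrism_zero (w : BarChain G 0) : avgPrism A 0 w = 0 :=
  lin_ext (f := avgPrism A 0) (g := 0) (fun t => by simp [avgPrism_single, avgPrismS]) w

lemma avgPrism_spec (hA : Odd (Nat.card A)) : ∀ {k : ℕ} (z : BarChain G (k + 1)),
    barBdry (k + 1) (avgPrism A (k + 1) z) + avgPrism A k (barBdry k z) = z + avgMap A (k + 1) z := by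
  intro k
  induction k with
  | zero =>
    intro z
    refine lin_ext (f := (barBdry 1).comp (avgPrism A 1) + (avgPrism A 0).comp (barBdry 0))
      (g := LinearMap.id + avgMap A 1) (fun t => ?_) z
    simp only [LinearMap.comp_apply, LinearMap.add_apply, LinearMap.id_apply, avgPrism_zero, add_zero]
    rw [← Fin.cons_self_tail t, ← bcons_single, avgPrism_bcons, avgPrism_zero, add_zero,
      barBdry_bavg A hA, barBdry_bcons_zero, avgMap_bcons, avgMap_zero]
  | succ k ih =>
    intro z
    refine lin_ext (f := (barBdry (k + 2)).comp (avgPrism A (k + 2)) + (avgPrism A (k + 1)).comp (barBdry (k + 1)))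
      (g := LinearMap.id + avgMap A (k + 2)) (fun t => ?_) z
    simp only [LinearMap.comp_apply, LinearMap.add_apply, LinearMap.id_apply]
    rw [← Fin.cons_self_tail t, ← bcons_single]
    generalize t 0 = a
    generalize (Finsupp.single (Fin.tail t) (1 : ZMod 2)) = x
    rw [avgPrism_bcons, barBdry_bavg A hA, map_add (barBdry (k + 1)), barBdry_bcons,
      map_add (avgPrism A (k + 1)), avgPrism_bcons, avgMap_bcons]
    have h1 : barBdry (k + 1) (avgPrism A (k + 1) x)
        = x + avgMap A (k + 1) x + avgPrism A k (barBdry k x) := by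
      rw [← ih x]; simp [add_assoc, two]
    rw [h1]
    simp only [map_add, add_assoc]
    generalize bcons a (k + 1) x = X
    generalize avgPrism A (k + 1) x = P
    generalize bavg A a (k + 1) x = C
    generalize bavg A a (k + 1) (bcons a k (barBdry k x)) = B
    generalize bavg A a (k + 1) (avgMap A (k + 1) x) = D
    generalize bavg A a (k + 1) (avgPrism A k (barBdry k x)) = E
    have h2 : X + (P + (C + (B + (C + (D + (E + (P + (B + E))))))))
        = X + D + ((B + B) + (C + C) + (P + P) + (E + E)) := by abel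
    refine Eq.trans ?_ (h2.trans (by simp [two]))
    abel

lemma bavg_tmap (g x : G) {k : ℕ} (w : BarChain G k) :
    bavg A (g * x) k (tmap (g * ·) k w) = tmap (g * ·) (k + 1) (bavg A x k w) := by
  simp [bavg_apply, map_sum, tmap_bcons, mul_assoc]

lemma avgPrism_tmap (g : G) : ∀ {k : ℕ} (w : BarChain G k),
    avgPrism A k (tmap (g * ·) k w) = tmap (g * ·) (k + 1) (avgPrism A k w) := by
  intro k
  induction k with
  | zero => intro w; simp [avgPrism_zero]
  | succ k ih =>
    intro w
    rw [← LinearMap.comp_apply, ← LinearMap.comp_apply]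
    refine lin_ext (fun t => ?_) w
    rw [LinearMap.comp_apply, LinearMap.comp_apply, ← Fin.cons_self_tail t, ← bcons_single, tmap_bcons,
      avgPrism_bcons, avgPrism_bcons, ih, ← tmap_bcons (g * ·), ← map_add, bavg_tmap]

lemma avgS_congr : ∀ {k : ℕ} (t u : Fin k → G), (∀ i, (t i)⁻¹ * u i ∈ A) → avgS A k t = avgS A k u
  | 0, t, u, _ => by rw [Subsingleton.elim t u]
  | k + 1, t, u, h => by
    rw [avgS, avgS, avgS_congr (Fin.tail t) (Fin.tail u) (fun i => h i.succ)]
    simp only [bavg_apply]
    refine Fintype.sum_equiv (Equiv.mulLeft (⟨(t 0)⁻¹ * u 0, h 0⟩⁻¹ : A)) _ _ (fun a => ?_)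
    simp [mul_assoc]

lemma avg_homotopic (hA : Odd (Nat.card A)) {q : ℕ} {w : BarChain G (q + 1)}
    (hw : barBdry q w ∈ coinvKer G q) :
    w + avgMap A (q + 1) w + barBdry (q + 1) (avgPrism A (q + 1) w) ∈ coinvKer G (q + 1) := by
  rw [← avgPrism_spec A hA w, cancel3]
  have hle : coinvKer G q ≤ (coinvKer G (q + 1)).comap (avgPrism A q) := by
    refine Submodule.span_le.2 ?_
    rintro _ ⟨⟨g, t⟩, rfl⟩
    show avgPrism A q _ ∈ coinvKer G (q + 1)
    rw [map_add, show Finsupp.single (fun j => g * t j) (1 : ZMod 2) = tmap (g * ·) q (Finsupp.single t 1) by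
      rw [tmap_single], avgPrism_tmap]
    exact lmul_mem_coinvKer g _
  exact hle hw

end average

/-- Two homomorphisms whose pointwise quotient lies in a locally finite set of odd order induce the
same map. -/
theorem homEq_of_locFinite (f g : G →* H) (q : ℕ)
    (h : ∀ E : Finset G, ∃ A : Subgroup H, Finite A ∧ Odd (Nat.card A) ∧ ∀ x ∈ E, (f x)⁻¹ * g x ∈ A) :
    HomEq f g q := fun z hz => by
  classical
  obtain ⟨A, hfin, hodd, hA⟩ := h (z.support.biUnion fun t => Finset.univ.image t)
  have : Fintype A := Fintype.ofFinite A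
  refine ⟨avgPrism A (q + 1) (barMap f z) + avgPrism A (q + 1) (barMap g z), ?_⟩
  have he : avgMap A (q + 1) (barMap f z) = avgMap A (q + 1) (barMap g z) := by
    rw [← Finsupp.sum_single z, map_finsuppSum, map_finsuppSum, map_finsuppSum, map_finsuppSum]
    refine Finsupp.sum_congr fun t ht => ?_
    rw [← Finsupp.smul_single_one, map_smul, map_smul, map_smul, map_smul, barMap_single, barMap_single,
      avgMap_single, avgMap_single, avgS_congr A _ _ (fun i => hA (t i)
        (Finset.mem_biUnion.2 ⟨t, ht, Finset.mem_image_of_mem _ (Finset.mem_univ i)⟩))]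
  have h1 := avg_homotopic A hodd (cycle_barMap f hz)
  have h2 := avg_homotopic A hodd (cycle_barMap g hz)
  have := Submodule.add_mem _ h1 h2
  rw [he, show barMap f z + avgMap A (q + 1) (barMap g z) + barBdry (q + 1) (avgPrism A (q + 1) (barMap f z))
      + (barMap g z + avgMap A (q + 1) (barMap g z) + barBdry (q + 1) (avgPrism A (q + 1) (barMap g z)))
    = barMap f z + barMap g z + (barBdry (q + 1) (avgPrism A (q + 1) (barMap f z))
      + barBdry (q + 1) (avgPrism A (q + 1) (barMap g z)))
      + (avgMap A (q + 1) (barMap g z) + avgMap A (q + 1) (barMap g z)) by abel, two, add_zero,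
    ← map_add] at this
  exact this

/-- A finitely generated abelian group of odd exponent is finite of odd order. -/
lemma exists_finite_odd_of_abelian {p : ℕ} (hp : Odd p) (S : Finset G)
    (hc : ∀ a ∈ S, ∀ b ∈ S, a * b = b * a) (hpow : ∀ a ∈ S, a ^ p = 1) :
    ∃ A : Subgroup G, Finite A ∧ Odd (Nat.card A) ∧ ∀ a ∈ S, a ∈ A := by
  classical
  set A := Subgroup.closure (S : Set G) with hA
  have hcomm : IsMulCommutative A := Subgroup.isMulCommutative_closure (fun a ha b hb => hc a ha b hb)
  let C : CommGroup A :=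
    { (inferInstance : Group A) with mul_comm := fun a b => hcomm.is_comm.comm a b }
  have hexp : ∀ a : A, a ^ p = 1 := by
    rintro ⟨a, ha⟩
    apply Subtype.ext
    simp only [SubmonoidClass.coe_pow, OneMemClass.coe_one]
    induction ha using Subgroup.closure_induction with
    | mem x hx => exact hpow x hx
    | one => exact one_pow p
    | mul x y hx hy h1 h2 =>
      have hxy : Commute x y := congrArg Subtype.val (hcomm.is_comm.comm ⟨x, hx⟩ ⟨y, hy⟩)
      rw [hxy.mul_pow, h1, h2, one_mul]
    | inv x _ h1 => rw [inv_pow, h1, inv_one]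
  have hfg : Group.FG A := (Group.fg_iff_subgroup_fg A).2 ⟨S, rfl⟩
  have hfin : Finite A := @CommGroup.finite_of_fg_isMulTorsion A C hfg
    (fun a => isOfFinOrder_iff_pow_eq_one.2 ⟨p, hp.pos, hexp a⟩)
  refine ⟨A, hfin, ?_, fun a ha => Subgroup.subset_closure ha⟩
  have : Fintype A := Fintype.ofFinite A
  rw [Nat.card_eq_fintype_card, ← Nat.not_even_iff_odd, even_iff_two_dvd]
  intro h2
  obtain ⟨a, ha⟩ := exists_prime_orderOf_dvd_card 2 h2
  have := orderOf_dvd_of_pow_eq_one (hexp a)
  rw [ha] at this
  exact Nat.not_even_iff_odd.2 hp (even_iff_two_dvd.2 this)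

/-- Homomorphisms with the same projection induce the same map if every finite subset of the
kernel of the projection lies in a finite subgroup of odd order. -/
theorem homEq_of_proj {P K : Type*} [Group P] [Group K] (p : P →* K) (f g : G →* P)
    (hfg : p.comp f = p.comp g) (q : ℕ)
    (hker : ∀ S : Finset P, (∀ a ∈ S, p a = 1) →
      ∃ A : Subgroup P, Finite A ∧ Odd (Nat.card A) ∧ ∀ a ∈ S, a ∈ A) :
    HomEq f g q := by
  classical
  refine homEq_of_locFinite f g q fun E => ?_
  have h1 : ∀ x : G, p (f x) = p (g x) := fun x => DFunLike.congr_fun hfg x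
  obtain ⟨A, h2, h3, h4⟩ := hker (E.image fun x => (f x)⁻¹ * g x) (by
    intro a ha
    obtain ⟨x, -, rfl⟩ := Finset.mem_image.1 ha
    simp [h1 x])
  exact ⟨A, h2, h3, fun x hx => h4 _ (Finset.mem_image_of_mem _ hx)⟩

/-- The same for an abelian kernel of odd exponent. -/
theorem homEq_of_proj_abelian {P K : Type*} [Group P] [Group K] (p : P →* K) (f g : G →* P)
    (hfg : p.comp f = p.comp g) (q : ℕ) {e : ℕ} (he : Odd e)
    (hcomm : ∀ a b : P, p a = 1 → p b = 1 → a * b = b * a) (hpow : ∀ a : P, p a = 1 → a ^ e = 1) :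
    HomEq f g q :=
  homEq_of_proj p f g hfg q fun S hS =>
    exists_finite_odd_of_abelian he S (fun a ha b hb => hcomm a b (hS a ha) (hS b hb))
      (fun a ha => hpow a (hS a ha))

/-! ### Transfer -/

/-- Transfer from a group to a normal subgroup of odd index. -/
theorem homZero_of_transfer (K : Subgroup G) [K.Normal] (hidx : Odd K.index) {q : ℕ}
    (hG : HomZero K.subtype q) (f : K →* L)
    (hconj : ∀ x : G, HomEq (f.comp (MulAut.conjNormal x : MulAut K).toMonoidHom) f q) :
    HomZero f q := by
  classical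
  intro z hz
  have hfin : Finite (G ⧸ K) := Subgroup.index_ne_zero_iff_finite.1 (Nat.ne_of_gt hidx.pos)
  have : Finite (Quotient (QuotientGroup.rightRel K)) :=
    Finite.of_equiv _ (QuotientGroup.quotientRightRelEquivQuotientLeftRel K).symm
  let _ : Fintype (Quotient (QuotientGroup.rightRel K)) := Fintype.ofFinite _
  let Nm : ∀ k, BarChain G k →ₗ[ZMod 2] BarChain K k := fun k =>
    ∑ c : Quotient (QuotientGroup.rightRel K), (tmap (retr K) k).comp (tmap (c.out * ·) k)
  have hbN : ∀ {k} (w : BarChain G (k + 1)), barBdry k (Nm (k + 1) w) = Nm k (barBdry k w) := by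
    intro k w
    simp only [Nm, LinearMap.sum_apply, LinearMap.comp_apply, map_sum, barBdry_tmap]
  have hNK : ∀ {k} (w : BarChain G k), w ∈ coinvKer G k → Nm k w ∈ coinvKer K k := by
    intro k w hw
    have hle : coinvKer G k ≤ (coinvKer K k).comap (Nm k) := by
      refine Submodule.span_le.2 ?_
      rintro _ ⟨⟨g, t⟩, rfl⟩
      show Nm k _ ∈ coinvKer K k
      simp only [Nm, LinearMap.sum_apply, LinearMap.comp_apply, map_add, tmap_single]
      let σ : Quotient (QuotientGroup.rightRel K) → Quotient (QuotientGroup.rightRel K) := fun c =>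
        Quotient.mk _ (c.out * g)
      have hinjσ : Function.Injective σ := by
        intro c d hcd
        have h1 := QuotientGroup.rightRel_apply.1 (Quotient.exact hcd)
        rw [mul_inv_rev, mul_assoc, mul_inv_cancel_left] at h1
        rw [← Quotient.out_eq c, ← Quotient.out_eq d]
        exact Quotient.sound (QuotientGroup.rightRel_apply.2 h1)
      rw [← (Fintype.sum_bijective σ (Finite.injective_iff_bijective.1 hinjσ) _ _ fun c => rfl :
        (∑ c, Finsupp.single (fun i => retr K ((σ c).out * t i)) (1 : ZMod 2))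
          = ∑ c, Finsupp.single (fun i => retr K (c.out * t i)) 1), ← Finset.sum_add_distrib]
      refine Submodule.sum_mem _ fun c _ => ?_
      have hk : c.out * g * ((σ c).out)⁻¹ ∈ K := mul_crep_inv_mem K (c.out * g)
      refine Submodule.subset_span ⟨(⟨_, hk⟩, fun i => retr K ((σ c).out * t i)), ?_⟩
      simp only
      congr 2
      funext i
      rw [← retr_mul K _ hk]
      congr 1
      group
    exact hle hw
  obtain ⟨y, hy⟩ := hG z hz
  have h1 := hNK _ hy
  rw [map_add, ← hbN] at h1
  let M : Submodule (ZMod 2) (BarChain L (q + 1)) :=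
    coinvKer L (q + 1) ⊔ LinearMap.range (barBdry (G := L) (q + 1))
  have h2 : barMap f (Nm (q + 1) (barMap K.subtype z)) ∈ M := by
    have h3 := barMap_coinvKer f h1
    rw [map_add, ← barBdry_barMap] at h3
    exact mem_of_add (Submodule.mem_sup_left h3) (Submodule.mem_sup_right ⟨_, rfl⟩)
  have hterm : ∀ c : Quotient (QuotientGroup.rightRel K),
      barMap f (tmap (retr K) (q + 1) (tmap (c.out * ·) (q + 1) (barMap K.subtype z))) + barMap f z ∈ M := by
    intro c
    set x := c.out with hx
    have he : tmap (retr K) (q + 1) (tmap (x * ·) (q + 1) (barMap K.subtype z))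
        = tmap (· * retr K x) (q + 1) (barMap (MulAut.conjNormal x : MulAut K).toMonoidHom z) := by
      rw [barMap, barMap, tmap_tmap, tmap_tmap, tmap_tmap]
      congr 2
      funext k
      have hxk : x * (k : G) = ((MulAut.conjNormal x k : K) : G) * x := by
        rw [MulAut.conjNormal_apply, inv_mul_cancel_right]
      show retr K (x * (k : G)) = MulAut.conjNormal x k * retr K x
      rw [hxk, retr_mul K _ (SetLike.coe_mem _)]
    obtain ⟨y1, hy1⟩ := rmul_homotopic (retr K x)
      (cycle_barMap (MulAut.conjNormal x : MulAut K).toMonoidHom hz)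
    rw [← he] at hy1
    obtain ⟨y2, hy2⟩ := hconj x z hz
    rw [barMap_comp] at hy2
    have hy3 := barMap_coinvKer f hy1
    rw [map_add, map_add, ← barBdry_barMap] at hy3
    have h4 := mem_of_add (Submodule.mem_sup_left (T := LinearMap.range (barBdry (G := L) (q + 1))) hy2)
      (Submodule.mem_sup_right ⟨_, rfl⟩)
    have h5 := mem_of_add (Submodule.mem_sup_left (T := LinearMap.range (barBdry (G := L) (q + 1))) hy3)
      (Submodule.mem_sup_right ⟨_, rfl⟩)
    exact tri (add_comm_mem h5) h4
  have hzM : barMap f z ∈ M := by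
    have h6 := Submodule.sum_mem M fun c (_ : c ∈ (Finset.univ : Finset (Quotient (QuotientGroup.rightRel K)))) => hterm c
    rw [Finset.sum_add_distrib] at h6
    have hcard : ∑ _c : Quotient (QuotientGroup.rightRel K), barMap f z = barMap f z := by
      rw [Finset.sum_const, Finset.card_univ, ← Nat.card_eq_fintype_card,
        Nat.card_congr (QuotientGroup.quotientRightRelEquivQuotientLeftRel K),
        ← Nat.cast_smul_eq_nsmul (ZMod 2)]
      erw [ZMod.natCast_eq_one_iff_odd.2 hidx]
      rw [one_smul]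
    rw [hcard, ← map_sum] at h6
    refine mem_of_add (add_comm_mem h6) ?_
    simpa only [Nm, LinearMap.sum_apply, LinearMap.comp_apply] using h2
  obtain ⟨a, ha, b, ⟨w, rfl⟩, hab⟩ := Submodule.mem_sup.1 hzM
  refine ⟨w, ?_⟩
  rwa [← hab, add_assoc, two, add_zero]

/-! ### Isotropy criterion -/

variable {V W : Type*} [DecidableEq V] [DecidableEq W]

/-- A homomorphism vanishes on homology if it does so on the stabilisers of the vertices of an
acyclic complex with acyclic quotient. -/
theorem homZero_of_stab (f : G →* H) (ρ : G →* Equiv.Perm V) (K : Set (Finset V)) (hK : DownClosed K)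
    (hempty : (∅ : Finset V) ∈ K) (hinv : ∀ g, ∀ s ∈ K, s.image (ρ g) ∈ K) (π : V → W)
    (hpi : ∀ g v, π (ρ g v) = π v) (q : ℕ)
    (hinj : ∀ s ∈ K, s.card ≤ q + 2 → Set.InjOn π s)
    (hlift : ∀ s ∈ K, ∀ t ∈ K, s.card ≤ q + 2 → t.card ≤ q + 2 → s.image π = t.image π →
      ∃ g, s.image (ρ g) = t)
    (hac : ∀ j ≤ q, Acyclic K j) (hquot : Acyclic (Set.image (Finset.image π) K) (q + 1))
    (hstab : ∀ s ∈ K, 2 ≤ s.card → s.card ≤ q → ∀ S : Subgroup G,
      (∀ g, g ∈ S ↔ ∀ v ∈ s, ρ g v = v) → GroupAcyclic S (q + 1 - s.card))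
    (hv : ∀ v, ({v} : Finset V) ∈ K → ∀ S : Subgroup G, (∀ g, g ∈ S ↔ ρ g v = v) →
      HomZero (f.comp S.subtype) q) :
    HomZero f q :=
  mapNull_of_stab f ρ K hK hempty hinv π hpi q hinj hlift hac hquot hstab
    (fun v hvK S hS z hz => hv v hvK S hS z hz)

/-- The absolute isotropy criterion. -/
theorem groupAcyclic_of_stab (ρ : G →* Equiv.Perm V) (K : Set (Finset V)) (hK : DownClosed K)
    (hempty : (∅ : Finset V) ∈ K) (hinv : ∀ g, ∀ s ∈ K, s.image (ρ g) ∈ K) (π : V → W)
    (hpi : ∀ g v, π (ρ g v) = π v) (q : ℕ)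
    (hinj : ∀ s ∈ K, s.card ≤ q + 2 → Set.InjOn π s)
    (hlift : ∀ s ∈ K, ∀ t ∈ K, s.card ≤ q + 2 → t.card ≤ q + 2 → s.image π = t.image π →
      ∃ g, s.image (ρ g) = t)
    (hac : ∀ j ≤ q, Acyclic K j) (hquot : Acyclic (Set.image (Finset.image π) K) (q + 1))
    (hstab : ∀ s ∈ K, 2 ≤ s.card → s.card ≤ q → ∀ S : Subgroup G,
      (∀ g, g ∈ S ↔ ∀ v ∈ s, ρ g v = v) → GroupAcyclic S (q + 1 - s.card))
    (hv : ∀ v, ({v} : Finset V) ∈ K → ∀ S : Subgroup G, (∀ g, g ∈ S ↔ ρ g v = v) →
      HomZero S.subtype q) :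
    GroupAcyclic G q :=
  (groupAcyclic_iff_homZero q).2 (homZero_of_stab (MonoidHom.id G) ρ K hK hempty hinv π hpi q hinj hlift
    hac hquot hstab (fun v hvK S hS => by rw [MonoidHom.id_comp]; exact hv v hvK S hS))

end Vale.Agent.P067
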