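import Vale.Agent.P067.BarDouble

/-!
Orbit decomposition of the double complex and the two zigzags.
-/

set_option linter.unusedSectionVars false

namespace Vale.Agent.P067.BarAction

open Finset

variable {G : Type*} [Group G] {V W : Type*} [DecidableEq V] [DecidableEq W]

/-- Pointwise stabiliser of a simplex. -/
def fixer (ρ : G →* Equiv.Perm V) (σ : Finset V) : Subgroup G where
  carrier := {g | ∀ v ∈ σ, ρ g v = v}
  one_mem' := fun v _ => by simp
  mul_mem' := fun {a b} ha hb v hv => by simp [map_mul, hb v hv, ha v hv]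
  inv_mem' := fun {a} ha v hv => by
    rw [map_inv, Equiv.Perm.inv_eq_iff_eq, ha v hv]

lemma mem_fixer {ρ : G →* Equiv.Perm V} {σ : Finset V} {g : G} :
    g ∈ fixer ρ σ ↔ ∀ v ∈ σ, ρ g v = v := Iff.rfl

lemma fixer_image {ρ : G →* Equiv.Perm V} {σ : Finset V} {g : G} (hg : g ∈ fixer ρ σ) :
    σ.image (ρ g) = σ := by
  ext v
  simp only [Finset.mem_image]
  exact ⟨fun ⟨u, hu, h⟩ => by rw [← h, mem_fixer.1 hg u hu]; exact hu,
    fun hv => ⟨v, hv, mem_fixer.1 hg v hv⟩⟩

/-- The hypotheses on the action and the projection. -/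
structure Setup (ρ : G →* Equiv.Perm V) (K : Set (Finset V)) (π : V → W) : Prop where
  down : DownClosed K
  inv : ∀ g, ∀ s ∈ K, s.image (ρ g) ∈ K
  orbit : ∀ g v, π (ρ g v) = π v
  inj : ∀ s ∈ K, Set.InjOn π s
  lift : ∀ s ∈ K, ∀ t ∈ K, s.image π = t.image π → ∃ g, s.image (ρ g) = t

variable (ρ : G →* Equiv.Perm V) (K : Set (Finset V)) (π : V → W)

open Classical in
/-- A chosen simplex over a simplex of the quotient. -/
noncomputable def orep (Q : Finset W) : Finset V :=
  if h : ∃ s ∈ K, s.image π = Q then h.choose else ∅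

open Classical in
/-- A group element moving the chosen simplex of the orbit to the given one. -/
noncomputable def omove (s : Finset V) : G :=
  if h : ∃ g, (orep K π (s.image π)).image (ρ g) = s then h.choose else 1

open Classical in
/-- The component of a chain at one orbit, moved to the chosen simplex. -/
noncomputable def comp (σ : Finset V) (p : ℕ) : DChain V G p →ₗ[ZMod 2] BarChain G p :=
  Finsupp.linearCombination (ZMod 2) (fun x =>
    if x.1 ∈ K ∧ orep K π (x.1.image π) = σ then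
      tmap ((omove ρ K π x.1)⁻¹ * ·) p (Finsupp.single x.2 1)
    else 0)

variable {ρ K π}

lemma orep_spec {Q : Finset W} (h : ∃ s ∈ K, s.image π = Q) :
    orep K π Q ∈ K ∧ (orep K π Q).image π = Q := by
  rw [orep, dif_pos h]
  exact h.choose_spec

lemma Setup.orep_card (hs : Setup ρ K π) {Q : Finset W} (h : ∃ s ∈ K, s.image π = Q) :
    (orep K π Q).card = Q.card := by
  obtain ⟨h1, h2⟩ := orep_spec h
  conv_rhs => rw [← h2]
  exact (Finset.card_image_of_injOn (hs.inj _ h1)).symm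

lemma Setup.orep_card' (hs : Setup ρ K π) {s : Finset V} (h : s ∈ K) :
    (orep K π (s.image π)).card = s.card := by
  rw [hs.orep_card ⟨s, h, rfl⟩, Finset.card_image_of_injOn (hs.inj _ h)]

lemma Setup.omove_spec (hs : Setup ρ K π) {s : Finset V} (h : s ∈ K) :
    (orep K π (s.image π)).image (ρ (omove ρ K π s)) = s := by
  obtain ⟨h1, h2⟩ := orep_spec (K := K) (π := π) ⟨s, h, rfl⟩
  have he : ∃ g, (orep K π (s.image π)).image (ρ g) = s := hs.lift _ h1 _ h h2
  rw [omove, dif_pos he]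
  exact he.choose_spec

lemma Setup.fixer_of_image (hs : Setup ρ K π) {σ : Finset V} (h : σ ∈ K) {g : G}
    (hg : σ.image (ρ g) = σ) : g ∈ fixer ρ σ := by
  refine mem_fixer.2 fun v hv => hs.inj σ h ?_ hv (hs.orbit g v)
  rw [Finset.mem_coe, ← hg]
  exact Finset.mem_image_of_mem _ hv

lemma Setup.inv_iff (hs : Setup ρ K π) (g : G) (s : Finset V) : s.image (ρ g) ∈ K ↔ s ∈ K := by
  refine ⟨fun h => ?_, hs.inv g s⟩
  have := hs.inv g⁻¹ _ h
  rwa [Finset.image_image, show (ρ g⁻¹ : V → V) ∘ ρ g = id from by funext v; simp [map_inv],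
    Finset.image_id] at this

lemma Setup.image_act (hs : Setup ρ K π) (g : G) (s : Finset V) :
    (s.image (ρ g)).image π = s.image π := by
  rw [Finset.image_image]
  exact Finset.image_congr fun v _ => hs.orbit g v

lemma comp_single (σ : Finset V) {p : ℕ} (x : Finset V × (Fin p → G))
    [Decidable (x.1 ∈ K ∧ orep K π (x.1.image π) = σ)] :
    comp ρ K π σ p (Finsupp.single x 1) = if x.1 ∈ K ∧ orep K π (x.1.image π) = σ then
      tmap ((omove ρ K π x.1)⁻¹ * ·) p (Finsupp.single x.2 1) else 0 := by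
  simp only [comp, Finsupp.linearCombination_single, one_smul]
  congr

lemma comp_dG (σ : Finset V) {p : ℕ} (c : DChain V G (p + 1)) :
    comp ρ K π σ p (dG p c) = barBdry p (comp ρ K π σ (p + 1) c) := by
  classical
  rw [← LinearMap.comp_apply, ← LinearMap.comp_apply]
  refine lin_ext (fun x => ?_) c
  simp only [LinearMap.comp_apply, dG_single, map_sum, comp_single]
  by_cases hx : x.1 ∈ K ∧ orep K π (x.1.image π) = σ
  · simp only [if_pos hx]
    rw [← map_sum, barBdry_tmap, barBdry_single]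
  · simp [if_neg hx]

lemma Setup.comp_coinvD (hs : Setup ρ K π) (σ : Finset V) {p : ℕ} {c : DChain V G p}
    (hc : c ∈ coinvD ρ p) : comp ρ K π σ p c ∈ coinvSub (fixer ρ σ) p := by
  classical
  refine coinvD_le ρ (comp ρ K π σ p) (fun g x => ?_) hc
  rw [actC_single, comp_single, comp_single]
  simp only [actX, hs.inv_iff, hs.image_act]
  by_cases hx : x.1 ∈ K ∧ orep K π (x.1.image π) = σ
  · rw [if_pos hx, if_pos hx]
    set a := (omove ρ K π (x.1.image (ρ g)))⁻¹ * g * omove ρ K π x.1 with ha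
    have hσ : σ ∈ K := hx.2 ▸ (orep_spec ⟨x.1, hx.1, rfl⟩).1
    have h1 := hs.omove_spec hx.1
    have h2 := hs.omove_spec (hs.inv g _ hx.1)
    rw [hx.2] at h1
    rw [hs.image_act, hx.2] at h2
    have hmem : a ∈ fixer ρ σ := by
      refine hs.fixer_of_image hσ ?_
      have e : ∀ b b' : G, ∀ s : Finset V, s.image (ρ (b * b')) = (s.image (ρ b')).image (ρ b) :=
        fun b b' s => by rw [map_mul, Equiv.Perm.coe_mul, Finset.image_image]
      rw [ha, e, h1, e]
      conv_lhs => arg 2; rw [← h2]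
      rw [← e, inv_mul_cancel, map_one]
      simp
    have hh : tmap ((omove ρ K π (x.1.image (ρ g)))⁻¹ * ·) p (Finsupp.single (fun i => g * x.2 i) 1)
        = tmap (a * ·) p (tmap ((omove ρ K π x.1)⁻¹ * ·) p (Finsupp.single x.2 1)) := by
      simp [tmap_single, ha, mul_assoc]
    rw [hh]
    exact lmul_mem_coinvSub _ hmem _
  · simp [if_neg hx]

lemma Setup.decomp (hs : Setup ρ K π) {j p : ℕ} {c : DChain V G p} (hc : c ∈ Dsub K j p) :
    ∃ T : Finset (Finset V), (∀ σ ∈ T, σ ∈ K ∧ σ.card = j) ∧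
      c + ∑ σ ∈ T, emb2 σ p (comp ρ K π σ p c) ∈ coinvD ρ p := by
  classical
  have hsupp : ∀ x ∈ c.support, x.1 ∈ K ∧ x.1.card = j := fun x hx =>
    (Finsupp.mem_supported _ _).1 hc hx
  refine ⟨c.support.image (fun x => orep K π (x.1.image π)), ?_, ?_⟩
  · intro σ hσ
    obtain ⟨x, hx, rfl⟩ := Finset.mem_image.1 hσ
    exact ⟨(orep_spec ⟨x.1, (hsupp x hx).1, rfl⟩).1, (hs.orep_card' (hsupp x hx).1).trans (hsupp x hx).2⟩
  set T := c.support.image (fun x => orep K π (x.1.image π))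
  have key : ∀ x ∈ c.support, (Finsupp.single x 1 : DChain V G p)
      + ∑ σ ∈ T, emb2 σ p (comp ρ K π σ p (Finsupp.single x 1)) ∈ coinvD ρ p := by
    intro x hx
    obtain ⟨hxK, -⟩ := hsupp x hx
    rw [Finset.sum_eq_single (orep K π (x.1.image π))]
    · rw [comp_single, if_pos ⟨hxK, rfl⟩, tmap_single, emb2_single]
      refine Submodule.subset_span ⟨(omove ρ K π x.1,
        (orep K π (x.1.image π), fun i => (omove ρ K π x.1)⁻¹ * x.2 i)), ?_⟩
      simp [actX, hs.omove_spec hxK]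
    · intro σ _ hne
      rw [comp_single, if_neg (fun h => hne h.2.symm), map_zero]
    · exact fun h => absurd (Finset.mem_image_of_mem _ hx) h
  have hc2 : c + ∑ σ ∈ T, emb2 σ p (comp ρ K π σ p c)
      = ∑ x ∈ c.support, c x • ((Finsupp.single x 1 : DChain V G p)
        + ∑ σ ∈ T, emb2 σ p (comp ρ K π σ p (Finsupp.single x 1))) := by
    have hexp : c = ∑ x ∈ c.support, c x • (Finsupp.single x 1 : DChain V G p) := by
      conv_lhs => rw [← Finsupp.sum_single c]
      simp [Finsupp.sum]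
    simp only [smul_add, Finset.smul_sum, Finset.sum_add_distrib]
    rw [← hexp, Finset.sum_comm]
    congr 1
    refine Finset.sum_congr rfl fun σ _ => ?_
    conv_lhs => rw [hexp]
    simp only [map_sum, map_smul]
  rw [hc2]
  exact Submodule.sum_mem _ fun x hx => Submodule.smul_mem _ _ (key x hx)

/-- Column exactness from the stabilisers. -/
theorem Setup.exact_col (hs : Setup ρ K π) {j r : ℕ}
    (hst : ∀ σ ∈ K, σ.card = j → GroupAcyclic (fixer ρ σ) r) {c : DChain V G (r + 1)}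
    (hc : c ∈ Dsub K j (r + 1)) (hd : dG r c ∈ coinvD ρ r) :
    ∃ u ∈ Dsub K j (r + 2), c + dG (r + 1) u ∈ coinvD ρ (r + 1) := by
  classical
  obtain ⟨T, hT, hTc⟩ := hs.decomp hc
  have hy : ∀ σ ∈ T, ∃ y : BarChain G (r + 2),
      comp ρ K π σ (r + 1) c + barBdry (r + 1) y ∈ coinvSub (fixer ρ σ) (r + 1) := fun σ hσ =>
    column_exact _ (hst σ (hT σ hσ).1 (hT σ hσ).2) _ ((by rw [← comp_dG]; exact hs.comp_coinvD σ hd))
  choose! y hy using hy
  refine ⟨∑ σ ∈ T, emb2 σ (r + 2) (y σ),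
    Submodule.sum_mem _ fun σ hσ => emb2_mem (hT σ hσ).1 (hT σ hσ).2 _, ?_⟩
  refine tri hTc ?_
  rw [map_sum, ← Finset.sum_add_distrib]
  refine Submodule.sum_mem _ fun σ hσ => ?_
  rw [dG_emb2, ← map_add]
  exact emb2_coinvSub ρ (fun a ha => fixer_image ha) (hy σ hσ)

lemma Setup.proj_ker (hs : Setup ρ K π) {j : ℕ} {c : DChain V G 0} (hc : c ∈ Dsub K j 0)
    (h0 : proj G π c = 0) : c ∈ coinvD ρ 0 := by
  let back : Chain W →ₗ[ZMod 2] DChain V G 0 :=
    Finsupp.lmapDomain (ZMod 2) (ZMod 2) (fun Q => (orep K π Q, Fin.elim0))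
  have h := Dsub_map (LinearMap.id + back.comp (proj G π)) (N := coinvD ρ 0) (fun x h1 _ => ?_) hc
  · simpa [h0] using h
  · simp only [LinearMap.add_apply, LinearMap.id_apply, LinearMap.comp_apply, proj_single, back,
      Finsupp.lmapDomain_apply, Finsupp.mapDomain_single]
    refine Submodule.subset_span ⟨(omove ρ K π x.1, (orep K π (x.1.image π), Fin.elim0)), ?_⟩
    have : x = actX ρ (omove ρ K π x.1) (orep K π (x.1.image π), Fin.elim0) :=
      Prod.ext (hs.omove_spec h1).symm (funext fun i => i.elim0)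
    dsimp only
    rw [← this]

/-- Every quotient chain is the image of a chain in the first bar degree. -/
lemma Setup.lift_chain (hs : Setup ρ K π) {j : ℕ} {z : Chain W}
    (hz : z ∈ chainsOf (Set.image (Finset.image π) K) j) :
    ∃ e ∈ Dsub (G := G) K j 1, proj G π (dG 0 e) = z := by
  let L : Chain W →ₗ[ZMod 2] DChain V G 1 :=
    Finsupp.lmapDomain (ZMod 2) (ZMod 2) (fun Q => (orep K π Q, fun _ => 1))
  have hL : ∀ Q, L (Finsupp.single Q 1) = Finsupp.single (orep K π Q, fun _ => (1 : G)) 1 := fun Q => by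
    simp [L, Finsupp.mapDomain_single]
  rw [chainsOf, Finsupp.supported_eq_span_single] at hz
  have hle : Submodule.span (ZMod 2) ((fun Q => Finsupp.single Q (1 : ZMod 2)) ''
      {Q | Q ∈ Set.image (Finset.image π) K ∧ Q.card = j}) ≤
      (Dsub (G := G) K j 1).comap L ⊓ LinearMap.ker ((proj G π).comp ((dG 0).comp L) + LinearMap.id) := by
    refine Submodule.span_le.2 ?_
    rintro _ ⟨Q, ⟨⟨s, hs', hsQ⟩, hQ⟩, rfl⟩
    obtain ⟨h1, h2⟩ := orep_spec (K := K) (π := π) (Q := Q) ⟨s, hs', hsQ⟩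
    refine ⟨?_, ?_⟩
    · show L _ ∈ Dsub K j 1
      rw [hL]
      exact single_mem_Dsub h1 ((hs.orep_card ⟨s, hs', hsQ⟩).trans hQ)
    · simp only [SetLike.mem_coe, LinearMap.mem_ker, LinearMap.add_apply, LinearMap.comp_apply,
        LinearMap.id_apply, hL, dG_single, proj_single, h2, Fin.sum_univ_succ,
        Finset.univ_eq_empty, Finset.sum_empty, add_zero, two]
  exact ⟨L z, (hle hz).1, eq_of_add (LinearMap.mem_ker.1 (hle hz).2)⟩

/-- The descending zigzag. -/
theorem Setup.zigzag_down (hs : Setup ρ K π) {q : ℕ} (hac : ∀ j ≤ q, Acyclic K j)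
    (hquot : Acyclic (Set.image (Finset.image π) K) (q + 1))
    (hst : ∀ σ ∈ K, 2 ≤ σ.card → σ.card ≤ q + 1 → GroupAcyclic (fixer ρ σ) (q + 1 - σ.card)) :
    ∀ r j, j + r = q + 1 → 1 ≤ j → ∀ c ∈ Dsub K j (r + 1), dK r (dG r c) ∈ coinvD ρ r →
      ∃ c' ∈ Dsub K j (r + 1), dK (r + 1) c' + dK (r + 1) c ∈ coinvD ρ (r + 1) ∧
        dG r c' ∈ coinvD ρ r := by
  intro r
  induction r with
  | zero =>
    intro j hj _ c hc hd
    have hjq : j = q + 1 := by omega
    subst hjq
    have hb : bdry (proj G π (dG 0 c)) = 0 := by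
      rw [← proj_dK (fun s h _ => hs.inj s h) (dG_mem hc)]
      exact proj_coinvD ρ hs.orbit hd
    have hmem : proj G π (dG 0 c) ∈ chainsOf (Set.image (Finset.image π) K) (q + 1) := by
      refine Dsub_map (proj G π) (fun x h1 h2 => ?_) (dG_mem hc)
      rw [proj_single]
      exact single_mem_chainsOf (K := Set.image (Finset.image π) K) ⟨x.1, h1, rfl⟩ (by rw [Finset.card_image_of_injOn (hs.inj _ h1), h2]) 1
    obtain ⟨y, hy, hby⟩ := hquot _ hmem hb
    obtain ⟨e, he, hpe⟩ := hs.lift_chain (G := G) hy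
    refine ⟨c + dK 1 e, Submodule.add_mem _ hc (dK_mem hs.down he), ?_, ?_⟩
    · rw [map_add, dK_dK, add_zero, two]
      exact Submodule.zero_mem _
    · refine hs.proj_ker (j := q + 1) (dG_mem (Submodule.add_mem _ hc (dK_mem hs.down he))) ?_
      rw [map_add, ← dK_dG, map_add, proj_dK (fun s h _ => hs.inj s h) (dG_mem he), hpe, hby, two]
  | succ r ih =>
    intro j hj hj1 c hc hd
    obtain ⟨c2, hc2, h2⟩ := exact_row ρ hs.inv (hac j (by omega)) (dG_mem hc) hd
    have h3 : dK r (dG r c2) ∈ coinvD ρ r := by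
      rw [dK_dG]
      have := dG_coinvD ρ h2
      rwa [map_add, dG_dG, zero_add] at this
    obtain ⟨c2', hc2', h4, h5⟩ := ih (j + 1) (by omega) (by omega) c2 hc2 h3
    obtain ⟨u, hu, hu'⟩ := hs.exact_col (fun σ hσ hcard => by
      have := hst σ hσ (by omega) (by omega)
      rwa [show q + 1 - σ.card = r by omega] at this) hc2' h5
    refine ⟨c + dK (r + 2) u, Submodule.add_mem _ hc (dK_mem hs.down hu), ?_, ?_⟩
    · rw [map_add, dK_dK, add_zero, two]
      exact Submodule.zero_mem _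
    · rw [map_add, ← dK_dG]
      have h6 := dK_coinvD ρ hu'
      rw [map_add] at h6
      exact tri h2 (tri (add_comm_mem h4) h6)

/-- A cycle of the group is, up to boundaries, a sum of cycles of vertex stabilisers. -/
theorem Setup.zigzag (hs : Setup ρ K π) (hempty : ∅ ∈ K) {q : ℕ} (hac : ∀ j ≤ q, Acyclic K j)
    (hquot : Acyclic (Set.image (Finset.image π) K) (q + 1))
    (hst : ∀ σ ∈ K, 2 ≤ σ.card → σ.card ≤ q + 1 → GroupAcyclic (fixer ρ σ) (q + 1 - σ.card))
    {z : BarChain G (q + 1)} (hz : barBdry q z ∈ coinvKer G q) :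
    ∃ (T : Finset (Finset V)) (w : Finset V → BarChain G (q + 1)),
      (∀ σ ∈ T, σ ∈ K ∧ σ.card = 1 ∧ barBdry q (w σ) ∈ coinvSub (fixer ρ σ) q) ∧
      z + ∑ σ ∈ T, w σ ∈ coinvKer G (q + 1) := by
  classical
  have hc0 : emb2 (∅ : Finset V) (q + 1) z ∈ Dsub K 0 (q + 1) := emb2_mem hempty Finset.card_empty z
  obtain ⟨c1, hc1, h1⟩ := exact_row ρ hs.inv (hac 0 (Nat.zero_le _)) hc0
    (by rw [dK_zero hc0]; exact Submodule.zero_mem _)
  have h2 : dK q (dG q c1) ∈ coinvD ρ q := by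
    rw [dK_dG]
    have h := dG_coinvD ρ h1
    rw [map_add, dG_emb2, add_comm] at h
    exact mem_of_add h (emb2_empty_coinvKer ρ hz)
  obtain ⟨c, hc, h3, h4⟩ := hs.zigzag_down hac hquot hst q 1 (by omega) le_rfl c1 hc1 h2
  have h5 := forget_coinvD ρ (tri h1 (add_comm_mem h3))
  obtain ⟨T, hT, hTc⟩ := hs.decomp hc
  refine ⟨T, fun σ => comp ρ K π σ (q + 1) c,
    fun σ hσ => ⟨(hT σ hσ).1, (hT σ hσ).2, by dsimp only; rw [← comp_dG]; exact hs.comp_coinvD σ h4⟩, ?_⟩
  rw [map_add] at h5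
  have hf : ∀ b : BarChain G (q + 1), forget V G (q + 1) (emb2 (∅ : Finset V) (q + 1) b) = b := fun b => by
    refine lin_ext (f := (forget V G (q + 1)).comp (emb2 (∅ : Finset V) (q + 1))) (g := LinearMap.id)
      (fun t => ?_) b
    simp [emb2_single, forget_single]
  rw [hf] at h5
  refine tri h5 ?_
  have h6 := forget_coinvD ρ (dK_coinvD ρ hTc)
  rw [map_add, map_add, map_sum, map_sum] at h6
  rwa [Finset.sum_congr rfl fun σ hσ => ?_] at h6
  obtain ⟨v, rfl⟩ := Finset.card_eq_one.1 (hT σ hσ).2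
  refine lin_ext (f := (forget V G (q + 1)).comp ((dK (q + 1)).comp (emb2 {v} (q + 1))))
    (g := LinearMap.id) (fun t => ?_) _
  simp [emb2_single, dK_single, forget_single]

/-- The ascending zigzag for a free action. -/
theorem Setup.zigzag_up (hs : Setup ρ K π) {k : ℕ} (hempty : ∅ ∈ K) (hac : ∀ j ≤ k, Acyclic K j)
    (hgrp : GroupAcyclic G (k - 1))
    (hst : ∀ σ ∈ K, σ.Nonempty → ∀ r, GroupAcyclic (fixer ρ σ) r) :
    ∀ j r, j + 1 + r = k → ∀ c ∈ Dsub K (j + 1) (r + 1), dG r (dK (r + 1) c) ∈ coinvD ρ r →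
      ∃ c' ∈ Dsub K (j + 1) (r + 1), dG r c' + dG r c ∈ coinvD ρ r ∧
        dK (r + 1) c' ∈ coinvD ρ (r + 1) := by
  intro j
  induction j with
  | zero =>
    intro r hr c hc hd
    have hd0 := dK_mem hs.down hc
    have hcyc : barBdry r (forget V G (r + 1) (dK (r + 1) c)) ∈ coinvKer G r := by
      rw [← forget_dG]; exact forget_coinvD ρ hd
    rw [show k - 1 = r by omega] at hgrp
    obtain ⟨y, hy⟩ := hgrp _ hcyc
    have hy0 : emb2 (∅ : Finset V) (r + 2) y ∈ Dsub K 0 (r + 2) := emb2_mem hempty Finset.card_empty y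
    obtain ⟨e, he, he'⟩ := exact_row ρ hs.inv (hac 0 (Nat.zero_le _)) hy0
      (by rw [dK_zero hy0]; exact Submodule.zero_mem _)
    refine ⟨c + dG (r + 1) e, Submodule.add_mem _ hc (dG_mem he), ?_, ?_⟩
    · rw [map_add, dG_dG, add_zero, two]
      exact Submodule.zero_mem _
    · rw [map_add, dK_dG]
      have h1 := emb2_empty_coinvKer (V := V) ρ hy
      rw [map_add, emb2_forget hd0] at h1
      have h2 := dG_coinvD ρ he'
      rw [map_add, dG_emb2] at h2
      exact tri h1 h2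
  | succ j ih =>
    intro r hr c hc hd
    obtain ⟨c2, hc2, h2⟩ := hs.exact_col (fun σ hσ hcard => hst σ hσ (Finset.card_pos.1 (by omega)) r)
      (dK_mem hs.down hc) hd
    have h3 : dG (r + 1) (dK (r + 2) c2) ∈ coinvD ρ (r + 1) := by
      rw [← dK_dG]
      have := dK_coinvD ρ h2
      rwa [map_add, dK_dK, zero_add] at this
    obtain ⟨c2', hc2', h4, h5⟩ := ih (r + 1) (by omega) c2 hc2 h3
    obtain ⟨e, he, he'⟩ := exact_row ρ hs.inv (hac (j + 1) (by omega)) hc2' h5
    refine ⟨c + dG (r + 1) e, Submodule.add_mem _ hc (dG_mem he), ?_, ?_⟩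
    · rw [map_add, dG_dG, add_zero, two]
      exact Submodule.zero_mem _
    · rw [map_add, dK_dG]
      have h6 := dG_coinvD ρ he'
      rw [map_add] at h6
      exact tri h2 (tri (add_comm_mem h4) h6)

/-- A free action with acyclic group gives an acyclic quotient. -/
theorem Setup.acyclic_quotient (hs : Setup ρ K π) {k : ℕ} (hk : 1 ≤ k)
    (hac : ∀ j ≤ k, Acyclic K j) (hgrp : GroupAcyclic G (k - 1))
    (hst : ∀ σ ∈ K, σ.Nonempty → ∀ r, GroupAcyclic (fixer ρ σ) r) :
    Acyclic (Set.image (Finset.image π) K) k := by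
  intro z hz hbz
  by_cases hempty : (∅ : Finset V) ∈ K
  swap
  · refine ⟨0, Submodule.zero_mem _, ?_⟩
    rw [map_zero]
    ext Q
    by_contra hne
    obtain ⟨⟨s, h, -⟩, -⟩ := mem_chainsOf.1 hz Q (Ne.symm hne)
    exact hempty (hs.down s h ∅ (Finset.empty_subset _))
  obtain ⟨k', rfl⟩ : ∃ k', k = k' + 1 := ⟨k - 1, by omega⟩
  obtain ⟨c, hc, hpc⟩ := hs.lift_chain (G := G) hz
  have hd : dG 0 (dK 1 c) ∈ coinvD ρ 0 := by
    refine hs.proj_ker (j := k') (dG_mem (dK_mem hs.down hc)) ?_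
    rw [← dK_dG, proj_dK (fun s h _ => hs.inj s h) (dG_mem hc), hpc, hbz]
  obtain ⟨c', hc', h1, h2⟩ := hs.zigzag_up hempty hac hgrp hst k' 0 rfl c hc hd
  obtain ⟨u, hu, hu'⟩ := exact_row ρ hs.inv (hac (k' + 1) le_rfl) hc' h2
  refine ⟨proj G π (dG 0 u), Dsub_map (proj G π) (fun x h h' => ?_) (dG_mem hu), ?_⟩
  · rw [proj_single]
    exact single_mem_chainsOf (K := Set.image (Finset.image π) K) ⟨x.1, h, rfl⟩ (by rw [Finset.card_image_of_injOn (hs.inj _ h), h']) 1
  · have h3 := proj_coinvD ρ hs.orbit (dG_coinvD ρ hu')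
    have h4 := proj_coinvD ρ hs.orbit h1
    rw [map_add, map_add, ← dK_dG, proj_dK (fun s h _ => hs.inj s h) (dG_mem hu)] at h3
    rw [map_add, hpc] at h4
    rw [← eq_of_add h3, eq_of_add h4]

end Vale.Agent.P067.BarAction
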