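import Vale.Agent.P067.GroupDefs

/-!
Bar chains of a subgroup inside the bar chains of the whole group: explicit cone, prism homotopy
for maps induced by functions, retraction to a subgroup, averaging over finite groups of odd order.
-/

namespace Vale.Agent.P067.BarAction

open Finset

section General

variable {M : Type*} [AddCommGroup M] [Module (ZMod 2) M]

lemma two (x : M) : x + x = 0 := ZModModule.add_self x

/-- Transitivity of congruence modulo a submodule, in characteristic two. -/
lemma tri {S : Submodule (ZMod 2) M} {a b c : M} (h1 : a + b ∈ S) (h2 : b + c ∈ S) :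
    a + c ∈ S := by
  have h := S.add_mem h1 h2
  rw [show a + b + (b + c) = a + c + (b + b) by abel, two, add_zero] at h
  exact h

lemma add_comm_mem {S : Submodule (ZMod 2) M} {a b : M} (h : a + b ∈ S) : b + a ∈ S := by
  rwa [add_comm]

lemma mem_of_add {S : Submodule (ZMod 2) M} {a b : M} (h1 : a + b ∈ S) (h2 : b ∈ S) : a ∈ S := by
  simpa using tri (c := (0 : M)) h1 (by simpa using h2)

lemma cancel3 (a b : M) : a + b + a = b := by
  rw [add_right_comm, two, zero_add]

lemma eq_of_add {a b : M} (h : a + b = 0) : a = b := by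
  calc a = a + (b + b) := by rw [two, add_zero]
    _ = b := by rw [← add_assoc, h, zero_add]

/-- Two linear maps which agree on singles agree. -/
lemma lin_ext {α : Type*} {f g : (α →₀ ZMod 2) →ₗ[ZMod 2] M}
    (h : ∀ a, f (Finsupp.single a 1) = g (Finsupp.single a 1)) (z : α →₀ ZMod 2) : f z = g z := by
  have : f = g := by
    refine Finsupp.lhom_ext fun a b => ?_
    rw [← Finsupp.smul_single_one, map_smul, map_smul, h]
  rw [this]

/-- A linear map sending all singles into a submodule sends everything there. -/
lemma lin_mem {α : Type*} {f : (α →₀ ZMod 2) →ₗ[ZMod 2] M} {S : Submodule (ZMod 2) M}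
    (h : ∀ a, f (Finsupp.single a 1) ∈ S) (z : α →₀ ZMod 2) : f z ∈ S := by
  induction z using Finsupp.induction_linear with
  | zero => simp
  | add x y hx hy => rw [map_add]; exact S.add_mem hx hy
  | single a b => rw [← Finsupp.smul_single_one, map_smul]; exact S.smul_mem b (h a)

end General

section Maps

variable {G H L : Type*}

/-- The map of tuples induced by a function. -/
noncomputable def tmap (u : G → H) (k : ℕ) : BarChain G k →ₗ[ZMod 2] BarChain H k :=
  Finsupp.lmapDomain (ZMod 2) (ZMod 2) (fun t i => u (t i))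

lemma tmap_single (u : G → H) {k : ℕ} (t : Fin k → G) (a : ZMod 2) :
    tmap u k (Finsupp.single t a) = Finsupp.single (fun i => u (t i)) a := by
  simp [tmap, Finsupp.mapDomain_single]

lemma tmap_tmap (u : G → H) (v : H → L) {k : ℕ} (z : BarChain G k) :
    tmap v k (tmap u k z) = tmap (fun g => v (u g)) k z :=
  lin_ext (f := (tmap v k).comp (tmap u k)) (fun t => by simp [tmap_single]) z

/-- Prepend an entry to every tuple. -/
noncomputable def bcons (a : G) (k : ℕ) : BarChain G k →ₗ[ZMod 2] BarChain G (k + 1) :=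
  Finsupp.lmapDomain (ZMod 2) (ZMod 2) (fun t => Fin.cons a t)

lemma bcons_single (a : G) {k : ℕ} (t : Fin k → G) (c : ZMod 2) :
    bcons a k (Finsupp.single t c) = Finsupp.single (Fin.cons a t) c := by
  simp [bcons, Finsupp.mapDomain_single]

lemma tmap_bcons (u : G → H) (a : G) {k : ℕ} (z : BarChain G k) :
    tmap u (k + 1) (bcons a k z) = bcons (u a) k (tmap u k z) := by
  refine lin_ext (f := (tmap u (k + 1)).comp (bcons a k)) (g := (bcons (u a) k).comp (tmap u k))
    (fun t => ?_) z
  simp only [LinearMap.comp_apply, bcons_single, tmap_single]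
  congr 1
  funext i
  refine Fin.cases ?_ (fun j => ?_) i <;> simp

end Maps

variable {G H : Type*}

lemma barBdry_single [Group G] {k : ℕ} (t : Fin (k + 1) → G) :
    barBdry k (Finsupp.single t 1) = ∑ i : Fin (k + 1), Finsupp.single (fun j => t (i.succAbove j)) 1 := by
  simp [barBdry]

lemma barBdry_tmap [Group G] [Group H] (u : G → H) {k : ℕ} (z : BarChain G (k + 1)) :
    barBdry k (tmap u (k + 1) z) = tmap u k (barBdry k z) := by
  refine lin_ext (f := (barBdry k).comp (tmap u (k + 1))) (g := (tmap u k).comp (barBdry k))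
    (fun t => ?_) z
  simp [tmap_single, barBdry_single]

variable [Group G]

lemma barBdry_bcons_zero (a : G) (z : BarChain G 0) : barBdry 0 (bcons a 0 z) = z := by
  refine lin_ext (f := (barBdry 0).comp (bcons a 0)) (g := LinearMap.id) (fun t => ?_) z
  simp only [LinearMap.comp_apply, bcons_single, barBdry_single, LinearMap.id_apply]
  rw [Fin.sum_univ_succ, Finset.univ_eq_empty, Finset.sum_empty, add_zero]
  congr 1

lemma barBdry_bcons (a : G) {k : ℕ} (z : BarChain G (k + 1)) :
    barBdry (k + 1) (bcons a (k + 1) z) = z + bcons a k (barBdry k z) := by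
  refine lin_ext (f := (barBdry (k + 1)).comp (bcons a (k + 1)))
    (g := LinearMap.id + (bcons a k).comp (barBdry k)) (fun t => ?_) z
  simp only [LinearMap.comp_apply, bcons_single, barBdry_single, LinearMap.add_apply,
    LinearMap.id_apply, map_sum]
  rw [Fin.sum_univ_succ]
  refine congrArg₂ (· + ·) ?_ (Finset.sum_congr rfl fun i _ => ?_)
  · congr 1
  · congr 1
    funext j
    refine Fin.cases ?_ (fun l => ?_) j
    · simp
    · simp [Fin.succ_succAbove_succ]

lemma barBdry_barBdry : ∀ {k : ℕ} (z : BarChain G (k + 2)), barBdry k (barBdry (k + 1) z) = 0 := by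
  intro k
  induction k with
  | zero =>
    intro z
    refine lin_ext (f := (barBdry 0).comp (barBdry 1)) (g := 0) (fun t => ?_) z
    rw [LinearMap.comp_apply, ← Fin.cons_self_tail t, ← bcons_single, barBdry_bcons, map_add,
      barBdry_bcons_zero, two]
    rfl
  | succ k ih =>
    intro z
    refine lin_ext (f := (barBdry (k + 1)).comp (barBdry (k + 2))) (g := 0) (fun t => ?_) z
    rw [LinearMap.comp_apply, ← Fin.cons_self_tail t, ← bcons_single, barBdry_bcons, map_add,
      barBdry_bcons, ih, map_zero, add_zero, two]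
    rfl

/-! ### The prism between the identity and a function -/

/-- The prism on a single tuple. -/
noncomputable def prismS (φ : G → G) : ∀ k, (Fin k → G) → BarChain G (k + 1)
  | 0, _ => 0
  | k + 1, t => Finsupp.single (Fin.cons (φ (t 0)) t) 1 + bcons (φ (t 0)) (k + 1) (prismS φ k (Fin.tail t))

/-- The prism operator. -/
noncomputable def prism (φ : G → G) (k : ℕ) : BarChain G k →ₗ[ZMod 2] BarChain G (k + 1) :=
  Finsupp.linearCombination (ZMod 2) (prismS φ k)

omit [Group G] in
lemma prism_single (φ : G → G) {k : ℕ} (t : Fin k → G) :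
    prism φ k (Finsupp.single t 1) = prismS φ k t := by
  simp [prism]

omit [Group G] in
lemma prism_zero (φ : G → G) (z : BarChain G 0) : prism φ 0 z = 0 := by
  refine lin_ext (f := prism φ 0) (g := 0) (fun t => ?_) z
  simp [prism_single, prismS]

omit [Group G] in
lemma prism_bcons (φ : G → G) (a : G) {k : ℕ} (x : BarChain G k) :
    prism φ (k + 1) (bcons a k x)
      = bcons (φ a) (k + 1) (bcons a k x) + bcons (φ a) (k + 1) (prism φ k x) := by
  refine lin_ext (f := (prism φ (k + 1)).comp (bcons a k))
    (g := (bcons (φ a) (k + 1)).comp (bcons a k) + (bcons (φ a) (k + 1)).comp (prism φ k))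
    (fun t => ?_) x
  simp [bcons_single, prism_single, prismS]

omit [Group G] in
lemma prism_tmap (φ u : G → G) (h : ∀ g, φ (u g) = u (φ g)) : ∀ {k : ℕ} (z : BarChain G k),
    prism φ k (tmap u k z) = tmap u (k + 1) (prism φ k z) := by
  intro k
  induction k with
  | zero => intro z; simp [prism_zero]
  | succ k ih =>
    intro z
    refine lin_ext (f := (prism φ (k + 1)).comp (tmap u (k + 1)))
      (g := (tmap u (k + 2)).comp (prism φ (k + 1))) (fun t => ?_) z
    rw [LinearMap.comp_apply, LinearMap.comp_apply, ← Fin.cons_self_tail t, ← bcons_single,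
      tmap_bcons, prism_bcons, prism_bcons, map_add, tmap_bcons, tmap_bcons, tmap_bcons, ih, h]

lemma prism_spec (φ : G → G) : ∀ {k : ℕ} (z : BarChain G (k + 1)),
    barBdry (k + 1) (prism φ (k + 1) z) + prism φ k (barBdry k z) = z + tmap φ (k + 1) z := by
  intro k
  induction k with
  | zero =>
    intro z
    refine lin_ext (f := (barBdry 1).comp (prism φ 1) + (prism φ 0).comp (barBdry 0))
      (g := LinearMap.id + tmap φ 1) (fun t => ?_) z
    simp only [LinearMap.comp_apply, LinearMap.add_apply, LinearMap.id_apply, prism_zero, add_zero]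
    rw [← Fin.cons_self_tail t, ← bcons_single, prism_bcons, prism_zero, map_zero, add_zero,
      barBdry_bcons, barBdry_bcons_zero, tmap_bcons]
    congr 2
    rw [tmap_single]
    congr 1
    funext i
    exact i.elim0
  | succ k ih =>
    intro z
    refine lin_ext (f := (barBdry (k + 2)).comp (prism φ (k + 2)) + (prism φ (k + 1)).comp (barBdry (k + 1)))
      (g := LinearMap.id + tmap φ (k + 2)) (fun t => ?_) z
    simp only [LinearMap.comp_apply, LinearMap.add_apply, LinearMap.id_apply]
    rw [← Fin.cons_self_tail t, ← bcons_single]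
    generalize t 0 = a
    generalize (Finsupp.single (Fin.tail t) (1 : ZMod 2)) = x
    rw [prism_bcons, map_add, barBdry_bcons, barBdry_bcons, barBdry_bcons, map_add, map_add, prism_bcons,
      tmap_bcons]
    have h1 : barBdry (k + 1) (prism φ (k + 1) x)
        = x + tmap φ (k + 1) x + prism φ k (barBdry k x) := by
      rw [← ih x]; simp [add_assoc, two]
    rw [h1, map_add, map_add]
    simp only [add_assoc]
    generalize bcons a (k + 1) x = A
    generalize bcons (φ a) (k + 1) (bcons a k (barBdry k x)) = B
    generalize bcons (φ a) (k + 1) x = C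
    generalize bcons (φ a) (k + 1) (tmap φ (k + 1) x) = D
    generalize bcons (φ a) (k + 1) (prism φ k (barBdry k x)) = E
    generalize prism φ (k + 1) x = P
    have h2 : A + (C + (B + (P + (C + (D + (E + (P + (B + E))))))))
        = A + D + ((B + B) + (C + C) + (P + P) + (E + E)) := by abel
    refine Eq.trans ?_ ((h2.trans (by simp [two])))
    abel

/-! ### Coinvariants of a subgroup -/

/-- The kernel of the projection to coinvariants under a subgroup. -/
noncomputable def coinvSub (S : Subgroup G) (k : ℕ) : Submodule (ZMod 2) (BarChain G k) :=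
  Submodule.span (ZMod 2) (Set.range fun p : S × (Fin k → G) =>
    Finsupp.single (fun j => (p.1 : G) * p.2 j) 1 + Finsupp.single p.2 1)

lemma lmul_mem_coinvSub (S : Subgroup G) {k : ℕ} {s : G} (hs : s ∈ S) (z : BarChain G k) :
    tmap (s * ·) k z + z ∈ coinvSub S k := by
  refine lin_mem (f := tmap (s * ·) k + LinearMap.id) (fun t => ?_) z
  rw [LinearMap.add_apply, tmap_single, LinearMap.id_apply]
  exact Submodule.subset_span ⟨(⟨s, hs⟩, t), rfl⟩

lemma lmul_mem_coinvKer {k : ℕ} (g : G) (z : BarChain G k) :
    tmap (g * ·) k z + z ∈ coinvKer G k := by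
  refine lin_mem (f := tmap (g * ·) k + LinearMap.id) (fun t => ?_) z
  rw [LinearMap.add_apply, tmap_single, LinearMap.id_apply]
  exact Submodule.subset_span ⟨(g, t), rfl⟩

lemma coinvSub_le (S : Subgroup G) (k : ℕ) : coinvSub S k ≤ coinvKer G k := by
  refine Submodule.span_le.2 ?_
  rintro _ ⟨⟨s, t⟩, rfl⟩
  exact Submodule.subset_span ⟨((s : G), t), rfl⟩

lemma coinvSub_map {k : ℕ} {M : Type*} [AddCommGroup M] [Module (ZMod 2) M]
    (S : Subgroup G) (f : BarChain G k →ₗ[ZMod 2] M) {N : Submodule (ZMod 2) M}
    (h : ∀ s ∈ S, ∀ t : Fin k → G, f (tmap (s * ·) k (Finsupp.single t 1)) + f (Finsupp.single t 1) ∈ N)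
    {z : BarChain G k} (hz : z ∈ coinvSub S k) : f z ∈ N := by
  have hle : coinvSub S k ≤ N.comap f := by
    refine Submodule.span_le.2 ?_
    rintro _ ⟨⟨s, t⟩, rfl⟩
    have := h s s.2 t
    rw [tmap_single, ← map_add] at this
    exact this
  exact hle hz

/-- A choice of right coset representative. -/
noncomputable def crep (S : Subgroup G) (g : G) : G :=
  (Quotient.mk (QuotientGroup.rightRel S) g).out

lemma mul_crep_inv_mem (S : Subgroup G) (g : G) : g * (crep S g)⁻¹ ∈ S := by
  have h : (QuotientGroup.rightRel S) (crep S g) g := Quotient.mk_out (s := QuotientGroup.rightRel S) g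
  exact QuotientGroup.rightRel_apply.1 h

/-- A left equivariant retraction to a subgroup. -/
noncomputable def retr (S : Subgroup G) (g : G) : S := ⟨g * (crep S g)⁻¹, mul_crep_inv_mem S g⟩

lemma retr_mul (S : Subgroup G) (s : G) (hs : s ∈ S) (g : G) :
    retr S (s * g) = ⟨s, hs⟩ * retr S g := by
  have h : crep S (s * g) = crep S g := by
    refine congrArg Quotient.out (Quotient.sound ?_)
    show (QuotientGroup.rightRel S) (s * g) g
    rw [QuotientGroup.rightRel_apply, mul_inv_rev, ← mul_assoc, mul_inv_cancel, one_mul]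
    exact S.inv_mem hs
  apply Subtype.ext
  simp [retr, h, mul_assoc]

/-- Every cycle for the coinvariants of a subgroup comes from a cycle of the subgroup. -/
theorem column_step (S : Subgroup G) {q : ℕ} (z : BarChain G (q + 1))
    (hz : barBdry q z ∈ coinvSub S q) :
    ∃ (z' : BarChain S (q + 1)) (y : BarChain G (q + 2)), barBdry q z' ∈ coinvKer S q ∧
      z + tmap (Subtype.val : S → G) (q + 1) z' + barBdry (q + 1) y ∈ coinvSub S (q + 1) := by
  refine ⟨tmap (retr S) (q + 1) z, prism (fun g => (retr S g : G)) (q + 1) z, ?_, ?_⟩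
  · rw [barBdry_tmap]
    refine coinvSub_map S _ (fun s hs t => ?_) hz
    rw [tmap_tmap]
    have : tmap (fun g => retr S (s * g)) q (Finsupp.single t 1)
        = tmap ((⟨s, hs⟩ : S) * ·) q (tmap (retr S) q (Finsupp.single t 1)) := by
      rw [tmap_tmap]
      simp only [retr_mul S s hs]
    rw [this]
    exact lmul_mem_coinvKer _ _
  · rw [tmap_tmap]
    have h := prism_spec (fun g => (retr S g : G)) z
    rw [← h, cancel3]
    refine coinvSub_map S _ (fun s hs t => ?_) hz
    rw [prism_tmap _ _ (fun g => by rw [retr_mul S s hs]; rfl)]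
    exact lmul_mem_coinvSub S hs _

/-- Vanishing for a subgroup gives exactness of the coinvariants of the ambient bar complex. -/
theorem column_exact (S : Subgroup G) {q : ℕ} (hS : GroupAcyclic S q) (z : BarChain G (q + 1))
    (hz : barBdry q z ∈ coinvSub S q) :
    ∃ y : BarChain G (q + 2), z + barBdry (q + 1) y ∈ coinvSub S (q + 1) := by
  obtain ⟨z', y, hz', hy⟩ := column_step S z hz
  obtain ⟨w, hw⟩ := hS z' hz'
  refine ⟨y + tmap (Subtype.val : S → G) (q + 2) w, ?_⟩
  have h1 : tmap (Subtype.val : S → G) (q + 1) (z' + barBdry (q + 1) w) ∈ coinvSub S (q + 1) := by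
    have hle : coinvKer S (q + 1) ≤ (coinvSub S (q + 1)).comap (tmap (Subtype.val : S → G) (q + 1)) := by
      refine Submodule.span_le.2 ?_
      rintro _ ⟨⟨s, t⟩, rfl⟩
      show tmap (Subtype.val : S → G) (q + 1) _ ∈ coinvSub S (q + 1)
      rw [map_add, tmap_single, tmap_single]
      exact Submodule.subset_span ⟨(s, fun i => (t i : G)), rfl⟩
    exact hle hw
  rw [map_add, ← barBdry_tmap] at h1
  have := Submodule.add_mem _ hy h1
  rw [map_add]
  rw [show z + tmap (Subtype.val : S → G) (q + 1) z' + barBdry (q + 1) y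
    + (tmap (Subtype.val : S → G) (q + 1) z' + barBdry (q + 1) (tmap (Subtype.val : S → G) (q + 2) w))
    = z + (barBdry (q + 1) y + barBdry (q + 1) (tmap (Subtype.val : S → G) (q + 2) w))
      + (tmap (Subtype.val : S → G) (q + 1) z' + tmap (Subtype.val : S → G) (q + 1) z') by abel,
    two, add_zero] at this
  exact this

theorem groupAcyclic_zero (G : Type*) [Group G] : GroupAcyclic G 0 := by
  intro z hz
  refine ⟨0, ?_⟩
  rw [map_zero, add_zero]
  have hbot : coinvKer G 0 = ⊥ := by
    refine Submodule.span_eq_bot.2 ?_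
    rintro _ ⟨⟨g, t⟩, rfl⟩
    simp only
    rw [Subsingleton.elim (fun j => g * t j) t, two]
  rw [hbot, Submodule.mem_bot] at hz
  have h := lin_mem (f := LinearMap.id + (bcons (1 : G) 0).comp (barBdry 0))
    (S := coinvKer G 1) (fun t => ?_) z
  · simpa [hz] using h
  · rw [LinearMap.add_apply, LinearMap.id_apply, LinearMap.comp_apply, ← Fin.cons_self_tail t,
      ← bcons_single, barBdry_bcons_zero, bcons_single, bcons_single]
    refine add_comm_mem (Submodule.subset_span ⟨((t 0)⁻¹, Fin.cons (t 0) (Fin.tail t)), ?_⟩)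
    simp only
    congr 2
    funext i
    refine Fin.cases ?_ (fun j => j.elim0) i
    simp

/-- Finite groups of odd order are acyclic over the field with two elements. -/
theorem groupAcyclic_of_odd (G : Type*) [Group G] [Finite G] (hodd : Odd (Nat.card G)) (q : ℕ) :
    GroupAcyclic G q := by
  classical
  have : Fintype G := Fintype.ofFinite G
  intro z hz
  have hkill : ∀ x ∈ coinvKer G q, ∑ s : G, tmap (s * ·) q x = 0 := by
    intro x hx
    have hle : coinvKer G q ≤ LinearMap.ker (∑ s : G, tmap (s * ·) q) := by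
      refine Submodule.span_le.2 ?_
      rintro _ ⟨⟨g, t⟩, rfl⟩
      simp only [SetLike.mem_coe, LinearMap.mem_ker, map_add, LinearMap.sum_apply, tmap_single]
      rw [Fintype.sum_equiv (Equiv.mulRight g) _ (fun s => Finsupp.single (fun i => s * t i) (1 : ZMod 2))
        (fun s => by simp [mul_assoc]), two]
    simpa using hle hx
  set A := ∑ s : G, tmap (s * ·) (q + 1) z with hA
  have hbA : barBdry q A = 0 := by
    rw [hA, map_sum]
    simp only [barBdry_tmap]
    exact hkill _ hz
  refine ⟨bcons 1 (q + 1) A, ?_⟩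
  rw [barBdry_bcons, hbA, map_zero, add_zero]
  have h1 : ∑ s : G, (tmap (s * ·) (q + 1) z + z) ∈ coinvKer G (q + 1) :=
    Submodule.sum_mem _ fun s _ => lmul_mem_coinvKer s z
  have h2 : ∑ _s : G, z = z := by
    rw [Finset.sum_const, Finset.card_univ, ← Nat.card_eq_fintype_card, ← Nat.cast_smul_eq_nsmul (ZMod 2),
      ZMod.natCast_eq_one_iff_odd.2 hodd, one_smul]
  rw [Finset.sum_add_distrib, h2] at h1
  exact add_comm_mem h1

end Vale.Agent.P067.BarAction
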