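import Vale.Agent.P067.LatticeReduce

/-!
The building is acyclic: discrete Morse theory for the colength in the standard lattice.
-/

namespace Vale.Agent.P067

open Finset

variable {F : Type*} [Field F] {N : ℕ}

/-- If every vertex other than `o` has a lower apex coning off the part of its link below it, then
the complex is acyclic. -/
lemma acyclic_of_apex {V : Type*} [DecidableEq V] (K : Set (Finset V)) (hK : DownClosed K)
    (h : V → ℕ) (o : V) (ho : ({o} : Finset V) ∈ K) (ho0 : h o = 0) (apex : V → V)
    (hlt : ∀ v, v ≠ o → h (apex v) < h v)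
    (hcone : ∀ v, v ≠ o → ∀ s : Finset V, s ∈ link K v → (∀ w ∈ s, h w ≤ h v) →
      insert (apex v) (insert v s) ∈ K) (k : ℕ) : Acyclic K k := by
  suffices ∀ (n : ℕ) (z : Chain V), z ∈ chainsOf K k → bdry z = 0 →
      ∑ v ∈ z.support.biUnion id, h v = n → ∃ y ∈ chainsOf K (k + 1), bdry y = z from
    fun z hz hb => this _ z hz hb rfl
  intro n
  induction n using Nat.strong_induction_on with
  | _ n ih =>
    intro z hz hb hn
    by_cases hall : ∀ v ∈ z.support.biUnion id, v = o
    · refine ⟨cone o z, mem_chainsOf.2 fun t ht => ?_, ?_⟩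
      · rw [cone_apply] at ht
        by_cases hot : o ∈ t
        · rw [if_pos hot] at ht
          obtain ⟨_, h2⟩ := mem_chainsOf.1 hz _ ht
          have hsub : t = {o} := by
            ext w
            refine ⟨fun hw => ?_, fun hw => (Finset.mem_singleton.1 hw) ▸ hot⟩
            by_contra hwo
            have hw' : w ∈ t.erase o :=
              Finset.mem_erase.2 ⟨fun e => hwo (Finset.mem_singleton.2 e), hw⟩
            exact hwo (Finset.mem_singleton.2 (hall w
              (Finset.mem_biUnion.2 ⟨_, Finsupp.mem_support_iff.2 ht, hw'⟩)))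
          refine ⟨hsub ▸ ho, ?_⟩
          rw [Finset.card_erase_of_mem hot] at h2
          have : 0 < t.card := Finset.card_pos.2 ⟨o, hot⟩
          omega
        · simp [hot] at ht
      · simpa [hb] using bdry_cone o z
    · push Not at hall
      have hne : ((z.support.biUnion id).filter fun v => v ≠ o).Nonempty := by
        obtain ⟨v, hv, hvo⟩ := hall
        exact ⟨v, Finset.mem_filter.2 ⟨hv, hvo⟩⟩
      obtain ⟨v, hv, hmax⟩ := Finset.exists_max_image _ h hne
      obtain ⟨hvz, hvo⟩ := Finset.mem_filter.1 hv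
      have hmax' : ∀ w ∈ z.support.biUnion id, h w ≤ h v := by
        intro w hw
        by_cases hwo : w = o
        · simp [hwo, ho0]
        · exact hmax w (Finset.mem_filter.2 ⟨hw, hwo⟩)
      rcases k with _ | j
      · obtain ⟨s, hs, hvs⟩ := Finset.mem_biUnion.1 hvz
        obtain ⟨_, h2⟩ := mem_chainsOf.1 hz s (Finsupp.mem_support_iff.1 hs)
        simp only [id, Finset.card_eq_zero.1 h2] at hvs
        simp at hvs
      set a := apex v with ha
      set c := delV v z with hc
      have hcmem := delV_mem_chainsOf hz v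
      have hcb : bdry c = 0 := bdry_delV_eq_zero hb
      set e := cone a c with he
      have hbe : bdry e = c := by
        have := bdry_cone a c
        rwa [hcb, map_zero, add_zero] at this
      have hev : ∀ t, e t ≠ 0 → (t ∈ link K v ∧ t.card = j + 1) ∧
          ∀ w ∈ t, w = a ∨ (w ∈ z.support.biUnion id ∧ w ≠ v) := by
        intro t ht
        rw [he, cone_apply] at ht
        by_cases hat : a ∈ t
        · rw [if_pos hat] at ht
          obtain ⟨hl, hcard⟩ := mem_chainsOf.1 hcmem _ ht
          rw [hc, delV_apply, if_neg hl.1] at ht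
          have hins : insert v (t.erase a) ∈ z.support := Finsupp.mem_support_iff.2 ht
          have hmem : ∀ w ∈ t.erase a, w ∈ z.support.biUnion id ∧ w ≠ v := fun w hw =>
            ⟨Finset.mem_biUnion.2 ⟨_, hins, Finset.mem_insert_of_mem hw⟩,
              fun e => hl.1 (e ▸ hw)⟩
          refine ⟨⟨⟨?_, ?_⟩, ?_⟩, ?_⟩
          · intro hvt
            refine hl.1 (Finset.mem_erase.2 ⟨?_, hvt⟩)
            intro e
            have := hlt v hvo
            rw [← ha, ← e] at this
            omega
          · have := hcone v hvo _ hl (fun w hw => hmax' w (hmem w hw).1)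
            rwa [← ha, Finset.insert_comm, Finset.insert_erase hat] at this
          · rw [Finset.card_erase_of_mem hat] at hcard
            have : 0 < t.card := Finset.card_pos.2 ⟨a, hat⟩
            omega
          · intro w hw
            by_cases hwa : w = a
            · exact Or.inl hwa
            · exact Or.inr (hmem w (Finset.mem_erase.2 ⟨hwa, hw⟩))
        · simp [hat] at ht
      set z₁ := z.filter (fun s => v ∉ s) + e with hz₁
      have hK1 : z₁ ∈ chainsOf K (j + 1) := by
        refine Submodule.add_mem _ (mem_chainsOf.2 fun s hs => ?_)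
          (mem_chainsOf.2 fun t ht => ⟨link_subset hK v (hev t ht).1.1, (hev t ht).1.2⟩)
        refine mem_chainsOf.1 hz s fun h0 => hs ?_
        rw [Finsupp.filter_apply]
        split_ifs <;> simp [h0]
      have hb1 : bdry z₁ = 0 := by rw [hz₁, bdry_replace hbe, hb]
      have hverts : z₁.support.biUnion id ⊆ insert a ((z.support.biUnion id).erase v) := by
        intro w hw
        obtain ⟨s, hs, hws⟩ := Finset.mem_biUnion.1 hw
        rw [Finsupp.mem_support_iff, hz₁, Finsupp.add_apply] at hs
        by_cases hes : e s = 0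
        · rw [hes, add_zero, Finsupp.filter_apply] at hs
          by_cases hvs : v ∈ s
          · simp [hvs] at hs
          · rw [if_pos hvs] at hs
            exact Finset.mem_insert_of_mem (Finset.mem_erase.2
              ⟨fun e' => hvs (e' ▸ hws),
                Finset.mem_biUnion.2 ⟨s, Finsupp.mem_support_iff.2 hs, hws⟩⟩)
        · rcases (hev s hes).2 w hws with h' | h'
          · exact h' ▸ Finset.mem_insert_self _ _
          · exact Finset.mem_insert_of_mem (Finset.mem_erase.2 ⟨h'.2, h'.1⟩)
      have hlt' : ∑ w ∈ z₁.support.biUnion id, h w < n := by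
        have h1 : ∑ w ∈ insert a ((z.support.biUnion id).erase v), h w ≤
            h a + ∑ w ∈ (z.support.biUnion id).erase v, h w := by
          by_cases hmem : a ∈ (z.support.biUnion id).erase v
          · rw [Finset.insert_eq_of_mem hmem]; omega
          · rw [Finset.sum_insert hmem]
        have h2 := Finset.add_sum_erase (z.support.biUnion id) h hvz
        have h3 := hlt v hvo
        rw [← ha] at h3
        have h4 := Finset.sum_le_sum_of_subset (f := h) hverts
        omega
      obtain ⟨y, hy, hby⟩ := ih _ hlt' z₁ hK1 hb1 rfl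
      have hce : cone v e ∈ chainsOf K (j + 1 + 1) :=
        cone_mem_chainsOf (mem_chainsOf.2 fun t ht => (hev t ht).1)
      refine ⟨y + cone v e, Submodule.add_mem _ hy hce, ?_⟩
      have h5 := bdry_cone v e
      rw [hbe] at h5
      have h6 := cone_delV_add_filter v z
      rw [map_add, hby, hz₁]
      conv_rhs => rw [← h6]
      have h7 : bdry (cone v e) = e + cone v c := by
        calc bdry (cone v e) = bdry (cone v e) + (cone v c + cone v c) := by
              rw [add_self_chain, add_zero]
          _ = e + cone v c := by rw [← add_assoc, h5]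
      rw [h7, ← hc]
      have h8 : e + e = 0 := add_self_chain e
      calc z.filter (fun s => v ∉ s) + e + (e + cone v c)
          = (e + e) + (cone v c + z.filter (fun s => v ∉ s)) := by abel
        _ = cone v c + z.filter (fun s => v ∉ s) := by rw [h8, zero_add]

lemma exists_le_scale (g g' : PMat F N) (lam lam' : Fin N → ℤ) :
    ∃ n : ℕ, lat F N g lam ≤ scaleL F N n (lat F N g' lam') := by
  classical
  set A := g'⁻¹ * g with hA
  refine ⟨∑ p : Fin N × Fin N, ((ratMat A p.1 p.2).intDegree + lam p.2 - lam' p.1).toNat,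
    fun x hx => ?_⟩
  rw [scaleL_lat, mem_lat]
  intro i
  have hx' := mem_lat.1 hx
  have : gMap F N g'⁻¹ x = gMap F N A (gMap F N g⁻¹ x) := by
    rw [hA, gMap_mul_apply, gMap_gMap_inv]
  rw [this, gMap_apply, Matrix.mulVec, dotProduct]
  refine degLE_sum _ _ fun j _ => ?_
  have h1 : degLE (ratMat A i j) (ratMat A i j).intDegree := Or.inr le_rfl
  refine (h1.mul (hx' j)).mono ?_
  have := Finset.single_le_sum (f := fun p : Fin N × Fin N =>
    ((ratMat A p.1 p.2).intDegree + lam p.2 - lam' p.1).toNat) (fun _ _ => Nat.zero_le _)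
    (Finset.mem_univ (i, j))
  simp only at this
  omega

/-- The standard lattice. -/
noncomputable def M₀ : Lattice F N := mkLat F N 1 0

lemma M₀_val : (M₀ (F := F) (N := N)).1 = stdLat F N 0 := lat_one 0

lemma vol_M₀ : vol (M₀ (F := F) (N := N)) = 0 := by
  rw [vol_eq (g := 1) (lam := 0) rfl]
  simp

lemma vol_scaleLat (z : ℤ) (L : Lattice F N) : vol (scaleLat z L) = vol L + N * z := by
  obtain ⟨g, lam, hg⟩ := L.2
  rw [vol_eq hg, vol_eq (L := scaleLat z L) (g := g) (lam := fun i => lam i + z)
    (by rw [scaleLat_val, hg, scaleL_lat])]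
  simp [Finset.sum_add_distrib]

/-- A lattice is normalised if it lies in the standard one but not in its first shrinking. -/
def Normal (L : Lattice F N) : Prop :=
  L.1 ≤ (M₀ (F := F) (N := N)).1 ∧ ¬ scaleL F N 1 L.1 ≤ (M₀ (F := F) (N := N)).1

lemma exists_normal (hN : 1 ≤ N) (v : BVert F N) :
    ∃ L : Lattice F N, Quot.mk _ L = v ∧ Normal L := by
  classical
  induction v using Quot.ind with
  | mk L =>
    obtain ⟨g, lam, hg⟩ := L.2
    obtain ⟨n, hn⟩ := exists_le_scale g 1 lam 0
    have hex : ∃ z : ℤ, scaleL F N z L.1 ≤ (M₀ (F := F) (N := N)).1 := by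
      refine ⟨-(n : ℤ), ?_⟩
      rw [scaleL_le_comm, neg_neg, hg]
      exact hn
    have hbd : ∃ b : ℤ, ∀ z : ℤ, scaleL F N z L.1 ≤ (M₀ (F := F) (N := N)).1 → z ≤ b := by
      refine ⟨|vol L|, fun z hz => ?_⟩
      have h := vol_mono (L := scaleLat z L) (L' := M₀) hz
      rw [vol_scaleLat, vol_M₀] at h
      by_contra hlt
      push Not at hlt
      have h1 : (1 : ℤ) * z ≤ (N : ℤ) * z :=
        mul_le_mul_of_nonneg_right (by exact_mod_cast hN) (by linarith [abs_nonneg (vol L)])
      have := neg_abs_le (vol L)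
      linarith
    obtain ⟨z, hz, hmax⟩ := Int.exists_greatest_of_bdd hbd hex
    refine ⟨scaleLat z L, cls_scaleLat z L, hz, fun h => ?_⟩
    rw [scaleLat_val, scaleL_scaleL] at h
    have := hmax _ h
    omega

/-- The normalised representative of a class. -/
noncomputable def nrep (hN : 1 ≤ N) (v : BVert F N) : Lattice F N :=
  (exists_normal hN v).choose

lemma nrep_spec (hN : 1 ≤ N) (v : BVert F N) :
    Quot.mk _ (nrep hN v) = v ∧ Normal (nrep hN v) :=
  (exists_normal hN v).choose_spec

lemma normal_unique {L L' : Lattice F N} (h : Normal L) (h' : Normal L')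
    (he : (Quot.mk _ L : BVert F N) = Quot.mk _ L') : L.1 = L'.1 := by
  obtain ⟨z, hz⟩ := cls_eq_iff.1 he
  rcases lt_trichotomy z 0 with hz0 | hz0 | hz0
  · refine absurd ?_ h'.2
    rw [hz, scaleL_scaleL]
    exact (scaleL_mono_left (by omega : 1 + z ≤ 0) _).trans (by rw [scaleL_zero]; exact h.1)
  · simp [hz, hz0]
  · refine absurd ?_ h.2
    exact (scaleL_mono_left (by omega : (1 : ℤ) ≤ z) _).trans (hz ▸ h'.1)

lemma nrep_eq (hN : 1 ≤ N) {v : BVert F N} {L : Lattice F N} (hv : Quot.mk _ L = v)
    (h : Normal L) : (nrep hN v).1 = L.1 :=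
  normal_unique (nrep_spec hN v).2 h ((nrep_spec hN v).1.trans hv.symm)

/-- The colength of the normalised representative in the standard lattice. -/
noncomputable def colen (hN : 1 ≤ N) (v : BVert F N) : ℕ := (-vol (nrep hN v)).toNat

lemma Normal.vol_nonpos {L : Lattice F N} (h : Normal L) : vol L ≤ 0 := by
  simpa [vol_M₀] using vol_mono (L' := M₀) h.1

/-- In a simplex, each vertex has a representative within one period above a given one. -/
lemma exists_reps_above {s : Finset (BVert F N)} (hs : s ∈ Bldg F N) {v : BVert F N} (hv : v ∈ s)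
    {L : Lattice F N} (hL : Quot.mk _ L = v) :
    ∃ rep : BVert F N → Lattice F N, ∀ w ∈ s, Quot.mk _ (rep w) = w ∧
      L.1 ≤ (rep w).1 ∧ (rep w).1 ≤ scaleL F N 1 L.1 ∧
      ∀ x ∈ s, (rep w).1 ≤ (rep x).1 ∨ (rep x).1 ≤ (rep w).1 := by
  classical
  obtain ⟨r, h1, h2⟩ := hs
  obtain ⟨z, hz⟩ := cls_eq_iff.1 ((h1 v hv).trans hL.symm)
  refine ⟨fun w => scaleLat z (if (r v).1 ≤ (r w).1 then r w else scaleLat 1 (r w)),
    fun w hw => ?_⟩
  obtain ⟨hc, hp⟩ := h2 v hv w hw
  refine ⟨?_, ?_, ?_, fun x hx => ?_⟩
  · rw [cls_scaleLat]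
    split_ifs
    · exact h1 w hw
    · exact (cls_scaleLat 1 (r w)).trans (h1 w hw)
  · rw [hz, scaleLat_val]
    refine scaleL_mono z ?_
    split_ifs with h
    · exact h
    · exact (h2 w hw v hv).2
  · rw [hz, scaleLat_val, scaleL_scaleL, show (1 : ℤ) + z = z + 1 by ring, ← scaleL_scaleL]
    refine scaleL_mono z ?_
    split_ifs with h
    · exact hp
    · exact scaleL_mono 1 (hc.resolve_left h)
  · simp only [scaleLat_val, scaleL_le_iff]
    split_ifs with h h' h'
    · exact (h2 w hw x hx).1
    · exact Or.inl (h2 x hx w hw).2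
    · exact Or.inr (h2 w hw x hx).2
    · exact (h2 w hw x hx).1.imp (scaleL_mono 1) (scaleL_mono 1)

variable (F N) in
/-- The class of the standard lattice. -/
noncomputable def oVert : BVert F N := latClass F N 1 0

lemma exists_apex (hN : 1 ≤ N) (v : BVert F N) (hv : v ≠ oVert F N) :
    ∃ a, colen hN a < colen hN v ∧
      (nrep hN a).1 = (M₀ (F := F) (N := N)).1 ⊓ scaleL F N 1 (nrep hN v).1 := by
  obtain ⟨hcls, hn⟩ := nrep_spec hN v
  set L := nrep hN v with hL
  set M := (M₀ (F := F) (N := N)).1 ⊓ scaleL F N 1 L.1 with hM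
  have hLM : L.1 ≤ M := le_inf hn.1 (le_scaleL zero_le_one _)
  obtain ⟨L', hL'⟩ := exists_lattice_between (L₁ := L) (L₂ := M₀) hLM inf_le_left
  have hn' : Normal L' := by
    refine ⟨hL'.le.trans inf_le_left, fun h => hn.2 ?_⟩
    exact (scaleL_mono 1 (hLM.trans hL'.ge)).trans h
  have hnot : ¬ L'.1 ≤ L.1 := by
    intro hle
    have hne : ¬ (M₀ (F := F) (N := N)).1 ≤ L.1 := by
      intro h
      apply hv
      rw [← hcls]
      exact congrArg (Quot.mk _) (Subtype.ext (le_antisymm hn.1 h))
    obtain ⟨x, hxM, hxL⟩ := Set.not_subset.1 hne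
    obtain ⟨g, lam, hg⟩ := L.2
    obtain ⟨n, hn1⟩ := exists_le_scale 1 g 0 lam
    have key : ∀ m : ℕ, tpow F (-(m : ℤ)) • x ∈ L.1 → x ∈ L.1 := by
      intro m
      induction m with
      | zero => simp
      | succ m ih =>
        intro h
        refine ih (hle (hL'.ge ⟨?_, ?_⟩))
        · exact smul_mem_of_degLE hxM (degLE_tpow.2 (by omega))
        · rw [SetLike.mem_coe, mem_scaleL, smul_smul, ← tpow_add]
          rw [show -1 + -(m : ℤ) = -((m + 1 : ℕ) : ℤ) by push_cast; ring]
          exact h
    refine hxL (key n ?_)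
    have := hn1 hxM
    rwa [← hg, mem_scaleL] at this
  refine ⟨Quot.mk _ L', ?_, ?_⟩
  · have h1 := vol_lt (hLM.trans hL'.ge) hnot
    have h2 := hn'.vol_nonpos
    have h3 : vol (nrep hN (Quot.mk _ L')) = vol L' := by
      obtain ⟨g', lam', hg'⟩ := L'.2
      rw [vol_eq hg', vol_eq (L := nrep hN _) ((nrep_eq hN rfl hn').trans hg')]
    unfold colen
    rw [h3, ← hL]
    omega
  · rw [nrep_eq hN rfl hn', hL']

/-- The building is acyclic. -/
theorem bldg_acyclic (hN : 1 ≤ N) [DecidableEq (BVert F N)] (k : ℕ) : Acyclic (Bldg F N) k := by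
  classical
  let apex : BVert F N → BVert F N := fun v =>
    if hv : v = oVert F N then v else (exists_apex hN v hv).choose
  refine acyclic_of_apex (Bldg F N) bldg_downClosed (colen hN) (oVert F N) ?_ ?_ apex ?_ ?_ k
  · refine ⟨fun _ => M₀, fun v hv => ?_, fun v _ w _ => ⟨Or.inl le_rfl, le_scaleL zero_le_one _⟩⟩
    rw [Finset.mem_singleton.1 hv]
    rfl
  · have hn : Normal (M₀ (F := F) (N := N)) := by
      refine ⟨le_rfl, fun h => ?_⟩
      have := vol_mono (L := scaleLat 1 M₀) (L' := M₀) h
      rw [vol_scaleLat, vol_M₀] at this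
      omega
    have h1 : vol (nrep hN (oVert F N)) = vol (M₀ (F := F) (N := N)) :=
      (vol_eq (L := nrep hN (oVert F N)) ((nrep_eq hN rfl hn).trans rfl)).trans (vol_eq rfl).symm
    simp [colen, h1, vol_M₀]
  · intro v hv
    simp only [apex, dif_neg hv]
    exact (exists_apex hN v hv).choose_spec.1
  · intro v hv s hs hle
    set a := apex v with ha
    have hspec : (nrep hN a).1 = (M₀ (F := F) (N := N)).1 ⊓ scaleL F N 1 (nrep hN v).1 := by
      simp only [ha, apex, dif_neg hv]
      exact (exists_apex hN v hv).choose_spec.2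
    obtain ⟨hcls, hn⟩ := nrep_spec hN v
    set L := nrep hN v with hL
    obtain ⟨rep, hrep⟩ := exists_reps_above hs.2 (Finset.mem_insert_self v s) hcls
    have hn_w : ∀ w ∈ insert v s, (nrep hN w).1 =
        if w = v then L.1 else (rep w).1 := by
      intro w hw
      by_cases hwv : w = v
      · simp [hwv, hL]
      rw [if_neg hwv]
      obtain ⟨hc, hlo, hup, _⟩ := hrep w hw
      have hne : ¬ (rep w).1 ≤ L.1 := by
        intro h
        apply hwv
        rw [← hc, ← hcls]
        exact congrArg (Quot.mk _) (Subtype.ext (le_antisymm h hlo))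
      by_cases hin : (rep w).1 ≤ (M₀ (F := F) (N := N)).1
      · exact nrep_eq hN hc ⟨hin, fun h => hn.2 ((scaleL_mono 1 hlo).trans h)⟩
      · exfalso
        have hdown : (scaleLat (-1) (rep w)).1 ≤ L.1 := by
          rw [scaleLat_val, scaleL_le_comm]
          simpa using hup
        have hnd : Normal (scaleLat (-1) (rep w)) := by
          refine ⟨hdown.trans hn.1, fun h => hin ?_⟩
          simpa using h
        have hne' : ¬ L.1 ≤ (scaleLat (-1) (rep w)).1 := by
          intro h
          apply hwv
          rw [← hc, ← hcls, ← cls_scaleLat (-1) (rep w)]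
          exact congrArg (Quot.mk _) (Subtype.ext (le_antisymm hdown h))
        have h1 := vol_lt hdown hne'
        have h2 := nrep_eq hN ((cls_scaleLat (-1) (rep w)).trans hc) hnd
        have h3 : vol (nrep hN w) = vol (scaleLat (-1) (rep w)) := by
          obtain ⟨g', lam', hg'⟩ := (scaleLat (-1) (rep w)).2
          rw [vol_eq hg', vol_eq (h2.trans hg')]
        have h4 := hle w (Finset.mem_of_mem_insert_of_ne hw hwv)
        have h5 := hn.vol_nonpos
        unfold colen at h4
        rw [h3, ← hL] at h4
        omega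
    have hrange : ∀ w ∈ insert a (insert v s),
        L.1 ≤ (nrep hN w).1 ∧ (nrep hN w).1 ≤ (nrep hN a).1 := by
      intro w hw
      rcases Finset.mem_insert.1 hw with rfl | hw
      · exact ⟨hspec ▸ le_inf hn.1 (le_scaleL zero_le_one _), le_rfl⟩
      · have hw' := hn_w w hw
        by_cases hwv : w = v
        · rw [if_pos hwv] at hw'
          rw [hw', hspec]
          exact ⟨le_rfl, le_inf hn.1 (le_scaleL zero_le_one _)⟩
        · rw [if_neg hwv] at hw'
          refine ⟨hw' ▸ (hrep w hw).2.1, ?_⟩
          rw [hspec]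
          exact le_inf (nrep_spec hN w).2.1 (hw' ▸ (hrep w hw).2.2.1)
    refine ⟨nrep hN, fun w _ => (nrep_spec hN w).1, fun w hw x hx => ⟨?_, ?_⟩⟩
    · rcases Finset.mem_insert.1 hw with hwa | hw'
      · rw [hwa]; exact Or.inr (hrange x hx).2
      rcases Finset.mem_insert.1 hx with hxa | hx'
      · rw [hxa]; exact Or.inl (hrange w hw).2
      by_cases hwv : w = v
      · exact Or.inl (hwv ▸ (hrange x hx).1)
      by_cases hxv : x = v
      · exact Or.inr (hxv ▸ (hrange w hw).1)
      rw [hn_w w hw', hn_w x hx', if_neg hwv, if_neg hxv]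
      exact (hrep w hw').2.2.2 x hx'
    · refine (hrange x hx).2.trans ?_
      rw [hspec]
      exact inf_le_right.trans (scaleL_mono 1 (hrange w hw).1)

end Vale.Agent.P067
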