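import Vale.Agent.P067.LatticeNbr
import Vale.Agent.P067.LatticeAcyclic

/-!
Stabilisers in the congruence subgroups, the closeness lemma and the star of the standard vertex.
-/

namespace Vale.Agent.P067

open Polynomial

variable {F : Type} [Field F] {N : ℕ}

/-! ### Congruences -/

lemma mem_congr_iff {m : ℕ} {g : PMat F N} :
    g ∈ congr F N m ↔ ∀ i j, (Polynomial.X : F[X]) ^ m ∣
      (g : Matrix (Fin N) (Fin N) F[X]) i j - (1 : Matrix (Fin N) (Fin N) F[X]) i j := by
  rw [congr, MonoidHom.mem_ker, Matrix.GeneralLinearGroup.ext_iff]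
  refine forall_congr' fun i => forall_congr' fun j => ?_
  rw [Matrix.GeneralLinearGroup.map_apply, ← Ideal.mem_span_singleton,
    ← Ideal.Quotient.eq_zero_iff_mem, map_sub, sub_eq_zero]
  rcases eq_or_ne i j with rfl | h
  · simp
  · simp [h]

lemma congr_mono {m n : ℕ} (h : m ≤ n) : congr F N n ≤ congr F N m := fun _ hg =>
  mem_congr_iff.2 fun i j => (pow_dvd_pow _ h).trans (mem_congr_iff.1 hg i j)

lemma congr_conj_mem {m : ℕ} {g γ : PMat F N} (hγ : γ ∈ congr F N m) :
    g⁻¹ * γ * g ∈ congr F N m := by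
  have h : g⁻¹ * γ * g⁻¹⁻¹ ∈ congr F N m := (MonoidHom.normal_ker _).conj_mem γ hγ g⁻¹
  rwa [inv_inv] at h

lemma coeff_zero_of_mem_congr {γ : PMat F N} (hγ : γ ∈ congr F N 1) (i j : Fin N) :
    ((γ : Matrix (Fin N) (Fin N) F[X]) i j).coeff 0 = if i = j then 1 else 0 := by
  have h := mem_congr_iff.1 hγ i j
  rw [pow_one, Polynomial.X_dvd_iff, coeff_sub, sub_eq_zero] at h
  rw [h, Matrix.one_apply]
  split_ifs <;> simp

lemma diag_le {a : PMat F N} (ha : a ∈ congr F N 1) {mu lam : Fin N → ℤ}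
    (h : (stdLat F N mu).map (gMap F N a) ≤ stdLat F N lam) (i : Fin N) : mu i ≤ lam i := by
  have h1 := map_stdLat_le_iff.1 h i i
  rw [ratMat_apply, degLE_polynomial_iff] at h1
  have hne : (a : Matrix (Fin N) (Fin N) F[X]) i i ≠ 0 := by
    intro h0
    have := coeff_zero_of_mem_congr ha i i
    simp [h0] at this
  have := h1.resolve_left hne
  omega

lemma entry_eq_one {m : ℕ} (hm1 : 1 ≤ m) {a : PMat F N} (ha : a ∈ congr F N m) {mu lam : Fin N → ℤ}
    (h : (stdLat F N mu).map (gMap F N a) ≤ stdLat F N lam) {i j : Fin N}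
    (hlt : lam i - mu j < m) :
    (a : Matrix (Fin N) (Fin N) F[X]) i j = (1 : Matrix (Fin N) (Fin N) F[X]) i j := by
  have hm := mem_congr_iff.1 ha i j
  have h1 := map_stdLat_le_iff.1 h i j
  rw [ratMat_apply, degLE_polynomial_iff] at h1
  rw [← sub_eq_zero]
  by_contra hne
  have h2 := Polynomial.natDegree_le_of_dvd hm hne
  rw [Polynomial.natDegree_X_pow] at h2
  have h3 := Polynomial.natDegree_sub_le ((a : Matrix (Fin N) (Fin N) F[X]) i j)
    ((1 : Matrix (Fin N) (Fin N) F[X]) i j)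
  have h4 : ((1 : Matrix (Fin N) (Fin N) F[X]) i j).natDegree = 0 := by
    rw [Matrix.one_apply]; split_ifs <;> simp
  rcases h1 with h1 | h1
  · rw [h1, natDegree_zero, h4] at h3
    rw [h1] at h2
    omega
  · omega

/-- Relation between two lattices `t^c γL ⊇ L` and `γL ⊆ t^d L`. -/
lemma conj_bounds {g γ : PMat F N} {lam : Fin N → ℤ} {c d : ℤ}
    (h1 : lat F N g lam ≤ scaleL F N c (lat F N (γ * g) lam))
    (h2 : lat F N (γ * g) lam ≤ scaleL F N d (lat F N g lam)) :
    (stdLat F N lam).map (gMap F N (g⁻¹ * γ * g)) ≤ stdLat F N (fun i => lam i + d) ∧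
      (stdLat F N lam).map (gMap F N (g⁻¹ * γ * g)⁻¹) ≤ stdLat F N (fun i => lam i + c) := by
  constructor
  · have := Submodule.map_mono (f := gMap F N g⁻¹) h2
    rw [scaleL_lat, map_gMap_lat, map_gMap_lat, inv_mul_cancel, lat_one, ← mul_assoc] at this
    exact this
  · have := Submodule.map_mono (f := gMap F N (γ * g)⁻¹) h1
    rw [scaleL_lat, map_gMap_lat, map_gMap_lat, inv_mul_cancel, lat_one] at this
    rwa [show (g⁻¹ * γ * g)⁻¹ = (γ * g)⁻¹ * g by group]

/-! ### Stabilisers -/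

lemma stab_bounds {g γ : PMat F N} {lam : Fin N → ℤ} (hγ : γ ∈ congr F N 1)
    (hfix : actB F N γ (latClass F N g lam) = latClass F N g lam) :
    (stdLat F N lam).map (gMap F N (g⁻¹ * γ * g)) ≤ stdLat F N lam := by
  rcases isEmpty_or_nonempty (Fin N) with hN | ⟨⟨i₀⟩⟩
  · exact fun v _ => mem_stdLat.2 fun i => isEmptyElim i
  rw [actB_latClass] at hfix
  obtain ⟨z, hz⟩ := latClass_eq_iff.1 hfix
  rw [← scaleL_lat] at hz
  obtain ⟨ha, hb⟩ := conj_bounds (g := g) (γ := γ) (lam := lam) (c := z) (d := -z) hz.le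
    (by rw [hz, scaleL_scaleL, neg_add_cancel, scaleL_zero])
  have hmem := congr_conj_mem (g := g) hγ
  have h1 := diag_le hmem ha i₀
  have h2 := diag_le ((congr F N 1).inv_mem hmem) hb i₀
  have hz0 : z = 0 := by omega
  simpa [hz0] using ha

lemma pow_char_of_triangular [Nonempty (Fin N)] (p : ℕ) [Fact p.Prime] [CharP F p]
    {lam : Fin N → ℤ} {n : Matrix (Fin N) (Fin N) F[X]}
    (hn : ∀ i j, n i j ≠ 0 → lam j < lam i) :
    ∃ k : ℕ, (1 + n) ^ p ^ k = 1 := by
  have hpow : ∀ (k : ℕ) i j, (n ^ k) i j ≠ 0 → lam j + k ≤ lam i := by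
    intro k
    induction k with
    | zero =>
      intro i j h
      rcases eq_or_ne i j with rfl | hij
      · simp
      · simp [hij] at h
    | succ k ih =>
      intro i j h
      rw [pow_succ, Matrix.mul_apply] at h
      obtain ⟨l, -, hl⟩ := Finset.exists_ne_zero_of_sum_ne_zero h
      have h1 := ih i l (left_ne_zero_of_mul hl)
      have h2 := hn l j (right_ne_zero_of_mul hl)
      push_cast
      omega
  obtain ⟨K, hK⟩ : ∃ K : ℕ, ∀ i j, lam i - lam j < K := by
    refine ⟨(∑ i, ∑ j, (lam i - lam j).natAbs) + 1, fun i j => ?_⟩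
    have h1 : (lam i - lam j).natAbs ≤ ∑ j, (lam i - lam j).natAbs :=
      Finset.single_le_sum (f := fun j => (lam i - lam j).natAbs) (fun _ _ => Nat.zero_le _)
        (Finset.mem_univ j)
    have h2 : ∑ j, (lam i - lam j).natAbs ≤ ∑ i, ∑ j, (lam i - lam j).natAbs :=
      Finset.single_le_sum (f := fun i => ∑ j, (lam i - lam j).natAbs) (fun _ _ => Nat.zero_le _)
        (Finset.mem_univ i)
    omega
  refine ⟨K, ?_⟩
  rw [add_pow_char_pow_of_commute p _ (h := Commute.one_left n), one_pow]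
  have hz : n ^ p ^ K = 0 := by
    ext1 i j
    by_contra h
    have h1 := hpow _ i j h
    have h2 := Nat.lt_pow_self (Fact.out : p.Prime).one_lt (n := K)
    have h3 := hK i j
    omega
  rw [hz, add_zero]

/-- Elements of `congr 1` fixing a vertex have `p`-power order. -/
theorem stab_pow_eq_one (p : ℕ) [Fact p.Prime] [CharP F p] {γ : PMat F N}
    (hγ : γ ∈ congr F N 1) {v : BVert F N} (hfix : actB F N γ v = v) :
    ∃ k : ℕ, γ ^ p ^ k = 1 := by
  rcases isEmpty_or_nonempty (Fin N) with hN | hN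
  · exact ⟨0, Matrix.GeneralLinearGroup.ext fun i => isEmptyElim i⟩
  obtain ⟨g, lam, rfl⟩ := exists_latClass v
  set a := g⁻¹ * γ * g with ha
  have hmem : a ∈ congr F N 1 := congr_conj_mem hγ
  have hb := stab_bounds hγ hfix
  rw [← ha] at hb
  obtain ⟨k, hk⟩ := pow_char_of_triangular p (lam := lam)
    (n := (a : Matrix (Fin N) (Fin N) F[X]) - 1) (fun i j h => by
      by_contra hle
      push Not at hle
      refine h ?_
      rw [Matrix.sub_apply, entry_eq_one le_rfl hmem hb (i := i) (j := j) (by push_cast; omega), sub_self])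
  refine ⟨k, ?_⟩
  have hk' : a ^ p ^ k = 1 := Units.ext (by simpa using hk)
  have e : γ = g * a * g⁻¹ := by rw [ha]; group
  rw [e, conj_pow, hk']
  group

/-- The elements of `congr 1` fixing a vertex form a finite set. -/
theorem stab_finite [Finite F] (v : BVert F N) :
    {γ : PMat F N | γ ∈ congr F N 1 ∧ actB F N γ v = v}.Finite := by
  classical
  obtain ⟨g, lam, rfl⟩ := exists_latClass v
  set B : ℕ := ∑ i, ∑ j, (lam i - lam j).natAbs with hB
  let f : PMat F N → Fin N → Fin N → Fin (B + 1) → F := fun γ i j k =>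
    (((g⁻¹ * γ * g : PMat F N) : Matrix (Fin N) (Fin N) F[X]) i j).coeff k
  refine Set.Finite.of_finite_image (f := f) (Set.toFinite _) ?_
  rintro γ ⟨hγ, hγf⟩ δ ⟨hδ, hδf⟩ h
  suffices e : g⁻¹ * γ * g = g⁻¹ * δ * g from mul_left_cancel (mul_right_cancel e)
  apply Matrix.GeneralLinearGroup.ext
  intro i j
  have hdeg : ∀ x : PMat F N, x ∈ congr F N 1 →
      actB F N x (latClass F N g lam) = latClass F N g lam →
      (((g⁻¹ * x * g : PMat F N) : Matrix (Fin N) (Fin N) F[X]) i j).natDegree ≤ B := by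
    intro x hx hxf
    have h1 := map_stdLat_le_iff.1 (stab_bounds hx hxf) i j
    rw [ratMat_apply, degLE_polynomial_iff] at h1
    rcases h1 with h1 | h1
    · simp [h1]
    have h2 : (lam i - lam j).natAbs ≤ ∑ j, (lam i - lam j).natAbs :=
      Finset.single_le_sum (f := fun j => (lam i - lam j).natAbs) (fun _ _ => Nat.zero_le _)
        (Finset.mem_univ j)
    have h3 : ∑ j, (lam i - lam j).natAbs ≤ B := by
      rw [hB]
      exact Finset.single_le_sum (f := fun i => ∑ j, (lam i - lam j).natAbs)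
        (fun _ _ => Nat.zero_le _) (Finset.mem_univ i)
    omega
  apply Polynomial.ext
  intro k
  by_cases hk : k ≤ B
  · exact congrFun (congrFun (congrFun h i) j) ⟨k, by omega⟩
  · rw [coeff_eq_zero_of_natDegree_lt ((hdeg γ hγ hγf).trans_lt (by omega)),
      coeff_eq_zero_of_natDegree_lt ((hdeg δ hδ hδf).trans_lt (by omega))]

/-- A group embedded in `congr 1` fixing a vertex is finite of odd order. -/
theorem stab_finite_odd [Fintype F] (hodd : Odd (Fintype.card F)) {G : Type*} [Group G]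
    (f : G →* PMat F N) (hf : Function.Injective f) (hmem : ∀ x, f x ∈ congr F N 1)
    {v : BVert F N} (hfix : ∀ x, actB F N (f x) v = v) : Finite G ∧ Odd (Nat.card G) := by
  have hfin : Finite G := by
    have := (stab_finite (F := F) (N := N) v).to_subtype
    exact Finite.of_injective (β := {γ : PMat F N | γ ∈ congr F N 1 ∧ actB F N γ v = v})
      (fun x => ⟨f x, hmem x, hfix x⟩) fun a b h => hf (congrArg Subtype.val h)
  refine ⟨hfin, ?_⟩
  obtain ⟨p, hp⟩ := CharP.exists F
  have hpp : Fact p.Prime := ⟨CharP.char_is_prime F p⟩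
  obtain ⟨n, -, hn⟩ := FiniteField.card F p
  by_contra h
  rw [Nat.not_odd_iff_even, even_iff_two_dvd] at h
  obtain ⟨x, hx⟩ := exists_prime_orderOf_dvd_card' 2 h
  obtain ⟨k, hk⟩ := stab_pow_eq_one p (hmem x) (hfix x)
  have h2 : 2 ∣ p ^ k := by
    rw [← hx, orderOf_dvd_iff_pow_eq_one]
    exact hf (by rw [map_pow, map_one, hk])
  have h3 : Odd (p ^ k) := by
    refine Odd.pow ?_
    rw [hn] at hodd
    exact (Nat.odd_pow_iff (PNat.ne_zero n)).1 hodd
  exact (Nat.not_even_iff_odd.2 h3) (even_iff_two_dvd.2 h2)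

/-! ### Closeness -/

lemma pair_bounds [DecidableEq (BVert F N)] {L M : Lattice F N} {x y : BVert F N}
    (hL : Quot.mk _ L = x) (hM : Quot.mk _ M = y) (h : {x, y} ∈ Bldg F N) :
    ∃ a : ℤ, L.1 ≤ scaleL F N (a + 1) M.1 ∧ M.1 ≤ scaleL F N (1 - a) L.1 := by
  obtain ⟨rep, h1, h2⟩ := h
  obtain ⟨zx, hx⟩ := cls_eq_iff.1 (hL.trans (h1 x (by simp)).symm)
  obtain ⟨zy, hy⟩ := cls_eq_iff.1 (hM.trans (h1 y (by simp)).symm)
  refine ⟨zy - zx, ?_, ?_⟩
  · have := (h2 y (by simp) x (by simp)).2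
    rw [hx, hy, scaleL_scaleL] at this
    rw [show zy - zx + 1 = -zx + (1 + zy) by ring, ← scaleL_scaleL, ← scaleL_le_comm]
    exact this
  · have := (h2 x (by simp) y (by simp)).2
    rw [hx, hy, scaleL_scaleL] at this
    rw [show 1 - (zy - zx) = -zy + (1 + zx) by ring, ← scaleL_scaleL, ← scaleL_le_comm]
    exact this

/-- Translates of a low vertex are never at distance two in a deep congruence subgroup. -/
theorem close [DecidableEq (BVert F N)] {m : ℕ} (hm : 8 ≤ m) {γ : PMat F N}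
    (hγ : γ ∈ congr F N m) {v u : BVert F N} (hv : v ∈ lowSet F N)
    (h1 : {v, u} ∈ Bldg F N) (h2 : {u, actB F N γ v} ∈ Bldg F N) : γ = 1 := by
  obtain ⟨g, a, rfl⟩ := hv
  induction u using Quot.ind with
  | mk M =>
    rw [actB_latClass] at h2
    set lam := stdLam N a with hlam
    obtain ⟨α, hα1, hα2⟩ := pair_bounds (L := mkLat F N g lam) (M := M) rfl rfl h1
    obtain ⟨β, hβ1, hβ2⟩ := pair_bounds (L := M) (M := mkLat F N (γ * g) lam) rfl rfl h2
    simp only [mkLat] at hα1 hα2 hβ1 hβ2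
    have hc : lat F N g lam ≤ scaleL F N (α + 1 + (β + 1)) (lat F N (γ * g) lam) := by
      rw [← scaleL_scaleL]
      exact hα1.trans (scaleL_mono _ hβ1)
    have hd : lat F N (γ * g) lam ≤ scaleL F N (1 - β + (1 - α)) (lat F N g lam) := by
      rw [← scaleL_scaleL]
      exact hβ2.trans (scaleL_mono _ hα2)
    obtain ⟨ha, hb⟩ := conj_bounds hc hd
    have hmem : g⁻¹ * γ * g ∈ congr F N m := congr_conj_mem hγ
    have hmem1 : g⁻¹ * γ * g ∈ congr F N 1 := congr_mono (by omega) hmem
    suffices e : g⁻¹ * γ * g = 1 by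
      calc γ = g * (g⁻¹ * γ * g) * g⁻¹ := by group
        _ = 1 := by rw [e]; group
    apply Matrix.GeneralLinearGroup.ext
    intro i j
    have hA := diag_le hmem1 ha i
    have hB := diag_le ((congr F N 1).inv_mem hmem1) hb i
    have hl : ∀ k, 0 ≤ lam k ∧ lam k ≤ 1 := fun k => by
      rw [hlam]; unfold stdLam; split_ifs <;> omega
    rw [entry_eq_one (by omega) hmem ha (i := i) (j := j) (by
      have := hl i; have := hl j; omega), Units.val_one]

/-! ### The star of the standard vertex -/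

lemma oVert_eq : oVert F N = latClass F N 1 (fun _ => 0) := rfl

variable (F N) in
/-- The value at zero of a polynomial matrix. -/
noncomputable def ev0 : PMat F N →* GL (Fin N) F :=
  Matrix.GeneralLinearGroup.map (Polynomial.evalRingHom 0)

variable (F N) in
/-- Constant matrices. -/
noncomputable def cstMat : GL (Fin N) F →* PMat F N :=
  Matrix.GeneralLinearGroup.map Polynomial.C

lemma ev0_cst (c : GL (Fin N) F) : ev0 F N (cstMat F N c) = c := by
  apply Matrix.GeneralLinearGroup.ext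
  intro i j
  simp [ev0, cstMat, Matrix.GeneralLinearGroup.map_apply]

lemma mem_congr_one_of_ev0 {g : PMat F N} (h : ev0 F N g = 1) : g ∈ congr F N 1 := by
  refine mem_congr_iff.2 fun i j => ?_
  have h1 : ((g : Matrix (Fin N) (Fin N) F[X]) i j).eval 0
      = (1 : Matrix (Fin N) (Fin N) F) i j :=
    congrArg (fun x : GL (Fin N) F => (x : Matrix (Fin N) (Fin N) F) i j) h
  rw [← Polynomial.coeff_zero_eq_eval_zero] at h1
  rw [pow_one, Polynomial.X_dvd_iff, coeff_sub, h1, Matrix.one_apply, Matrix.one_apply]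
  split_ifs <;> simp

lemma lat_cst (g : PMat F N) (c : GL (Fin N) F) :
    lat F N (g * cstMat F N c) (fun _ => 0) = lat F N g (fun _ => 0) := by
  have h1 : ∀ d : GL (Fin N) F,
      (stdLat F N (fun _ => 0)).map (gMap F N (cstMat F N d)) ≤ stdLat F N (fun _ => 0) := by
    refine fun d => map_stdLat_le_iff.2 fun i j => ?_
    simpa [ratMat_apply, cstMat, Matrix.GeneralLinearGroup.map_apply, RatFunc.algebraMap_C]
      using degLE_C ((d : Matrix (Fin N) (Fin N) F) i j)
  have h2 : lat F N (cstMat F N c) (fun _ => 0) = stdLat F N (fun _ => 0) := by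
    refine le_antisymm (h1 c) fun v hv => ⟨gMap F N (cstMat F N c)⁻¹ v, ?_, gMap_gMap_inv _ v⟩
    rw [← map_inv]
    exact h1 c⁻¹ ⟨v, hv, rfl⟩
  rw [← map_gMap_lat, h2, lat]

lemma exists_congr_one_translate (g : PMat F N) :
    ∃ γ ∈ congr F N 1, actB F N γ (latClass F N g (fun _ => 0)) = oVert F N := by
  set δ := g * (cstMat F N (ev0 F N g))⁻¹ with hδ
  have hδm : δ ∈ congr F N 1 := by
    apply mem_congr_one_of_ev0
    rw [hδ, map_mul, map_inv, ev0_cst, mul_inv_cancel]
  refine ⟨δ⁻¹, (congr F N 1).inv_mem hδm, ?_⟩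
  rw [actB_latClass, oVert_eq, latClass_eq_iff]
  refine ⟨0, ?_⟩
  have e : δ⁻¹ * g = 1 * cstMat F N (ev0 F N g) := by rw [hδ]; group
  simp only [add_zero, e, lat_cst]

lemma actB_nbr (γ g : PMat F N) (lam : Fin N → ℤ) (V : Submodule F (Fin N → F)) :
    actB F N γ (nbr g lam V) = nbr (γ * g) lam V := by
  refine congrArg (Quot.mk _) (Subtype.ext ?_)
  simp [actL, nbrLat, gMap_mul, Submodule.map_comp]

lemma singleton_mem_bldg (v : BVert F N) : ({v} : Finset (BVert F N)) ∈ Bldg F N := by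
  classical
  induction v using Quot.ind with
  | mk L =>
    refine ⟨fun _ => L, fun w hw => (Finset.mem_singleton.1 hw).symm, fun a _ b _ => ?_⟩
    exact ⟨Or.inl le_rfl, le_scaleL zero_le_one _⟩

lemma oVert_mem_lowSet : oVert F N ∈ lowSet F N := by
  refine ⟨1, 0, ?_⟩
  rw [oVert_eq]
  congr 1

lemma coordSub_top_sup {A J : Finset (Fin N)}
    (h : coordSub F J ⊔ coordSub F A = ⊤) : ∀ i ∉ A, i ∈ J := by
  intro i hiA
  by_contra hiJ
  have h1 : (Pi.single i 1 : Fin N → F) ∈ coordSub F J ⊔ coordSub F A := h ▸ Submodule.mem_top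
  rw [Submodule.mem_sup] at h1
  obtain ⟨y, hy, z, hz, e⟩ := h1
  have := congrFun e i
  rw [Pi.add_apply, hy i hiJ, hz i hiA, add_zero, Pi.single_eq_same] at this
  exact zero_ne_one this

lemma coordSub_inf_eq_bot {A J : Finset (Fin N)} (h : ∀ i ∈ J, i ∉ A) :
    coordSub F J ⊓ coordSub F A = ⊥ := by
  rw [eq_bot_iff]
  rintro x ⟨hx1, hx2⟩
  funext i
  by_cases hi : i ∈ J
  · exact hx2 i (h i hi)
  · exact hx1 i hi

lemma coordSub_sup_eq_top {A J : Finset (Fin N)} (h : ∀ i ∉ A, i ∈ J) :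
    coordSub F J ⊔ coordSub F A = ⊤ := by
  rw [eq_top_iff]
  rintro x -
  rw [Submodule.mem_sup]
  refine ⟨fun i => if i ∈ A then 0 else x i, fun i hi => ?_, fun i => if i ∈ A then x i else 0,
    fun i hi => if_neg hi, ?_⟩
  · by_cases hiA : i ∈ A
    · exact if_pos hiA
    · exact absurd (h i hiA) hi
  · funext i
    simp only [Pi.add_apply]
    split_ifs <;> simp

lemma coordSub_disj {A J : Finset (Fin N)} (h : coordSub F J ⊓ coordSub F A = ⊥) :
    ∀ i ∈ J, i ∉ A := by
  intro i hiJ hiA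
  have h1 : (Pi.single i 1 : Fin N → F) ∈ coordSub F J ⊓ coordSub F A :=
    ⟨fun k hk => Pi.single_eq_of_ne (fun e => hk (by rw [e]; exact hiJ)) _,
      fun k hk => Pi.single_eq_of_ne (fun e => hk (by rw [e]; exact hiA)) _⟩
  rw [h, Submodule.mem_bot] at h1
  simpa using congrFun h1 i

lemma map_coordSub_top {lam : Fin N → ℤ} {A : Finset (Fin N)}
    (hA : Fl F lam 1 = coordSub F A) {p : (Fin N → F) ≃ₗ[F] (Fin N → F)} (hp : FlPres lam p) :
    (coordSub F A).map p.toLinearMap = coordSub F A := by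
  rw [← hA]
  refine Submodule.eq_of_le_of_finrank_eq ?_ (LinearEquiv.finrank_map_eq p _)
  rintro _ ⟨y, hy, rfl⟩
  exact hp 1 y hy

lemma low_profile {g : PMat F N} {a : ℕ} {V : Submodule F (Fin N → F)}
    (h : nbr g (stdLam N a) V ∈ lowSet F N) :
    V ⊓ Fl F (stdLam N a) 1 = ⊥ ∨ V ⊔ Fl F (stdLam N a) 1 = ⊤ := by
  classical
  set lam := stdLam N a with hlam
  set A := Finset.univ.filter fun i : Fin N => (i : ℕ) < a with hAdef
  have hA : Fl F lam 1 = coordSub F A := by
    ext x
    refine forall_congr' fun i => ?_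
    simp only [hlam, stdLam, hAdef, Finset.mem_filter, Finset.mem_univ, true_and]
    split_ifs with h <;> simp [h]
  obtain ⟨p, J, hp, rfl⟩ := exists_adapted lam V
  obtain ⟨g', b, hb⟩ := h
  rw [← nbr_mul_levLift hp g, nbr_coordSub] at hb
  obtain ⟨s, z, hs⟩ := lam_unique hb
  have hrange : ∀ i, ∃ j, lam i + (if i ∈ J then 1 else 0) + z = stdLam N b j := by
    intro i
    refine ⟨s.symm i, ?_⟩
    rw [congrFun hs (s.symm i)]
    simp [Equiv.apply_symm_apply]
  have hb01 : ∀ j, 0 ≤ stdLam N b j ∧ stdLam N b j ≤ 1 := fun j => by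
    unfold stdLam; split_ifs <;> omega
  rw [hA, ← map_coordSub_top hA hp, ← Submodule.map_inf _ p.injective, ← Submodule.map_sup]
  by_cases h2 : ∀ i ∈ J, i ∉ A
  · left
    rw [coordSub_inf_eq_bot h2, Submodule.map_bot]
  · right
    push Not at h2
    obtain ⟨i, hiJ, hiA⟩ := h2
    rw [coordSub_sup_eq_top fun k hk => ?_, Submodule.map_top, LinearEquiv.range]
    by_contra hkJ
    obtain ⟨j1, h1⟩ := hrange i
    obtain ⟨j2, h2⟩ := hrange k
    have e1 : lam i = 1 := by
      simp only [hlam, stdLam]; rw [if_pos]; simpa [hAdef] using hiA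
    have e2 : lam k = 0 := by
      simp only [hlam, stdLam]; rw [if_neg]; simpa [hAdef] using hk
    rw [e1, if_pos hiJ] at h1
    rw [e2, if_neg hkJ] at h2
    have := hb01 j1
    have := hb01 j2
    omega

lemma exists_between_compl {W Va Vb : Submodule F (Fin N → F)} (hab : Va ≤ Vb)
    (ha : Va ⊓ W = ⊥) (hb : Vb ⊔ W = ⊤) :
    ∃ U, Va ≤ U ∧ U ≤ Vb ∧ U ⊓ W = ⊥ ∧ U ⊔ W = ⊤ := by
  obtain ⟨K, hK⟩ := exists_isCompl (Va ⊔ W ⊓ Vb)
  have hsup : (Va ⊔ W ⊓ Vb) ⊔ Vb ⊓ K = Vb := by
    rw [inf_comm Vb K, ← sup_inf_assoc_of_le _ (sup_le hab inf_le_right), hK.sup_eq_top, top_inf_eq]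
  refine ⟨Va ⊔ Vb ⊓ K, le_sup_left, sup_le hab inf_le_left, ?_, ?_⟩
  · have hd1 : Disjoint (W ⊓ Vb) Va := by
      rw [disjoint_iff, ← le_bot_iff, ← ha]
      exact le_inf inf_le_right (inf_le_left.trans inf_le_left)
    have hd2 : Disjoint (W ⊓ Vb ⊔ Va) (Vb ⊓ K) := by
      rw [sup_comm]
      exact hK.disjoint.mono_right inf_le_right
    have hd := (hd1.disjoint_sup_right_of_disjoint_sup_left hd2).eq_bot
    rw [eq_bot_iff, ← hd]
    exact le_inf (le_inf inf_le_right (inf_le_left.trans (sup_le hab inf_le_left))) inf_le_left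
  · rw [eq_top_iff, ← hb]
    refine sup_le ?_ le_sup_right
    have h1 : Va ≤ Va ⊔ Vb ⊓ K ⊔ W := le_trans (le_sup_left (b := Vb ⊓ K)) le_sup_left
    have h2 : W ⊓ Vb ≤ Va ⊔ Vb ⊓ K ⊔ W := le_trans (inf_le_left (b := Vb)) le_sup_right
    have h3 : Vb ⊓ K ≤ Va ⊔ Vb ⊓ K ⊔ W := le_trans (le_sup_right (a := Va)) le_sup_left
    exact hsup.symm.le.trans (sup_le (sup_le h1 h2) h3)

open Classical in
/-- A low simplex has a neighbour of spread zero. -/
lemma exists_zero_nbr {s : Finset (BVert F N)} (hs : s ∈ lowCx F N) :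
    ∃ g, insert (latClass F N g (fun _ => 0)) s ∈ lowCx F N := by
  have hlow : ∀ g : PMat F N, latClass F N g (fun _ => 0) ∈ lowSet F N := fun g => by
    refine ⟨g, 0, ?_⟩
    congr 1
  rcases s.eq_empty_or_nonempty with rfl | ⟨v, hv⟩
  · exact ⟨1, by
      refine ⟨by simpa using singleton_mem_bldg _, fun w hw => ?_⟩
      simp only [Finset.mem_insert, Finset.notMem_empty, or_false] at hw
      exact hw ▸ hlow 1⟩
  obtain ⟨g, a, hga⟩ := hs.2 v hv
  set lam := stdLam N a with hlam
  have hlink : s.erase v ∈ link (Bldg F N) (latClass F N g lam) := by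
    rw [← hga]
    exact ⟨Finset.notMem_erase _ _, by rw [Finset.insert_erase hv]; exact hs.1⟩
  obtain ⟨S, hS, hch, he⟩ := mem_link_iff.1 hlink
  set W := Fl F lam 1 with hW
  set S0 := S.filter fun V => V ⊓ W = ⊥ with hS0
  set S1 := S.filter fun V => V ⊓ W ≠ ⊥ with hS1
  have hS1W : ∀ V ∈ S1, V ⊔ W = ⊤ := by
    intro V hV
    obtain ⟨hVS, hVW⟩ := Finset.mem_filter.1 hV
    have hl : nbr g lam V ∈ lowSet F N :=
      hs.2 _ (Finset.mem_of_mem_erase (he ▸ Finset.mem_image_of_mem _ hVS))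
    exact (low_profile hl).resolve_left hVW
  have h01 : ∀ V ∈ S0, ∀ V' ∈ S1, V ≤ V' := by
    intro V hV V' hV'
    obtain ⟨hVS, hVW⟩ := Finset.mem_filter.1 hV
    obtain ⟨hVS', hVW'⟩ := Finset.mem_filter.1 hV'
    refine (hch V hVS V' hVS').resolve_right fun hle => hVW' ?_
    rw [eq_bot_iff, ← hVW]
    exact inf_le_inf_right _ hle
  set Va := S0.sup id with hVa
  set Vb := S1.inf id with hVb
  have hVaW : Va ⊓ W = ⊥ := by
    have h : Va = ⊥ ∨ Va ∈ S0 := Finset.sup_induction (p := fun V => V = ⊥ ∨ V ∈ S0) (Or.inl rfl)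
      (fun x hx y hy => by
        rcases hx with rfl | hx
        · simpa using hy
        rcases hy with rfl | hy
        · simpa using Or.inr hx
        rcases hch x (Finset.mem_filter.1 hx).1 y (Finset.mem_filter.1 hy).1 with h | h
        · rw [sup_eq_right.2 h]; exact Or.inr hy
        · rw [sup_eq_left.2 h]; exact Or.inr hx)
      (fun V hV => Or.inr hV)
    rcases h with h | h
    · rw [h, bot_inf_eq]
    · exact (Finset.mem_filter.1 h).2
  have hVbW : Vb ⊔ W = ⊤ := by
    have h : Vb = ⊤ ∨ Vb ∈ S1 := Finset.inf_induction (p := fun V => V = ⊤ ∨ V ∈ S1) (Or.inl rfl)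
      (fun x hx y hy => by
        rcases hx with rfl | hx
        · simpa using hy
        rcases hy with rfl | hy
        · simpa using Or.inr hx
        rcases hch x (Finset.mem_filter.1 hx).1 y (Finset.mem_filter.1 hy).1 with h | h
        · rw [inf_eq_left.2 h]; exact Or.inr hx
        · rw [inf_eq_right.2 h]; exact Or.inr hy)
      (fun V hV => Or.inr hV)
    rcases h with h | h
    · rw [h, top_sup_eq]
    · exact hS1W _ h
  obtain ⟨U, hU1, hU2, hU3, hU4⟩ := exists_between_compl
    (Finset.sup_le fun V hV => Finset.le_inf fun V' hV' => h01 V hV V' hV') hVaW hVbW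
  obtain ⟨p, J, hp, hUJ⟩ := exists_adapted lam U
  set A := Finset.univ.filter fun i : Fin N => (i : ℕ) < a with hAdef
  have hA : W = coordSub F A := by
    ext x
    refine forall_congr' fun i => ?_
    simp only [hlam, stdLam, hAdef, Finset.mem_filter, Finset.mem_univ, true_and]
    split_ifs with h <;> simp [h]
  rw [hA, ← map_coordSub_top hA hp, hUJ, ← Submodule.map_inf _ p.injective,
    Submodule.map_eq_bot_iff] at hU3
  rw [hA, ← map_coordSub_top hA hp, hUJ, ← Submodule.map_sup] at hU4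
  have hJ1 := coordSub_disj hU3
  have hJ2 := coordSub_top_sup
    (Submodule.map_injective_of_injective p.injective
      (hU4.trans (by rw [Submodule.map_top, LinearEquiv.range])))
  have hlam1 : (fun i => lam i + if i ∈ J then 1 else 0) = fun i : Fin N => (0:ℤ) + 1 := by
    funext i
    by_cases hi : i ∈ A
    · rw [if_neg fun h => hJ1 i h hi, hlam]
      simp only [stdLam]
      rw [if_pos (by simpa [hAdef] using hi)]
      omega
    · rw [if_pos (hJ2 i hi), hlam]
      simp only [stdLam]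
      rw [if_neg (by simpa [hAdef] using hi)]
  have hu : nbr g lam U = latClass F N (g * levLift lam p hp) (fun _ => 0) := by
    rw [hUJ, ← nbr_mul_levLift hp g, nbr_coordSub, hlam1, latClass_add]
  refine ⟨g * levLift lam p hp, ?_, fun w hw => ?_⟩
  swap
  · rcases Finset.mem_insert.1 hw with rfl | hw
    · exact hlow _
    · exact hs.2 w hw
  rw [← hu]
  by_cases hUp : U ≠ ⊥ ∧ U ≠ ⊤
  · have hmem : insert (nbr g lam U) (s.erase v) ∈ link (Bldg F N) (latClass F N g lam) := by
      refine mem_link_iff.2 ⟨insert U S, ?_, ?_, by rw [Finset.image_insert, he]⟩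
      · intro V hV
        rcases Finset.mem_insert.1 hV with rfl | hV
        exacts [hUp, hS V hV]
      · have hcmp : ∀ V ∈ S, V ≤ U ∨ U ≤ V := by
          intro V hV
          by_cases hVW : V ⊓ W = ⊥
          · exact Or.inl ((Finset.le_sup (f := id) (Finset.mem_filter.2 ⟨hV, hVW⟩)).trans hU1)
          · exact Or.inr (hU2.trans (Finset.inf_le (f := id) (Finset.mem_filter.2 ⟨hV, hVW⟩)))
        intro V hV V' hV'
        rcases Finset.mem_insert.1 hV with e | hV <;>
          rcases Finset.mem_insert.1 hV' with e' | hV'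
        · rw [e, e']; exact Or.inl le_rfl
        · rw [e]; exact (hcmp V' hV').symm
        · rw [e']; exact hcmp V hV
        · exact hch V hV V' hV'
    have := hmem.2
    rwa [← hga, Finset.insert_comm, Finset.insert_erase hv] at this
  · have e : nbr g lam U = v := by
      rw [hga]
      rcases not_and_or.1 hUp with h | h
      · rw [not_ne_iff.1 h]
        exact congrArg (Quot.mk _) (Subtype.ext (nbrLat_bot g lam))
      · rw [not_ne_iff.1 h]
        exact (cls_eq_iff.2 ⟨1, nbrLat_top g lam⟩).symm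
    rw [e, Finset.insert_eq_of_mem hv]
    exact hs.1

open Classical in
/-- Every low simplex can be moved into the star of the standard vertex by `congr 1`. -/
theorem exists_translate_star {s : Finset (BVert F N)} (hs : s ∈ lowCx F N) :
    ∃ γ ∈ congr F N 1, insert (oVert F N) (s.image (actB F N γ)) ∈ lowCx F N := by
  obtain ⟨g, hg⟩ := exists_zero_nbr hs
  obtain ⟨γ, hγ, hγo⟩ := exists_congr_one_translate g
  refine ⟨γ, hγ, ?_⟩
  have := image_actB_mem_lowCx γ hg
  rwa [Finset.image_insert, hγo] at this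

lemma star_coords [inst : DecidableEq (BVert F N)] {x : BVert F N} (h : {oVert F N, x} ∈ Bldg F N) :
    ∃ V : Submodule F (Fin N → F), (V = ⊥ ∨ V ≠ ⊤) ∧ x = nbr 1 (fun _ => 0) V := by
  obtain rfl : inst = fun a b => Classical.propDecidable (a = b) := Subsingleton.elim _ _
  classical
  by_cases hx : x = oVert F N
  · refine ⟨⊥, Or.inl rfl, ?_⟩
    rw [hx, oVert_eq]
    exact congrArg (Quot.mk _) (Subtype.ext (nbrLat_bot 1 _).symm)
  have hlink : ({x} : Finset (BVert F N)) ∈ link (Bldg F N) (latClass F N 1 (fun _ => 0)) :=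
    ⟨by simpa [oVert_eq] using Ne.symm hx, h⟩
  obtain ⟨S, hS, -, he⟩ := mem_link_iff.1 hlink
  obtain ⟨V, hV, e⟩ := Finset.mem_image.1 (he ▸ Finset.mem_singleton_self x)
  exact ⟨V, Or.inr (hS V hV).2, e.symm⟩

lemma star_le {γ : PMat F N} (hγ : γ ∈ congr F N 1) {V W : Submodule F (Fin N → F)} {z : ℤ}
    (h : (nbrLat γ (fun _ : Fin N => (0:ℤ)) V).1
      = scaleL F N z (nbrLat (1 : PMat F N) (fun _ : Fin N => (0:ℤ)) W).1) :
    (z ≤ 0 → V ≤ W) ∧ (z ≤ -1 → W = ⊤) := by
  set l0 : Fin N → ℤ := fun _ => 0 with hl0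
  have key : ∀ c : Fin N → F, gMap F N γ (lead F N l0 c) ∈ nbrStd l0 W → c ∈ W := by
    intro c hc
    set q : Fin N → F[X] :=
      fun i => ∑ j, (γ : Matrix (Fin N) (Fin N) F[X]) i j * Polynomial.C (c j) with hq
    have heq : ∀ i, gMap F N γ (lead F N l0 c) i = tpow F 1 * algebraMap _ (RatFunc F) (q i) := by
      intro i
      rw [gMap_lead_apply, hq, map_sum, Finset.mul_sum]
      refine Finset.sum_congr rfl fun j _ => ?_
      simp only [ratMat_apply, lead, hl0, map_mul, RatFunc.algebraMap_C, zero_add]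
      ring
    have hconst : ∀ i, q i = Polynomial.C (c i) := by
      intro i
      have h1 := mem_stdLat.1 (nbrStd_le l0 W hc) i
      rw [heq, degLE_tpow_mul, degLE_polynomial_iff] at h1
      have hd : (q i).natDegree = 0 := by
        rcases h1 with h1 | h1
        · simp [h1]
        · simp only [hl0] at h1; omega
      rw [Polynomial.eq_C_of_natDegree_eq_zero hd]
      congr 1
      simp [hq, coeff_zero_of_mem_congr hγ]
    have he : gMap F N γ (lead F N l0 c) = lead F N l0 c := by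
      funext i
      rw [heq, hconst, RatFunc.algebraMap_C, lead, hl0, zero_add, mul_comm]
    rw [he] at hc
    rw [← subspaceOf_nbrStd l0 W]
    exact hc
  have hW1 : (nbrLat (1 : PMat F N) l0 W).1 = nbrStd l0 W := by
    simp [nbrLat, gMap_one]
  constructor
  · intro hz c hc
    apply key
    have h1 : gMap F N γ (lead F N l0 c) ∈ (nbrLat γ l0 V).1 :=
      Submodule.mem_map_of_mem (Submodule.mem_sup_right (Submodule.subset_span ⟨c, hc, rfl⟩))
    rw [h, hW1] at h1
    simpa using scaleL_mono_left hz _ h1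
  · intro hz
    rw [eq_top_iff]
    intro c _
    apply key
    have e : (fun i => RatFunc.C (c i)) ∈ stdLat F N l0 :=
      mem_stdLat.2 fun i => degLE_C (c i)
    have h1 : gMap F N γ (fun i => RatFunc.C (c i)) ∈ (nbrLat γ l0 V).1 :=
      Submodule.mem_map_of_mem (stdLat_le_nbrStd l0 V e)
    rw [h, hW1] at h1
    have e2 : lead F N l0 c = tpow F 1 • (fun i => RatFunc.C (c i)) := by
      funext i; simp [lead, hl0, mul_comm]
    rw [e2, gMap_smul]
    have h3 : tpow F 1 • gMap F N γ (fun i => RatFunc.C (c i))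
        ∈ scaleL F N 1 (scaleL F N z (nbrStd l0 W)) := by
      rw [mem_scaleL, smul_smul, ← tpow_add, neg_add_cancel, tpow_zero, one_smul]
      exact h1
    rw [scaleL_scaleL] at h3
    simpa using scaleL_mono_left (show 1 + z ≤ 0 by omega) _ h3

/-- Vertices of the star of the standard vertex in the same `congr 1` orbit are equal. -/
theorem star_orbit_eq [DecidableEq (BVert F N)] {γ : PMat F N} (hγ : γ ∈ congr F N 1)
    {x y : BVert F N} (hx : {oVert F N, x} ∈ Bldg F N) (hy : {oVert F N, y} ∈ Bldg F N)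
    (hxy : actB F N γ x = y) : x = y := by
  obtain ⟨V, hV, rfl⟩ := star_coords hx
  obtain ⟨W, hW, rfl⟩ := star_coords hy
  rw [actB_nbr, mul_one] at hxy
  obtain ⟨z, hz⟩ := cls_eq_iff.1 hxy.symm
  have hz2 : (nbrLat (γ⁻¹) (fun _ : Fin N => (0:ℤ)) W).1
      = scaleL F N (-z) (nbrLat (1 : PMat F N) (fun _ : Fin N => (0:ℤ)) V).1 := by
    simp only [nbrLat, gMap_one, Submodule.map_id] at hz ⊢
    have := congrArg (Submodule.map (gMap F N γ⁻¹)) hz
    rw [← Submodule.map_comp, ← gMap_mul, inv_mul_cancel, gMap_one, Submodule.map_id,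
      map_gMap_scaleL] at this
    rw [this, scaleL_scaleL, neg_add_cancel, scaleL_zero]
  obtain ⟨a1, a2⟩ := star_le hγ hz
  obtain ⟨b1, b2⟩ := star_le ((congr F N 1).inv_mem hγ) hz2
  rcases lt_trichotomy z 0 with h | h | h
  · have hWt := a2 (by omega)
    rcases hW with hW | hW
    · have : V ≤ W := a1 (by omega)
      rw [hW, le_bot_iff] at this
      rw [this, hW]
    · exact absurd hWt hW
  · rw [le_antisymm (a1 h.le) (b1 (by omega))]
  · have hVt := b2 (by omega)
    rcases hV with hV | hV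
    · have : W ≤ V := b1 (by omega)
      rw [hV, le_bot_iff] at this
      rw [this, hV]
    · exact absurd hVt hV

open Classical in
/-- Low simplices with the same image modulo `congr 1` are translates of each other. -/
theorem exists_translate_of_orbits {s t : Finset (BVert F N)} (hs : s ∈ lowCx F N)
    (ht : t ∈ lowCx F N)
    (hst : ∀ v ∈ s, ∃ γ ∈ congr F N 1, actB F N γ v ∈ t)
    (hts : ∀ w ∈ t, ∃ γ ∈ congr F N 1, actB F N γ w ∈ s) :
    ∃ γ ∈ congr F N 1, s.image (actB F N γ) = t := by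
  obtain ⟨α, hα, hαs⟩ := exists_translate_star hs
  obtain ⟨β, hβ, hβt⟩ := exists_translate_star ht
  have hpair : ∀ (r : Finset (BVert F N)), insert (oVert F N) r ∈ lowCx F N → ∀ x ∈ r,
      ({oVert F N, x} : Finset (BVert F N)) ∈ Bldg F N := by
    intro r hr x hx
    refine bldg_downClosed _ hr.1 _ ?_
    intro y hy
    simp only [Finset.mem_insert, Finset.mem_singleton] at hy
    rcases hy with rfl | rfl
    · exact Finset.mem_insert_self _ _
    · exact Finset.mem_insert_of_mem hx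
  have mul_app : ∀ (a b : PMat F N) (v : BVert F N),
      actB F N (a * b) v = actB F N a (actB F N b v) := fun a b v => by
    rw [map_mul, Equiv.Perm.mul_apply]
  have hsub : ∀ (a b : PMat F N) (r r' : Finset (BVert F N)), a ∈ congr F N 1 → b ∈ congr F N 1 →
      insert (oVert F N) (r.image (actB F N a)) ∈ lowCx F N →
      insert (oVert F N) (r'.image (actB F N b)) ∈ lowCx F N →
      (∀ v ∈ r, ∃ γ ∈ congr F N 1, actB F N γ v ∈ r') →
      r.image (actB F N a) ⊆ r'.image (actB F N b) := by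
    intro a b r r' ha hb har hbr h x hx
    obtain ⟨v, hv, rfl⟩ := Finset.mem_image.1 hx
    obtain ⟨γ, hγ, hγv⟩ := h v hv
    have hy := Finset.mem_image_of_mem (actB F N b) hγv
    have e := star_orbit_eq (γ := b * γ * a⁻¹)
      ((congr F N 1).mul_mem ((congr F N 1).mul_mem hb hγ) ((congr F N 1).inv_mem ha))
      (hpair _ har _ hx) (hpair _ hbr _ hy)
      (by rw [← mul_app, inv_mul_cancel_right, mul_app])
    exact e ▸ hy
  have heq := le_antisymm (hsub α β s t hα hβ hαs hβt hst) (hsub β α t s hβ hα hβt hαs hts)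
  refine ⟨β⁻¹ * α, (congr F N 1).mul_mem ((congr F N 1).inv_mem hβ) hα, ?_⟩
  have h2 := congrArg (Finset.image (actB F N β⁻¹)) heq
  rw [Finset.image_image, Finset.image_image] at h2
  rw [show (actB F N (β⁻¹ * α) : BVert F N → BVert F N) = actB F N β⁻¹ ∘ actB F N α from
    funext fun v => mul_app _ _ _, h2, show (actB F N β⁻¹ : BVert F N → BVert F N) ∘ actB F N β = id
    from funext fun v => by rw [Function.comp_apply, ← mul_app]; simp, Finset.image_id]

open Classical in
/-- Simplices with equal images in an orbit quotient are translates. -/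
theorem exists_translate_of_image_eq {W : Type*} (pi : BVert F N → W)
    (horb : ∀ v w, v ∈ lowSet F N → w ∈ lowSet F N → pi v = pi w →
      ∃ γ ∈ congr F N 1, actB F N γ v = w)
    {s t : Finset (BVert F N)} (hs : s ∈ lowCx F N) (ht : t ∈ lowCx F N)
    (h : s.image pi = t.image pi) : ∃ γ ∈ congr F N 1, s.image (actB F N γ) = t := by
  refine exists_translate_of_orbits hs ht (fun v hv => ?_) (fun w hw => ?_)
  · obtain ⟨w, hw, e⟩ := Finset.mem_image.1 (h ▸ Finset.mem_image_of_mem pi hv)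
    obtain ⟨γ, hγ, hγv⟩ := horb v w (hs.2 v hv) (ht.2 w hw) e.symm
    exact ⟨γ, hγ, hγv ▸ hw⟩
  · obtain ⟨v, hv, e⟩ := Finset.mem_image.1 (h.symm ▸ Finset.mem_image_of_mem pi hw)
    obtain ⟨γ, hγ, hγw⟩ := horb w v (ht.2 w hw) (hs.2 v hv) e.symm
    exact ⟨γ, hγ, hγw ▸ hv⟩

end Vale.Agent.P067
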