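import Vale.Agent.P067.Core

/-!
Relabelling of vertices in chains.
-/

namespace Vale.Agent.P067

open Finset

variable {V W : Type*} [DecidableEq V] [DecidableEq W]

/-- Push forward of a chain along a vertex map (simplices are mapped to their images). -/
noncomputable def mapChain (f : V → W) : Chain V →ₗ[ZMod 2] Chain W :=
  Finsupp.lmapDomain (ZMod 2) (ZMod 2) (Finset.image f)

lemma mapChain_single (f : V → W) (s : Finset V) (a : ZMod 2) :
    mapChain f (Finsupp.single s a) = Finsupp.single (s.image f) a := by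
  simp [mapChain]

lemma erase_image_of_injOn {f : V → W} {s : Finset V} (hf : Set.InjOn f (s : Set V)) {v : V}
    (hv : v ∈ s) : (s.image f).erase (f v) = (s.erase v).image f := by
  ext w
  simp only [Finset.mem_erase, Finset.mem_image]
  constructor
  · rintro ⟨hne, u, hu, rfl⟩
    exact ⟨u, ⟨fun h => hne (by rw [h]), hu⟩, rfl⟩
  · rintro ⟨u, ⟨hne, hu⟩, rfl⟩
    exact ⟨fun h => hne (hf hu hv h), u, hu, rfl⟩

lemma mapChain_bdry {f : V → W} {z : Chain V}
    (hf : ∀ s, z s ≠ 0 → Set.InjOn f (s : Set V)) :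
    mapChain f (bdry z) = bdry (mapChain f z) := by
  conv_lhs => rw [← Finsupp.sum_single z]
  conv_rhs => rw [← Finsupp.sum_single z]
  simp only [Finsupp.sum, map_sum]
  refine Finset.sum_congr rfl fun s hs => ?_
  rw [mapChain_single, bdry_single, bdry_single, map_smul]
  congr 1
  have hfs := hf s (Finsupp.mem_support_iff.1 hs)
  simp only [bdryS, map_sum, mapChain_single]
  rw [Finset.sum_image hfs]
  exact Finset.sum_congr rfl fun v hv => by rw [erase_image_of_injOn hfs hv]

lemma mapChain_mem_chainsOf {f : V → W} {K : Set (Finset V)} {K' : Set (Finset W)} {k : ℕ}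
    (hf : ∀ s ∈ K, Set.InjOn f (s : Set V)) (hKK' : ∀ s ∈ K, s.image f ∈ K') {z : Chain V}
    (hz : z ∈ chainsOf K k) : mapChain f z ∈ chainsOf K' k := by
  rw [mem_chainsOf] at hz ⊢
  intro t ht
  have : t ∈ (Finsupp.mapDomain (Finset.image f) z).support := Finsupp.mem_support_iff.2 ht
  obtain ⟨s, hs, rfl⟩ := Finset.mem_image.1 (Finsupp.mapDomain_support this)
  obtain ⟨h1, h2⟩ := hz s (Finsupp.mem_support_iff.1 hs)
  exact ⟨hKK' s h1, by rw [Finset.card_image_of_injOn (hf s h1), h2]⟩

lemma mapChain_support_card_le (f : V → W) (z : Chain V) :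
    (mapChain f z).support.card ≤ z.support.card :=
  le_trans (Finset.card_le_card Finsupp.mapDomain_support) Finset.card_image_le

/-- Cone data on a complex. -/
def ConeData (K : Set (Finset V)) (k R : ℕ) (c : Finset V → Chain V) : Prop :=
  ∀ s ∈ K, s.card ≤ k → c s ∈ chainsOf K (s.card + 1) ∧ (c s).support.card ≤ R ∧
    bdry (c s) + ∑ v ∈ s, c (s.erase v) = Finsupp.single s 1

/-- Cone data transports along an isomorphism of complexes. -/
lemma ConeData.map {f : V → W} {g : W → V} {K : Set (Finset V)} {K' : Set (Finset W)}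
    (hf : ∀ s ∈ K, Set.InjOn f (s : Set V)) (hKK' : ∀ s ∈ K, s.image f ∈ K')
    (hg : ∀ t ∈ K', t.image g ∈ K) (hfg : ∀ t ∈ K', ∀ w ∈ t, f (g w) = w)
    {k R : ℕ} {c : Finset V → Chain V} (hc : ConeData K k R c) :
    ConeData K' k R (fun t => mapChain f (c (t.image g))) := by
  intro t ht hk
  have hginj : Set.InjOn g (t : Set W) := by
    intro a ha b hb h
    rw [← hfg t ht a ha, ← hfg t ht b hb, h]
  have hcard : (t.image g).card = t.card := Finset.card_image_of_injOn hginj
  obtain ⟨h1, h2, h3⟩ := hc _ (hg t ht) (by omega)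
  rw [hcard] at h1
  refine ⟨mapChain_mem_chainsOf hf hKK' h1, (mapChain_support_card_le f _).trans h2, ?_⟩
  have e : (t.image g).image f = t := by
    rw [Finset.image_image]
    ext w
    simp only [Finset.mem_image, Function.comp_apply]
    exact ⟨fun ⟨u, hu, h⟩ => by rw [hfg t ht u hu] at h; exact h ▸ hu,
      fun hw => ⟨w, hw, hfg t ht w hw⟩⟩
  have h4 := congrArg (mapChain f) h3
  rw [map_add, mapChain_bdry (fun s hs => hf s (mem_chainsOf.1 h1 s hs).1), map_sum,
    mapChain_single, e, Finset.sum_image hginj] at h4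
  refine Eq.trans ?_ h4
  congr 1
  refine Finset.sum_congr rfl fun v hv => ?_
  rw [erase_image_of_injOn hginj hv]

end Vale.Agent.P067
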