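import Vale.Agent.P067.Core

/-!
Families of subspaces in an interval, closed under generic line extension, and their join
complexes with an arbitrary complex.
-/

namespace Vale.Agent.P067

open Finset Module

variable (F : Type*) {E : Type*} [Field F] [AddCommGroup E] [Module F E]

/-- General position of two subspaces. -/
def GenPos (S V : Submodule F E) : Prop :=
  S ⊓ V = ⊥ ∨ S ⊔ V = ⊤

variable {F}

/-- `Q` lies strictly between `A₀` and `W₀` and is closed under adding lines avoiding at most `B`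
proper subspaces. -/
def Good (Q : Set (Submodule F E)) (A₀ W₀ : Submodule F E) (B : ℕ) : Prop :=
  A₀ ≤ W₀ ∧ (∀ V ∈ Q, A₀ < V ∧ V < W₀) ∧
  ∀ V W : Submodule F E, (V ∈ Q ∨ V = A₀) → (W ∈ Q ∨ W = W₀) → V ≤ W →
    finrank F V + 2 ≤ finrank F W →
    ∃ A : Finset (Submodule F E), A.card ≤ B ∧ (∀ H ∈ A, V ≤ H ∧ H < W) ∧
      ∀ x ∈ W, x ∉ V → (∀ H ∈ A, x ∉ H) → V ⊔ Submodule.span F {x} ∈ Q

/-- The join of the flag complex of `Q` with a complex `KJ`. -/
def joinCx {J : Type*} (Q : Set (Submodule F E)) (KJ : Set (Finset J)) :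
    Set (Finset (Submodule F E ⊕ J)) :=
  {s | (∀ V, Sum.inl V ∈ s → V ∈ Q) ∧
    (∀ V W, Sum.inl V ∈ s → Sum.inl W ∈ s → V ≤ W ∨ W ≤ V) ∧ s.toRight ∈ KJ}

end Vale.Agent.P067
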