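import Vale.Agent.P067.Cone
import Vale.Agent.P067.Interval

/-!
Fillings and cone data for joins of a `Good` family of subspaces with an arbitrary complex.
The bounds do not depend on the field, only on the number of forbidden subspaces.
-/

namespace Vale.Agent.P067

open Finset Module

section Avoid

variable {F E : Type*} [Field F] [Fintype F] [AddCommGroup E] [Module F E]

/-- A subspace is not covered by fewer proper subspaces than there are scalars. -/
lemma exists_mem_forall_notMem (W : Submodule F E) (A : Finset (Submodule F E))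
    (hA : ∀ H ∈ A, ¬ W ≤ H) (hcard : A.card < Fintype.card F) :
    ∃ x ∈ W, ∀ H ∈ A, x ∉ H := by
  classical
  induction A using Finset.induction_on with
  | empty => exact ⟨0, W.zero_mem, by simp⟩
  | @insert p A hp ih =>
    rw [Finset.card_insert_of_notMem hp] at hcard
    obtain ⟨x₁, hx₁W, hx₁⟩ := ih (fun H hH => hA H (Finset.mem_insert_of_mem hH)) (by omega)
    by_cases hx₁p : x₁ ∈ p
    swap
    · refine ⟨x₁, hx₁W, fun H hH => ?_⟩
      rcases Finset.mem_insert.1 hH with rfl | hH
      · exact hx₁p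
      · exact hx₁ H hH
    obtain ⟨x₂, hx₂W, hx₂p⟩ := SetLike.not_le_iff_exists.1 (hA p (Finset.mem_insert_self _ _))
    set bad : Finset F := A.biUnion (fun H => Finset.univ.filter (fun t : F => x₂ + t • x₁ ∈ H))
    have hbad : bad.card ≤ A.card * 1 := by
      refine Finset.card_biUnion_le_card_mul _ _ _ fun H hH => Finset.card_le_one.2 ?_
      intro t ht u hu
      simp only [Finset.mem_filter, Finset.mem_univ, true_and] at ht hu
      by_contra hne
      apply hx₁ H hH
      have h := H.smul_mem (t - u)⁻¹ (H.sub_mem ht hu)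
      rwa [add_sub_add_left_eq_sub, ← sub_smul, smul_smul,
        inv_mul_cancel₀ (sub_ne_zero.2 hne), one_smul] at h
    have : bad ≠ Finset.univ := fun h => by
      rw [h, Finset.card_univ] at hbad
      omega
    obtain ⟨t, ht⟩ : ∃ t, t ∉ bad := by
      by_contra h
      push Not at h
      exact this (Finset.eq_univ_of_forall h)
    refine ⟨x₂ + t • x₁, W.add_mem hx₂W (W.smul_mem t hx₁W), fun H hH hmem => ?_⟩
    rcases Finset.mem_insert.1 hH with rfl | hH
    · exact hx₂p (by simpa using H.sub_mem hmem (H.smul_mem t hx₁p))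
    · exact ht (Finset.mem_biUnion.2 ⟨H, hH, by simp [hmem]⟩)

end Avoid

section Join

variable {F E : Type*} [Field F] [AddCommGroup E] [Module F E] {J : Type*}

lemma joinCx_downClosed (Q : Set (Submodule F E)) {KJ : Set (Finset J)} (hKJ : DownClosed KJ) :
    DownClosed (joinCx Q KJ) := by
  rintro s ⟨h1, h2, h3⟩ t hts
  exact ⟨fun V hV => h1 V (hts hV), fun V W hV hW => h2 V W (hts hV) (hts hW),
    hKJ _ h3 _ (Finset.toRight_subset_toRight hts)⟩

lemma empty_mem_joinCx (Q : Set (Submodule F E)) {KJ : Set (Finset J)}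
    (h0 : (∅ : Finset J) ∈ KJ) :
    (∅ : Finset (Submodule F E ⊕ J)) ∈ joinCx Q KJ :=
  ⟨by simp, by simp, by rwa [show (∅ : Finset (Submodule F E ⊕ J)).toRight = ∅ from rfl]⟩

variable [DecidableEq (Submodule F E ⊕ J)]

lemma toRight_insert_inl' (V : Submodule F E) (t : Finset (Submodule F E ⊕ J)) :
    (insert (Sum.inl V) t).toRight = t.toRight := by
  ext a
  simp

lemma insert_inl_mem_joinCx {Q : Set (Submodule F E)} {KJ : Set (Finset J)}
    {V : Submodule F E} {t : Finset (Submodule F E ⊕ J)} (ht : t ∈ joinCx Q KJ) (hV : V ∈ Q)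
    (hcomp : ∀ U, Sum.inl U ∈ t → U ≤ V ∨ V ≤ U) :
    insert (Sum.inl V) t ∈ joinCx Q KJ := by
  obtain ⟨h1, h2, h3⟩ := ht
  refine ⟨fun U hU => ?_, fun U U' hU hU' => ?_, by rwa [toRight_insert_inl']⟩
  · rcases Finset.mem_insert.1 hU with h | h
    · exact Sum.inl_injective h ▸ hV
    · exact h1 U h
  · rcases Finset.mem_insert.1 hU with h | h <;> rcases Finset.mem_insert.1 hU' with h' | h'
    · exact Or.inl (Sum.inl_injective h ▸ Sum.inl_injective h' ▸ le_rfl)
    · obtain rfl := Sum.inl_injective h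
      exact (hcomp U' h').symm
    · obtain rfl := Sum.inl_injective h'
      exact hcomp U h
    · exact h2 U U' h h'

lemma finrank_sup_span_le [FiniteDimensional F E] (V : Submodule F E) (x : E) :
    finrank F ↥(V ⊔ Submodule.span F {x}) ≤ finrank F ↥V + 1 := by
  refine (Submodule.finrank_add_le_finrank_add_finrank _ _).trans (Nat.add_le_add_left ?_ _)
  simpa using finrank_span_le_card (R := F) ({x} : Set E)

end Join

/-- Generic filling in the join of a `Good` family with an arbitrary complex, with bounds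
independent of the field. -/
theorem fill_join (k M B : ℕ) :
    ∃ R q0 : ℕ, ∀ (F : Type) [Field F] [Fintype F], q0 ≤ Fintype.card F →
      ∀ (E : Type) [AddCommGroup E] [Module F E] [FiniteDimensional F E]
        (Q : Set (Submodule F E)) (A₀ W₀ : Submodule F E), Good Q A₀ W₀ B →
        finrank F A₀ + k + 2 ≤ finrank F W₀ →
        ∀ (J : Type) [DecidableEq (Submodule F E ⊕ J)] (KJ : Set (Finset J)), DownClosed KJ →
          (∅ : Finset J) ∈ KJ → FillBound (joinCx Q KJ) k M R := by
  induction k generalizing M with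
  | zero =>
    refine ⟨M, B + 2, fun F _ _ hq E _ _ _ Q A₀ W₀ hQ hgap J _ KJ hKJ h0 => ?_⟩
    intro z hz hbz hM
    obtain ⟨hAW, hQint, hext⟩ := hQ
    obtain ⟨A, hAcard, hAH, hA⟩ := hext A₀ W₀ (Or.inr rfl) (Or.inr rfl) hAW (by omega)
    classical
    obtain ⟨x, hxW, hx⟩ := exists_mem_forall_notMem W₀ (insert A₀ A)
      (fun H hH => by
        rcases Finset.mem_insert.1 hH with rfl | hH
        · intro h
          have := Submodule.finrank_mono (R := F) h
          omega
        · exact not_le_of_gt (hAH H hH).2)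
      (lt_of_le_of_lt (Finset.card_insert_le _ _) (by omega))
    have hL := hA x hxW (hx A₀ (Finset.mem_insert_self _ _))
      (fun H hH => hx H (Finset.mem_insert_of_mem hH))
    refine ⟨cone (Sum.inl (A₀ ⊔ Submodule.span F {x})) z, ?_, ?_,
      (card_support_cone_le _ z).trans hM⟩
    · refine cone_mem_chainsOf (mem_chainsOf.2 fun t ht => ?_)
      obtain ⟨h1, h2⟩ := mem_chainsOf.1 hz t ht
      obtain rfl := Finset.card_eq_zero.1 h2
      exact ⟨⟨Finset.notMem_empty _, insert_inl_mem_joinCx h1 hL (by simp)⟩, rfl⟩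
    · have h := bdry_cone (Sum.inl (A₀ ⊔ Submodule.span F {x})) z
      rwa [hbz, map_zero, add_zero] at h
  | succ j ih =>
    choose Rj qj hj using ih
    -- first round: remove hyperplanes of `W₀`; second round: make everything contain a line
    let n₁ := M * (j + 1)
    let M₁ := (elimBound Rj n₁ M).1
    let n₂ := M₁ * (j + 1)
    let M₂ := (elimBound id n₂ M₁).1
    refine ⟨(elimBound Rj n₁ M).2 + ((elimBound id n₂ M₁).2 + M₂),
      (Finset.range (M₁ + 1)).sup qj + (M₁ * (j + 1) + 1) * (B + 1) + 1,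
      fun F _ _ hq E _ _ _ Q A₀ W₀ hQ hgap J _ KJ hKJ h0 => ?_⟩
    classical
    intro z hz hbz hM
    obtain ⟨hAW, hQint, hext⟩ := hQ
    set K := joinCx Q KJ with hKdef
    have hK : DownClosed K := joinCx_downClosed Q hKJ
    set Ok₁ : Set (Submodule F E ⊕ J) :=
      {v | ∀ U, v = Sum.inl U → finrank F U + 2 ≤ finrank F W₀} with hOk₁
    -- first round
    obtain ⟨z₁, hz₁, w₁, hw₁, hbw₁, hbz₁, hz₁c, hw₁c, hok₁⟩ :=
      elim K hK Ok₁ (chainVerts z) j Rj M₁ (by
        intro M' hM' y hy hby hyc _ ⟨v, hvy, hvo⟩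
        refine ⟨v, hvy, hvo, ?_⟩
        simp only [hOk₁, Set.mem_ofPred_eq, not_forall] at hvo
        obtain ⟨U, rfl, hU⟩ := hvo
        obtain ⟨s, hs, hUs⟩ := mem_chainVerts.1 hvy
        have hUQ : U ∈ Q := (mem_chainsOf.1 hy s hs).1.1 U hUs
        have hUW := Submodule.finrank_lt_finrank_of_lt (hQint U hUQ).2
        set Q' : Set (Submodule F E) := {V | V ∈ Q ∧ V < U} with hQ'
        have hgood : Good Q' A₀ U B := by
          refine ⟨(hQint U hUQ).1.le, fun V hV => ⟨(hQint V hV.1).1, hV.2⟩,
            fun V W hV hW hVW hd => ?_⟩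
          have hWU : W ≤ U := hW.elim (fun h => h.2.le) (fun h => h.le)
          obtain ⟨A, hAc, hAH, hA⟩ := hext V W (hV.imp_left And.left)
            (Or.inl (hW.elim And.left (fun h => h ▸ hUQ))) hVW hd
          refine ⟨A, hAc, hAH, fun x hxW hxV hxA => ⟨hA x hxW hxV hxA, ?_⟩⟩
          refine lt_of_le_of_ne (sup_le (hVW.trans hWU)
            ((Submodule.span_singleton_le_iff_mem _ _).2 (hWU hxW))) fun he => ?_
          have h1 := Submodule.finrank_mono (R := F) hWU
          have h2 := finrank_sup_span_le V x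
          rw [he] at h2
          omega
        have hlink : ∀ t, t ∈ link K (Sum.inl U) → t ∈ joinCx Q' KJ := by
          rintro t ⟨hUt, h1, h2, h3⟩
          refine ⟨fun V hV => ⟨h1 V (Finset.mem_insert_of_mem hV), ?_⟩,
            fun V W hV hW => h2 V W (Finset.mem_insert_of_mem hV) (Finset.mem_insert_of_mem hW),
            by rwa [toRight_insert_inl'] at h3⟩
          have hne : V ≠ U := fun e => hUt (e ▸ hV)
          rcases h2 V U (Finset.mem_insert_of_mem hV) (Finset.mem_insert_self _ _) with h | h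
          · exact lt_of_le_of_ne h hne
          · have := Submodule.finrank_lt_finrank_of_lt (lt_of_le_of_ne h (Ne.symm hne))
            have := Submodule.finrank_lt_finrank_of_lt
              (hQint V (h1 V (Finset.mem_insert_of_mem hV))).2
            omega
        have hc : delV (Sum.inl U) y ∈ chainsOf (joinCx Q' KJ) j :=
          chainsOf_mono (fun t ht _ => hlink t ht) (delV_mem_chainsOf hy _)
        have hq' : qj M' ≤ Fintype.card F :=
          le_trans (Finset.le_sup (f := qj) (Finset.mem_range.2 (show M' < M₁ + 1 by omega)))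
            (by omega)
        obtain ⟨e, he, hbe, hec⟩ := hj M' F hq' E Q' A₀ U hgood (by omega) J KJ hKJ h0
          _ hc (bdry_delV_eq_zero hby) ((card_support_delV_le _ y).trans hyc)
        refine ⟨e, chainsOf_mono (fun t ht _ => ?_) he, hbe, hec, fun w hw => Or.inl ?_⟩
        · obtain ⟨h1, h2, h3⟩ := ht
          refine ⟨fun h => (h1 U h).2.ne rfl, insert_inl_mem_joinCx
            ⟨fun V hV => (h1 V hV).1, h2, h3⟩ hUQ fun V hV => Or.inl (h1 V hV).2.le⟩
        · rintro V rfl
          obtain ⟨t, ht, hVt⟩ := mem_chainVerts.1 hw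
          have := Submodule.finrank_lt_finrank_of_lt ((mem_chainsOf.1 he t ht).1.1 V hVt).2
          omega)
        n₁ M le_rfl z hz hbz hM (fun v hv => Or.inr hv)
        (fun S hS => le_trans (Finset.card_le_card fun v hv => (hS v hv).1)
          ((card_chainVerts_le hz).trans (Nat.mul_le_mul_right _ hM)))
    -- a generic line
    set U₀ : Finset (Submodule F E) := insert A₀ (chainVerts z₁).toLeft with hU₀
    have hU₀c : U₀.card ≤ M₁ * (j + 1) + 1 :=
      (Finset.card_insert_le _ _).trans (Nat.add_le_add_right (Finset.card_toLeft_le.trans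
        ((card_chainVerts_le hz₁).trans (Nat.mul_le_mul_right _ hz₁c))) 1)
    have hU₀ok : ∀ U ∈ U₀, (U ∈ Q ∨ U = A₀) ∧ U ≤ W₀ ∧ finrank F U + 2 ≤ finrank F W₀ := by
      intro U hU
      rcases Finset.mem_insert.1 hU with rfl | hU
      · exact ⟨Or.inr rfl, hAW, by omega⟩
      · rw [Finset.mem_toLeft] at hU
        obtain ⟨s, hs, hUs⟩ := mem_chainVerts.1 hU
        have hUQ := (mem_chainsOf.1 hz₁ s hs).1.1.1 U hUs
        exact ⟨Or.inl hUQ, (hQint U hUQ).2.le, hok₁ _ hU U rfl⟩
    have hex : ∀ U : Submodule F E, ∃ A : Finset (Submodule F E), U ∈ U₀ →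
        A.card ≤ B ∧ (∀ H ∈ A, U ≤ H ∧ H < W₀) ∧
          ∀ x ∈ W₀, x ∉ U → (∀ H ∈ A, x ∉ H) → U ⊔ Submodule.span F {x} ∈ Q := by
      intro U
      by_cases hU : U ∈ U₀
      · obtain ⟨h1, h2, h3⟩ := hU₀ok U hU
        obtain ⟨A, hA⟩ := hext U W₀ h1 (Or.inr rfl) h2 h3
        exact ⟨A, fun _ => hA⟩
      · exact ⟨∅, fun h => absurd h hU⟩
    choose Af hAf using hex
    set Bad : Finset (Submodule F E) := U₀.biUnion (fun U => insert U (Af U)) with hBad
    obtain ⟨x, hxW, hx⟩ := exists_mem_forall_notMem W₀ Bad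
      (fun H hH => by
        obtain ⟨U, hU, hH⟩ := Finset.mem_biUnion.1 hH
        rcases Finset.mem_insert.1 hH with rfl | hH
        · intro h
          have := Submodule.finrank_mono (R := F) h
          have := (hU₀ok _ hU).2.2
          omega
        · exact not_le_of_gt ((hAf U hU).2.1 H hH).2)
      (by
        have h1 : Bad.card ≤ U₀.card * (B + 1) := Finset.card_biUnion_le_card_mul _ _ _
          fun U hU => (Finset.card_insert_le _ _).trans (Nat.add_le_add_right (hAf U hU).1 1)
        have h2 := Nat.mul_le_mul_right (B + 1) hU₀c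
        omega)
    have hxU : ∀ U ∈ U₀, x ∉ U ∧ U ⊔ Submodule.span F {x} ∈ Q := fun U hU =>
      have h1 : x ∉ U := hx U (Finset.mem_biUnion.2 ⟨U, hU, Finset.mem_insert_self _ _⟩)
      ⟨h1, (hAf U hU).2.2 x hxW h1 fun H hH =>
        hx H (Finset.mem_biUnion.2 ⟨U, hU, Finset.mem_insert_of_mem hH⟩)⟩
    -- second round
    set Ok₂ : Set (Submodule F E ⊕ J) := {v | ∀ U, v = Sum.inl U → x ∈ U} with hOk₂
    obtain ⟨z₂, hz₂, w₂, hw₂, hbw₂, hbz₂, hz₂c, hw₂c, hok₂⟩ :=
      elim K hK Ok₂ (chainVerts z₁) j id M₂ (by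
        intro M' _ y hy hby hyc hyT hbad
        set S := (chainVerts y).toLeft.filter (fun U : Submodule F E => x ∉ U) with hS
        have hSne : S.Nonempty := by
          obtain ⟨v, hvy, hvo⟩ := hbad
          simp only [hOk₂, Set.mem_ofPred_eq, not_forall] at hvo
          obtain ⟨U, rfl, hU⟩ := hvo
          exact ⟨U, Finset.mem_filter.2 ⟨Finset.mem_toLeft.2 hvy, hU⟩⟩
        obtain ⟨U, hUS, hmax⟩ := Finset.exists_max_image S (fun U => finrank F U) hSne
        obtain ⟨hUy, hxUnot⟩ := Finset.mem_filter.1 hUS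
        rw [Finset.mem_toLeft] at hUy
        have hUo : Sum.inl U ∉ Ok₂ := fun h => hxUnot (h U rfl)
        have hUU₀ : U ∈ U₀ :=
          Finset.mem_insert_of_mem (Finset.mem_toLeft.2 ((hyT _ hUy).resolve_left hUo))
        have hUx := (hxU U hUU₀).2
        refine ⟨Sum.inl U, hUy, hUo, cone (Sum.inl (U ⊔ Submodule.span F {x}))
          (delV (Sum.inl U) y), mem_chainsOf.2 fun t' ht' => ?_, ?_,
          (card_support_cone_le _ _).trans ((card_support_delV_le _ y).trans hyc), fun w hw => ?_⟩
        · rw [cone_apply] at ht'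
          by_cases hLt : Sum.inl (U ⊔ Submodule.span F {x}) ∈ t'
          swap
          · simp [hLt] at ht'
          rw [if_pos hLt] at ht'
          obtain ⟨t, rfl, hLn⟩ : ∃ t, t' = insert (Sum.inl (U ⊔ Submodule.span F {x})) t ∧
              Sum.inl (U ⊔ Submodule.span F {x}) ∉ t :=
            ⟨_, (Finset.insert_erase hLt).symm, Finset.notMem_erase _ _⟩
          rw [Finset.erase_insert hLn] at ht'
          obtain ⟨⟨hUt, htK⟩, htc⟩ := mem_chainsOf.1 (delV_mem_chainsOf hy _) t ht'
          have hty : ∀ u ∈ t, u ∈ chainVerts y := by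
            intro u hu
            rw [delV_apply, if_neg hUt] at ht'
            exact mem_chainVerts.2 ⟨_, ht', Finset.mem_insert_of_mem hu⟩
          have hUQ : U ∈ Q := htK.1 U (Finset.mem_insert_self _ _)
          have htK' : t ∈ K := hK _ htK t (Finset.subset_insert _ _)
          have hcomp : ∀ V, Sum.inl V ∈ t →
              V ≤ U ∨ U ⊔ Submodule.span F {x} ≤ V := by
            intro V hV
            rcases htK.2.1 V U (Finset.mem_insert_of_mem hV) (Finset.mem_insert_self _ _)
              with h | h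
            · exact Or.inl h
            · refine Or.inr (sup_le h ((Submodule.span_singleton_le_iff_mem _ _).2 ?_))
              by_contra hxV
              have hVS : V ∈ S :=
                Finset.mem_filter.2 ⟨Finset.mem_toLeft.2 (hty _ hV), hxV⟩
              exact hUt ((Submodule.eq_of_le_of_finrank_le h (hmax V hVS)) ▸ hV)
          refine ⟨⟨?_, ?_⟩, by rw [Finset.card_insert_of_notMem hLn, htc]⟩
          · intro hmem
            rcases Finset.mem_insert.1 hmem with h | h
            · exact absurd (Sum.inl_injective h).symm.le fun hle =>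
                hxUnot ((Submodule.span_singleton_le_iff_mem _ _).1 (le_sup_right.trans hle))
            · exact hUt h
          · refine insert_inl_mem_joinCx (insert_inl_mem_joinCx htK' hUx fun V hV =>
              (hcomp V hV).imp (fun h => h.trans le_sup_left) id) hUQ fun V hV => ?_
            rcases Finset.mem_insert.1 hV with h | h
            · exact Or.inr (le_sup_left.trans (Sum.inl_injective h).ge)
            · exact (hcomp V h).imp id (fun h' => le_sup_left.trans h')
        · have h := bdry_cone (Sum.inl (U ⊔ Submodule.span F {x})) (delV (Sum.inl U) y)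
          rwa [bdry_delV_eq_zero hby, map_zero, add_zero] at h
        · obtain ⟨t, ht, hwt⟩ := mem_chainVerts.1 hw
          rw [cone_apply] at ht
          by_cases hwL : w = Sum.inl (U ⊔ Submodule.span F {x})
          · refine Or.inl ?_
            rintro V rfl
            exact Sum.inl_injective hwL ▸
              (le_sup_right : _ ≤ U ⊔ Submodule.span F {x}) (Submodule.mem_span_singleton_self x)
          · refine Or.inr ?_
            by_cases hLt : Sum.inl (U ⊔ Submodule.span F {x}) ∈ t
            · rw [if_pos hLt] at ht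
              rw [delV_apply] at ht
              split_ifs at ht with hU'
              · exact absurd rfl ht
              · exact mem_chainVerts.2 ⟨_, ht,
                  Finset.mem_insert_of_mem (Finset.mem_erase.2 ⟨hwL, hwt⟩)⟩
            · simp [hLt] at ht)
        n₂ M₁ le_rfl z₁ (chainsOf_mono (fun s hs _ => hs.1) hz₁) hbz₁ hz₁c
        (fun v hv => Or.inr hv)
        (fun S hS => le_trans (Finset.card_le_card fun v hv => (hS v hv).1)
          ((card_chainVerts_le hz₁).trans (Nat.mul_le_mul_right _ hz₁c)))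
    -- final cone
    have hA₀x := (hxU A₀ (Finset.mem_insert_self _ _)).2
    set L := A₀ ⊔ Submodule.span F {x} with hLdef
    have hcone : cone (Sum.inl L) z₂ ∈ chainsOf K (j + 2) := by
      rw [mem_chainsOf]
      intro t ht
      rw [cone_apply] at ht
      by_cases hLt : Sum.inl L ∈ t
      · rw [if_pos hLt] at ht
        obtain ⟨⟨htK, htok⟩, htc⟩ := mem_chainsOf.1 hz₂ _ ht
        rw [Finset.card_erase_of_mem hLt] at htc
        refine ⟨?_, by omega⟩
        rw [← Finset.insert_erase hLt]
        exact insert_inl_mem_joinCx htK hA₀x fun V hV => Or.inr (sup_le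
          (hQint V (htK.1 V hV)).1.le
          ((Submodule.span_singleton_le_iff_mem _ _).2 (htok _ hV V rfl)))
      · simp [hLt] at ht
    refine ⟨w₁ + (w₂ + cone (Sum.inl L) z₂),
      Submodule.add_mem _ hw₁ (Submodule.add_mem _ hw₂ hcone), ?_, ?_⟩
    · have h := bdry_cone (Sum.inl L) z₂
      rw [hbz₂, map_zero, add_zero] at h
      rw [map_add, map_add, hbw₁, hbw₂, h]
      calc z + z₁ + (z₁ + z₂ + z₂) = z + (z₁ + z₁) + (z₂ + z₂) := by abel
        _ = z := by rw [add_self_chain, add_self_chain, add_zero, add_zero]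
    · refine (Finset.card_le_card Finsupp.support_add).trans ((Finset.card_union_le _ _).trans
        (Nat.add_le_add hw₁c ((Finset.card_le_card Finsupp.support_add).trans
          ((Finset.card_union_le _ _).trans
            (Nat.add_le_add hw₂c ((card_support_cone_le _ _).trans hz₂c))))))

/-- Cone data on joins of `Good` families, with support independent of the field. -/
theorem cone_join (k B : ℕ) :
    ∃ R q0 : ℕ, ∀ (F : Type) [Field F] [Fintype F], q0 ≤ Fintype.card F →
      ∀ (E : Type) [AddCommGroup E] [Module F E] [FiniteDimensional F E]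
        (Q : Set (Submodule F E)) (A₀ W₀ : Submodule F E), Good Q A₀ W₀ B →
        finrank F A₀ + k + 2 ≤ finrank F W₀ →
        ∀ (J : Type) [DecidableEq (Submodule F E ⊕ J)] (KJ : Set (Finset J)), DownClosed KJ →
          (∅ : Finset J) ∈ KJ →
          ∃ c : Finset (Submodule F E ⊕ J) → Chain (Submodule F E ⊕ J),
            ∀ s ∈ joinCx Q KJ, s.card ≤ k →
              c s ∈ chainsOf (joinCx Q KJ) (s.card + 1) ∧ (c s).support.card ≤ R ∧
              bdry (c s) + ∑ v ∈ s, c (s.erase v) = Finsupp.single s 1 := by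
  choose Rf qf hf using fun j M => fill_join j M B
  obtain ⟨R, Ms, hR⟩ := exists_cone k Rf
  refine ⟨R, (Finset.range (k + 1)).sup (fun j => qf j (Ms j)),
    fun F _ _ hq E _ _ _ Q A₀ W₀ hQ hgap J _ KJ hKJ h0 => ?_⟩
  refine hR _ _ (joinCx_downClosed Q hKJ) (empty_mem_joinCx Q h0) fun j hj => ?_
  exact hf j (Ms j) F
    ((Finset.le_sup (f := fun j => qf j (Ms j)) (Finset.mem_range.2 (Nat.lt_succ_of_le hj))).trans
      hq) E Q A₀ W₀ hQ (by omega) J KJ hKJ h0

/-- Acyclicity of joins of `Good` families over large fields. -/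
theorem acyclic_join (k B : ℕ) :
    ∃ q0 : ℕ, ∀ (F : Type) [Field F] [Fintype F], q0 ≤ Fintype.card F →
      ∀ (E : Type) [AddCommGroup E] [Module F E] [FiniteDimensional F E]
        (Q : Set (Submodule F E)) (A₀ W₀ : Submodule F E), Good Q A₀ W₀ B →
        finrank F A₀ + k + 2 ≤ finrank F W₀ →
        ∀ (J : Type) [DecidableEq (Submodule F E ⊕ J)] (KJ : Set (Finset J)), DownClosed KJ →
          (∅ : Finset J) ∈ KJ → Acyclic (joinCx Q KJ) k := by
  obtain ⟨R, q0, h⟩ := cone_join k B
  refine ⟨q0, fun F _ _ hq E _ _ _ Q A₀ W₀ hQ hgap J _ KJ hKJ h0 => ?_⟩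
  obtain ⟨c, hc⟩ := h F hq E Q A₀ W₀ hQ hgap J KJ hKJ h0
  exact acyclic_of_cone c fun s hs hsk => ⟨(hc s hs hsk.le).1, (hc s hs hsk.le).2.2⟩

/-- The subspaces in general position to a fixed one form a `Good` family. -/
theorem genPos_good {F E : Type*} [Field F] [AddCommGroup E] [Module F E]
    [FiniteDimensional F E] (S A₀ W₀ : Submodule F E) (hAW : A₀ ≤ W₀) (hA : GenPos F S A₀)
    (hW : GenPos F S W₀) :
    Good {V | A₀ < V ∧ V < W₀ ∧ GenPos F S V} A₀ W₀ 1 := by
  classical
  refine ⟨hAW, fun V hV => ⟨hV.1, hV.2.1⟩, fun V W hV hW' hVW hd => ?_⟩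
  have hVA : A₀ ≤ V := hV.elim (fun h => h.1.le) (fun h => h.ge)
  have hWW : W ≤ W₀ := hW'.elim (fun h => h.2.1.le) (fun h => h.le)
  have hgV : GenPos F S V := hV.elim (fun h => h.2.2) (fun h => h ▸ hA)
  have hgW : GenPos F S W := hW'.elim (fun h => h.2.2) (fun h => h ▸ hW)
  have hint : ∀ x ∈ W, x ∉ V →
      A₀ < V ⊔ Submodule.span F {x} ∧ V ⊔ Submodule.span F {x} < W₀ := by
    intro x hxW hxV
    refine ⟨lt_of_le_of_lt hVA (lt_of_le_of_ne le_sup_left fun h => hxV ?_),
      lt_of_lt_of_le (lt_of_le_of_ne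
        (sup_le hVW ((Submodule.span_singleton_le_iff_mem _ _).2 hxW)) fun h => ?_) hWW⟩
    · rw [h]
      exact (le_sup_right : _ ≤ V ⊔ Submodule.span F {x}) (Submodule.mem_span_singleton_self x)
    · have := finrank_sup_span_le V x
      rw [h] at this
      omega
  by_cases htop : S ⊔ V = ⊤
  · refine ⟨∅, by simp, by simp, fun x hxW hxV _ =>
      ⟨(hint x hxW hxV).1, (hint x hxW hxV).2, Or.inr (eq_top_iff.2 ?_)⟩⟩
    rw [← htop]
    exact sup_le_sup_left le_sup_left _
  have hbot : S ⊓ V = ⊥ := hgV.resolve_right htop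
  have hH : (S ⊔ V) ⊓ W < W := by
    refine lt_of_le_of_ne inf_le_right fun h => ?_
    have hle : W ≤ S ⊔ V := inf_eq_right.1 h
    rcases hgW with hg | hg
    · have : W ≤ V := by
        intro w hw
        obtain ⟨a, ha, b, hb, rfl⟩ := Submodule.mem_sup.1 (hle hw)
        have ha0 : a ∈ S ⊓ W := ⟨ha, by simpa using W.sub_mem hw (hVW hb)⟩
        rw [hg] at ha0
        simpa [(Submodule.mem_bot F).1 ha0] using hb
      have := Submodule.finrank_mono (R := F) this
      omega
    · exact htop (eq_top_iff.2 (hg ▸ sup_le le_sup_left hle))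
  refine ⟨{(S ⊔ V) ⊓ W}, by simp,
    fun H hH' => (Finset.mem_singleton.1 hH') ▸ ⟨le_inf le_sup_right hVW, hH⟩,
    fun x hxW hxV hxA => ⟨(hint x hxW hxV).1, (hint x hxW hxV).2, Or.inl ?_⟩⟩
  rw [eq_bot_iff]
  rintro y ⟨hyS, hyV⟩
  obtain ⟨v, hv, u, hu, rfl⟩ := Submodule.mem_sup.1 hyV
  obtain ⟨c, rfl⟩ := Submodule.mem_span_singleton.1 hu
  by_cases hc : c = 0
  · subst hc
    simp only [zero_smul, add_zero] at hyS ⊢
    rw [← hbot]
    exact ⟨hyS, hv⟩
  · exfalso
    refine hxA _ (Finset.mem_singleton_self _) ⟨?_, hxW⟩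
    have hcx : c • x ∈ S ⊔ V := by
      have h := Submodule.sub_mem _ ((le_sup_left : S ≤ S ⊔ V) hyS)
        ((le_sup_right : V ≤ S ⊔ V) hv)
      simpa using h
    simpa [smul_smul, inv_mul_cancel₀ hc] using Submodule.smul_mem _ c⁻¹ hcx

end Vale.Agent.P067
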