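import Vale.Agent.P067.Lattice

/-!
The action of polynomial matrices on the building.
-/

namespace Vale.Agent.P067

variable {F : Type*} [Field F] {N : ℕ}

/-- The action on bundled lattices. -/
noncomputable def actL (g : PMat F N) (L : Lattice F N) : Lattice F N :=
  ⟨L.1.map (gMap F N g), by
    obtain ⟨h, lam, hL⟩ := L.2
    exact ⟨g * h, lam, by rw [hL, map_gMap_lat]⟩⟩

@[simp] lemma actL_val (g : PMat F N) (L : Lattice F N) :
    (actL g L).1 = L.1.map (gMap F N g) := rfl

/-- The action on vertices as a map. -/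
noncomputable def actV (g : PMat F N) : BVert F N → BVert F N :=
  Quot.map (actL g) fun L L' => by
    rintro ⟨z, hz⟩
    exact ⟨z, by rw [actL_val, actL_val, hz, map_gMap_scaleL]⟩

lemma actV_latClass (g h : PMat F N) (lam : Fin N → ℤ) :
    actV g (latClass F N h lam) = latClass F N (g * h) lam :=
  congrArg (Quot.mk _) (Subtype.ext (map_gMap_lat g h lam))

lemma actV_mul (g h : PMat F N) (v : BVert F N) : actV (g * h) v = actV g (actV h v) := by
  obtain ⟨k, lam, rfl⟩ := exists_latClass v
  simp [actV_latClass, mul_assoc]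

lemma actV_one (v : BVert F N) : actV 1 v = v := by
  obtain ⟨k, lam, rfl⟩ := exists_latClass v
  simp [actV_latClass]

variable (F N) in
/-- The action of polynomial matrices on vertices. -/
noncomputable def actB : PMat F N →* Equiv.Perm (BVert F N) where
  toFun g :=
    { toFun := actV g
      invFun := actV g⁻¹
      left_inv := fun v => by rw [← actV_mul, inv_mul_cancel, actV_one]
      right_inv := fun v => by rw [← actV_mul, mul_inv_cancel, actV_one] }
  map_one' := Equiv.ext actV_one
  map_mul' g h := Equiv.ext (actV_mul g h)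

lemma actB_apply (g : PMat F N) (v : BVert F N) : actB F N g v = actV g v := rfl

@[simp] lemma actB_latClass (g h : PMat F N) (lam : Fin N → ℤ) :
    actB F N g (latClass F N h lam) = latClass F N (g * h) lam :=
  actV_latClass g h lam

lemma actB_mk (g : PMat F N) (L : Lattice F N) :
    actB F N g (Quot.mk _ L) = Quot.mk _ (actL g L) := rfl

lemma bldg_downClosed : DownClosed (Bldg F N) := by
  rintro s ⟨rep, h1, h2⟩ t hts
  exact ⟨rep, fun v hv => h1 v (hts hv), fun v hv w hw => h2 v (hts hv) w (hts hw)⟩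

lemma lowCx_downClosed : DownClosed (lowCx F N) :=
  fun s hs t hts => ⟨bldg_downClosed s hs.1 t hts, fun w hw => hs.2 w (hts hw)⟩

lemma image_actB_mem_bldg [DecidableEq (BVert F N)] (g : PMat F N) {s : Finset (BVert F N)}
    (hs : s ∈ Bldg F N) : s.image (actB F N g) ∈ Bldg F N := by
  obtain ⟨rep, h1, h2⟩ := hs
  refine ⟨fun v => actL g (rep (actB F N g⁻¹ v)), ?_, ?_⟩
  · intro v hv
    obtain ⟨u, hu, rfl⟩ := Finset.mem_image.1 hv
    have hinv : actB F N g⁻¹ (actB F N g u) = u := by
      rw [← Equiv.Perm.mul_apply, ← map_mul]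
      simp
    simp only [hinv]
    rw [← actB_mk, h1 u hu]
  · intro v hv w hw
    obtain ⟨u, hu, rfl⟩ := Finset.mem_image.1 hv
    obtain ⟨x, hx, rfl⟩ := Finset.mem_image.1 hw
    have hinv : ∀ u, actB F N g⁻¹ (actB F N g u) = u := fun u => by
      rw [← Equiv.Perm.mul_apply, ← map_mul]
      simp
    simp only [hinv, actL_val, ← map_gMap_scaleL]
    obtain ⟨h3, h4⟩ := h2 u hu x hx
    exact ⟨h3.imp (fun h => Submodule.map_mono h) (fun h => Submodule.map_mono h),
      Submodule.map_mono h4⟩

lemma image_actB_mem_bldg_iff [DecidableEq (BVert F N)] (g : PMat F N)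
    {s : Finset (BVert F N)} : s.image (actB F N g) ∈ Bldg F N ↔ s ∈ Bldg F N := by
  refine ⟨fun h => ?_, image_actB_mem_bldg g⟩
  have := image_actB_mem_bldg g⁻¹ h
  rwa [Finset.image_image, show (actB F N g⁻¹ : BVert F N → BVert F N) ∘ actB F N g = id from
    funext fun u => by rw [Function.comp_apply, ← Equiv.Perm.mul_apply, ← map_mul]; simp,
    Finset.image_id] at this

lemma actB_mem_lowSet {g : PMat F N} {v : BVert F N} (hv : v ∈ lowSet F N) :
    actB F N g v ∈ lowSet F N := by
  obtain ⟨h, a, rfl⟩ := hv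
  exact ⟨g * h, a, actB_latClass g h _⟩

lemma image_actB_mem_lowCx [DecidableEq (BVert F N)] (g : PMat F N) {s : Finset (BVert F N)}
    (hs : s ∈ lowCx F N) : s.image (actB F N g) ∈ lowCx F N := by
  refine ⟨image_actB_mem_bldg g hs.1, fun w hw => ?_⟩
  obtain ⟨u, hu, rfl⟩ := Finset.mem_image.1 hw
  exact actB_mem_lowSet (hs.2 u hu)

end Vale.Agent.P067
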