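import Vale.Agent.P067.LatticeReduce
import Vale.Agent.P067.LatticeAction

/-!
Neighbours of a lattice class and subspaces of the residue space.
-/

namespace Vale.Agent.P067

open Polynomial

variable (F : Type) [Field F] (N : ℕ)

/-- The monomial vector with coefficients `c` in the degrees `lam + 1`. -/
noncomputable def lead (lam : Fin N → ℤ) (c : Fin N → F) : RVec F N :=
  fun i => RatFunc.C (c i) * tpow F (lam i + 1)

/-- Constants as elements of the ring at infinity. -/
noncomputable def constInf (r : F) : infRing F :=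
  ⟨RatFunc.C r, Or.inr (by simp)⟩

variable {F N}

/-! ### Leading coefficients -/

lemma exists_const_add_small {x : RatFunc F} (hx : degLE x 0) :
    ∃ c : F, degLE (x - RatFunc.C c) (-1) := by
  obtain ⟨c, hc⟩ := exists_lead hx
  exact ⟨c, by simpa using hc⟩

lemma lead_add (lam : Fin N → ℤ) (c d : Fin N → F) :
    lead F N lam (c + d) = lead F N lam c + lead F N lam d := by
  funext i; simp [lead, add_mul]

lemma lead_smul (lam : Fin N → ℤ) (r : F) (c : Fin N → F) :
    lead F N lam (r • c) = constInf F r • lead F N lam c := by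
  funext i
  simp [lead, constInf, Subring.smul_def, mul_assoc]

lemma lead_zero (lam : Fin N → ℤ) : lead F N lam 0 = 0 := by funext i; simp [lead]

lemma lead_apply_deg (lam : Fin N → ℤ) (c : Fin N → F) (i : Fin N) (h : c i ≠ 0) :
    (lead F N lam c i).intDegree = lam i + 1 := by
  rw [lead, RatFunc.intDegree_mul (by simpa using h) (tpow_ne_zero _), RatFunc.intDegree_C,
    intDegree_tpow, zero_add]

lemma lead_mem (lam : Fin N → ℤ) (c : Fin N → F) :
    lead F N lam c ∈ stdLat F N (fun i => lam i + 1) := by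
  refine mem_stdLat.2 fun i => ?_
  by_cases h : c i = 0
  · exact Or.inl (by simp [lead, h])
  · exact Or.inr (le_of_eq (lead_apply_deg lam c i h))

lemma eq_zero_of_lead_mem {lam : Fin N → ℤ} {c : Fin N → F}
    (h : lead F N lam c ∈ stdLat F N lam) : c = 0 := by
  funext i
  by_contra hc
  change c i ≠ 0 at hc
  have hd := lead_apply_deg lam c i hc
  rcases mem_stdLat.1 h i with h' | h'
  · simp [lead, hc, tpow_ne_zero] at h'
  · omega

lemma exists_leadVec (lam : Fin N → ℤ) {v : RVec F N}
    (hv : v ∈ stdLat F N (fun i => lam i + 1)) :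
    ∃ c, v - lead F N lam c ∈ stdLat F N lam := by
  choose c hc using fun i => exists_lead (mem_stdLat.1 hv i)
  refine ⟨c, mem_stdLat.2 fun i => ?_⟩
  simpa [lead, sub_eq_add_neg, add_assoc] using hc i

/-- The lattice between `stdLat lam` and its scaling with the given leading space. -/
noncomputable def nbrStd (lam : Fin N → ℤ) (V : Submodule F (Fin N → F)) : LSub F N :=
  stdLat F N lam ⊔ Submodule.span (infRing F) ((lead F N lam) '' (V : Set (Fin N → F)))

/-- The leading space of a lattice. -/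
noncomputable def subspaceOf (lam : Fin N → ℤ) (M : LSub F N) : Submodule F (Fin N → F) where
  carrier := {c | lead F N lam c ∈ M}
  zero_mem' := by simp [lead_zero]
  add_mem' := by
    intro a b ha hb
    simp only [Set.mem_setOf_eq, lead_add] at *
    exact M.add_mem ha hb
  smul_mem' := by
    intro r a ha
    simp only [Set.mem_setOf_eq, lead_smul] at *
    exact M.smul_mem _ ha

lemma stdLat_le_nbrStd (lam : Fin N → ℤ) (V : Submodule F (Fin N → F)) :
    stdLat F N lam ≤ nbrStd lam V := le_sup_left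

lemma nbrStd_le (lam : Fin N → ℤ) (V : Submodule F (Fin N → F)) :
    nbrStd lam V ≤ stdLat F N (fun i => lam i + 1) := by
  refine sup_le (stdLat_le_iff.2 fun i => by simp) (Submodule.span_le.2 ?_)
  rintro _ ⟨c, -, rfl⟩
  exact lead_mem lam c

lemma nbrStd_mono (lam : Fin N → ℤ) {V W : Submodule F (Fin N → F)} (h : V ≤ W) :
    nbrStd lam V ≤ nbrStd lam W :=
  sup_le_sup_left (Submodule.span_mono (Set.image_mono h)) _

lemma exists_of_mem_nbrStd {lam : Fin N → ℤ} {V : Submodule F (Fin N → F)} {v : RVec F N}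
    (hv : v ∈ nbrStd lam V) : ∃ c ∈ V, v - lead F N lam c ∈ stdLat F N lam := by
  rw [nbrStd, Submodule.mem_sup] at hv
  obtain ⟨w, hw, u, hu, rfl⟩ := hv
  have hu' : ∃ c ∈ V, u - lead F N lam c ∈ stdLat F N lam := by
    induction hu using Submodule.span_induction with
    | mem x hx =>
      obtain ⟨c, hc, rfl⟩ := hx
      exact ⟨c, hc, by simp⟩
    | zero => exact ⟨0, V.zero_mem, by simp [lead_zero]⟩
    | add x y _ _ hx hy =>
      obtain ⟨c, hc, hx⟩ := hx
      obtain ⟨d, hd, hy⟩ := hy
      refine ⟨c + d, V.add_mem hc hd, ?_⟩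
      rw [lead_add, add_sub_add_comm]
      exact Submodule.add_mem _ hx hy
    | smul a x _ hx =>
      obtain ⟨c, hc, hx⟩ := hx
      obtain ⟨r, hr⟩ := exists_const_add_small (mem_infRing.1 a.2)
      refine ⟨r • c, V.smul_mem r hc, ?_⟩
      have hsplit : a • x - lead F N lam (r • c)
          = a • (x - lead F N lam c) + (a - constInf F r) • lead F N lam c := by
        rw [lead_smul, smul_sub, sub_smul]; abel
      rw [hsplit]
      refine Submodule.add_mem _ (Submodule.smul_mem _ _ hx) (mem_stdLat.2 fun i => ?_)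
      exact (hr.mul (mem_stdLat.1 (lead_mem lam c) i)).mono (le_of_eq (by ring))
  obtain ⟨c, hc, hcu⟩ := hu'
  exact ⟨c, hc, by rw [add_sub_assoc]; exact Submodule.add_mem _ hw hcu⟩

lemma subspaceOf_nbrStd (lam : Fin N → ℤ) (V : Submodule F (Fin N → F)) :
    subspaceOf lam (nbrStd lam V) = V := by
  apply le_antisymm
  · intro c hc
    obtain ⟨d, hd, h⟩ := exists_of_mem_nbrStd hc
    have h' : lead F N lam (c - d) ∈ stdLat F N lam := by
      have e : lead F N lam (c - d) = lead F N lam c - lead F N lam d := by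
        funext i; simp [lead, sub_mul]
      rwa [e]
    rwa [sub_eq_zero.1 (eq_zero_of_lead_mem h')]
  · intro c hc
    exact Submodule.mem_sup_right (Submodule.subset_span ⟨c, hc, rfl⟩)

lemma nbrStd_subspaceOf {lam : Fin N → ℤ} {M : LSub F N} (h1 : stdLat F N lam ≤ M)
    (h2 : M ≤ stdLat F N (fun i => lam i + 1)) : nbrStd lam (subspaceOf lam M) = M := by
  apply le_antisymm
  · refine sup_le h1 (Submodule.span_le.2 ?_)
    rintro _ ⟨c, hc, rfl⟩
    exact hc
  · intro v hv
    obtain ⟨c, hc⟩ := exists_leadVec lam (h2 hv)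
    have hc' : lead F N lam c ∈ M := by simpa using M.sub_mem hv (h1 hc)
    have e : v = (v - lead F N lam c) + lead F N lam c := by simp
    rw [e]
    exact Submodule.add_mem _ (stdLat_le_nbrStd _ _ hc)
      (Submodule.mem_sup_right (Submodule.subset_span ⟨c, hc', rfl⟩))

lemma nbrStd_le_iff {lam : Fin N → ℤ} {V W : Submodule F (Fin N → F)} :
    nbrStd lam V ≤ nbrStd lam W ↔ V ≤ W := by
  refine ⟨fun h c hc => ?_, nbrStd_mono lam⟩
  rw [← subspaceOf_nbrStd lam W]
  exact h (Submodule.mem_sup_right (Submodule.subset_span ⟨c, hc, rfl⟩))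

lemma nbrStd_bot (lam : Fin N → ℤ) :
    nbrStd lam (⊥ : Submodule F (Fin N → F)) = stdLat F N lam := by
  refine le_antisymm (sup_le le_rfl (Submodule.span_le.2 ?_)) (stdLat_le_nbrStd _ _)
  rintro _ ⟨c, hc, rfl⟩
  obtain rfl : c = 0 := hc
  simp [lead_zero]

lemma nbrStd_top (lam : Fin N → ℤ) :
    nbrStd lam (⊤ : Submodule F (Fin N → F)) = stdLat F N (fun i => lam i + 1) := by
  have h := nbrStd_subspaceOf (lam := lam) (M := stdLat F N (fun i => lam i + 1))
    (stdLat_le_iff.2 fun i => by simp) le_rfl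
  have e : subspaceOf lam (stdLat F N (fun i => lam i + 1)) = ⊤ := by
    refine eq_top_iff.2 fun c _ => lead_mem lam c
  rwa [e] at h

/-- Coordinate subspace. -/
noncomputable def coordSub (F : Type) [Field F] {N : ℕ} (J : Finset (Fin N)) :
    Submodule F (Fin N → F) where
  carrier := {c | ∀ i ∉ J, c i = 0}
  zero_mem' := fun i _ => rfl
  add_mem' := fun ha hb i hi => by simp [ha i hi, hb i hi]
  smul_mem' := fun r a ha i hi => by simp [ha i hi]

lemma nbrStd_coordSub (lam : Fin N → ℤ) (J : Finset (Fin N)) :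
    nbrStd lam (coordSub F J) = stdLat F N (fun i => lam i + if i ∈ J then 1 else 0) := by
  have hsub : subspaceOf lam (stdLat F N (fun i => lam i + if i ∈ J then 1 else 0))
      = coordSub F J := by
    ext c
    change lead F N lam c ∈ stdLat F N (fun i => lam i + if i ∈ J then 1 else 0) ↔ ∀ i ∉ J, c i = 0
    rw [mem_stdLat]
    refine forall_congr' fun i => ?_
    by_cases hi : i ∈ J
    · simp only [hi, if_true, not_true_eq_false, false_implies, iff_true]
      exact (mem_stdLat (v := lead F N lam c) (lam := fun i => lam i + 1)).1 (lead_mem lam c) i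
    · by_cases hc : c i = 0
      · simp [hi, hc, lead]
      · have := lead_apply_deg lam c i hc
        simp only [lead] at this
        simp [hi, hc, degLE, lead, tpow_ne_zero, this]
  rw [← hsub, nbrStd_subspaceOf]
  · exact stdLat_le_iff.2 fun i => by dsimp only; split_ifs <;> omega
  · exact stdLat_le_iff.2 fun i => by dsimp only; split_ifs <;> omega

/-! ### Polynomial matrices between standard lattices -/

lemma gMap_lead_apply (g : PMat F N) (v : RVec F N) (i : Fin N) :
    gMap F N g v i = ∑ j, ratMat g i j * v j := by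
  rw [gMap_apply]; rfl

lemma map_stdLat_le_iff {a : PMat F N} {mu lam : Fin N → ℤ} :
    (stdLat F N mu).map (gMap F N a) ≤ stdLat F N lam ↔
      ∀ i j, degLE (ratMat a i j) (lam i - mu j) := by
  constructor
  · intro h i j
    have h1 : (Pi.single j (tpow F (mu j)) : RVec F N) ∈ stdLat F N mu := by
      refine mem_stdLat.2 fun k => ?_
      rcases eq_or_ne k j with rfl | hk
      · simp [degLE_tpow]
      · simp [hk]
    have h2 := mem_stdLat.1 (h (Submodule.mem_map_of_mem h1)) i
    rw [gMap_lead_apply, Finset.sum_eq_single j (fun k _ hk => by simp [hk]) (by simp),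
      Pi.single_eq_same, mul_comm, degLE_tpow_mul] at h2
    exact h2
  · rintro h _ ⟨v, hv, rfl⟩
    refine mem_stdLat.2 fun i => ?_
    rw [gMap_lead_apply]
    refine degLE_sum _ _ fun j _ => ?_
    exact ((h i j).mul (mem_stdLat.1 hv j)).mono (le_of_eq (by ring))

/-! ### Flags and their lifts -/

variable (F) in
/-- The flag of coordinates of level at least `c`. -/
noncomputable def Fl (lam : Fin N → ℤ) (c : ℤ) : Submodule F (Fin N → F) where
  carrier := {x | ∀ i, lam i < c → x i = 0}
  zero_mem' := fun i _ => rfl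
  add_mem' := fun ha hb i hi => by simp [ha i hi, hb i hi]
  smul_mem' := fun r a ha i hi => by simp [ha i hi]

/-- A linear automorphism preserving all flags. -/
def FlPres (lam : Fin N → ℤ) (p : (Fin N → F) ≃ₗ[F] (Fin N → F)) : Prop :=
  ∀ c, ∀ x ∈ Fl F lam c, p x ∈ Fl F lam c

lemma FlPres.symm {lam : Fin N → ℤ} {p : (Fin N → F) ≃ₗ[F] (Fin N → F)} (hp : FlPres lam p) :
    FlPres lam p.symm := by
  intro c x hx
  have h : (Fl F lam c).map p.toLinearMap = Fl F lam c := by
    refine Submodule.eq_of_le_of_finrank_eq ?_ (LinearEquiv.finrank_map_eq p _)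
    rintro _ ⟨y, hy, rfl⟩
    exact hp c y hy
  rw [← h] at hx
  obtain ⟨y, hy, rfl⟩ := hx
  simpa using hy

lemma FlPres.apply_single {lam : Fin N → ℤ} {p : (Fin N → F) ≃ₗ[F] (Fin N → F)} (hp : FlPres lam p)
    {i j : Fin N} (h : lam i < lam j) : p (Pi.single j 1) i = 0 := by
  refine hp (lam j) _ (fun k hk => ?_) i h
  exact Pi.single_eq_of_ne (fun e => by subst e; exact lt_irrefl _ hk) _

/-- The lift of a flag preserving map to a polynomial matrix. -/
noncomputable def levMat (lam : Fin N → ℤ) (p : (Fin N → F) ≃ₗ[F] (Fin N → F)) :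
    Matrix (Fin N) (Fin N) (Polynomial F) :=
  fun i j => Polynomial.C (p (Pi.single j 1) i) * Polynomial.X ^ (lam i - lam j).toNat

lemma levMat_mul {lam : Fin N → ℤ} {p q : (Fin N → F) ≃ₗ[F] (Fin N → F)}
    (hp : FlPres lam p) (hq : FlPres lam q) :
    levMat lam p * levMat lam q = levMat lam (q.trans p) := by
  ext1 i k
  rw [Matrix.mul_apply]
  have hexp : p (q (Pi.single k 1)) i
      = ∑ j, p (Pi.single j 1) i * q (Pi.single k 1) j := by
    conv_lhs => rw [pi_eq_sum_univ' (q (Pi.single k 1))]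
    simp [map_sum, mul_comm]
  simp only [levMat, LinearEquiv.trans_apply, hexp, map_sum, Finset.sum_mul, map_mul]
  refine Finset.sum_congr rfl fun j _ => ?_
  by_cases h1 : lam i < lam j
  · simp [hp.apply_single h1]
  by_cases h2 : lam j < lam k
  · simp [hq.apply_single h2]
  have e : (lam i - lam k).toNat = (lam i - lam j).toNat + (lam j - lam k).toNat := by omega
  rw [e, pow_add]; ring

lemma levMat_refl (lam : Fin N → ℤ) :
    levMat lam (LinearEquiv.refl F (Fin N → F)) = 1 := by
  ext1 i j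
  rcases eq_or_ne i j with rfl | h
  · simp [levMat]
  · simp [levMat, h]

/-- The lift as an invertible polynomial matrix. -/
noncomputable def levLift (lam : Fin N → ℤ) (p : (Fin N → F) ≃ₗ[F] (Fin N → F))
    (hp : FlPres lam p) : PMat F N where
  val := levMat lam p
  inv := levMat lam p.symm
  val_inv := by rw [levMat_mul hp hp.symm, LinearEquiv.symm_trans_self, levMat_refl]
  inv_val := by rw [levMat_mul hp.symm hp, LinearEquiv.self_trans_symm, levMat_refl]

lemma degLE_levMat {lam : Fin N → ℤ} {p : (Fin N → F) ≃ₗ[F] (Fin N → F)} (hp : FlPres lam p)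
    (i j : Fin N) : degLE (algebraMap _ (RatFunc F) (levMat lam p i j)) (lam i - lam j) := by
  by_cases h : p (Pi.single j 1) i = 0
  · simp [levMat, h]
  have hle : lam j ≤ lam i := not_lt.1 fun hlt => h (hp.apply_single hlt)
  rw [degLE_polynomial_iff]
  refine Or.inr ?_
  rw [levMat, Polynomial.natDegree_C_mul_X_pow _ _ h]
  omega

lemma lat_levLift {lam : Fin N → ℤ} {p : (Fin N → F) ≃ₗ[F] (Fin N → F)} (hp : FlPres lam p)
    (g : PMat F N) : lat F N (g * levLift lam p hp) lam = lat F N g lam := by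
  have h1 : ∀ q : (Fin N → F) ≃ₗ[F] (Fin N → F), ∀ hq : FlPres lam q,
      (stdLat F N lam).map (gMap F N (levLift lam q hq)) ≤ stdLat F N lam :=
    fun q hq => map_stdLat_le_iff.2 fun i j => degLE_levMat hq i j
  have h2 : lat F N (levLift lam p hp) lam = stdLat F N lam := by
    refine le_antisymm (h1 p hp) fun v hv => ?_
    refine ⟨gMap F N (levLift lam p hp)⁻¹ v, ?_, gMap_gMap_inv _ v⟩
    exact h1 p.symm hp.symm ⟨v, hv, rfl⟩
  rw [← map_gMap_lat, h2, lat]

lemma gMap_levLift_lead {lam : Fin N → ℤ} {p : (Fin N → F) ≃ₗ[F] (Fin N → F)} (hp : FlPres lam p)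
    (c : Fin N → F) : gMap F N (levLift lam p hp) (lead F N lam c) = lead F N lam (p c) := by
  funext i
  rw [gMap_lead_apply]
  have hexp : p c i = ∑ j, p (Pi.single j 1) i * c j := by
    conv_lhs => rw [pi_eq_sum_univ' c]
    simp [map_sum, mul_comm]
  simp only [lead, hexp, map_sum, Finset.sum_mul]
  refine Finset.sum_congr rfl fun j _ => ?_
  by_cases h : p (Pi.single j 1) i = 0
  · simp [ratMat_apply, levLift, levMat, h]
  have hle : lam j ≤ lam i := not_lt.1 fun hlt => h (hp.apply_single hlt)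
  have e : lam i + 1 = ((lam i - lam j).toNat : ℤ) + (lam j + 1) := by omega
  rw [e, tpow_add (((lam i - lam j).toNat : ℤ)), tpow_natCast]
  simp only [ratMat_apply, levLift, levMat, map_mul, RatFunc.algebraMap_C]
  ring

lemma map_nbrStd_levLift {lam : Fin N → ℤ} {p : (Fin N → F) ≃ₗ[F] (Fin N → F)} (hp : FlPres lam p)
    (V : Submodule F (Fin N → F)) :
    (nbrStd lam V).map (gMap F N (levLift lam p hp)) = nbrStd lam (V.map p.toLinearMap) := by
  have h := lat_levLift hp 1
  rw [one_mul, lat_one, lat] at h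
  rw [nbrStd, Submodule.map_sup, h, Submodule.map_span, ← Set.image_comp, nbrStd,
    Submodule.map_coe, ← Set.image_comp]
  congr 2
  ext v
  simp [gMap_levLift_lead hp]

/-! ### Neighbours -/

/-- The neighbouring lattice with the given leading space. -/
noncomputable def nbrLat (g : PMat F N) (lam : Fin N → ℤ) (V : Submodule F (Fin N → F)) :
    Lattice F N :=
  ⟨(nbrStd lam V).map (gMap F N g),
    exists_lat_of_between (g := g) (lam := lam) (g' := g) (lam' := fun i => lam i + 1)
      (Submodule.map_mono (stdLat_le_nbrStd lam V)) (Submodule.map_mono (nbrStd_le lam V))⟩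

/-- The vertex attached to a subspace of the residue space at `latClass g lam`. -/
noncomputable def nbr (g : PMat F N) (lam : Fin N → ℤ) (V : Submodule F (Fin N → F)) :
    BVert F N :=
  Quot.mk _ (nbrLat g lam V)

lemma lat_le_nbrLat (g : PMat F N) (lam : Fin N → ℤ) (V : Submodule F (Fin N → F)) :
    lat F N g lam ≤ (nbrLat g lam V).1 :=
  Submodule.map_mono (stdLat_le_nbrStd lam V)

lemma nbrLat_le (g : PMat F N) (lam : Fin N → ℤ) (V : Submodule F (Fin N → F)) :
    (nbrLat g lam V).1 ≤ scaleL F N 1 (lat F N g lam) := by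
  rw [scaleL_lat]
  exact Submodule.map_mono (nbrStd_le lam V)

lemma nbrLat_le_iff {g : PMat F N} {lam : Fin N → ℤ} {V W : Submodule F (Fin N → F)} :
    (nbrLat g lam V).1 ≤ (nbrLat g lam W).1 ↔ V ≤ W := by
  rw [← nbrStd_le_iff (lam := lam) (V := V)]
  exact Submodule.map_le_map_iff_of_injective (gMap_injective g) _ _

lemma nbrLat_bot (g : PMat F N) (lam : Fin N → ℤ) :
    (nbrLat g lam ⊥).1 = lat F N g lam := by
  simp [nbrLat, nbrStd_bot, lat]

lemma nbrLat_top (g : PMat F N) (lam : Fin N → ℤ) :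
    (nbrLat g lam ⊤).1 = scaleL F N 1 (lat F N g lam) := by
  rw [scaleL_lat]
  simp [nbrLat, nbrStd_top, lat]

lemma nbrLat_inj {g : PMat F N} {lam : Fin N → ℤ} {V W : Submodule F (Fin N → F)}
    (h : (nbrLat g lam V).1 = (nbrLat g lam W).1) : V = W :=
  le_antisymm (nbrLat_le_iff.1 h.le) (nbrLat_le_iff.1 h.ge)

lemma nbr_coordSub (g : PMat F N) (lam : Fin N → ℤ) (J : Finset (Fin N)) :
    nbr g lam (coordSub F J) = latClass F N g (fun i => lam i + if i ∈ J then 1 else 0) := by
  refine congrArg (Quot.mk _) (Subtype.ext ?_)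
  simp [nbrLat, nbrStd_coordSub, lat]

lemma nbr_mul_levLift {lam : Fin N → ℤ} {p : (Fin N → F) ≃ₗ[F] (Fin N → F)} (hp : FlPres lam p)
    (g : PMat F N) (V : Submodule F (Fin N → F)) :
    nbr (g * levLift lam p hp) lam V = nbr g lam (V.map p.toLinearMap) := by
  refine congrArg (Quot.mk _) (Subtype.ext ?_)
  simp only [nbrLat, gMap_mul, Submodule.map_comp, map_nbrStd_levLift hp]

/-- Lifting flag preserving maps. -/
theorem exists_lift {lam : Fin N → ℤ} {p : (Fin N → F) ≃ₗ[F] (Fin N → F)} (hp : FlPres lam p)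
    (g : PMat F N) : ∃ h : PMat F N, lat F N (g * h) lam = lat F N g lam ∧
      lat F N h lam = lat F N 1 lam ∧
      ∀ V, nbr (g * h) lam V = nbr g lam (V.map p.toLinearMap) :=
  ⟨levLift lam p hp, lat_levLift hp g,
    by simpa only [one_mul] using lat_levLift hp 1, nbr_mul_levLift hp g⟩

lemma nbr_ne {g : PMat F N} {lam : Fin N → ℤ} {V : Submodule F (Fin N → F)} (h0 : V ≠ ⊥)
    (h1 : V ≠ ⊤) : nbr g lam V ≠ latClass F N g lam := by
  intro h
  obtain ⟨z, hz⟩ := cls_eq_iff.1 h.symm
  change (nbrLat g lam V).1 = scaleL F N z (lat F N g lam) at hz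
  rcases le_or_gt z 0 with hz0 | hz0
  · refine h0 (nbrLat_inj (g := g) (lam := lam) ?_)
    rw [nbrLat_bot]
    refine le_antisymm ?_ (lat_le_nbrLat g lam V)
    rw [hz]
    exact (scaleL_mono_left hz0 _).trans_eq (scaleL_zero _)
  · refine h1 (nbrLat_inj (g := g) (lam := lam) ?_)
    rw [nbrLat_top]
    refine le_antisymm (nbrLat_le g lam V) ?_
    rw [hz]
    exact scaleL_mono_left (by omega) _

lemma nbr_injOn (g : PMat F N) (lam : Fin N → ℤ) :
    Set.InjOn (nbr g lam) {V | V ≠ ⊥ ∧ V ≠ ⊤} := by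
  rintro V ⟨hV0, hV1⟩ W ⟨hW0, hW1⟩ h
  obtain ⟨z, hz⟩ := cls_eq_iff.1 h
  rcases lt_trichotomy z 0 with hz0 | hz0 | hz0
  · exfalso
    refine hW0 (nbrLat_inj (g := g) (lam := lam) ?_)
    rw [nbrLat_bot]
    refine le_antisymm ?_ (lat_le_nbrLat g lam W)
    rw [hz]
    calc scaleL F N z (nbrLat g lam V).1 ≤ scaleL F N z (scaleL F N 1 (lat F N g lam)) :=
          scaleL_mono _ (nbrLat_le g lam V)
      _ ≤ scaleL F N 0 (lat F N g lam) := by
          rw [scaleL_scaleL]; exact scaleL_mono_left (by omega) _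
      _ = _ := scaleL_zero _
  · rw [hz0, scaleL_zero] at hz
    exact nbrLat_inj hz.symm
  · exfalso
    refine hW1 (nbrLat_inj (g := g) (lam := lam) ?_)
    rw [nbrLat_top]
    refine le_antisymm (nbrLat_le g lam W) ?_
    rw [hz]
    exact (scaleL_mono _ (lat_le_nbrLat g lam V)).trans'
      (scaleL_mono_left (by omega) _)

open Classical in
/-- Every subspace is a coordinate subspace after a flag preserving change of coordinates. -/
theorem exists_adapted (lam : Fin N → ℤ) (V : Submodule F (Fin N → F)) :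
    ∃ (p : (Fin N → F) ≃ₗ[F] (Fin N → F)) (J : Finset (Fin N)),
      FlPres lam p ∧ V = (coordSub F J).map p.toLinearMap := by
  let low : (Fin N → F) → Fin N → Prop := fun x i =>
    x i ≠ 0 ∧ ∀ k, x k ≠ 0 → lam i < lam k ∨ (lam i = lam k ∧ i ≤ k)
  have hlow : ∀ x : Fin N → F, x ≠ 0 → ∃ i, low x i := by
    intro x hx
    have hne : (Finset.univ.filter fun i => x i ≠ 0).Nonempty := by
      obtain ⟨i, hi⟩ := Function.ne_iff.1 hx
      exact ⟨i, by simpa using hi⟩
    obtain ⟨m, hm, hmin⟩ := Finset.exists_min_image _ lam hne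
    have hne2 : (Finset.univ.filter fun i => x i ≠ 0 ∧ lam i = lam m).Nonempty :=
      ⟨m, by simpa using hm⟩
    obtain ⟨i, hi, himin⟩ := Finset.exists_min_image _ id hne2
    simp only [Finset.mem_filter, Finset.mem_univ, true_and, id] at hi himin hmin
    refine ⟨i, hi.1, fun k hk => ?_⟩
    rcases (hmin k hk).lt_or_eq with h | h
    · exact Or.inl (hi.2 ▸ h)
    · exact Or.inr ⟨hi.2.trans h, himin k ⟨hk, h.symm⟩⟩
  set J := Finset.univ.filter fun i => ∃ x ∈ V, low x i with hJ
  have hv : ∀ i, ∃ v : Fin N → F, low v i ∧ ((i ∈ J ∧ v ∈ V) ∨ (i ∉ J ∧ v = Pi.single i 1)) := by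
    intro i
    by_cases hi : i ∈ J
    · obtain ⟨x, hx, hxi⟩ := (Finset.mem_filter.1 hi).2
      exact ⟨x, hxi, Or.inl ⟨hi, hx⟩⟩
    · refine ⟨Pi.single i 1, ⟨by simp, fun k hk => ?_⟩, Or.inr ⟨hi, rfl⟩⟩
      have : k = i := by by_contra h; exact hk (Pi.single_eq_of_ne h _)
      exact Or.inr ⟨by rw [this], this.ge⟩
  choose v hvlow hvV using hv
  let T : (Fin N → F) →ₗ[F] (Fin N → F) := Fintype.linearCombination F v
  have hT : ∀ x, T x = ∑ i, x i • v i := fun x => Fintype.linearCombination_apply ..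
  have hTinj : Function.Injective T := by
    rw [← LinearMap.ker_eq_bot, LinearMap.ker_eq_bot']
    intro x hx
    by_contra hne
    obtain ⟨i, hi, himin⟩ := hlow x hne
    have h := congrFun (hT x ▸ hx) i
    rw [Finset.sum_apply, Finset.sum_eq_single i ?_ (by simp)] at h
    · exact mul_ne_zero hi (hvlow i).1 (by simpa using h)
    · intro k _ hki
      by_contra hk
      simp only [Pi.smul_apply, smul_eq_mul, mul_eq_zero, not_or] at hk
      rcases himin k hk.1 with h1 | ⟨h1, h1'⟩ <;> rcases (hvlow k).2 i hk.2 with h2 | ⟨h2, h2'⟩ <;>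
        omega
  refine ⟨LinearEquiv.ofInjectiveEndo T hTinj, J, fun c x hx k hk => ?_, ?_⟩
  · change T x k = 0
    rw [hT, Finset.sum_apply]
    refine Finset.sum_eq_zero fun i _ => ?_
    by_contra h
    simp only [Pi.smul_apply, smul_eq_mul, mul_eq_zero, not_or] at h
    have hci : c ≤ lam i := not_lt.1 fun hlt => h.1 (hx i hlt)
    rcases (hvlow i).2 k h.2 with h2 | ⟨h2, -⟩ <;> omega
  · apply le_antisymm
    · intro w hw
      obtain ⟨x, rfl⟩ := (LinearEquiv.ofInjectiveEndo T hTinj).surjective w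
      change T x ∈ V at hw
      refine ⟨x, fun i hi => ?_, rfl⟩
      set y : Fin N → F := fun k => if k ∈ J then 0 else x k with hy
      have hTy : T y = y := by
        rw [hT]
        conv_rhs => rw [pi_eq_sum_univ' y]
        refine Finset.sum_congr rfl fun k _ => ?_
        by_cases hk : k ∈ J
        · simp [hy, hk]
        · obtain ⟨-, he⟩ := (hvV k).resolve_left (fun h => hk h.1)
          rw [he]
      have hyV : y ∈ V := by
        rw [← hTy]
        have e : T y = T x - ∑ k ∈ J, x k • v k := by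
          rw [hT, hT, ← Finset.sum_sdiff (Finset.subset_univ J)
            (f := fun k => x k • v k), add_sub_cancel_right,
            ← Finset.sum_sdiff (Finset.subset_univ J), Finset.sum_eq_zero (s := J), add_zero]
          · refine Finset.sum_congr rfl fun k hk => ?_
            simp [hy, (Finset.mem_sdiff.1 hk).2]
          · intro k hk
            simp [hy, hk]
        rw [e]
        refine V.sub_mem hw (V.sum_mem fun k hk => V.smul_mem _ ?_)
        exact ((hvV k).resolve_right fun h => h.1 hk).2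
      by_contra hxi
      have hy0 : y ≠ 0 := fun h => hxi (by simpa [hy, hi] using congrFun h i)
      obtain ⟨k, hk⟩ := hlow y hy0
      have hkJ : k ∈ J := Finset.mem_filter.2 ⟨Finset.mem_univ _, y, hyV, hk⟩
      exact hk.1 (by simp [hy, hkJ])
    · rintro _ ⟨x, hx, rfl⟩
      change T x ∈ V
      rw [hT]
      refine V.sum_mem fun k _ => ?_
      by_cases hk : k ∈ J
      · exact V.smul_mem _ ((hvV k).resolve_right fun h => h.1 hk).2
      · simp [hx k hk]

open Classical in
/-- The link of a vertex is the order complex of proper nonzero subspaces. -/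
theorem mem_link_iff {g : PMat F N} {lam : Fin N → ℤ} {s : Finset (BVert F N)} :
    s ∈ link (Bldg F N) (latClass F N g lam) ↔
      ∃ S : Finset (Submodule F (Fin N → F)), (∀ V ∈ S, V ≠ ⊥ ∧ V ≠ ⊤) ∧
        (∀ V ∈ S, ∀ W ∈ S, V ≤ W ∨ W ≤ V) ∧ s = S.image (nbr g lam) := by
  constructor
  · rintro ⟨hv, rep, h1, h2⟩
    set L := lat F N g lam with hL
    obtain ⟨z, hz⟩ := cls_eq_iff.1 (h1 _ (Finset.mem_insert_self _ _))
    change L = _ at hz
    have key : ∀ w ∈ s, ∃ V : Submodule F (Fin N → F), V ≠ ⊥ ∧ V ≠ ⊤ ∧ nbr g lam V = w ∧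
        ((nbrLat g lam V).1 = scaleL F N z (rep w).1 ∧ L ≤ scaleL F N z (rep w).1 ∨
          (nbrLat g lam V).1 = scaleL F N (z + 1) (rep w).1 ∧ scaleL F N z (rep w).1 ≤ L) := by
      intro w hw
      obtain ⟨hc, hp1⟩ := h2 _ (Finset.mem_insert_self _ _) w (Finset.mem_insert_of_mem hw)
      obtain ⟨-, hp2⟩ := h2 w (Finset.mem_insert_of_mem hw) _ (Finset.mem_insert_self _ _)
      have hw1 : scaleL F N z (rep w).1 ≤ scaleL F N 1 L := by
        rw [hz, scaleL_scaleL, add_comm, ← scaleL_scaleL]
        exact scaleL_mono z hp1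
      have hw2 : L ≤ scaleL F N (z + 1) (rep w).1 := by
        rw [hz, ← scaleL_scaleL]
        exact scaleL_mono z hp2
      obtain ⟨z', hz'⟩ : ∃ z' : ℤ, L ≤ scaleL F N z' (rep w).1 ∧
          scaleL F N z' (rep w).1 ≤ scaleL F N 1 L ∧
          ((z' = z ∧ L ≤ scaleL F N z (rep w).1) ∨
           (z' = z + 1 ∧ scaleL F N z (rep w).1 ≤ L)) := by
        rcases hc with hc | hc
        · have : L ≤ scaleL F N z (rep w).1 := hz ▸ scaleL_mono z hc
          exact ⟨z, this, hw1, Or.inl ⟨rfl, this⟩⟩
        · have : scaleL F N z (rep w).1 ≤ L := hz ▸ scaleL_mono z hc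
          refine ⟨z + 1, hw2, ?_, Or.inr ⟨rfl, this⟩⟩
          rw [add_comm, ← scaleL_scaleL]
          exact scaleL_mono 1 this
      obtain ⟨hlo, hhi, hcase⟩ := hz'
      set M := scaleL F N z' (rep w).1 with hM
      set M0 := M.map (gMap F N g⁻¹) with hM0
      have hM0a : stdLat F N lam ≤ M0 := by
        refine le_trans (le_of_eq ?_) (Submodule.map_mono (f := gMap F N g⁻¹) hlo)
        rw [hL, map_gMap_lat, inv_mul_cancel, lat_one]
      have hM0b : M0 ≤ stdLat F N (fun i => lam i + 1) := by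
        refine le_trans (Submodule.map_mono (f := gMap F N g⁻¹) hhi) (le_of_eq ?_)
        rw [hL, scaleL_lat, map_gMap_lat, inv_mul_cancel, lat_one]
      set V := subspaceOf lam M0 with hVdef
      have hVM : (nbrLat g lam V).1 = M := by
        change (nbrStd lam V).map (gMap F N g) = M
        rw [hVdef, nbrStd_subspaceOf hM0a hM0b, hM0, ← Submodule.map_comp, ← gMap_mul,
          mul_inv_cancel, gMap_one, Submodule.map_id]
      have hnbr : nbr g lam V = w := by
        rw [← h1 w (Finset.mem_insert_of_mem hw)]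
        exact cls_eq_iff.2 ⟨-z', by rw [hVM, hM, scaleL_scaleL, neg_add_cancel, scaleL_zero]⟩
      have hne : ∀ u : ℤ, M ≠ scaleL F N u L := by
        intro u hu
        refine (fun h : w ≠ latClass F N g lam => h) (fun h => hv (h ▸ hw)) ?_
        rw [← hnbr]
        exact (cls_eq_iff.2 ⟨u, hVM.trans hu⟩ :
          (Quot.mk _ (mkLat F N g lam) : BVert F N) = Quot.mk _ (nbrLat g lam V)).symm
      refine ⟨V, fun h => hne 0 ?_, fun h => hne 1 ?_, hnbr, ?_⟩
      · rw [← hVM, h, nbrLat_bot, scaleL_zero]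
      · rw [← hVM, h, nbrLat_top]
      · rcases hcase with ⟨rfl, h⟩ | ⟨rfl, h⟩
        · exact Or.inl ⟨hVM, h⟩
        · exact Or.inr ⟨hVM, h⟩
    choose! V hV0 hV1 hV2 hV3 using key
    refine ⟨s.image V, ?_, ?_, ?_⟩
    · intro U hU
      obtain ⟨w, hw, rfl⟩ := Finset.mem_image.1 hU
      exact ⟨hV0 w hw, hV1 w hw⟩
    · intro A hA B hB
      obtain ⟨u, hu, rfl⟩ := Finset.mem_image.1 hA
      obtain ⟨w, hw, rfl⟩ := Finset.mem_image.1 hB
      obtain ⟨hc, hp1⟩ := h2 u (Finset.mem_insert_of_mem hu) w (Finset.mem_insert_of_mem hw)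
      obtain ⟨-, hp2⟩ := h2 w (Finset.mem_insert_of_mem hw) u (Finset.mem_insert_of_mem hu)
      simp only [← nbrLat_le_iff (g := g) (lam := lam)]
      rcases hV3 u hu with ⟨eu, cu⟩ | ⟨eu, cu⟩ <;> rcases hV3 w hw with ⟨ew, cw⟩ | ⟨ew, cw⟩ <;>
        rw [eu, ew]
      · exact hc.imp (scaleL_mono z) (scaleL_mono z)
      · left
        rw [← scaleL_scaleL]
        exact scaleL_mono z hp2
      · right
        rw [← scaleL_scaleL]
        exact scaleL_mono z hp1
      · exact hc.imp (scaleL_mono _) (scaleL_mono _)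
    · rw [Finset.image_image]
      exact (Finset.image_id.symm.trans (Finset.image_congr fun w hw => (hV2 w hw).symm))
  · rintro ⟨S, hS, hch, rfl⟩
    refine ⟨fun h => ?_, ?_⟩
    · obtain ⟨V, hV, e⟩ := Finset.mem_image.1 h
      exact nbr_ne (hS V hV).1 (hS V hV).2 e
    have hinj := nbr_injOn g lam
    refine ⟨fun w => if h : ∃ V ∈ S, nbr g lam V = w then nbrLat g lam h.choose
      else mkLat F N g lam, ?_, ?_⟩
    · intro w hw
      rcases Finset.mem_insert.1 hw with rfl | hw
      · dsimp only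
        rw [dif_neg]
        · rfl
        · rintro ⟨V, hV, e⟩
          exact nbr_ne (hS V hV).1 (hS V hV).2 e
      · have h : ∃ V ∈ S, nbr g lam V = w := Finset.mem_image.1 hw
        dsimp only
        rw [dif_pos h]
        exact h.choose_spec.2
    · intro a ha b hb
      dsimp only
      by_cases h : ∃ V ∈ S, nbr g lam V = a <;> by_cases h' : ∃ V ∈ S, nbr g lam V = b
      · rw [dif_pos h, dif_pos h']
        refine ⟨?_, (nbrLat_le _ _ _).trans (scaleL_mono 1 (lat_le_nbrLat _ _ _))⟩
        simp only [nbrLat_le_iff]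
        exact hch _ h.choose_spec.1 _ h'.choose_spec.1
      · rw [dif_pos h, dif_neg h']
        exact ⟨Or.inr (lat_le_nbrLat _ _ _),
          (lat_le_nbrLat g lam h.choose).trans (le_scaleL zero_le_one _)⟩
      · rw [dif_neg h, dif_pos h']
        exact ⟨Or.inl (lat_le_nbrLat _ _ _), nbrLat_le _ _ _⟩
      · rw [dif_neg h, dif_neg h']
        exact ⟨Or.inl le_rfl, le_scaleL zero_le_one _⟩

end Vale.Agent.P067
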