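import Mathlib

/-!
The Morse key of a vector of degree bounds, and how it moves when some entries are raised by one.
-/

namespace Vale.Agent.P067

open Finset

variable {N : ℕ}

/-- The key computed from given extreme values. -/
def keyAt (lam : Fin N → ℤ) (lo hi : ℤ) : ℕ ×ₗ ℕ ×ₗ ℕ ×ₗ ℕ :=
  toLex ((hi - lo).toNat, toLex (
    (univ.filter fun i => lam i = hi).card + (univ.filter fun i => lam i = lo).card, toLex (
    (univ.filter fun i => lam i = lo).card, ∑ i, (hi - lam i).toNat)))

/-- The Morse key: spread, size of the extreme levels, size of the bottom, distance to the top. -/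
noncomputable def mkey (lam : Fin N → ℤ) : ℕ ×ₗ ℕ ×ₗ ℕ ×ₗ ℕ :=
  keyAt lam (⨅ i, lam i) (⨆ i, lam i)

lemma mkey_eq {lam : Fin N → ℤ} {lo hi : ℤ} (hb : ∀ i, lo ≤ lam i ∧ lam i ≤ hi)
    (hl : ∃ i, lam i = lo) (hh : ∃ i, lam i = hi) : mkey lam = keyAt lam lo hi := by
  obtain ⟨i, hi'⟩ := hl
  obtain ⟨j, hj⟩ := hh
  have : Nonempty (Fin N) := ⟨i⟩
  have h1 : ⨅ i, lam i = lo :=
    le_antisymm (hi' ▸ ciInf_le (Set.finite_range lam).bddBelow i) (le_ciInf fun k => (hb k).1)
  have h2 : ⨆ i, lam i = hi :=
    le_antisymm (ciSup_le fun k => (hb k).2) (hj ▸ le_ciSup (Set.finite_range lam).bddAbove j)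
  rw [mkey, h1, h2]

lemma exists_bounds (hN : 0 < N) (lam : Fin N → ℤ) :
    ∃ lo hi, (∀ i, lo ≤ lam i ∧ lam i ≤ hi) ∧ (∃ i, lam i = lo) ∧ (∃ i, lam i = hi) := by
  have hne : (univ : Finset (Fin N)).Nonempty := ⟨⟨0, hN⟩, Finset.mem_univ _⟩
  obtain ⟨i, -, hi⟩ := Finset.exists_min_image univ lam hne
  obtain ⟨j, -, hj⟩ := Finset.exists_max_image univ lam hne
  exact ⟨lam i, lam j, fun k => ⟨hi k (Finset.mem_univ _), hj k (Finset.mem_univ _)⟩,
    ⟨i, rfl⟩, ⟨j, rfl⟩⟩

/-- The key is invariant under permutation and shift. -/
lemma mkey_perm_add (hN : 0 < N) (lam : Fin N → ℤ) (s : Equiv.Perm (Fin N)) (z : ℤ) :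
    mkey (fun i => lam (s i) + z) = mkey lam := by
  obtain ⟨lo, hi, hb, ⟨i, hi'⟩, j, hj⟩ := exists_bounds hN lam
  rw [mkey_eq hb ⟨i, hi'⟩ ⟨j, hj⟩, mkey_eq (lo := lo + z) (hi := hi + z)
    (fun k => ⟨by have := (hb (s k)).1; omega, by have := (hb (s k)).2; omega⟩)
    ⟨s.symm i, by simp [hi']⟩ ⟨s.symm j, by simp [hj]⟩]
  have hc : ∀ c : ℤ, (univ.filter fun k => lam (s k) + z = c + z).card =
      (univ.filter fun k => lam k = c).card := by
    intro c
    rw [Finset.card_filter, Finset.card_filter,
      ← Equiv.sum_comp s (fun k => if lam k = c then (1 : ℕ) else 0)]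
    refine Finset.sum_congr rfl fun k _ => ?_
    simp
  have hs : ∑ k, (hi - lam (s k)).toNat = ∑ k, (hi - lam k).toNat :=
    Equiv.sum_comp s (fun k => (hi - lam k).toNat)
  simp only [keyAt, hc, hs, add_sub_add_right_eq_sub]

lemma keyAt_lt_iff {lam lam' : Fin N → ℤ} {lo hi lo' hi' : ℤ} :
    keyAt lam lo hi < keyAt lam' lo' hi' ↔
      (hi - lo).toNat < (hi' - lo').toNat ∨ ((hi - lo).toNat = (hi' - lo').toNat ∧
      ((univ.filter fun i => lam i = hi).card + (univ.filter fun i => lam i = lo).card <
        (univ.filter fun i => lam' i = hi').card + (univ.filter fun i => lam' i = lo').card ∨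
      ((univ.filter fun i => lam i = hi).card + (univ.filter fun i => lam i = lo).card =
        (univ.filter fun i => lam' i = hi').card + (univ.filter fun i => lam' i = lo').card ∧
      ((univ.filter fun i => lam i = lo).card < (univ.filter fun i => lam' i = lo').card ∨
      ((univ.filter fun i => lam i = lo).card = (univ.filter fun i => lam' i = lo').card ∧
      ∑ i, (hi - lam i).toNat < ∑ i, (hi' - lam' i).toNat))))) := by
  simp only [keyAt, Prod.Lex.lt_iff, ofLex_toLex]

/-- The number of entries at least `c`. -/
def levN (lam : Fin N → ℤ) (c : ℤ) : ℕ := (univ.filter fun i => c ≤ lam i).card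

/-- The number of raised entries at least `c`. -/
def levJ (lam : Fin N → ℤ) (J : Finset (Fin N)) (c : ℤ) : ℕ := (J.filter fun i => c ≤ lam i).card

/-- The descending condition in terms of the counts, as in `descSet`. -/
def descCount (lam : Fin N → ℤ) (J : Finset (Fin N)) (lo hi : ℤ) : Prop :=
  (levJ lam J hi = 0 ∧
      (J.card + levN lam (lo + 1) = N + levJ lam J (lo + 1) ∨
        levJ lam J (hi - 1) + levJ lam J (lo + 1) ≤ J.card)) ∨
    (J.card + levN lam (lo + 1) = N + levJ lam J (lo + 1) ∧
      levN lam (lo + 1) + levJ lam J (lo + 2) + levJ lam J hi <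
        levN lam hi + levN lam (lo + 2) + levJ lam J (lo + 1))

/-- Raising `J` lowers the key exactly in the descending case, and never keeps it. -/
theorem mkey_raise (lam : Fin N → ℤ) (lo hi : ℤ) (hb : ∀ i, lo ≤ lam i ∧ lam i ≤ hi)
    (hl : ∃ i, lam i = lo) (hh : ∃ i, lam i = hi) (hD : lo + 2 ≤ hi) (J : Finset (Fin N))
    (hJ : J.Nonempty) (hJ' : J ≠ univ) :
    (mkey (fun i => lam i + if i ∈ J then 1 else 0) < mkey lam ↔ descCount lam J lo hi) ∧
      mkey (fun i => lam i + if i ∈ J then 1 else 0) ≠ mkey lam := by
  set lam' : Fin N → ℤ := fun i => lam i + if i ∈ J then 1 else 0 with hlam'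
  suffices key : (descCount lam J lo hi → mkey lam' < mkey lam) ∧
      (¬ descCount lam J lo hi → mkey lam < mkey lam') by
    by_cases hQ : descCount lam J lo hi
    · exact ⟨iff_of_true (key.1 hQ) hQ, ne_of_lt (key.1 hQ)⟩
    · exact ⟨iff_of_false (not_lt_of_gt (key.2 hQ)) hQ, (ne_of_lt (key.2 hQ)).symm⟩
  obtain ⟨il, hil⟩ := hl
  obtain ⟨ih, hih⟩ := hh
  rw [mkey_eq hb ⟨il, hil⟩ ⟨ih, hih⟩]
  have hlam : ∀ i, lam' i = lam i + if i ∈ J then 1 else 0 := fun i => rfl
  have hcount : ∀ (p : Fin N → Prop) [DecidablePred p],
      (J.filter p).card = (univ.filter fun i => i ∈ J ∧ p i).card := by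
    intro p _
    congr 1
    ext i
    simp
  have hJcard : 0 < J.card := hJ.card_pos
  have hJlt : J.card < N := by
    have := Finset.card_lt_card (Finset.ssubset_univ_iff.2 hJ')
    simpa using this
  have hJc : J.card = (univ.filter fun i => i ∈ J).card := by simp
  have hNc : N = (univ.filter fun _ : Fin N => True).card := by simp
  have c0 : (univ.filter fun i => lam i = hi).card = levN lam hi := by
    rw [levN]
    congr 1
    refine Finset.filter_congr fun i _ => ?_
    have := hb i
    omega
  have c1 : (univ.filter fun i => lam i = lo).card + levN lam (lo + 1) = N := by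
    rw [levN, ← Finset.card_union_of_disjoint
      (Finset.disjoint_filter.2 fun i _ h => by omega)]
    refine Eq.trans ?_ hNc.symm
    congr 1
    ext i
    have := hb i
    simp
    omega
  have hx : levJ lam J hi = 0 ↔ ∀ i ∈ J, lam i ≠ hi := by
    rw [levJ, Finset.card_eq_zero, Finset.filter_eq_empty_iff]
    refine forall₂_congr fun i _ => ?_
    have := hb i
    omega
  have hy : J.card + levN lam (lo + 1) = N + levJ lam J (lo + 1) ↔
      ∀ i, lam i = lo → i ∈ J := by
    have hsplit : J.card = (J.filter fun i => lam i = lo).card + levJ lam J (lo + 1) := by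
      rw [levJ, ← Finset.card_union_of_disjoint
        (Finset.disjoint_filter.2 fun i _ h => by omega)]
      congr 1
      ext i
      have := hb i
      simp only [Finset.mem_union, Finset.mem_filter]
      constructor
      · intro h
        by_cases h' : lam i = lo
        · exact Or.inl ⟨h, h'⟩
        · exact Or.inr ⟨h, by omega⟩
      · rintro (⟨h, -⟩ | ⟨h, -⟩) <;> exact h
    constructor
    · intro h i hi'
      have he : (J.filter fun i => lam i = lo) = univ.filter fun i => lam i = lo :=
        Finset.eq_of_subset_of_card_le (Finset.filter_subset_filter _ (Finset.subset_univ _))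
          (by omega)
      have : i ∈ univ.filter fun i => lam i = lo := by simp [hi']
      rw [← he] at this
      exact (Finset.mem_filter.1 this).1
    · intro h
      have he : (J.filter fun i => lam i = lo) = univ.filter fun i => lam i = lo := by
        ext i
        simpa using h i
      rw [he] at hsplit
      omega
  by_cases hx0 : levJ lam J hi = 0
  · have hxp := hx.1 hx0
    have ht : ∀ i, lam' i ≤ hi := fun i => by
      have := hb i
      rw [hlam]
      split_ifs with h
      · have := hxp i h
        omega
      · omega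
    have hwt : lam' ih = hi := by
      rw [hlam, if_neg fun h => hxp ih h hih, hih, add_zero]
    by_cases hyb : J.card + levN lam (lo + 1) = N + levJ lam J (lo + 1)
    · -- the spread drops
      have hyp := hy.1 hyb
      have hwl : lam' il = lo + 1 := by rw [hlam, if_pos (hyp il hil), hil]
      have hlow : ∀ i, lo + 1 ≤ lam' i := fun i => by
        have := hb i
        rw [hlam]
        split_ifs with h
        · omega
        · have : lam i ≠ lo := fun h' => h (hyp i h')
          omega
      rw [mkey_eq (fun i => ⟨hlow i, ht i⟩) ⟨il, hwl⟩ ⟨ih, hwt⟩]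
      refine ⟨fun _ => keyAt_lt_iff.2 (Or.inl (by omega)), fun h => ?_⟩
      exact absurd (Or.inl ⟨hx0, Or.inl hyb⟩) h
    · -- the spread stays, the bottom may shrink and the top may grow
      obtain ⟨il', hil', hilJ⟩ : ∃ i, lam i = lo ∧ i ∉ J := by
        by_contra h
        push Not at h
        exact hyb (hy.2 h)
      have hwl : lam' il' = lo := by rw [hlam, if_neg hilJ, hil', add_zero]
      have hlow : ∀ i, lo ≤ lam' i := fun i => by
        have := hb i
        rw [hlam]
        split_ifs <;> omega
      rw [mkey_eq (fun i => ⟨hlow i, ht i⟩) ⟨il', hwl⟩ ⟨ih, hwt⟩]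
      have e1 : (univ.filter fun i => lam' i = hi).card + levJ lam J hi =
          (univ.filter fun i => lam i = hi).card + levJ lam J (hi - 1) := by
        simp only [levJ, hcount, Finset.card_filter, ← Finset.sum_add_distrib, hlam]
        refine Finset.sum_congr rfl fun i _ => ?_
        have := hb i
        by_cases h : i ∈ J
        · have := hxp i h
          simp only [h, if_true, true_and]
          split_ifs <;> omega
        · simp [h]
      have e2 : (univ.filter fun i => lam' i = lo).card + J.card =
          (univ.filter fun i => lam i = lo).card + levJ lam J (lo + 1) := by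
        rw [hJc]
        simp only [levJ, hcount, Finset.card_filter, ← Finset.sum_add_distrib, hlam]
        refine Finset.sum_congr rfl fun i _ => ?_
        have := hb i
        by_cases h : i ∈ J
        · simp only [h, if_true, true_and]
          split_ifs <;> omega
        · simp [h]
      have e3 : ∑ i, (hi - lam' i).toNat + J.card = ∑ i, (hi - lam i).toNat := by
        rw [hJc, Finset.card_filter, ← Finset.sum_add_distrib]
        refine Finset.sum_congr rfl fun i _ => ?_
        have := hb i
        have := ht i
        rw [hlam] at this ⊢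
        split_ifs at this ⊢ <;> omega
      rw [keyAt_lt_iff, keyAt_lt_iff, descCount]
      constructor <;> intro h <;> omega
  · obtain ⟨ih', hihJ, hih'⟩ : ∃ i, i ∈ J ∧ lam i = hi := by
      by_contra h
      push Not at h
      exact hx0 (hx.2 h)
    have ht : ∀ i, lam' i ≤ hi + 1 := fun i => by
      have := hb i
      rw [hlam]
      split_ifs <;> omega
    have hwt : lam' ih' = hi + 1 := by rw [hlam, if_pos hihJ, hih']
    by_cases hyb : J.card + levN lam (lo + 1) = N + levJ lam J (lo + 1)
    · have hyp := hy.1 hyb
      have hwl : lam' il = lo + 1 := by rw [hlam, if_pos (hyp il hil), hil]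
      have hlow : ∀ i, lo + 1 ≤ lam' i := fun i => by
        have := hb i
        rw [hlam]
        split_ifs with h
        · omega
        · have : lam i ≠ lo := fun h' => h (hyp i h')
          omega
      rw [mkey_eq (fun i => ⟨hlow i, ht i⟩) ⟨il, hwl⟩ ⟨ih', hwt⟩]
      have e1 : (univ.filter fun i => lam' i = hi + 1).card = levJ lam J hi := by
        simp only [levJ, hcount]
        congr 1
        refine Finset.filter_congr fun i _ => ?_
        have := hb i
        rw [hlam]
        split_ifs with h <;> simp [h] <;> omega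
      have e2 : (univ.filter fun i => lam' i = lo + 1).card + levN lam (lo + 2) +
          levJ lam J (lo + 1) = N + levJ lam J (lo + 2) := by
        rw [show N + levJ lam J (lo + 2) = (univ.filter fun _ : Fin N => True).card +
          levJ lam J (lo + 2) from congrArg (· + _) hNc]
        simp only [levJ, levN, hcount, Finset.card_filter, ← Finset.sum_add_distrib, hlam]
        refine Finset.sum_congr rfl fun i _ => ?_
        have := hb i
        by_cases h : i ∈ J
        · simp only [h, if_true, true_and]
          split_ifs <;> omega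
        · have : lam i ≠ lo := fun h' => h (hyp i h')
          simp only [h, if_false, false_and, add_zero, if_true]
          split_ifs <;> omega
      have e3 : ∑ i, (hi + 1 - lam' i).toNat + J.card = ∑ i, (hi - lam i).toNat + N := by
        rw [show ∑ i, (hi - lam i).toNat + N = ∑ i, (hi - lam i).toNat +
          (univ.filter fun _ : Fin N => True).card from congrArg (_ + ·) hNc]
        rw [hJc]
        simp only [Finset.card_filter, ← Finset.sum_add_distrib, hlam]
        refine Finset.sum_congr rfl fun i _ => ?_
        have := hb i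
        by_cases h : i ∈ J
        · simp only [h, if_true]
          omega
        · simp only [h, if_false, if_true, add_zero]
          omega
      have e4 : levJ lam J (lo + 1) + levN lam (lo + 2) ≤
          levN lam (lo + 1) + levJ lam J (lo + 2) := by
        simp only [levJ, levN, hcount, Finset.card_filter, ← Finset.sum_add_distrib]
        refine Finset.sum_le_sum fun i _ => ?_
        by_cases h : i ∈ J <;> simp only [h, true_and, false_and, if_false] <;> split_ifs <;> omega
      rw [keyAt_lt_iff, keyAt_lt_iff, descCount]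
      constructor <;> intro h <;> omega
    · obtain ⟨il', hil', hilJ⟩ : ∃ i, lam i = lo ∧ i ∉ J := by
        by_contra h
        push Not at h
        exact hyb (hy.2 h)
      have hwl : lam' il' = lo := by rw [hlam, if_neg hilJ, hil', add_zero]
      have hlow : ∀ i, lo ≤ lam' i := fun i => by
        have := hb i
        rw [hlam]
        split_ifs <;> omega
      rw [mkey_eq (fun i => ⟨hlow i, ht i⟩) ⟨il', hwl⟩ ⟨ih', hwt⟩]
      refine ⟨fun h => ?_, fun _ => keyAt_lt_iff.2 (Or.inl (by omega))⟩
      rw [descCount] at h
      omega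

/-- Spread at most one means a small key. -/
theorem mkey_lt_of_spread (lam : Fin N → ℤ) {lo hi : ℤ} (hb : ∀ i, lo ≤ lam i ∧ lam i ≤ hi)
    (hl : ∃ i, lam i = lo) (hh : ∃ i, lam i = hi) (hD : lo + 2 ≤ hi)
    (mu : Fin N → ℤ) (hmu : ∃ m, ∀ i, m ≤ mu i ∧ mu i ≤ m + 1) : mkey mu < mkey lam := by
  have hN : 0 < N := hl.elim fun i _ => i.pos
  obtain ⟨lo', hi', hb', ⟨a, ha⟩, b, hb''⟩ := exists_bounds hN mu
  obtain ⟨m, hm⟩ := hmu
  rw [mkey_eq hb hl hh, mkey_eq hb' ⟨a, ha⟩ ⟨b, hb''⟩, keyAt_lt_iff]
  refine Or.inl ?_
  have := hm a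
  have := hm b
  omega

end Vale.Agent.P067
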