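import Vale.Agent.P067.Interval

/-!
The Morse key of a vector of degree bounds, the descending subspaces of a filtration, and the
proof that they form a `Good` family.
-/

namespace Vale.Agent.P067

open Finset Module

section Desc

variable {F E : Type*} [Field F] [AddCommGroup E] [Module F E]

/-- Descending subspaces for a filtration `Fl` with levels from `lo` to `hi`: either
`V` misses the top and contains the whole bottom, or misses the top and has at most as many jumps
just below the top as at the bottom, or contains the whole bottom and leaves fewer free slots on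
level `lo + 1` than in the top. -/
def descSet (Fl : ℤ → Submodule F E) (lo hi : ℤ) : Set (Submodule F E) :=
  {V | V ≠ ⊥ ∧ V ≠ ⊤ ∧
    ((finrank F ↥(V ⊓ Fl hi) = 0 ∧
        (finrank F V + finrank F (Fl (lo + 1)) = finrank F E + finrank F ↥(V ⊓ Fl (lo + 1)) ∨
          finrank F ↥(V ⊓ Fl (hi - 1)) + finrank F ↥(V ⊓ Fl (lo + 1)) ≤ finrank F V)) ∨
      (finrank F V + finrank F (Fl (lo + 1)) = finrank F E + finrank F ↥(V ⊓ Fl (lo + 1)) ∧
        finrank F (Fl (lo + 1)) + finrank F ↥(V ⊓ Fl (lo + 2)) + finrank F ↥(V ⊓ Fl hi) <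
          finrank F (Fl hi) + finrank F (Fl (lo + 2)) + finrank F ↥(V ⊓ Fl (lo + 1))))}

variable [FiniteDimensional F E]

lemma finrank_sup_line (V : Submodule F E) {u : E} (hu : u ∉ V) :
    finrank F ↥(V ⊔ Submodule.span F {u}) = finrank F V + 1 := by
  have hu0 : u ≠ 0 := fun h => hu (h ▸ V.zero_mem)
  have h := Submodule.finrank_sup_add_finrank_inf_eq V (Submodule.span F {u})
  have h0 : V ⊓ Submodule.span F {u} = ⊥ := by
    rw [eq_bot_iff]
    rintro y ⟨hyV, hy⟩
    obtain ⟨c, rfl⟩ := Submodule.mem_span_singleton.1 hy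
    by_cases hc : c = 0
    · simp [hc]
    · exact absurd (by simpa [smul_smul, inv_mul_cancel₀ hc] using V.smul_mem c⁻¹ hyV) hu
  rw [h0, finrank_bot, finrank_span_singleton hu0] at h
  omega

/-- The descending subspaces of a filtration form a `Good` family. -/
theorem descSet_good (Fl : ℤ → Submodule F E) (hFl : Antitone Fl) (lo hi : ℤ) (hD : lo + 2 ≤ hi)
    (hlo : Fl lo = ⊤) (hhi : Fl (hi + 1) = ⊥) : Good (descSet Fl lo hi) ⊥ ⊤ 1 := by
  classical
  refine ⟨bot_le, fun V hV => ⟨bot_lt_iff_ne_bot.2 hV.1, lt_top_iff_ne_top.2 hV.2.1⟩,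
    fun V W hV hW hVW hd => ?_⟩
  set S : Finset ℤ := (Finset.Icc lo hi).filter (fun c => V ⊔ (W ⊓ Fl c) = W) with hS
  have hSne : S.Nonempty :=
    ⟨lo, Finset.mem_filter.2 ⟨Finset.mem_Icc.2 ⟨le_rfl, by omega⟩, by simp [hlo, hVW]⟩⟩
  set c := S.max' hSne with hcdef
  obtain ⟨hcI, hcW⟩ := Finset.mem_filter.1 (S.max'_mem hSne)
  rw [← hcdef] at hcI hcW
  obtain ⟨hloc, hchi⟩ := Finset.mem_Icc.1 hcI
  set H := V ⊔ (W ⊓ Fl (c + 1)) with hH
  have hHW : H < W := by
    refine lt_of_le_of_ne (sup_le hVW inf_le_left) fun h => ?_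
    by_cases hc : c + 1 ≤ hi
    · have := S.le_max' (c + 1) (Finset.mem_filter.2 ⟨Finset.mem_Icc.2 ⟨by omega, hc⟩, h⟩)
      rw [← hcdef] at this
      omega
    · have hc' : c = hi := by omega
      rw [hH, hc', hhi, inf_bot_eq, sup_bot_eq] at h
      rw [h] at hd
      omega
  refine ⟨{H}, by simp, fun G hG => (Finset.mem_singleton.1 hG) ▸ ⟨le_sup_left, hHW⟩,
    fun x hxW hxV hxA => ?_⟩
  have hxH : x ∉ H := hxA H (Finset.mem_singleton_self _)
  obtain ⟨v, hv, u, hu, rfl⟩ := Submodule.mem_sup.1 (hcW.symm ▸ hxW)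
  have huH : u ∉ H := fun h => hxH (H.add_mem ((le_sup_left : V ≤ H) hv) h)
  have huV : u ∉ V := fun h => huH ((le_sup_left : V ≤ H) h)
  obtain ⟨huW, huc⟩ := hu
  have hspan : V ⊔ Submodule.span F {v + u} = V ⊔ Submodule.span F {u} := by
    refine le_antisymm (sup_le le_sup_left ((Submodule.span_singleton_le_iff_mem _ _).2 ?_))
      (sup_le le_sup_left ((Submodule.span_singleton_le_iff_mem _ _).2 ?_))
    · exact Submodule.add_mem_sup hv (Submodule.mem_span_singleton_self u)
    · simpa using Submodule.add_mem_sup (V.neg_mem hv) (Submodule.mem_span_singleton_self (v + u))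
  rw [hspan]
  set V' := V ⊔ Submodule.span F {u} with hV'def
  have hV' : finrank F V' = finrank F V + 1 := finrank_sup_line V huV
  have hV'W : V' ≤ W := sup_le hVW ((Submodule.span_singleton_le_iff_mem _ _).2 huW)
  -- dimensions along the filtration
  have hlow : ∀ e ≤ c, finrank F ↥(V' ⊓ Fl e) = finrank F ↥(V ⊓ Fl e) + 1 := by
    intro e he
    have : V' ⊓ Fl e = V ⊓ Fl e ⊔ Submodule.span F {u} := by
      rw [hV'def, sup_comm V, sup_inf_assoc_of_le _
        ((Submodule.span_singleton_le_iff_mem _ _).2 (hFl he huc)), sup_comm]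
    rw [this, finrank_sup_line _ fun h => huV (Submodule.mem_inf.1 h).1]
  have hhigh : ∀ e, c < e → V' ⊓ Fl e = V ⊓ Fl e := by
    intro e he
    refine le_antisymm ?_ (inf_le_inf_right _ le_sup_left)
    rintro w ⟨hw, hwe⟩
    obtain ⟨v₁, hv₁, u₁, hu₁, rfl⟩ := Submodule.mem_sup.1 hw
    obtain ⟨s, rfl⟩ := Submodule.mem_span_singleton.1 hu₁
    by_cases hs : s = 0
    · simp only [hs, zero_smul, add_zero] at hwe ⊢
      exact ⟨hv₁, hwe⟩
    · exfalso
      have h1 : v₁ + s • u ∈ H := (le_sup_right : W ⊓ Fl (c + 1) ≤ H)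
        ⟨W.add_mem (hVW hv₁) (W.smul_mem s huW), hFl (by omega : c + 1 ≤ e) hwe⟩
      have h2 := H.smul_mem s⁻¹ (H.sub_mem h1 ((le_sup_left : V ≤ H) hv₁))
      rw [add_sub_cancel_left, smul_smul, inv_mul_cancel₀ hs, one_smul] at h2
      exact huH h2
  have hWeq : ∀ e ≤ c, finrank F W + finrank F ↥(V ⊓ Fl e) =
      finrank F V + finrank F ↥(W ⊓ Fl e) := by
    intro e he
    have h1 : V ⊔ (W ⊓ Fl e) = W :=
      le_antisymm (sup_le hVW inf_le_left)
        (hcW.symm.le.trans (sup_le_sup_left (inf_le_inf_left _ (hFl he)) _))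
    have h2 := Submodule.finrank_sup_add_finrank_inf_eq V (W ⊓ Fl e)
    rw [h1, ← inf_assoc, inf_eq_left.2 hVW] at h2
    omega
  have mV : ∀ {e e'}, e ≤ e' → finrank F ↥(V ⊓ Fl e') ≤ finrank F ↥(V ⊓ Fl e) :=
    fun h => Submodule.finrank_mono (inf_le_inf_left _ (hFl h))
  have hVWfr : ∀ e, finrank F ↥(V' ⊓ Fl e) ≤ finrank F ↥(W ⊓ Fl e) :=
    fun e => Submodule.finrank_mono (inf_le_inf_right _ hV'W)
  have hVlo : finrank F ↥(V ⊓ Fl lo) = finrank F V := by rw [hlo, inf_top_eq]
  have hVhi : ∀ U : Submodule F E, finrank F ↥(U ⊓ Fl (hi + 1)) = 0 := fun U => by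
    rw [hhi, inf_bot_eq, finrank_bot]
  have hE : finrank F (Fl lo) = finrank F E := by rw [hlo, finrank_top]
  have hWE : finrank F W ≤ finrank F E := Submodule.finrank_le W
  have hne : V' ≠ ⊥ ∧ V' ≠ ⊤ := by
    refine ⟨fun h => ?_, fun h => ?_⟩
    · rw [h, finrank_bot] at hV'
      omega
    · rw [h, finrank_top] at hV'
      omega
  refine ⟨hne.1, hne.2, ?_⟩
  -- the profile of `V`
  have hVcase : (finrank F ↥(V ⊓ Fl hi) = 0 ∧
        (finrank F V + finrank F (Fl (lo + 1)) = finrank F E + finrank F ↥(V ⊓ Fl (lo + 1)) ∨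
          finrank F ↥(V ⊓ Fl (hi - 1)) + finrank F ↥(V ⊓ Fl (lo + 1)) ≤ finrank F V)) ∨
      (finrank F V + finrank F (Fl (lo + 1)) = finrank F E + finrank F ↥(V ⊓ Fl (lo + 1)) ∧
        finrank F (Fl (lo + 1)) + finrank F ↥(V ⊓ Fl (lo + 2)) + finrank F ↥(V ⊓ Fl hi) <
          finrank F (Fl hi) + finrank F (Fl (lo + 2)) + finrank F ↥(V ⊓ Fl (lo + 1))) := by
    rcases hV with hV | rfl
    · exact hV.2.2
    · refine Or.inl ⟨by simp, Or.inr ?_⟩
      simp
  have hbot_le : ∀ U : Submodule F E, finrank F U + finrank F (Fl (lo + 1)) ≤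
      finrank F E + finrank F ↥(U ⊓ Fl (lo + 1)) := fun U => by
    have := Submodule.finrank_sup_add_finrank_inf_eq U (Fl (lo + 1))
    have := Submodule.finrank_le (U ⊔ Fl (lo + 1))
    omega
  have := hbot_le V
  have := hbot_le V'
  have := hVWfr (hi - 1)
  have := hVWfr hi
  have := mV (show hi - 1 ≤ hi by omega)
  have := mV (show lo + 1 ≤ hi - 1 by omega)
  have := mV (show lo ≤ lo + 1 by omega)
  have := mV (show lo + 1 ≤ lo + 2 by omega)
  have := hVhi V
  rcases eq_or_lt_of_le hloc with hc0 | hc0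
  · -- the new jump is at the bottom
    have h1 : ∀ e, lo < e → finrank F ↥(V' ⊓ Fl e) = finrank F ↥(V ⊓ Fl e) := fun e he => by
      rw [hhigh e (by omega)]
    have := h1 (lo + 1) (by omega)
    rw [h1 hi (by omega), h1 (lo + 1) (by omega), h1 (lo + 2) (by omega), h1 (hi - 1) (by omega),
      hV']
    omega
  -- the new jump is above the bottom, so `W` and `V` agree there
  have hb := hlow (lo + 1) (by omega)
  have hWb := hWeq (lo + 1) (by omega)
  rw [hV', hb]
  rcases hW with hW | hW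
  · rcases eq_or_lt_of_le hchi with hctop | hctop
    · -- top jump
      have hh := hlow hi (by omega)
      have h2 := hlow (lo + 2) (by omega)
      have hW2 := hWeq (lo + 2) (by omega)
      have hWh := hWeq hi (by omega)
      rw [h2, hh]
      rcases hW.2.2 with hq | hq <;> omega
    · -- below the top
      have hh : finrank F ↥(V' ⊓ Fl hi) = finrank F ↥(V ⊓ Fl hi) := by rw [hhigh hi hctop]
      rw [hh]
      by_cases h2c : lo + 2 ≤ c
      · have h2 := hlow (lo + 2) h2c
        rw [h2]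
        rcases hW.2.2 with hq | hq <;> omega
      · have h2 : finrank F ↥(V' ⊓ Fl (lo + 2)) = finrank F ↥(V ⊓ Fl (lo + 2)) := by
          rw [hhigh (lo + 2) (by omega)]
        rw [h2]
        rcases hW.2.2 with hq | hq <;> omega
  · subst hW
    rw [finrank_top, top_inf_eq] at hWb
    rcases eq_or_lt_of_le hchi with hctop | hctop
    · have hh := hlow hi (by omega)
      have h2 := hlow (lo + 2) (by omega)
      have hW2 := hWeq (lo + 2) (by omega)
      have hWh := hWeq hi (by omega)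
      rw [finrank_top, top_inf_eq] at hW2 hWh
      rw [finrank_top] at hd
      rw [h2, hh]
      omega
    · have hh : finrank F ↥(V' ⊓ Fl hi) = finrank F ↥(V ⊓ Fl hi) := by rw [hhigh hi hctop]
      rw [hh]
      by_cases h2c : lo + 2 ≤ c
      · rw [hlow (lo + 2) h2c]
        omega
      · rw [hhigh (lo + 2) (by omega)]
        omega

end Desc

end Vale.Agent.P067
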