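import Vale.Agent.P067.Morse
import Vale.Agent.P067.Fill
import Vale.Agent.P067.CoreMap
import Vale.Agent.P067.LatticeNbr
import Vale.Agent.P067.LatticeAcyclic
import Vale.Agent.P067.MorseKey
import Vale.Agent.P067.MorseProfile

/-!
The complex of vertices of spread at most one is acyclic in a range: Morse theory on the building.
-/

namespace Vale.Agent.P067

open Finset Module

variable {F : Type} [Field F] {N : ℕ}

lemma finrank_coordSub (J : Finset (Fin N)) : finrank F (coordSub F J) = J.card := by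
  set π : (Fin N → F) →ₗ[F] ({i // i ∉ J} → F) :=
    LinearMap.funLeft F F (Subtype.val : {i // i ∉ J} → Fin N) with hπ
  have hker : LinearMap.ker π = coordSub F J := by
    ext x
    simp only [LinearMap.mem_ker, hπ, funext_iff, LinearMap.funLeft_apply, Pi.zero_apply,
      Subtype.forall]
    rfl
  have h := π.finrank_range_add_finrank_ker
  rw [LinearMap.range_eq_top.2 (LinearMap.funLeft_surjective_of_injective F F _
    Subtype.val_injective), finrank_top, hker, Module.finrank_pi, Module.finrank_pi,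
    Fintype.card_subtype_compl, Fintype.card_fin, Fintype.card_coe] at h
  have := Finset.card_le_univ J
  rw [Fintype.card_fin] at this
  omega

lemma fl_eq_coordSub (lam : Fin N → ℤ) (c : ℤ) :
    Fl F lam c = coordSub F (univ.filter fun i => c ≤ lam i) := by
  ext x
  show (∀ i, lam i < c → x i = 0) ↔ ∀ i ∉ univ.filter (fun i => c ≤ lam i), x i = 0
  simp

lemma coordSub_inf_fl (lam : Fin N → ℤ) (J : Finset (Fin N)) (c : ℤ) :
    coordSub F J ⊓ Fl F lam c = coordSub F (J.filter fun i => c ≤ lam i) := by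
  ext x
  show ((∀ i ∉ J, x i = 0) ∧ (∀ i, lam i < c → x i = 0)) ↔
    ∀ i ∉ J.filter (fun i => c ≤ lam i), x i = 0
  constructor
  · rintro ⟨h1, h2⟩ i hi
    by_cases h : i ∈ J
    · exact h2 i (by simpa [h] using hi)
    · exact h1 i h
  · intro h
    exact ⟨fun i hi => h i (by simp [hi]), fun i hi => h i (by simp [hi])⟩

lemma fl_antitone (lam : Fin N → ℤ) : Antitone (Fl F lam) :=
  fun _ _ h _ hx i hi => hx i (lt_of_lt_of_le hi h)

lemma map_fl {lam : Fin N → ℤ} {p : (Fin N → F) ≃ₗ[F] (Fin N → F)} (hp : FlPres lam p) (c : ℤ) :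
    (Fl F lam c).map p.toLinearMap = Fl F lam c := by
  refine Submodule.eq_of_le_of_finrank_eq ?_ (LinearEquiv.finrank_map_eq p _)
  rintro _ ⟨y, hy, rfl⟩
  exact hp c y hy

lemma finrank_map_coordSub_inf {lam : Fin N → ℤ} {p : (Fin N → F) ≃ₗ[F] (Fin N → F)}
    (hp : FlPres lam p) (J : Finset (Fin N)) (c : ℤ) :
    finrank F ↥((coordSub F J).map p.toLinearMap ⊓ Fl F lam c) = levJ lam J c := by
  conv_lhs => rw [← map_fl hp c]
  rw [← Submodule.map_inf _ p.injective, LinearEquiv.finrank_map_eq, coordSub_inf_fl,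
    finrank_coordSub]
  rfl

lemma mem_descSet_iff {lam : Fin N → ℤ} {p : (Fin N → F) ≃ₗ[F] (Fin N → F)} (hp : FlPres lam p)
    (J : Finset (Fin N)) (lo hi : ℤ) (h0 : (coordSub F J).map p.toLinearMap ≠ ⊥)
    (h1 : (coordSub F J).map p.toLinearMap ≠ ⊤) :
    (coordSub F J).map p.toLinearMap ∈ descSet (Fl F lam) lo hi ↔ descCount lam J lo hi := by
  have hfl : ∀ c, finrank F (Fl F lam c) = levN lam c := fun c => by
    rw [fl_eq_coordSub, finrank_coordSub]
    rfl
  have hV : finrank F ↥((coordSub F J).map p.toLinearMap) = J.card := by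
    rw [LinearEquiv.finrank_map_eq, finrank_coordSub]
  simp only [descSet, Set.mem_ofPred_eq, finrank_map_coordSub_inf hp, hfl, hV,
    Module.finrank_fin_fun, descCount]
  exact ⟨fun h => h.2.2, fun h => ⟨h0, h1, h⟩⟩

/-- The Morse function on vertices. -/
noncomputable def vkey (v : BVert F N) : ℕ ×ₗ ℕ ×ₗ ℕ ×ₗ ℕ :=
  mkey (exists_latClass v).choose_spec.choose

lemma vkey_latClass (hN : 0 < N) (g : PMat F N) (lam : Fin N → ℤ) :
    vkey (latClass F N g lam) = mkey lam := by
  have h := (exists_latClass (latClass F N g lam)).choose_spec.choose_spec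
  obtain ⟨s, z, hs⟩ := lam_unique h
  rw [vkey, hs, mkey_perm_add hN]

lemma exists_nbr_key (hN : 0 < N) (g : PMat F N) (lam : Fin N → ℤ) {lo hi : ℤ}
    (hb : ∀ i, lo ≤ lam i ∧ lam i ≤ hi) (hl : ∃ i, lam i = lo) (hh : ∃ i, lam i = hi)
    (hD : lo + 2 ≤ hi) {V : Submodule F (Fin N → F)} (h0 : V ≠ ⊥) (h1 : V ≠ ⊤) :
    (vkey (nbr g lam V) < vkey (latClass F N g lam) ↔ V ∈ descSet (Fl F lam) lo hi) ∧
      vkey (nbr g lam V) ≠ vkey (latClass F N g lam) := by
  obtain ⟨p, J, hp, rfl⟩ := exists_adapted lam V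
  obtain ⟨h, -, -, hh'⟩ := exists_lift hp g
  rw [← hh', nbr_coordSub, vkey_latClass hN, vkey_latClass hN, mem_descSet_iff hp J lo hi h0 h1]
  refine mkey_raise lam lo hi hb hl hh hD J ?_ ?_
  · rw [Finset.nonempty_iff_ne_empty]
    rintro rfl
    refine h0 ?_
    rw [eq_bot_iff]
    rintro _ ⟨x, hx, rfl⟩
    have : x = 0 := funext fun i => hx i (Finset.notMem_empty i)
    simp [this]
  · rintro rfl
    refine h1 ?_
    rw [eq_top_iff]
    exact fun x _ => ⟨p.symm x, fun i hi => absurd (Finset.mem_univ i) hi, p.apply_symm_apply x⟩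

/-- A permutation matrix as a polynomial matrix. -/
noncomputable def permPMat (F : Type) [Field F] {N : ℕ} (s : Equiv.Perm (Fin N)) : PMat F N where
  val := (s⁻¹).permMatrix (Polynomial F)
  inv := s.permMatrix (Polynomial F)
  val_inv := by rw [← Matrix.permMatrix_mul]; simp
  inv_val := by rw [← Matrix.permMatrix_mul]; simp

lemma gMap_permPMat_inv (s : Equiv.Perm (Fin N)) (v : RVec F N) (i : Fin N) :
    gMap F N (permPMat F s)⁻¹ v i = v (s i) := by
  have h : ratMat (permPMat F s)⁻¹ = s.permMatrix (RatFunc F) := by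
    ext a b
    simp only [ratMat_apply, permPMat, Units.inv_mk]
    simp [Equiv.Perm.permMatrix, PEquiv.toMatrix_apply, apply_ite]
  rw [gMap_apply, h, Matrix.permMatrix_mulVec]
  rfl

lemma latClass_perm (g : PMat F N) (lam : Fin N → ℤ) (s : Equiv.Perm (Fin N)) :
    latClass F N (g * permPMat F s) (fun i => lam (s i)) = latClass F N g lam := by
  refine (latClass_eq_iff.2 ⟨0, ?_⟩)
  ext v
  simp only [mem_lat, mul_inv_rev, gMap_mul_apply, gMap_permPMat_inv, add_zero]
  exact (Equiv.forall_congr_left s.symm).trans (forall_congr' fun i => by simp)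

lemma mem_lowSet_of_spread (g : PMat F N) (lam : Fin N → ℤ) {lo hi : ℤ}
    (hb : ∀ i, lo ≤ lam i ∧ lam i ≤ hi) (hD : hi ≤ lo + 1) :
    latClass F N g lam ∈ lowSet F N := by
  classical
  set T := univ.filter (fun i : Fin N => lam i = lo + 1) with hT
  have hcard : Fintype.card {i : Fin N // (i : ℕ) < T.card} =
      Fintype.card {i : Fin N // lam i = lo + 1} := by
    have : T.card ≤ N := by simpa using Finset.card_le_univ T
    rw [Fintype.card_subtype, Fintype.card_subtype, ← hT, Fin.card_filter_val_lt,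
      Nat.min_eq_right this]
  set s := (Fintype.equivOfCardEq hcard).extendSubtype with hs
  refine ⟨g * permPMat F s, T.card, ?_⟩
  rw [← latClass_perm g lam s, ← latClass_add _ (stdLam N T.card) lo]
  congr 1
  funext i
  have := hb (s i)
  rw [stdLam]
  split_ifs with h
  · have := (Fintype.equivOfCardEq hcard).extendSubtype_mem i h
    rw [← hs] at this
    omega
  · have : lam (s i) ≠ lo + 1 := (Fintype.equivOfCardEq hcard).extendSubtype_not_mem i h
    omega

lemma exists_spread_of_notMem (hN : 0 < N) {v : BVert F N} (hv : v ∉ lowSet F N) :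
    ∃ g lam lo hi, v = latClass F N g lam ∧ (∀ i, lo ≤ lam i ∧ lam i ≤ hi) ∧
      (∃ i, lam i = lo) ∧ (∃ i, lam i = hi) ∧ lo + 2 ≤ hi := by
  obtain ⟨g, lam, rfl⟩ := exists_latClass v
  obtain ⟨lo, hi, hb, hl, hh⟩ := exists_bounds hN lam
  refine ⟨g, lam, lo, hi, rfl, hb, hl, hh, ?_⟩
  by_contra h
  exact hv (mem_lowSet_of_spread g lam hb (by omega))

lemma vkey_lowSet_lt (hN : 0 < N) {v w : BVert F N} (hv : v ∉ lowSet F N) (hw : w ∈ lowSet F N) :
    vkey w < vkey v := by
  obtain ⟨g, lam, lo, hi, rfl, hb, hl, hh, hD⟩ := exists_spread_of_notMem hN hv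
  obtain ⟨h, a, rfl⟩ := hw
  rw [vkey_latClass hN, vkey_latClass hN]
  refine mkey_lt_of_spread lam hb hl hh hD _ ⟨0, fun i => ?_⟩
  rw [stdLam]
  split_ifs <;> omega

variable [DecidableEq (BVert F N)]

lemma link_nbr_iff [DecidableEq (Submodule F (Fin N → F))] {g : PMat F N} {lam : Fin N → ℤ}
    {s : Finset (BVert F N)} :
    s ∈ link (Bldg F N) (latClass F N g lam) ↔
      ∃ S : Finset (Submodule F (Fin N → F)), (∀ V ∈ S, V ≠ ⊥ ∧ V ≠ ⊤) ∧
        (∀ V ∈ S, ∀ W ∈ S, V ≤ W ∨ W ≤ V) ∧ s = S.image (nbr g lam) := by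
  rename_i inst1 inst2
  obtain rfl : inst1 = fun a b => Classical.propDecidable (a = b) := Subsingleton.elim _ _
  obtain rfl : inst2 = fun a b => Classical.propDecidable (a = b) := Subsingleton.elim _ _
  exact mem_link_iff

lemma vkey_ne_of_adj (hN : 0 < N) {v w : BVert F N} (hv : v ∉ lowSet F N) (hvw : v ≠ w)
    (he : ({v, w} : Finset (BVert F N)) ∈ Bldg F N) : vkey v ≠ vkey w := by
  obtain ⟨g, lam, lo, hi, rfl, hb, hl, hh, hD⟩ := exists_spread_of_notMem hN hv
  have hlink : ({w} : Finset (BVert F N)) ∈ link (Bldg F N) (latClass F N g lam) :=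
    ⟨by simpa using hvw, he⟩
  classical
  obtain ⟨S, hS, -, hw⟩ := link_nbr_iff.1 hlink
  have : w ∈ S.image (nbr g lam) := by
    rw [← Finset.singleton_subset_iff]
    exact hw.le
  obtain ⟨V, hV, rfl⟩ := Finset.mem_image.1 this
  exact (exists_nbr_key hN g lam hb hl hh hD (hS V hV).1 (hS V hV).2).2.symm

/-- Descending links are copies of flag complexes of `Good` families. -/
lemma descLink_acyclic {k : ℕ} (hgap : k + 2 ≤ N)
    (hjoin : ∀ (E : Type) [AddCommGroup E] [Module F E] [FiniteDimensional F E]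
      (Q : Set (Submodule F E)) (A₀ W₀ : Submodule F E), Good Q A₀ W₀ 1 →
      finrank F A₀ + k + 2 ≤ finrank F W₀ →
      ∀ (J : Type) [DecidableEq (Submodule F E ⊕ J)] (KJ : Set (Finset J)), DownClosed KJ →
        (∅ : Finset J) ∈ KJ → Acyclic (joinCx Q KJ) k)
    (v : BVert F N) (hv : v ∉ lowSet F N) : Acyclic (descLink (Bldg F N) vkey v) k := by
  classical
  have hN : 0 < N := by omega
  obtain ⟨g, lam, lo, hi, rfl, hb, hl, hh, hD⟩ := exists_spread_of_notMem hN hv
  set Q := descSet (Fl F lam) lo hi with hQ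
  have hgood : Good Q ⊥ ⊤ 1 := descSet_good _ (fl_antitone lam) lo hi hD
    (eq_top_iff.2 fun x _ i hi' => absurd hi' (not_lt.2 (hb i).1))
    (eq_bot_iff.2 fun x hx => by
      have : x = 0 := funext fun i => hx i (by have := (hb i).2; omega)
      simp [this])
  set K := joinCx Q ({∅} : Set (Finset Empty)) with hK
  have hac : Acyclic K k := hjoin _ Q ⊥ ⊤ hgood
    (by rw [finrank_bot, finrank_top, Module.finrank_fin_fun]; omega) Empty {∅}
    (fun s _ t _ => Finset.eq_empty_of_isEmpty t) rfl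
  set f : Submodule F (Fin N → F) ⊕ Empty → BVert F N := Sum.elim (nbr g lam) Empty.elim with hf
  have hfK : ∀ s ∈ K, s.image f ∈ descLink (Bldg F N) vkey (latClass F N g lam) := by
    intro s hs
    have hs' : s.image f = s.toLeft.image (nbr g lam) := by
      ext w
      simp only [Finset.mem_image, Finset.mem_toLeft]
      constructor
      · rintro ⟨V | e, h, rfl⟩
        · exact ⟨V, h, rfl⟩
        · exact e.elim
      · rintro ⟨V, h, rfl⟩
        exact ⟨_, h, rfl⟩
    refine ⟨link_nbr_iff.2 ⟨s.toLeft, fun V hV => ?_, fun V hV W hW => ?_, ?_⟩, fun w hw => ?_⟩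
    · obtain ⟨h0, h1, -⟩ := hs.1 V (Finset.mem_toLeft.1 hV)
      exact ⟨h0, h1⟩
    · exact hs.2.1 V W (Finset.mem_toLeft.1 hV) (Finset.mem_toLeft.1 hW)
    · exact hs'
    · rw [hs'] at hw
      obtain ⟨V, hV, rfl⟩ := Finset.mem_image.1 hw
      have hVQ := hs.1 V (Finset.mem_toLeft.1 hV)
      exact (exists_nbr_key hN g lam hb hl hh hD hVQ.1 hVQ.2.1).1.2 hVQ
  have hinj : ∀ s ∈ K, Set.InjOn f (s : Set (Submodule F (Fin N → F) ⊕ Empty)) := by
    rintro s hs (V | e) hV (W | e') hW h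
    · exact congrArg Sum.inl (nbr_injOn g lam ⟨(hs.1 V hV).1, (hs.1 V hV).2.1⟩
        ⟨(hs.1 W hW).1, (hs.1 W hW).2.1⟩ h)
    all_goals first | exact e.elim | exact e'.elim
  set f' : BVert F N → Submodule F (Fin N → F) ⊕ Empty :=
    fun w => Sum.inl (Function.invFunOn (nbr g lam) {V | V ≠ ⊥ ∧ V ≠ ⊤} w) with hf'
  have hback : ∀ t ∈ descLink (Bldg F N) vkey (latClass F N g lam),
      t.image f' ∈ K ∧ ∀ w ∈ t, f (f' w) = w := by
    intro t ht
    obtain ⟨S, hS, hch, he⟩ := link_nbr_iff.1 ht.1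
    have hmem : ∀ w, w ∈ t ↔ ∃ V ∈ S, nbr g lam V = w := fun w => by
      rw [Finset.ext_iff] at he
      rw [he w, Finset.mem_image]
    have hinv : ∀ V ∈ S, Function.invFunOn (nbr g lam) {V | V ≠ ⊥ ∧ V ≠ ⊤} (nbr g lam V) = V :=
      fun V hV => (nbr_injOn g lam).leftInvOn_invFunOn (hS V hV)
    have hpre : ∀ V, Sum.inl V ∈ t.image f' → V ∈ S := by
      intro V hV
      obtain ⟨w, hw, h⟩ := Finset.mem_image.1 hV
      obtain ⟨U, hU, rfl⟩ := (hmem w).1 hw
      rw [hf'] at h
      simp only [hinv U hU] at h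
      exact Sum.inl_injective h ▸ hU
    refine ⟨⟨fun V hV => ?_, fun V W hV hW => hch V (hpre V hV) W (hpre W hW),
      Set.mem_singleton_iff.2 (Finset.eq_empty_of_isEmpty _)⟩, fun w hw => ?_⟩
    · have hVS := hpre V hV
      refine (exists_nbr_key hN g lam hb hl hh hD (hS V hVS).1 (hS V hVS).2).1.1 ?_
      exact ht.2 _ ((hmem _).2 ⟨V, hVS, rfl⟩)
    · obtain ⟨U, hU, rfl⟩ := (hmem w).1 hw
      simp [hf, hf', hinv U hU]
  intro z hz hbz
  have hinj' : ∀ t ∈ descLink (Bldg F N) vkey (latClass F N g lam),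
      Set.InjOn f' (t : Set (BVert F N)) := fun t ht a ha b hb h => by
    rw [← (hback t ht).2 a ha, ← (hback t ht).2 b hb, h]
  have hz' := mapChain_mem_chainsOf hinj' (fun t ht => (hback t ht).1) hz
  have hbz' : bdry (mapChain f' z) = 0 := by
    rw [← mapChain_bdry (fun s hs => hinj' s (mem_chainsOf.1 hz s hs).1), hbz, map_zero]
  obtain ⟨y, hy, hby⟩ := hac _ hz' hbz'
  refine ⟨mapChain f y, mapChain_mem_chainsOf hinj hfK hy, ?_⟩
  rw [← mapChain_bdry (fun s hs => hinj s (mem_chainsOf.1 hy s hs).1), hby]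
  simp only [mapChain, Finsupp.lmapDomain_apply]
  rw [← Finsupp.mapDomain_comp]
  conv_rhs => rw [← Finsupp.mapDomain_id (v := z)]
  refine Finsupp.mapDomain_congr fun t ht => ?_
  have ht' := (hback t (mem_chainsOf.1 hz t (Finsupp.mem_support_iff.1 ht)).1).2
  rw [Function.comp_apply, Finset.image_image, id]
  exact (Finset.image_congr (fun w hw => ht' w hw)).trans Finset.image_id

omit [DecidableEq (BVert F N)] in
/-- `lowCx` is acyclic for simplices with at most `N - 2` vertices, over large fields. -/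
theorem lowCx_acyclic (N k : ℕ) (hNk : k + 2 ≤ N) :
    ∃ q0, ∀ (F : Type) [Field F] [Fintype F], q0 ≤ Fintype.card F →
      ∀ [DecidableEq (BVert F N)], Acyclic (lowCx F N) k := by
  obtain ⟨q0, hq0⟩ := acyclic_join k 1
  refine ⟨q0, fun F _ _ hq _ => ?_⟩
  have hN : 0 < N := by omega
  exact morse_acyclic (Bldg F N) bldg_downClosed vkey (lowSet F N)
    (fun v w hv _ hvw he => vkey_ne_of_adj hN hv hvw he)
    (fun v w hv hw _ => vkey_lowSet_lt hN hv hw) k
    (descLink_acyclic hNk (hq0 F hq)) (bldg_acyclic hN k)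

end Vale.Agent.P067
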