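import Vale.Agent.P067.BarAction
import Vale.Agent.P067.MorseLow
import Vale.Agent.P067.LatticeStab

/-!
Over large fields of odd order, the first congruence subgroup has trivial mod 2 homology in low
degrees: it acts on the low complex with finite stabilisers of odd order and the quotient is a cone.
-/

namespace Vale.Agent.P067

open Finset

section

variable {F : Type} [Field F] {N : ℕ}

variable (F N) in
/-- The orbit of a vertex under the first congruence subgroup. -/
def orbitOne (v : BVert F N) : Set (BVert F N) :=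
  {w | ∃ γ ∈ congr F N 1, actB F N γ v = w}

lemma orbitOne_actB {γ : PMat F N} (hγ : γ ∈ congr F N 1) (v : BVert F N) :
    orbitOne F N (actB F N γ v) = orbitOne F N v := by
  ext w
  constructor
  · rintro ⟨a, ha, rfl⟩
    exact ⟨a * γ, (congr F N 1).mul_mem ha hγ, by rw [map_mul, Equiv.Perm.mul_apply]⟩
  · rintro ⟨a, ha, rfl⟩
    exact ⟨a * γ⁻¹, (congr F N 1).mul_mem ha ((congr F N 1).inv_mem hγ),
      by rw [← Equiv.Perm.mul_apply, ← map_mul, inv_mul_cancel_right]⟩

lemma orbitOne_eq {v w : BVert F N} (h : orbitOne F N v = orbitOne F N w) :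
    ∃ γ ∈ congr F N 1, actB F N γ v = w := by
  have hw : w ∈ orbitOne F N w :=
    ⟨1, (congr F N 1).one_mem, by rw [map_one, Equiv.Perm.one_apply]⟩
  rwa [← h] at hw

open Classical in
lemma orbitOne_injOn {s : Finset (BVert F N)} (hs : s ∈ lowCx F N) :
    Set.InjOn (orbitOne F N) s := by
  intro v hv w hw h
  obtain ⟨γ, hγ, e⟩ := orbitOne_eq h
  obtain ⟨α, hα, hαs⟩ := exists_translate_star hs
  have hp : ∀ u ∈ s, ({oVert F N, actB F N α u} : Finset (BVert F N)) ∈ Bldg F N := fun u hu =>
    bldg_downClosed _ hαs.1 _ (by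
      simp only [Finset.insert_subset_iff, Finset.singleton_subset_iff]
      exact ⟨Finset.mem_insert_self _ _,
        Finset.mem_insert_of_mem (Finset.mem_image_of_mem _ hu)⟩)
  refine (actB F N α).injective (star_orbit_eq (γ := α * γ * α⁻¹)
    ((congr F N 1).mul_mem ((congr F N 1).mul_mem hα hγ) ((congr F N 1).inv_mem hα))
    (hp v hv) (hp w hw) ?_)
  rw [← e, ← Equiv.Perm.mul_apply, ← map_mul, inv_mul_cancel_right, map_mul,
    Equiv.Perm.mul_apply]

open Classical in
/-- The quotient of the low complex by the first congruence subgroup is a cone. -/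
lemma orbitOne_image_acyclic (k : ℕ) :
    Acyclic (Set.image (Finset.image (orbitOne F N)) (lowCx F N)) k := by
  intro z hz hb
  have hins : ∀ Q ∈ Set.image (Finset.image (orbitOne F N)) (lowCx F N),
      insert (orbitOne F N (oVert F N)) Q
        ∈ Set.image (Finset.image (orbitOne F N)) (lowCx F N) := by
    rintro _ ⟨s, hs, rfl⟩
    obtain ⟨α, hα, hαs⟩ := exists_translate_star hs
    refine ⟨_, hαs, ?_⟩
    rw [Finset.image_insert, Finset.image_image]
    congr 1
    exact Finset.image_congr fun v _ => orbitOne_actB hα v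
  refine ⟨cone (orbitOne F N (oVert F N)) z, ?_, ?_⟩
  · rw [mem_chainsOf] at hz ⊢
    intro t ht
    rw [cone_apply] at ht
    by_cases ho : orbitOne F N (oVert F N) ∈ t
    · rw [if_pos ho] at ht
      obtain ⟨h1, h2⟩ := hz _ ht
      have h3 := hins _ h1
      rw [Finset.insert_erase ho] at h3
      refine ⟨h3, ?_⟩
      rw [← h2, Finset.card_erase_add_one ho]
    · simp [ho] at ht
  · simpa [hb] using bdry_cone (orbitOne F N (oVert F N)) z

end

/-- The first congruence subgroup has no homology in degree `q` over large fields of odd order. -/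
theorem congr_one_acyclic (n q : ℕ) (_hq : 1 ≤ q) (hn : q + 4 ≤ n) :
    ∃ q0, ∀ (F : Type) [Field F] [Fintype F], q0 ≤ Fintype.card F → Odd (Fintype.card F) →
      GroupAcyclic (congr F n 1) q := by
  classical
  choose f hf using fun j : Fin (q + 1) => lowCx_acyclic n j (by omega)
  refine ⟨Finset.univ.sup f, fun F _ _ hcard hodd => ?_⟩
  refine groupAcyclic_of_quotient ((actB F n).comp (congr F n 1).subtype) (lowCx F n)
    lowCx_downClosed ⟨?_, by simp⟩ (fun g s hs => image_actB_mem_lowCx (g : PMat F n) hs)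
    (orbitOne F n) (fun g v => orbitOne_actB g.2 v) q (fun s hs _ => orbitOne_injOn hs)
    (fun s hs t ht _ _ h => ?_) (fun s hs h1 _ S hS => ?_)
    (fun j hj => hf ⟨j, by omega⟩ F ((Finset.le_sup (Finset.mem_univ _)).trans hcard))
    (orbitOne_image_acyclic _)
  · exact bldg_downClosed _ (singleton_mem_bldg (oVert F n)) _ (Finset.empty_subset _)
  · obtain ⟨γ, hγ, e⟩ := exists_translate_of_image_eq (orbitOne F n)
      (fun v w _ _ h => orbitOne_eq h) hs ht h
    exact ⟨⟨γ, hγ⟩, e⟩
  · obtain ⟨v, hv⟩ := Finset.card_pos.1 h1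
    exact stab_finite_odd hodd ((congr F n 1).subtype.comp S.subtype)
      (Subtype.val_injective.comp Subtype.val_injective) (fun x => x.1.2)
      (fun x => (hS x.1).1 x.2 v hv)

end Vale.Agent.P067
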