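import Vale.Agent.P067.Core

/-!
Pure complexes given by their set of top faces (`C`, each with `n` vertices), chamber weights,
coboundaries of cochains given by their supports, and expansion predicates.
Everything is indexed by the number `k` of vertices of a face.
-/

namespace Vale.Agent.P067

open Finset

variable {V : Type*} [DecidableEq V]

/-- Faces with `k` vertices. -/
def faces (C : Finset (Finset V)) (k : ℕ) : Finset (Finset V) :=
  C.biUnion (Finset.powersetCard k)

/-- The complex of all faces, as a set system. -/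
def facesCx (C : Finset (Finset V)) : Set (Finset V) :=
  {s | ∃ c ∈ C, s ⊆ c}

/-- Weight of a face: choose a uniform chamber, then a uniform face of the given size. -/
noncomputable def wt (n : ℕ) (C : Finset (Finset V)) (σ : Finset V) : ℝ :=
  ((C.filter (fun c => σ ⊆ c)).card : ℝ) / ((n.choose σ.card : ℝ) * (C.card : ℝ))

/-- Norm of a cochain given by its support. -/
noncomputable def cnorm (n : ℕ) (C : Finset (Finset V)) (S : Finset (Finset V)) : ℝ :=
  ∑ σ ∈ S, wt n C σ

/-- Coboundary of the cochain with support `S` on faces with `k` vertices. -/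
def cobd (C : Finset (Finset V)) (k : ℕ) (S : Finset (Finset V)) : Finset (Finset V) :=
  (faces C (k + 1)).filter (fun τ => Odd ((τ.filter (fun v => τ.erase v ∈ S)).card))

/-- Chambers of the link of a face; they have `n - ρ.card` vertices. -/
def chLink (C : Finset (Finset V)) (ρ : Finset V) : Finset (Finset V) :=
  (C.filter (fun c => ρ ⊆ c)).image (fun c => c \ ρ)

/-- Coboundary expansion for cochains on faces with `k ≥ 1` vertices. -/
def LinkExp (n : ℕ) (C : Finset (Finset V)) (k : ℕ) (β : ℝ) : Prop :=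
  ∀ S, S ⊆ faces C k → ∃ h, h ⊆ faces C (k - 1) ∧
    β * cnorm n C (symmDiff S (cobd C (k - 1) h)) ≤ cnorm n C (cobd C k S)

/-- One-sided spectral bound for the weighted 1-skeleton. -/
def GapLe (n : ℕ) (C : Finset (Finset V)) (lam : ℝ) : Prop :=
  ∀ φ : V → ℝ, (∑ v ∈ C.biUnion id, wt n C {v} * φ v) = 0 →
    (∑ e ∈ faces C 2, wt n C e * ∏ v ∈ e, φ v) ≤
      lam * ∑ v ∈ C.biUnion id, wt n C {v} * φ v ^ 2

/-- Edge mixing bound for the weighted 1-skeleton. -/
def Mixing (n : ℕ) (C : Finset (Finset V)) (c lam : ℝ) : Prop :=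
  ∀ S, S ⊆ C.biUnion id →
    (∑ e ∈ (faces C 2).filter (fun e => e ⊆ S), wt n C e) ≤
      c * ((∑ v ∈ S, wt n C {v}) ^ 2 + lam * ∑ v ∈ S, wt n C {v})

/-- Connectivity of the 1-skeleton. -/
def Conn (C : Finset (Finset V)) : Prop :=
  ∀ φ : V → ℝ, (∀ e ∈ faces C 2, ∀ u ∈ e, ∀ v ∈ e, φ u = φ v) →
    ∀ u ∈ C.biUnion id, ∀ v ∈ C.biUnion id, φ u = φ v

/-- All chambers have `n` vertices. -/
def Uniform (n : ℕ) (C : Finset (Finset V)) : Prop :=
  C.Nonempty ∧ ∀ c ∈ C, c.card = n

/-- `col` colours each chamber injectively. -/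
def Partite {T : Type*} (C : Finset (Finset V)) (col : V → T) : Prop :=
  ∀ c ∈ C, Set.InjOn col (c : Set V)

/-- Local minimality at all nonempty faces. -/
def LocMin (n : ℕ) (C : Finset (Finset V)) (k : ℕ) (S : Finset (Finset V)) : Prop :=
  ∀ ρ : Finset V, 1 ≤ ρ.card → ρ.card < k → ∀ h, h ⊆ faces C (k - 1) →
    (∀ x ∈ h, ρ ⊆ x) → cnorm n C S ≤ cnorm n C (symmDiff S (cobd C (k - 1) h))

end Vale.Agent.P067
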