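import Vale.Agent.P067.Chambers

/-!
Elementary facts about faces, chamber counts and coboundaries of cochains given by supports.
-/

namespace Vale.Agent.P067

open Finset

variable {V : Type*} [DecidableEq V]

/-- Number of chambers containing a face. -/
def cnt (C : Finset (Finset V)) (σ : Finset V) : ℕ := (C.filter (fun c => σ ⊆ c)).card

/-- Total number of incidences with chambers. -/
def mass (C : Finset (Finset V)) (S : Finset (Finset V)) : ℕ := ∑ σ ∈ S, cnt C σ

lemma mem_faces_card {C : Finset (Finset V)} {k : ℕ} {σ : Finset V} :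
    σ ∈ faces C k ↔ σ.card = k ∧ ∃ c ∈ C, σ ⊆ c := by
  simp only [faces, mem_biUnion, mem_powersetCard]
  exact ⟨fun ⟨c, hc, h, hk⟩ => ⟨hk, c, hc, h⟩, fun ⟨hk, c, hc, h⟩ => ⟨c, hc, h, hk⟩⟩

lemma mem_faces_of_subset {C : Finset (Finset V)} {k : ℕ} {σ τ : Finset V} (hτ : τ ∈ faces C k)
    (h : σ ⊆ τ) : σ ∈ faces C σ.card := by
  obtain ⟨-, c, hc, hs⟩ := mem_faces_card.1 hτ
  exact mem_faces_card.2 ⟨rfl, c, hc, h.trans hs⟩

lemma erase_mem_faces {C : Finset (Finset V)} {k : ℕ} {τ : Finset V} (hτ : τ ∈ faces C (k + 1))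
    {v : V} (hv : v ∈ τ) : τ.erase v ∈ faces C k := by
  obtain ⟨hk, c, hc, hs⟩ := mem_faces_card.1 hτ
  exact mem_faces_card.2 ⟨by rw [card_erase_of_mem hv, hk]; omega, c, hc,
    (erase_subset _ _).trans hs⟩

lemma cnt_pos {C : Finset (Finset V)} {k : ℕ} {σ : Finset V} (h : σ ∈ faces C k) :
    0 < cnt C σ := by
  obtain ⟨-, c, hc, hs⟩ := mem_faces_card.1 h
  exact card_pos.2 ⟨c, mem_filter.2 ⟨hc, hs⟩⟩

lemma cnt_le_of_subset (C : Finset (Finset V)) {σ τ : Finset V} (h : σ ⊆ τ) :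
    cnt C τ ≤ cnt C σ :=
  card_le_card fun _ hc => mem_filter.2 ⟨(mem_filter.1 hc).1, h.trans (mem_filter.1 hc).2⟩

lemma cnt_empty (C : Finset (Finset V)) : cnt C ∅ = C.card := by
  simp [cnt]

lemma wt_eq (n : ℕ) (C : Finset (Finset V)) (σ : Finset V) :
    wt n C σ = (cnt C σ : ℝ) / ((n.choose σ.card : ℝ) * (C.card : ℝ)) := rfl

lemma cnorm_eq_mass {n k : ℕ} {C S : Finset (Finset V)} (hS : ∀ σ ∈ S, σ.card = k) :
    cnorm n C S = (mass C S : ℝ) / ((n.choose k : ℝ) * (C.card : ℝ)) := by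
  rw [cnorm, mass, Nat.cast_sum, Finset.sum_div]
  exact Finset.sum_congr rfl fun σ hσ => by rw [wt_eq, hS σ hσ]

lemma cnorm_nonneg (n : ℕ) (C S : Finset (Finset V)) : 0 ≤ cnorm n C S :=
  Finset.sum_nonneg fun σ _ => by rw [wt_eq]; positivity

/-- Double counting of the faces above a given face. -/
lemma sum_cnt_above {n : ℕ} {C : Finset (Finset V)} (hC : Uniform n C) (ρ : Finset V) {s : ℕ}
    (hs : ρ.card ≤ s) :
    ∑ σ ∈ (faces C s).filter (fun σ => ρ ⊆ σ), cnt C σ
      = (n - ρ.card).choose (s - ρ.card) * cnt C ρ := by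
  simp only [cnt, Finset.card_filter]
  rw [Finset.sum_comm, Finset.mul_sum]
  refine Finset.sum_congr rfl fun c hc => ?_
  rw [← Finset.card_filter]
  by_cases hρ : ρ ⊆ c
  · rw [if_pos hρ, mul_one, ← hC.2 c hc, ← card_sdiff_of_subset hρ, ← card_powersetCard]
    refine Finset.card_bij' (fun σ _ => σ \ ρ) (fun τ _ => τ ∪ ρ) ?_ ?_ ?_ ?_
    · intro σ hσ
      simp only [mem_filter] at hσ
      rw [mem_powersetCard]
      exact ⟨sdiff_subset_sdiff hσ.2 (Finset.Subset.refl _), by
        rw [card_sdiff_of_subset hσ.1.2, (mem_faces_card.1 hσ.1.1).1]⟩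
    · intro τ hτ
      rw [mem_powersetCard, subset_sdiff] at hτ
      simp only [mem_filter]
      refine ⟨⟨mem_faces_card.2 ⟨?_, c, hc, union_subset hτ.1.1 hρ⟩, subset_union_right⟩,
        union_subset hτ.1.1 hρ⟩
      rw [card_union_of_disjoint hτ.1.2, hτ.2]
      omega
    · intro σ hσ
      simp only [mem_filter] at hσ
      exact sdiff_union_of_subset hσ.1.2
    · intro τ hτ
      rw [mem_powersetCard, subset_sdiff] at hτ
      exact union_sdiff_cancel_right hτ.1.2
  · rw [if_neg hρ, mul_zero, card_eq_zero, filter_eq_empty_iff]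
    intro σ hσ h
    exact hρ ((mem_filter.1 hσ).2.trans h)

lemma sum_cnt_faces {n : ℕ} {C : Finset (Finset V)} (hC : Uniform n C) (k : ℕ) :
    mass C (faces C k) = n.choose k * C.card := by
  have := sum_cnt_above hC (∅ : Finset V) (s := k) (by simp)
  simpa [cnt_empty, mass] using this

lemma mass_mono (C : Finset (Finset V)) {S T : Finset (Finset V)} (h : S ⊆ T) :
    mass C S ≤ mass C T :=
  Finset.sum_le_sum_of_subset h

/-- Indicator with values in `ZMod 2`. -/
def ind (S : Finset (Finset V)) (x : Finset V) : ZMod 2 := if x ∈ S then 1 else 0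

lemma ind_eq_one {S : Finset (Finset V)} {x : Finset V} : ind S x = 1 ↔ x ∈ S := by
  unfold ind; split_ifs with h <;> simp [h]

lemma ind_symmDiff (A B : Finset (Finset V)) (x : Finset V) :
    ind (symmDiff A B) x = ind A x + ind B x := by
  unfold ind
  by_cases hA : x ∈ A <;> by_cases hB : x ∈ B <;> simp [hA, hB, mem_symmDiff]
  decide

lemma ind_eq_of_iff {A B : Finset (Finset V)} {x : Finset V} (h : x ∈ A ↔ x ∈ B) :
    ind A x = ind B x := by
  unfold ind; simp only [h]

lemma mem_cobd {C : Finset (Finset V)} {k : ℕ} {S : Finset (Finset V)} {τ : Finset V} :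
    τ ∈ cobd C k S ↔ τ ∈ faces C (k + 1) ∧ ∑ v ∈ τ, ind S (τ.erase v) = 1 := by
  simp only [cobd, mem_filter]
  refine and_congr_right fun _ => ?_
  have : (∑ v ∈ τ, ind S (τ.erase v)) = ((τ.filter fun v => τ.erase v ∈ S).card : ZMod 2) := by
    simp only [ind, Finset.sum_boole]
  rw [this, ZMod.natCast_eq_one_iff_odd]

lemma ind_cobd {C : Finset (Finset V)} {k : ℕ} {S : Finset (Finset V)} {τ : Finset V}
    (hτ : τ ∈ faces C (k + 1)) :
    ind (cobd C k S) τ = ∑ v ∈ τ, ind S (τ.erase v) := by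
  have key : ∀ a : ZMod 2, a = 0 ∨ a = 1 := by decide
  rcases key (∑ v ∈ τ, ind S (τ.erase v)) with h | h <;> rw [h]
  · exact if_neg fun hm => by simp [(mem_cobd.1 hm).2] at h
  · exact if_pos (mem_cobd.2 ⟨hτ, h⟩)

lemma cobd_subset (C : Finset (Finset V)) (k : ℕ) (S : Finset (Finset V)) :
    cobd C k S ⊆ faces C (k + 1) :=
  filter_subset _ _

lemma cobd_empty (C : Finset (Finset V)) (k : ℕ) : cobd C k ∅ = ∅ := by
  ext τ; simp [mem_cobd, ind]

lemma ext_ind {A B : Finset (Finset V)} (h : ∀ x, ind A x = ind B x) : A = B := by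
  ext x; rw [← ind_eq_one, h x, ind_eq_one]

lemma cobd_symmDiff (C : Finset (Finset V)) (k : ℕ) (A B : Finset (Finset V)) :
    cobd C k (symmDiff A B) = symmDiff (cobd C k A) (cobd C k B) := by
  refine ext_ind fun τ => ?_
  by_cases hτ : τ ∈ faces C (k + 1)
  · simp only [ind_symmDiff, ind_cobd hτ, Finset.sum_add_distrib]
  · have h0 : ∀ S, ind (cobd C k S) τ = 0 := fun S => if_neg fun h => hτ (cobd_subset C k S h)
    simp only [ind_symmDiff, h0, add_zero]

lemma cobd_cobd (C : Finset (Finset V)) (k : ℕ) (S : Finset (Finset V)) :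
    cobd C (k + 1) (cobd C k S) = ∅ := by
  refine Finset.eq_empty_of_forall_notMem fun τ hτ => ?_
  obtain ⟨hf, hsum⟩ := mem_cobd.1 hτ
  rw [Finset.sum_congr rfl fun v hv => ind_cobd (erase_mem_faces hf hv)] at hsum
  have hz : ∑ v ∈ τ, ∑ u ∈ τ.erase v, ind S ((τ.erase v).erase u) = 0 := by
    rw [Finset.sum_sigma']
    refine Finset.sum_involution (fun p _ => ⟨p.2, p.1⟩) ?_ ?_ ?_ ?_
    · intro p _
      dsimp only
      rw [erase_right_comm]
      exact CharTwo.add_self_eq_zero _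
    · intro p hp _ h
      simp only [mem_sigma, mem_erase] at hp
      exact hp.2.1 (congrArg Sigma.fst h)
    · intro p hp
      simp only [mem_sigma, mem_erase] at hp ⊢
      exact ⟨hp.2.2, hp.2.1.symm, hp.1⟩
    · intro p _; rfl
  rw [hz] at hsum
  exact zero_ne_one hsum

end Vale.Agent.P067
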