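import Vale.Agent.P067.Core

/-!
Elimination of vertices from cycles, cone data, and acyclicity from cone data.
-/

namespace Vale.Agent.P067

open Finset

variable {V : Type*} [DecidableEq V]

lemma card_support_delV_le (v : V) (z : Chain V) :
    (delV v z).support.card ≤ z.support.card := by
  classical
  refine le_trans (Finset.card_le_card ?_) (Finset.card_image_le (f := fun s => s.erase v))
  intro t ht
  rw [Finsupp.mem_support_iff, delV_apply] at ht
  by_cases hv : v ∈ t
  · simp [hv] at ht
  · rw [if_neg hv] at ht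
    exact Finset.mem_image.2 ⟨insert v t, Finsupp.mem_support_iff.2 ht,
      Finset.erase_insert hv⟩

lemma card_support_cone_le (v : V) (z : Chain V) :
    (cone v z).support.card ≤ z.support.card := by
  classical
  refine le_trans (Finset.card_le_card ?_) (Finset.card_image_le (f := fun s => insert v s))
  intro t ht
  rw [Finsupp.mem_support_iff, cone_apply] at ht
  by_cases hv : v ∈ t
  · rw [if_pos hv] at ht
    exact Finset.mem_image.2 ⟨t.erase v, Finsupp.mem_support_iff.2 ht, Finset.insert_erase hv⟩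
  · simp [hv] at ht

/-- The vertices occurring in a chain. -/
def chainVerts (y : Chain V) : Finset V := y.support.biUnion id

lemma mem_chainVerts {y : Chain V} {v : V} :
    v ∈ chainVerts y ↔ ∃ s, y s ≠ 0 ∧ v ∈ s := by
  simp [chainVerts]

lemma card_chainVerts_le {K : Set (Finset V)} {k : ℕ} {y : Chain V} (hy : y ∈ chainsOf K k) :
    (chainVerts y).card ≤ y.support.card * k :=
  Finset.card_biUnion_le_card_mul _ _ _ fun s hs =>
    le_of_eq ((mem_chainsOf.1 hy s (Finsupp.mem_support_iff.1 hs)).2)

/-- The size of the output of `elim`: first the cycle, then the homology. -/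
def elimBound (g : ℕ → ℕ) : ℕ → ℕ → ℕ × ℕ
  | 0, M => (M, 0)
  | n + 1, M => ((elimBound g n (M + g M)).1, g M + (elimBound g n (M + g M)).2)

lemma le_elimBound (g : ℕ → ℕ) : ∀ n M, M ≤ (elimBound g n M).1
  | 0, _ => le_rfl
  | n + 1, M => le_trans (Nat.le_add_right _ _) (le_elimBound g n (M + g M))

/-- Remove, one at a time, the vertices outside `Ok` from a cycle, when their link parts bound
small chains. `T` records the vertices that may have to be removed. -/
theorem elim (K : Set (Finset V)) (hK : DownClosed K) (Ok : Set V) (T : Finset V) (j : ℕ)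
    (g : ℕ → ℕ) (Mx : ℕ)
    (hstep : ∀ M ≤ Mx, ∀ y ∈ chainsOf K (j + 1), bdry y = 0 → y.support.card ≤ M →
      (∀ v ∈ chainVerts y, v ∈ Ok ∨ v ∈ T) → (∃ v ∈ chainVerts y, v ∉ Ok) →
      ∃ v ∈ chainVerts y, v ∉ Ok ∧ ∃ e ∈ chainsOf (link K v) (j + 1), bdry e = delV v y ∧
        e.support.card ≤ g M ∧ ∀ w ∈ chainVerts e, w ∈ Ok ∨ w ∈ chainVerts y) :
    ∀ n M, (elimBound g n M).1 ≤ Mx → ∀ z ∈ chainsOf K (j + 1), bdry z = 0 →
      z.support.card ≤ M → (∀ v ∈ chainVerts z, v ∈ Ok ∨ v ∈ T) →
      (∀ S : Finset V, (∀ v ∈ S, v ∈ chainVerts z ∧ v ∉ Ok) → S.card ≤ n) →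
      ∃ z' ∈ chainsOf (fullSub K Ok) (j + 1), ∃ w ∈ chainsOf K (j + 2),
        bdry w = z + z' ∧ bdry z' = 0 ∧ z'.support.card ≤ (elimBound g n M).1 ∧
        w.support.card ≤ (elimBound g n M).2 ∧
        ∀ u ∈ chainVerts z', u ∈ Ok := by
  classical
  have hdone : ∀ n M, ∀ z ∈ chainsOf K (j + 1), bdry z = 0 → z.support.card ≤ M →
      (∀ v ∈ chainVerts z, v ∈ Ok) →
      ∃ z' ∈ chainsOf (fullSub K Ok) (j + 1), ∃ w ∈ chainsOf K (j + 2),
        bdry w = z + z' ∧ bdry z' = 0 ∧ z'.support.card ≤ (elimBound g n M).1 ∧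
        w.support.card ≤ (elimBound g n M).2 ∧
        ∀ u ∈ chainVerts z', u ∈ Ok := by
    intro n M z hz hbz hM hok
    refine ⟨z, mem_chainsOf.2 fun s hs => ⟨⟨(mem_chainsOf.1 hz s hs).1, fun w hw =>
      hok w (mem_chainVerts.2 ⟨s, hs, hw⟩)⟩, (mem_chainsOf.1 hz s hs).2⟩, 0,
      Submodule.zero_mem _, by rw [map_zero, add_self_chain], hbz,
      hM.trans (le_elimBound g n M), by simp, hok⟩
  intro n
  induction n with
  | zero =>
    intro M _ z hz hbz hM _ hS
    refine hdone 0 M z hz hbz hM fun v hv => ?_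
    by_contra hvo
    have := hS {v} (by simp [hv, hvo])
    simp at this
  | succ n ih =>
    intro M hMx z hz hbz hM hT hS
    by_cases hbad : ∀ v ∈ chainVerts z, v ∈ Ok
    · exact hdone (n + 1) M z hz hbz hM hbad
    push Not at hbad
    have hM' : M ≤ Mx := le_trans (le_elimBound g (n + 1) M) hMx
    obtain ⟨v, hvz, hvo, e, he, hbe, hecard, hev⟩ :=
      hstep M hM' z hz hbz hM hT hbad
    set z₁ := z.filter (fun s => v ∉ s) + e with hz₁def
    have heK : e ∈ chainsOf K (j + 1) := chainsOf_mono (fun s hs _ => link_subset hK v hs) he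
    have hz₁ : z₁ ∈ chainsOf K (j + 1) := by
      refine Submodule.add_mem _ (mem_chainsOf.2 fun s hs => ?_) heK
      refine mem_chainsOf.1 hz s fun h0 => hs ?_
      rw [Finsupp.filter_apply]
      split_ifs <;> simp [h0]
    have hbz₁ : bdry z₁ = 0 := (bdry_replace hbe).trans hbz
    have hcard : z₁.support.card ≤ M + g M := by
      refine (Finset.card_le_card Finsupp.support_add).trans
        ((Finset.card_union_le _ _).trans (Nat.add_le_add ?_ hecard))
      refine le_trans (Finset.card_le_card fun s hs => ?_) hM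
      rw [Finsupp.support_filter] at hs
      exact (Finset.mem_filter.1 hs).1
    have hverts : ∀ u ∈ chainVerts z₁, u ∈ Ok ∨ (u ∈ chainVerts z ∧ u ≠ v) := by
      intro u hu
      obtain ⟨s, hs, hus⟩ := mem_chainVerts.1 hu
      rw [hz₁def, Finsupp.add_apply] at hs
      by_cases hes : e s = 0
      · rw [hes, add_zero, Finsupp.filter_apply] at hs
        by_cases hvs : v ∈ s
        · simp [hvs] at hs
        · refine Or.inr ⟨mem_chainVerts.2 ⟨s, ?_, hus⟩, fun e' => hvs (e' ▸ hus)⟩
          simpa [hvs] using hs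
      · have h1 := (mem_chainsOf.1 he s hes).1.1
        rcases hev u (mem_chainVerts.2 ⟨s, hes, hus⟩) with h | h
        · exact Or.inl h
        · exact Or.inr ⟨h, fun e' => h1 (e' ▸ hus)⟩
    have hT₁ : ∀ u ∈ chainVerts z₁, u ∈ Ok ∨ u ∈ T :=
      fun u hu => (hverts u hu).elim Or.inl (fun h => hT u h.1)
    have hS₁ : ∀ S : Finset V, (∀ u ∈ S, u ∈ chainVerts z₁ ∧ u ∉ Ok) → S.card ≤ n := by
      intro S hSS
      have hvS : v ∉ S := fun h =>
        ((hverts v (hSS v h).1).resolve_left (hSS v h).2).2 rfl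
      have := hS (insert v S) (fun u hu => by
        rcases Finset.mem_insert.1 hu with rfl | hu
        · exact ⟨hvz, hvo⟩
        · exact ⟨((hverts u (hSS u hu).1).resolve_left (hSS u hu).2).1, (hSS u hu).2⟩)
      rw [Finset.card_insert_of_notMem hvS] at this
      omega
    obtain ⟨z', hz', w, hw, hbw, hbz', hzc, hwc, hok⟩ :=
      ih (M + g M) hMx z₁ hz₁ hbz₁ hcard hT₁ hS₁
    refine ⟨z', hz', cone v e + w, Submodule.add_mem _ (cone_mem_chainsOf he) hw, ?_, hbz', hzc,
      ?_, hok⟩
    · have h1 := bdry_cone v e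
      rw [hbe] at h1
      have h2 : bdry (cone v e) = e + cone v (delV v z) := by
        rw [← eq_sub_iff_add_eq] at h1
        rw [h1, sub_eq_add_neg]
        congr 1
        exact neg_eq_of_add_eq_zero_left (add_self_chain _)
      have h3 := cone_delV_add_filter v z
      rw [map_add, hbw, h2, hz₁def]
      calc e + cone v (delV v z) + (z.filter (fun s => v ∉ s) + e + z')
          = (e + e) + (cone v (delV v z) + z.filter (fun s => v ∉ s)) + z' := by abel
        _ = z + z' := by rw [add_self_chain, zero_add, h3]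
    · refine (Finset.card_le_card Finsupp.support_add).trans
        ((Finset.card_union_le _ _).trans ?_)
      simp only [elimBound]
      exact Nat.add_le_add ((card_support_cone_le v e).trans hecard) hwc

/-- Cone data from bounded fillings at one size per degree. -/
theorem exists_cone (k : ℕ) (Rf : ℕ → ℕ → ℕ) :
    ∃ R : ℕ, ∃ Ms : ℕ → ℕ, ∀ (V : Type) [DecidableEq V] (K : Set (Finset V)), DownClosed K →
      (∅ : Finset V) ∈ K → (∀ j ≤ k, FillBound K j (Ms j) (Rf j (Ms j))) →
      ∃ c : Finset V → Chain V, ∀ s ∈ K, s.card ≤ k →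
        c s ∈ chainsOf K (s.card + 1) ∧ (c s).support.card ≤ R ∧
        bdry (c s) + ∑ v ∈ s, c (s.erase v) = Finsupp.single s 1 := by
  induction k with
  | zero =>
    refine ⟨Rf 0 1, fun _ => 1, fun V _ K _ h0 hfill => ?_⟩
    obtain ⟨y, hy, hby, hyc⟩ := hfill 0 le_rfl (Finsupp.single ∅ 1)
      (single_mem_chainsOf h0 rfl 1) (by simp [bdry_single, bdryS])
      ((Finset.card_le_card Finsupp.support_single_subset).trans (by simp))
    refine ⟨fun _ => y, fun s _ hsk => ?_⟩
    obtain rfl : s = ∅ := Finset.card_eq_zero.1 (Nat.le_zero.1 hsk)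
    refine ⟨?_, hyc, ?_⟩
    · simpa using hy
    · rw [hby, Finset.sum_empty, add_zero]
  | succ k ih =>
    obtain ⟨R, Ms, hcone⟩ := ih
    let M := 1 + (k + 1) * R
    refine ⟨max R (Rf (k + 1) M), fun j => if j ≤ k then Ms j else M,
      fun V _ K hK h0 hfill => ?_⟩
    classical
    obtain ⟨c, hc⟩ := hcone V K hK h0 (fun j hj => by simpa [hj] using hfill j (by omega))
    have hfill' : FillBound K (k + 1) M (Rf (k + 1) M) := by
      simpa using hfill (k + 1) le_rfl
    have key : ∀ s ∈ K, s.card = k + 1 → ∃ y ∈ chainsOf K (s.card + 1),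
        y.support.card ≤ Rf (k + 1) M ∧
        bdry y + ∑ v ∈ s, c (s.erase v) = Finsupp.single s 1 := by
      intro s hs hsc
      have hsub : ∀ v ∈ s, s.erase v ∈ K ∧ (s.erase v).card = k := fun v hv =>
        ⟨hK s hs _ (Finset.erase_subset _ _), by rw [Finset.card_erase_of_mem hv, hsc]; rfl⟩
      set z : Chain V := Finsupp.single s 1 + ∑ v ∈ s, c (s.erase v) with hzdef
      have hzmem : z ∈ chainsOf K (k + 1) := by
        refine Submodule.add_mem _ (single_mem_chainsOf hs hsc 1)
          (Submodule.sum_mem _ fun v hv => ?_)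
        have h1 := (hc _ (hsub v hv).1 (hsub v hv).2.le).1
        rwa [(hsub v hv).2] at h1
      have hL : ∀ t : Finset V, Finsupp.linearCombination (ZMod 2) c (bdryS t)
          = ∑ w ∈ t, c (t.erase w) := by
        intro t
        simp [bdryS, map_sum]
      have hbz : bdry z = 0 := by
        have h1 : ∀ v ∈ s, bdry (c (s.erase v)) = Finsupp.single (s.erase v) 1 +
            Finsupp.linearCombination (ZMod 2) c (bdryS (s.erase v)) := by
          intro v hv
          have h := (hc _ (hsub v hv).1 (hsub v hv).2.le).2.2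
          rw [← hL] at h
          rw [← h, add_assoc, add_self_chain, add_zero]
        have h2 : ∑ v ∈ s, bdryS (s.erase v) = bdry (bdryS s) := by
          simp [bdryS, map_sum, bdry_single]
        rw [hzdef, map_add, map_sum, Finset.sum_congr rfl h1, Finset.sum_add_distrib,
          ← map_sum, h2, bdry_bdryS, map_zero, add_zero, bdry_single_one]
        exact add_self_chain _
      have hzc : z.support.card ≤ M := by
        refine (Finset.card_le_card Finsupp.support_add).trans
          ((Finset.card_union_le _ _).trans (Nat.add_le_add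
            ((Finset.card_le_card Finsupp.support_single_subset).trans (by simp)) ?_))
        refine (Finset.card_le_card Finsupp.support_finsetSum).trans
          ((Finset.card_biUnion_le_card_mul _ _ R fun v hv =>
            (hc _ (hsub v hv).1 (hsub v hv).2.le).2.1).trans ?_)
        rw [hsc]
      obtain ⟨y, hy, hby, hyc⟩ := hfill' z hzmem hbz hzc
      refine ⟨y, by rwa [hsc], hyc, ?_⟩
      rw [hby, hzdef, add_assoc, add_self_chain, add_zero]
    choose! y hy1 hy2 hy3 using key
    refine ⟨fun s => if s.card = k + 1 then y s else c s, fun s hs hsk => ?_⟩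
    have hers : ∀ v ∈ s, ((fun s => if s.card = k + 1 then y s else c s) (s.erase v))
        = c (s.erase v) := by
      intro v hv
      have := Finset.card_erase_of_mem hv
      have : (s.erase v).card ≠ k + 1 := by omega
      simp [this]
    by_cases hsc : s.card = k + 1
    · refine ⟨by simpa [hsc] using hy1 s hs hsc, ?_, ?_⟩
      · simp only [hsc, if_true]
        exact (hy2 s hs hsc).trans (le_max_right _ _)
      · rw [Finset.sum_congr rfl hers]
        simpa [hsc] using hy3 s hs hsc
    · obtain ⟨h1, h2, h3⟩ := hc s hs (by omega)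
      refine ⟨by simpa [hsc] using h1, ?_, ?_⟩
      · simp only [hsc, if_false]
        exact h2.trans (le_max_left _ _)
      · rw [Finset.sum_congr rfl hers]
        simpa [hsc] using h3

/-- Cone data gives acyclicity. -/
theorem acyclic_of_cone {K : Set (Finset V)} {k : ℕ} (c : Finset V → Chain V)
    (hc : ∀ s ∈ K, s.card = k → c s ∈ chainsOf K (s.card + 1) ∧
      bdry (c s) + ∑ v ∈ s, c (s.erase v) = Finsupp.single s 1) : Acyclic K k := by
  intro z hz hbz
  set L := Finsupp.linearCombination (ZMod 2) c with hLdef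
  have key : ∀ x ∈ chainsOf K k, L x ∈ chainsOf K (k + 1) ∧ bdry (L x) + L (bdry x) = x := by
    intro x hx
    rw [chainsOf, Finsupp.supported_eq_span_single] at hx
    refine Submodule.span_induction ?_ ?_ ?_ ?_ hx
    · rintro x ⟨s, hs, rfl⟩
      obtain ⟨h1, h2⟩ := hc s hs.1 hs.2
      rw [hs.2] at h1
      refine ⟨by simpa [hLdef] using h1, ?_⟩
      simpa [hLdef, bdry_single, bdryS, map_sum] using h2
    · simp
    · rintro x y _ _ ⟨hx1, hx2⟩ ⟨hy1, hy2⟩
      refine ⟨by rw [map_add]; exact Submodule.add_mem _ hx1 hy1, ?_⟩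
      simp only [map_add]
      rw [add_add_add_comm, hx2, hy2]
    · rintro a x _ ⟨hx1, hx2⟩
      refine ⟨by rw [map_smul]; exact Submodule.smul_mem _ a hx1, ?_⟩
      simp only [map_smul, ← smul_add, hx2]
  obtain ⟨h1, h2⟩ := key z hz
  refine ⟨L z, h1, ?_⟩
  rwa [hbz, map_zero, add_zero] at h2

end Vale.Agent.P067
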