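import Vale.Agent.P067.CobdBasic

/-!
Coboundary expansion of symmetric complexes from bounded cone fillings.
-/

namespace Vale.Agent.P067

open Finset

variable {V : Type} [DecidableEq V]

/-- Parity pairing of a chain with a cochain given by its support. -/
noncomputable def pair (S : Finset (Finset V)) : Chain V →ₗ[ZMod 2] ZMod 2 :=
  Finsupp.linearCombination (ZMod 2) (ind S)

lemma pair_single (S : Finset (Finset V)) (s : Finset V) :
    pair S (Finsupp.single s 1) = ind S s := by
  simp [pair]

lemma pair_bdry {C : Finset (Finset V)} {k : ℕ} {S : Finset (Finset V)} {z : Chain V}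
    (hz : z ∈ chainsOf (facesCx C) (k + 1)) : pair S (bdry z) = pair (cobd C k S) z := by
  rw [chainsOf, Finsupp.supported_eq_span_single] at hz
  refine Submodule.span_induction ?_ ?_ ?_ ?_ hz
  · rintro x ⟨τ, ⟨⟨c, hc, hsub⟩, hk⟩, rfl⟩
    simp only [bdry_single_one, bdryS, map_sum, pair_single]
    exact (ind_cobd (mem_faces_card.2 ⟨hk, c, hc, hsub⟩)).symm
  · simp
  · intro x y _ _ hx hy; simp [map_add, hx, hy]
  · intro a x _ hx; simp [map_smul, hx]

lemma exists_of_pair_ne_zero {S : Finset (Finset V)} {z : Chain V} (h : pair S z ≠ 0) :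
    ∃ τ ∈ S, τ ∈ z.support := by
  by_contra hne
  push Not at hne
  apply h
  rw [pair, Finsupp.linearCombination_apply, Finsupp.sum]
  refine Finset.sum_eq_zero fun τ hτ => ?_
  have : τ ∉ S := fun hS => hne τ hS hτ
  simp [ind, this]

/-- Coboundary expansion from a cone with small fillings and a transitive symmetry group. -/
theorem linkExp_of_cone (n k R : ℕ) : ∃ β : ℝ, 0 < β ∧
    ∀ (V : Type) [DecidableEq V] (C : Finset (Finset V)), Uniform n C → 1 ≤ k → k + 1 ≤ n →
    ∀ (T : Type) [DecidableEq T] (col : V → T), Partite C col →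
    (∀ a ∈ C, ∀ b ∈ C, a.image col = b.image col) →
    ∀ (G : Type) [Group G] [Finite G] (act : G →* Equiv.Perm V),
    (∀ g, ∀ a ∈ C, a.image (act g) ∈ C) →
    (∀ σ ∈ faces C (k + 1), ∀ τ ∈ faces C (k + 1), σ.image col = τ.image col →
      ∃ g, σ.image (act g) = τ) →
    ∀ c : Finset V → Chain V,
    (∀ s ∈ facesCx C, s.card ≤ k →
      c s ∈ chainsOf (facesCx C) (s.card + 1) ∧ (c s).support.card ≤ R ∧
        bdry (c s) + ∑ v ∈ s, c (s.erase v) = Finsupp.single s 1) →
    LinkExp n C k β := by
  refine ⟨1 / ((R * n.choose (k + 1) + 1 : ℕ) : ℝ), by positivity, ?_⟩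
  intro V _ C hC hk1 hkn T _ col hpart hcol G _ _ act hact htrans c hcone S hS
  classical
  have : Fintype G := Fintype.ofFinite G
  set im : G → Finset V → Finset V := fun g s => s.image (act g) with him
  have im_inv : ∀ g s, im g⁻¹ (im g s) = s := fun g s => by
    simp only [him, image_image, map_inv]
    conv_rhs => rw [← image_id (s := s)]
    refine image_congr fun x _ => ?_
    simp
  have im_inv' : ∀ g s, im g (im g⁻¹ s) = s := fun g s => by
    have := im_inv g⁻¹ s; rwa [inv_inv] at this
  have im_mul : ∀ g h s, im (g * h) s = im g (im h s) := fun g h s => by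
    simp only [him, map_mul, image_image]; rfl
  have im_card : ∀ g s, (im g s).card = s.card := fun g s =>
    card_image_of_injective _ (act g).injective
  have im_face : ∀ g j s, s ∈ faces C j → im g s ∈ faces C j := fun g j s hs => by
    obtain ⟨hj, a, ha, hsa⟩ := mem_faces_card.1 hs
    exact mem_faces_card.2 ⟨by rw [im_card, hj], _, hact g a ha, image_subset_image hsa⟩
  have im_cnt : ∀ g s, cnt C (im g s) = cnt C s := fun g s => by
    refine (card_bij' (fun a _ => im g a) (fun a _ => im g⁻¹ a) ?_ ?_ ?_ ?_).symm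
    · intro a ha
      exact mem_filter.2 ⟨hact g a (mem_filter.1 ha).1, image_subset_image (mem_filter.1 ha).2⟩
    · intro a ha
      refine mem_filter.2 ⟨hact _ a (mem_filter.1 ha).1, ?_⟩
      conv_lhs => rw [← im_inv g s]
      exact image_subset_image (mem_filter.1 ha).2
    · intro a _; exact im_inv g a
    · intro a _; exact im_inv' g a
  -- conjugated cones
  set dS : Finset (Finset V) := cobd C k S with hdS
  set bad : G → Finset (Finset V) := fun g =>
    (faces C k).filter (fun s => ∃ τ ∈ (c (im g⁻¹ s)).support, im g τ ∈ dS) with hbad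
  -- the pulled back cochains
  set pull : G → Finset (Finset V) := fun g =>
    (faces C (k - 1)).filter (fun σ => pair (S.image (im g⁻¹)) (c (im g⁻¹ σ)) = 1) with hpull
  have ind_im : ∀ g (A : Finset (Finset V)) s, ind (A.image (im g⁻¹)) (im g⁻¹ s) = ind A s := by
    intro g A s
    refine if_congr ?_ rfl rfl
    refine ⟨fun h => ?_, fun h => mem_image_of_mem _ h⟩
    obtain ⟨a, ha, e⟩ := mem_image.1 h
    have : a = s := by rw [← im_inv' g a, e, im_inv']
    exact this ▸ ha
  have hsub : ∀ g, symmDiff S (cobd C (k - 1) (pull g)) ∩ faces C k ⊆ bad g := by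
    intro g s hs
    obtain ⟨hs1, hsf⟩ := mem_inter.1 hs
    refine mem_filter.2 ⟨hsf, ?_⟩
    set s' := im g⁻¹ s with hs'
    have hs'f : s' ∈ faces C k := im_face _ _ _ hsf
    obtain ⟨hcard, a, ha, hsa⟩ := mem_faces_card.1 hs'f
    obtain ⟨hc1, -, hc3⟩ := hcone s' ⟨a, ha, hsa⟩ hcard.le
    rw [hcard] at hc1
    have hsf' : s ∈ faces C (k - 1 + 1) := by rwa [Nat.sub_add_cancel hk1]
    have h1 : ind (symmDiff S (cobd C (k - 1) (pull g))) s = 1 := ind_eq_one.2 hs1
    rw [ind_symmDiff, ind_cobd hsf'] at h1
    have h2 : ∀ v ∈ s, ind (pull g) (s.erase v)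
        = pair (S.image (im g⁻¹)) (c (im g⁻¹ (s.erase v))) := by
      intro v hv
      have key : ∀ x : ZMod 2, x = 0 ∨ x = 1 := by decide
      have hm := erase_mem_faces hsf' hv
      rcases key (pair (S.image (im g⁻¹)) (c (im g⁻¹ (s.erase v)))) with h | h <;> rw [h]
      · exact if_neg fun hm' => by simp [(mem_filter.1 hm').2] at h
      · exact if_pos (mem_filter.2 ⟨hm, h⟩)
    rw [Finset.sum_congr rfl h2, ← ind_im g S s, ← pair_single, ← hs', ← hc3, map_add,
      map_sum] at h1
    have h3 : ∑ v ∈ s', pair (S.image (im g⁻¹)) (c (s'.erase v))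
        = ∑ v ∈ s, pair (S.image (im g⁻¹)) (c (im g⁻¹ (s.erase v))) := by
      rw [hs']
      simp only [him]
      rw [Finset.sum_image (act g⁻¹).injective.injOn]
      refine Finset.sum_congr rfl fun v _ => ?_
      rw [image_erase (act g⁻¹).injective]
    rw [h3, add_assoc, CharTwo.add_self_eq_zero, add_zero, pair_bdry (C := C) hc1] at h1
    obtain ⟨τ, hτ1, hτ2⟩ := exists_of_pair_ne_zero (by rw [h1]; exact one_ne_zero)
    refine ⟨τ, hτ2, ?_⟩
    obtain ⟨hτf, hsum⟩ := mem_cobd.1 hτ1
    rw [hdS]
    refine mem_cobd.2 ⟨im_face _ _ _ hτf, ?_⟩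
    rw [← hsum]
    simp only [him]
    rw [Finset.sum_image (act g).injective.injOn]
    refine Finset.sum_congr rfl fun v _ => ?_
    rw [← ind_im g S ((τ.image (act g)).erase (act g v)), ← image_erase (act g).injective]
    exact congrArg _ (im_inv g (τ.erase v))
  -- averaging
  have hN : ∀ τ ∈ faces C (k + 1), ∀ τ' ∈ faces C (k + 1),
      (univ.filter (fun g => im g τ' = τ)).card * C.card ≤ Fintype.card G * cnt C τ := by
    intro τ hτ τ' hτ'
    by_cases hne : ∃ g₀, im g₀ τ' = τ
    · obtain ⟨g₀, hg₀⟩ := hne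
      set cls := (faces C (k + 1)).filter (fun σ => σ.image col = τ.image col) with hcls
      have hfib : ∀ σ ∈ cls, ∃ g, im g τ' = σ := by
        intro σ hσ
        obtain ⟨g, hg⟩ := htrans τ hτ σ (mem_filter.1 hσ).1 (mem_filter.1 hσ).2.symm
        exact ⟨g * g₀, by rw [im_mul, hg₀]; exact hg⟩
      have h1 : cls.card * (univ.filter (fun g => im g τ' = τ)).card ≤ Fintype.card G := by
        have hle : ∀ σ ∈ cls, (univ.filter (fun g => im g τ' = τ)).card
            ≤ (univ.filter (fun g => im g τ' = σ)).card := by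
          intro σ hσ
          obtain ⟨g₁, hg₁⟩ := hfib σ hσ
          refine card_le_card_of_injOn (fun g => g₁ * g₀⁻¹ * g) ?_ ?_
          · intro g hg
            simp only [coe_filter, mem_univ, true_and, Set.mem_ofPred_eq] at hg ⊢
            rw [im_mul, hg, im_mul, ← hg₀, im_inv, hg₁]
          · intro x _ y _ h; exact mul_left_cancel h
        calc cls.card * (univ.filter (fun g => im g τ' = τ)).card
            = ∑ σ ∈ cls, (univ.filter (fun g => im g τ' = τ)).card := by
              rw [sum_const, smul_eq_mul]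
          _ ≤ ∑ σ ∈ cls, (univ.filter (fun g => im g τ' = σ)).card := sum_le_sum hle
          _ = (cls.biUnion fun σ => univ.filter (fun g => im g τ' = σ)).card := by
              rw [card_biUnion]
              intro x _ y _ hxy
              simp only [disjoint_left, mem_filter]
              exact fun g h1 h2 => hxy (h1.2.symm.trans h2.2)
          _ ≤ Fintype.card G := card_le_univ _
      have h2 : C.card ≤ cls.card * cnt C τ := by
        have hall : ∀ σ ∈ cls, cnt C σ = cnt C τ := by
          intro σ hσ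
          obtain ⟨g, hg⟩ := htrans τ hτ σ (mem_filter.1 hσ).1 (mem_filter.1 hσ).2.symm
          rw [← hg]; exact im_cnt g τ
        have hex : ∀ a ∈ C, ∃ σ ∈ cls, σ ⊆ a := by
          intro a ha
          obtain ⟨hk', b, hb, hτb⟩ := mem_faces_card.1 hτ
          refine ⟨a.filter (fun v => col v ∈ τ.image col), ?_, filter_subset _ _⟩
          have himg : (a.filter (fun v => col v ∈ τ.image col)).image col = τ.image col := by
            ext t
            simp only [mem_image, mem_filter]
            constructor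
            · rintro ⟨v, ⟨-, hv⟩, rfl⟩; exact hv
            · rintro ⟨w, hw, rfl⟩
              have : col w ∈ a.image col := by
                rw [hcol a ha b hb]; exact mem_image_of_mem _ (hτb hw)
              obtain ⟨v, hv, e⟩ := mem_image.1 this
              exact ⟨v, ⟨hv, ⟨w, hw, e.symm⟩⟩, e⟩
          refine mem_filter.2 ⟨mem_faces_card.2 ⟨?_, a, ha, filter_subset _ _⟩, himg⟩
          rw [← card_image_of_injOn ((hpart a ha).mono (by exact_mod_cast filter_subset _ a)), himg,
            card_image_of_injOn ((hpart b hb).mono (by exact_mod_cast hτb)), hk']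
        calc C.card ≤ (cls.biUnion fun σ => C.filter (fun a => σ ⊆ a)).card := by
              refine card_le_card fun a ha => ?_
              obtain ⟨σ, hσ, hsa⟩ := hex a ha
              exact mem_biUnion.2 ⟨σ, hσ, mem_filter.2 ⟨ha, hsa⟩⟩
          _ ≤ ∑ σ ∈ cls, cnt C σ := card_biUnion_le
          _ = cls.card * cnt C τ := by rw [sum_congr rfl hall, sum_const, smul_eq_mul]
      calc (univ.filter (fun g => im g τ' = τ)).card * C.card
          ≤ (univ.filter (fun g => im g τ' = τ)).card * (cls.card * cnt C τ) :=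
            Nat.mul_le_mul_left _ h2
        _ = (cls.card * (univ.filter (fun g => im g τ' = τ)).card) * cnt C τ := by ring
        _ ≤ Fintype.card G * cnt C τ := Nat.mul_le_mul_right _ h1
    · push Not at hne
      simp [filter_eq_empty_iff.2 (fun g _ => hne g)]
  have havg : (∑ g : G, mass C (bad g)) * C.card
      ≤ Fintype.card G * (R * mass C (faces C k) * mass C dS) := by
    have h1 : ∀ g, mass C (bad g) ≤ ∑ s ∈ faces C k, cnt C s *
        ∑ τ' ∈ (c s).support, ∑ τ ∈ dS, (if im g τ' = τ then 1 else 0) := by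
      intro g
      calc mass C (bad g) ≤ ∑ s ∈ faces C k, cnt C s *
          ∑ τ' ∈ (c (im g⁻¹ s)).support, ∑ τ ∈ dS, (if im g τ' = τ then 1 else 0) := by
            rw [mass, hbad, sum_filter]
            refine sum_le_sum fun s _ => ?_
            split_ifs with h
            · obtain ⟨τ', hτ', hτ⟩ := h
              refine Nat.le_mul_of_pos_right _ ?_
              refine lt_of_lt_of_le ?_ (single_le_sum (fun _ _ => Nat.zero_le _) hτ')
              refine lt_of_lt_of_le ?_ (single_le_sum (fun _ _ => Nat.zero_le _) hτ)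
              simp
            · exact Nat.zero_le _
        _ = _ := by
            refine sum_bij' (fun s _ => im g⁻¹ s) (fun s _ => im g s) ?_ ?_ ?_ ?_ ?_
            · exact fun s hs => im_face _ _ _ hs
            · exact fun s hs => im_face _ _ _ hs
            · exact fun s _ => im_inv' g s
            · exact fun s _ => im_inv g s
            · intro s _; rw [im_cnt]
    calc (∑ g : G, mass C (bad g)) * C.card
        ≤ (∑ g : G, ∑ s ∈ faces C k, cnt C s *
          ∑ τ' ∈ (c s).support, ∑ τ ∈ dS, (if im g τ' = τ then 1 else 0)) * C.card :=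
          Nat.mul_le_mul_right _ (sum_le_sum fun g _ => h1 g)
      _ = ∑ s ∈ faces C k, cnt C s *
          ∑ τ' ∈ (c s).support, ∑ τ ∈ dS,
            ((univ.filter (fun g => im g τ' = τ)).card * C.card) := by
          simp only [card_filter, sum_mul, mul_sum]
          rw [sum_comm]
          refine sum_congr rfl fun s _ => ?_
          rw [sum_comm]
          refine sum_congr rfl fun t _ => ?_
          rw [sum_comm]
          refine sum_congr rfl fun u _ => sum_congr rfl fun g _ => ?_
          ring
      _ ≤ ∑ s ∈ faces C k, cnt C s * (R * (Fintype.card G * mass C dS)) := by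
          refine sum_le_sum fun s hs => Nat.mul_le_mul_left _ ?_
          obtain ⟨hcard, a, ha, hsa⟩ := mem_faces_card.1 hs
          obtain ⟨hc1, hc2, -⟩ := hcone s ⟨a, ha, hsa⟩ hcard.le
          refine le_trans ?_ (Nat.mul_le_mul_right _ hc2)
          rw [← smul_eq_mul]
          refine sum_le_card_nsmul _ _ _ fun τ' hτ' => ?_
          obtain ⟨hτ'F, hτ'c⟩ := mem_chainsOf.1 hc1 τ' (Finsupp.mem_support_iff.1 hτ')
          obtain ⟨b, hb, hτb⟩ := hτ'F
          have hτ'f : τ' ∈ faces C (k + 1) := mem_faces_card.2 ⟨by rw [hτ'c, hcard], b, hb, hτb⟩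
          rw [mass, mul_sum]
          exact sum_le_sum fun τ hτ => hN τ (cobd_subset _ _ _ hτ) τ' hτ'f
      _ = Fintype.card G * (R * mass C (faces C k) * mass C dS) := by
          rw [← sum_mul]; simp only [mass]; ring
  -- choose a good element
  obtain ⟨g, -, hg⟩ := exists_min_image univ (fun g => mass C (bad g)) ⟨1, mem_univ _⟩
  refine ⟨pull g, filter_subset _ _, ?_⟩
  have hCpos : 0 < C.card := card_pos.2 hC.1
  have hfin : mass C (bad g) ≤ R * n.choose k * mass C dS := by
    have h1 : Fintype.card G * mass C (bad g) * C.card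
        ≤ Fintype.card G * (R * mass C (faces C k) * mass C dS) := by
      refine le_trans (Nat.mul_le_mul_right _ ?_) havg
      rw [← smul_eq_mul]
      exact card_nsmul_le_sum _ _ _ fun h _ => hg h (mem_univ h)
    rw [sum_cnt_faces hC, mul_assoc] at h1
    have h2 := Nat.le_of_mul_le_mul_left h1 Fintype.card_pos
    refine Nat.le_of_mul_le_mul_right ?_ hCpos
    calc mass C (bad g) * C.card ≤ _ := h2
      _ = R * n.choose k * mass C dS * C.card := by ring
  -- pass to norms
  have hsf : ∀ s ∈ symmDiff S (cobd C (k - 1) (pull g)), s ∈ faces C k := by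
    intro s hs
    rcases mem_symmDiff.1 hs with ⟨h, -⟩ | ⟨h, -⟩
    · exact hS h
    · have := cobd_subset _ _ _ h
      rwa [Nat.sub_add_cancel hk1] at this
  have hm : mass C (symmDiff S (cobd C (k - 1) (pull g))) ≤ R * n.choose k * mass C dS :=
    (mass_mono C fun s hs => hsub g (mem_inter.2 ⟨hs, hsf s hs⟩)).trans hfin
  rw [cnorm_eq_mass (fun s hs => (mem_faces_card.1 (hsf s hs)).1),
    cnorm_eq_mass (k := k + 1) (S := dS) fun s hs => (mem_faces_card.1 (cobd_subset _ _ _ hs)).1]
  have hck : (0 : ℝ) < (n.choose k : ℝ) := by exact_mod_cast Nat.choose_pos (by omega)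
  have hck1 : (0 : ℝ) < (n.choose (k + 1) : ℝ) := by exact_mod_cast Nat.choose_pos hkn
  have hC' : (0 : ℝ) < (C.card : ℝ) := by exact_mod_cast hCpos
  have hmR : (mass C (symmDiff S (cobd C (k - 1) (pull g))) : ℝ)
      ≤ (R : ℝ) * (n.choose k : ℝ) * (mass C dS : ℝ) := by exact_mod_cast hm
  push_cast
  rw [div_mul_div_comm, one_mul, div_le_div_iff₀ (by positivity) (by positivity)]
  calc (mass C (symmDiff S (cobd C (k - 1) (pull g))) : ℝ) * ((n.choose (k + 1) : ℝ) * C.card)
      ≤ ((R : ℝ) * (n.choose k : ℝ) * (mass C dS : ℝ)) * ((n.choose (k + 1) : ℝ) * C.card) := by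
        gcongr
    _ ≤ (mass C dS : ℝ) * (((R : ℝ) * (n.choose (k + 1) : ℝ) + 1) *
        ((n.choose k : ℝ) * (C.card : ℝ))) := by
        have : 0 ≤ (mass C dS : ℝ) * ((n.choose k : ℝ) * (C.card : ℝ)) := by positivity
        nlinarith

end Vale.Agent.P067
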