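import Mathlib

/-!
Core definitions for P067: augmented chains over `ZMod 2` of set systems on a vertex type.
A simplex is a `Finset V`; `k` always denotes the cardinality of a simplex (dimension + 1).
The empty simplex is allowed, so all homology below is reduced homology.
-/

namespace Vale.Agent.P067

open Finset

/-- Finite chains: formal sums of simplices over `ZMod 2`. -/
abbrev Chain (V : Type*) := Finset V →₀ ZMod 2

variable {V W : Type*} [DecidableEq V] [DecidableEq W]

/-- The (augmented) boundary of a single simplex. -/
noncomputable def bdryS (s : Finset V) : Chain V :=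
  ∑ v ∈ s, Finsupp.single (s.erase v) 1

/-- The (augmented) boundary map. -/
noncomputable def bdry : Chain V →ₗ[ZMod 2] Chain V :=
  Finsupp.linearCombination (ZMod 2) (bdryS (V := V))

/-- Cone on a simplex (zero if the apex is already present). -/
noncomputable def coneS (u : V) (s : Finset V) : Chain V :=
  if u ∈ s then 0 else Finsupp.single (insert u s) 1

/-- The cone map with apex `u`. -/
noncomputable def cone (u : V) : Chain V →ₗ[ZMod 2] Chain V :=
  Finsupp.linearCombination (ZMod 2) (coneS u)

/-- The part of a chain at simplices containing `v`, with `v` removed. -/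
noncomputable def delS (v : V) (s : Finset V) : Chain V :=
  if v ∈ s then Finsupp.single (s.erase v) 1 else 0

/-- `delV v z`: the link part of `z` at `v`. -/
noncomputable def delV (v : V) : Chain V →ₗ[ZMod 2] Chain V :=
  Finsupp.linearCombination (ZMod 2) (delS v)

/-- Downward closed set systems (simplicial complexes, empty simplex allowed). -/
def DownClosed (K : Set (Finset V)) : Prop :=
  ∀ s ∈ K, ∀ t ⊆ s, t ∈ K

/-- Chains supported on the simplices of `K` with `k` vertices. -/
noncomputable def chainsOf (K : Set (Finset V)) (k : ℕ) : Submodule (ZMod 2) (Chain V) :=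
  Finsupp.supported (ZMod 2) (ZMod 2) {s | s ∈ K ∧ s.card = k}

/-- Exactness of the augmented chain complex of `K` at simplices with `k` vertices. -/
def Acyclic (K : Set (Finset V)) (k : ℕ) : Prop :=
  ∀ z ∈ chainsOf K k, bdry z = 0 → ∃ y ∈ chainsOf K (k + 1), bdry y = z

/-- Every cycle with at most `M` simplices bounds a chain with at most `R` simplices. -/
def FillBound (K : Set (Finset V)) (k M R : ℕ) : Prop :=
  ∀ z ∈ chainsOf K k, bdry z = 0 → z.support.card ≤ M →
    ∃ y ∈ chainsOf K (k + 1), bdry y = z ∧ y.support.card ≤ R

/-- Link of a vertex. -/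
def link (K : Set (Finset V)) (v : V) : Set (Finset V) :=
  {s | v ∉ s ∧ insert v s ∈ K}

/-- Link of a simplex. -/
def linkF (K : Set (Finset V)) (τ : Finset V) : Set (Finset V) :=
  {s | Disjoint s τ ∧ s ∪ τ ∈ K}

/-- Descending link of `v` for the vertex function `h`. -/
def descLink {α : Type*} [LT α] (K : Set (Finset V)) (h : V → α) (v : V) : Set (Finset V) :=
  {s | s ∈ link K v ∧ ∀ w ∈ s, h w < h v}

/-- The full subcomplex on a set of vertices. -/
def fullSub (K : Set (Finset V)) (P : Set V) : Set (Finset V) :=
  {s | s ∈ K ∧ ∀ w ∈ s, w ∈ P}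

omit [DecidableEq W] in
lemma add_self_chain (x : Chain V) : x + x = 0 := by
  ext s
  simp [CharTwo.add_self_eq_zero]

lemma bdry_single (s : Finset V) (a : ZMod 2) :
    bdry (Finsupp.single s a) = a • bdryS s := by
  simp [bdry]

lemma cone_single (u : V) (s : Finset V) (a : ZMod 2) :
    cone u (Finsupp.single s a) = a • coneS u s := by
  simp [cone]

lemma delV_single (v : V) (s : Finset V) (a : ZMod 2) :
    delV v (Finsupp.single s a) = a • delS v s := by
  simp [delV]

lemma bdry_single_one (s : Finset V) :
    bdry (Finsupp.single s (1 : ZMod 2)) = bdryS s := by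
  simp [bdry_single]

/-- Chain homotopy identity for cones. -/
lemma bdry_cone (u : V) (z : Chain V) : bdry (cone u z) + cone u (bdry z) = z := by
  induction z using Finsupp.induction_linear with
  | zero => simp
  | add f g hf hg =>
    simp only [map_add]
    rw [add_add_add_comm, hf, hg]
  | single s a =>
    have key : bdry (coneS u s) + cone u (bdryS s) = Finsupp.single s (1 : ZMod 2) := by
      by_cases hu : u ∈ s
      · simp only [coneS, hu, if_true, map_zero, zero_add, bdryS, map_sum]
        rw [Finset.sum_eq_single u]
        · simp [cone_single, coneS, Finset.insert_erase hu]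
        · intro b _ hb
          simp [cone_single, coneS, hu, Ne.symm hb]
        · intro h; exact absurd hu h
      · simp only [coneS, hu, if_false, bdry_single_one, bdryS, map_sum]
        rw [Finset.sum_insert hu, Finset.erase_insert hu, add_assoc]
        rw [← Finset.sum_add_distrib]
        conv_rhs => rw [← add_zero (Finsupp.single s (1 : ZMod 2))]
        congr 1
        apply Finset.sum_eq_zero
        intro b hb
        have hbu : b ≠ u := fun h => hu (h ▸ hb)
        have : u ∉ s.erase b := fun h => hu (Finset.mem_of_mem_erase h)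
        simp only [cone_single, coneS, this, if_false, one_smul]
        rw [Finset.erase_insert_of_ne hbu.symm]
        exact add_self_chain _
    rw [bdry_single, cone_single, map_smul, map_smul, ← smul_add, key]
    simp

lemma bdry_bdryS (s : Finset V) : bdry (bdryS s) = 0 := by
  induction s using Finset.induction_on with
  | empty => simp [bdryS]
  | @insert u s hu ih =>
    have h1 := bdry_cone u (Finsupp.single s (1 : ZMod 2))
    simp only [cone_single, coneS, hu, if_false, one_smul, bdry_single_one] at h1
    have h2 := bdry_cone u (bdryS s)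
    rw [ih, map_zero, add_zero] at h2
    have h3 : bdryS (insert u s) = Finsupp.single s 1 + cone u (bdryS s) := by
      rw [← eq_sub_iff_add_eq] at h1
      rw [h1, sub_eq_add_neg]
      congr 1
      exact neg_eq_of_add_eq_zero_left (add_self_chain _)
    rw [h3, map_add, bdry_single_one, h2]
    exact add_self_chain _

lemma bdry_bdry (z : Chain V) : bdry (bdry z) = 0 := by
  induction z using Finsupp.induction_linear with
  | zero => simp
  | add f g hf hg => simp [map_add, hf, hg]
  | single s a => simp [bdry_single, bdry_bdryS]

lemma mem_chainsOf {K : Set (Finset V)} {k : ℕ} {z : Chain V} :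
    z ∈ chainsOf K k ↔ ∀ s, z s ≠ 0 → s ∈ K ∧ s.card = k := by
  simp only [chainsOf, Finsupp.mem_supported, Set.subset_def, Finset.mem_coe,
    Finsupp.mem_support_iff, Set.mem_setOf_eq]

lemma chainsOf_mono {K K' : Set (Finset V)} {k : ℕ} (h : ∀ s ∈ K, s.card = k → s ∈ K') :
    chainsOf K k ≤ chainsOf K' k := by
  intro z hz
  rw [mem_chainsOf] at hz ⊢
  exact fun s hs => ⟨h s (hz s hs).1 (hz s hs).2, (hz s hs).2⟩

lemma single_mem_chainsOf {K : Set (Finset V)} {k : ℕ} {s : Finset V} (hs : s ∈ K)
    (hk : s.card = k) (a : ZMod 2) : Finsupp.single s a ∈ chainsOf K k :=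
  Finsupp.single_mem_supported _ _ ⟨hs, hk⟩

lemma bdry_mem_chainsOf {K : Set (Finset V)} (hK : DownClosed K) {k : ℕ} {z : Chain V}
    (hz : z ∈ chainsOf K (k + 1)) : bdry z ∈ chainsOf K k := by
  rw [chainsOf, Finsupp.supported_eq_span_single] at hz
  refine Submodule.span_induction ?_ ?_ ?_ ?_ hz
  · rintro x ⟨s, hs, rfl⟩
    simp only [bdry_single_one, bdryS]
    refine Submodule.sum_mem _ fun v hv => ?_
    refine single_mem_chainsOf (hK s hs.1 _ (Finset.erase_subset _ _)) ?_ 1
    rw [Finset.card_erase_of_mem hv, hs.2]
    omega
  · simp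
  · intro x y _ _ hx hy
    simpa [map_add] using Submodule.add_mem _ hx hy
  · intro a x _ hx
    simpa [map_smul] using Submodule.smul_mem _ a hx

lemma delV_apply (v : V) (z : Chain V) (t : Finset V) :
    delV v z t = if v ∈ t then 0 else z (insert v t) := by
  induction z using Finsupp.induction_linear with
  | zero => simp
  | add f g hf hg =>
    simp only [map_add, Finsupp.add_apply, hf, hg]
    split_ifs <;> simp
  | single s a =>
    simp only [delV_single, delS, Finsupp.single_apply]
    by_cases hs : v ∈ s
    · simp only [hs, if_true, Finsupp.smul_single, smul_eq_mul, mul_one, Finsupp.single_apply]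
      by_cases ht : v ∈ t
      · rw [if_pos ht, if_neg]
        intro h; rw [← h] at ht; exact (Finset.notMem_erase v s) ht
      · rw [if_neg ht]
        refine if_congr ?_ rfl rfl
        constructor
        · intro h; rw [← h, Finset.insert_erase hs]
        · intro h; rw [h, Finset.erase_insert ht]
    · simp only [hs, if_false, smul_zero, Finsupp.coe_zero, Pi.zero_apply]
      by_cases ht : v ∈ t
      · rw [if_pos ht]
      · rw [if_neg ht, if_neg]
        intro h; exact hs (h ▸ Finset.mem_insert_self v t)

lemma cone_apply (u : V) (z : Chain V) (t : Finset V) :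
    cone u z t = if u ∈ t then z (t.erase u) else 0 := by
  induction z using Finsupp.induction_linear with
  | zero => simp
  | add f g hf hg =>
    simp only [map_add, Finsupp.add_apply, hf, hg]
    split_ifs <;> simp
  | single s a =>
    simp only [cone_single, coneS, Finsupp.single_apply]
    by_cases hs : u ∈ s
    · simp only [hs, if_true, smul_zero, Finsupp.coe_zero, Pi.zero_apply]
      by_cases ht : u ∈ t
      · rw [if_pos ht, if_neg]
        intro h; exact (Finset.notMem_erase u t) (h ▸ hs)
      · rw [if_neg ht]
    · simp only [hs, if_false, Finsupp.smul_single, smul_eq_mul, mul_one, Finsupp.single_apply]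
      by_cases ht : u ∈ t
      · rw [if_pos ht]
        refine if_congr ?_ rfl rfl
        constructor
        · intro h; rw [← h, Finset.erase_insert hs]
        · intro h; rw [h, Finset.insert_erase ht]
      · rw [if_neg ht, if_neg]
        intro h; exact ht (h ▸ Finset.mem_insert_self u s)

/-- The link part of a chain is supported in the link, one vertex fewer. -/
lemma delV_mem_chainsOf {K : Set (Finset V)} {k : ℕ} {z : Chain V}
    (hz : z ∈ chainsOf K (k + 1)) (v : V) : delV v z ∈ chainsOf (link K v) k := by
  rw [mem_chainsOf] at hz ⊢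
  intro t ht
  rw [delV_apply] at ht
  by_cases hv : v ∈ t
  · simp [hv] at ht
  · rw [if_neg hv] at ht
    obtain ⟨h1, h2⟩ := hz _ ht
    rw [Finset.card_insert_of_notMem hv] at h2
    exact ⟨⟨hv, h1⟩, by omega⟩

/-- Split a chain at a vertex. -/
lemma cone_delV_add_filter (v : V) (z : Chain V) :
    cone v (delV v z) + z.filter (fun s => v ∉ s) = z := by
  ext t
  rw [Finsupp.add_apply, cone_apply, Finsupp.filter_apply]
  by_cases hv : v ∈ t
  · simp [hv, delV_apply, Finset.notMem_erase, Finset.insert_erase hv]
  · simp [hv]

lemma delV_eq_zero_iff (v : V) (z : Chain V) :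
    delV v z = 0 ↔ ∀ s, z s ≠ 0 → v ∉ s := by
  constructor
  · intro h s hs hv
    have := DFunLike.congr_fun h (s.erase v)
    simp [delV_apply, Finset.notMem_erase, Finset.insert_erase hv] at this
    exact hs this
  · intro h
    ext t
    rw [delV_apply]
    by_cases hv : v ∈ t
    · simp [hv]
    · rw [if_neg hv]
      by_contra hne
      exact h _ hne (Finset.mem_insert_self v t)

lemma delV_cone_self (v : V) (z : Chain V) (hz : ∀ s, z s ≠ 0 → v ∉ s) :
    delV v (cone v z) = z := by
  ext t
  rw [delV_apply]
  by_cases hv : v ∈ t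
  · rw [if_pos hv]
    by_contra hne
    exact hz t (Ne.symm hne) hv
  · rw [if_neg hv, cone_apply, if_pos (Finset.mem_insert_self v t), Finset.erase_insert hv]

/-- The link part of a boundary. -/
lemma bdry_delV (v : V) (z : Chain V) : bdry (delV v z) = delV v (bdry z) := by
  have h0 : ∀ y : Chain V, (∀ s, y s ≠ 0 → v ∉ s) → ∀ s, bdry y s ≠ 0 → v ∉ s := by
    intro y hy s hs hv
    apply hs
    rw [bdry, Finsupp.linearCombination_apply, Finsupp.sum, Finsupp.finset_sum_apply]
    refine Finset.sum_eq_zero fun r hr => ?_
    simp only [bdryS, Finsupp.smul_apply, Finsupp.finset_sum_apply, smul_eq_mul]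
    refine mul_eq_zero_of_right _ (Finset.sum_eq_zero fun w _ => ?_)
    rw [Finsupp.single_apply, if_neg]
    intro h
    exact hy r (Finsupp.mem_support_iff.mp hr) (Finset.mem_of_mem_erase (h ▸ hv))
  have h1 : ∀ s, delV v z s ≠ 0 → v ∉ s := by
    intro s hs hv
    simp [delV_apply, hv] at hs
  have h2 : ∀ s, (z.filter (fun s => v ∉ s)) s ≠ 0 → v ∉ s := by
    intro s hs hv
    simp [hv] at hs
  have h3 : delV v (bdry (z.filter (fun s => v ∉ s))) = 0 :=
    (delV_eq_zero_iff v _).2 (h0 _ h2)
  have h4 : delV v (delV v z) = 0 := (delV_eq_zero_iff v _).2 h1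
  have h5 := bdry_cone v (delV v z)
  conv_rhs => rw [← cone_delV_add_filter v z, map_add, map_add, h3, add_zero]
  have h6 : bdry (cone v (delV v z)) = delV v z + cone v (bdry (delV v z)) := by
    rw [← eq_sub_iff_add_eq] at h5
    rw [h5, sub_eq_add_neg]
    congr 1
    exact neg_eq_of_add_eq_zero_left (add_self_chain _)
  rw [h6, map_add, h4, zero_add, delV_cone_self v _ (h0 _ h1)]

lemma bdry_delV_eq_zero {v : V} {z : Chain V} (h : bdry z = 0) : bdry (delV v z) = 0 := by
  rw [bdry_delV, h, map_zero]

lemma cone_mem_chainsOf {K : Set (Finset V)} {k : ℕ} {v : V} {z : Chain V}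
    (hz : z ∈ chainsOf (link K v) k) : cone v z ∈ chainsOf K (k + 1) := by
  rw [mem_chainsOf] at hz ⊢
  intro t ht
  rw [cone_apply] at ht
  by_cases hv : v ∈ t
  · rw [if_pos hv] at ht
    obtain ⟨⟨_, h1⟩, h2⟩ := hz _ ht
    rw [Finset.insert_erase hv] at h1
    rw [Finset.card_erase_of_mem hv] at h2
    have : 0 < t.card := Finset.card_pos.mpr ⟨v, hv⟩
    exact ⟨h1, by omega⟩
  · simp [hv] at ht

lemma link_subset {K : Set (Finset V)} (hK : DownClosed K) (v : V) : link K v ⊆ K :=
  fun s hs => hK _ hs.2 s (Finset.subset_insert v s)

/-- Replace the star of `v` in a chain by a filling of its link part: the boundary is unchanged. -/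
lemma bdry_replace {v : V} {y e : Chain V} (he : bdry e = delV v y) :
    bdry (y.filter (fun s => v ∉ s) + e) = bdry y := by
  have h := cone_delV_add_filter v y
  have h2 : bdry (cone v (delV v y)) = bdry e := by
    have h3 := bdry_cone v (delV v y)
    have h4 : bdry (delV v y) = 0 := by rw [← he, bdry_bdry]
    rw [h4, map_zero, add_zero] at h3
    rw [h3, he]
  conv_rhs => rw [← h, map_add, h2]
  rw [map_add, add_comm]

end Vale.Agent.P067
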