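import Vale.Agent.P067.MatDefs

/-!
P067: corners of polynomial matrix groups: block embeddings along an embedding of index types,
the groups fixing the complementary columns or rows, and Whitehead's block factorisation.
-/

open Matrix Polynomial

namespace Vale.Agent.P067
namespace Stab

/-! ### Matrices over any ring -/

section Basic

variable {R S : Type*} [CommRing R] [CommRing S]
variable {ι κ μ : Type*} [Fintype ι] [Fintype κ] [Fintype μ] [DecidableEq ι] [DecidableEq κ]
  [DecidableEq μ]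

variable (R) in
/-- The matrix of an embedding of index types. -/
def embM (e : ι ↪ κ) : Matrix κ ι R := Matrix.of fun i j => if i = e j then (1 : R) else 0

lemma transpose_embM_mul (e : ι ↪ κ) (M : Matrix κ μ R) (i : ι) (j : μ) :
    ((embM R e)ᵀ * M) i j = M (e i) j := by
  simp [embM, Matrix.mul_apply]

lemma mul_embM_apply (e : ι ↪ κ) (M : Matrix μ κ R) (i : μ) (j : ι) :
    (M * embM R e : Matrix μ ι R) i j = M i (e j) := by
  simp [embM, Matrix.mul_apply]

lemma transpose_embM_self (e : ι ↪ κ) : (embM R e)ᵀ * embM R e = 1 := by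
  ext i j
  rw [transpose_embM_mul]
  by_cases h : i = j
  · subst h; simp [embM]
  · simp [embM, h, e.injective.eq_iff]

lemma embM_mul_embM (e : ι ↪ κ) (e' : κ ↪ μ) :
    (embM R e') * embM R e = embM R (e.trans e') := by
  ext i j
  rw [mul_embM_apply]
  simp [embM]

lemma embM_refl : embM R (Function.Embedding.refl ι) = 1 := by
  ext i j
  simp [embM, Matrix.one_apply]

lemma embM_map (φ : R →+* S) (e : ι ↪ κ) : (embM R e).map φ = embM S e := by
  ext i j
  simp [embM, apply_ite φ]

/-- The complementary idempotent of an embedding. -/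
def coM (e : ι ↪ κ) : Matrix κ κ R := 1 - embM R e * (embM R e)ᵀ

lemma coM_mul_embM (e : ι ↪ κ) : (coM e : Matrix κ κ R) * embM R e = 0 := by
  rw [coM, Matrix.sub_mul, Matrix.one_mul, Matrix.mul_assoc, transpose_embM_self, Matrix.mul_one,
    sub_self]

lemma transpose_embM_mul_coM (e : ι ↪ κ) : (embM R e)ᵀ * (coM e : Matrix κ κ R) = 0 := by
  rw [coM, Matrix.mul_sub, Matrix.mul_one, ← Matrix.mul_assoc, transpose_embM_self,
    Matrix.one_mul, sub_self]

lemma coM_eq_diagonal (e : ι ↪ κ) :
    (coM e : Matrix κ κ R) = diagonal (fun i => if i ∈ Set.range e then 0 else 1) := by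
  classical
  ext i j
  by_cases h : i ∈ Set.range e
  · obtain ⟨k, rfl⟩ := h
    have : (embM R e * (embM R e)ᵀ) (e k) j = if e k = j then 1 else 0 := by
      simp only [Matrix.mul_apply, embM, Matrix.transpose_apply, Matrix.of_apply]
      rw [Finset.sum_eq_single k]
      · simp [eq_comm]
      · intro b _ hb
        simp [e.injective.eq_iff, Ne.symm hb]
      · simp
    simp [coM, this, Matrix.one_apply, diagonal_apply]
  · have : (embM R e * (embM R e)ᵀ) i j = 0 := by
      simp only [Matrix.mul_apply, embM, Matrix.of_apply]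
      refine Finset.sum_eq_zero fun k _ => ?_
      rw [if_neg fun hk => h ⟨k, hk.symm⟩, zero_mul]
    rw [coM, Matrix.sub_apply, this, sub_zero, diagonal_apply, if_neg h, Matrix.one_apply]

lemma mul_coM_eq_iff (e : ι ↪ κ) (g : Matrix κ κ R) :
    g * coM e = coM e ↔
      ∀ j, j ∉ Set.range e → ∀ i, g i j = (1 : Matrix κ κ R) i j := by
  classical
  rw [coM_eq_diagonal, ← Matrix.ext_iff, forall_comm]
  refine forall_congr' fun j => ?_
  by_cases h : j ∈ Set.range e
  · simp only [Matrix.mul_diagonal, h, if_true, mul_zero, not_true_eq_false, IsEmpty.forall_iff,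
      iff_true]
    intro i
    rw [diagonal_apply]
    by_cases hij : i = j
    · subst hij; simp [h]
    · simp [hij]
  · simp only [Matrix.mul_diagonal, h, if_false, mul_one, not_false_eq_true, forall_true_left]
    refine forall_congr' fun i => ?_
    rw [diagonal_apply, Matrix.one_apply]
    by_cases hij : i = j
    · subst hij; simp [h]
    · simp [hij]

lemma coM_mul_eq_iff (e : ι ↪ κ) (g : Matrix κ κ R) :
    coM e * g = coM e ↔
      ∀ i, i ∉ Set.range e → ∀ j, g i j = (1 : Matrix κ κ R) i j := by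
  classical
  rw [coM_eq_diagonal, ← Matrix.ext_iff]
  refine forall_congr' fun i => ?_
  by_cases h : i ∈ Set.range e
  · simp only [Matrix.diagonal_mul, h, if_true, zero_mul, not_true_eq_false, IsEmpty.forall_iff,
      iff_true]
    intro j
    rw [diagonal_apply, if_pos h, ite_self]
  · simp only [Matrix.diagonal_mul, h, if_false, one_mul, not_false_eq_true, forall_true_left]
    refine forall_congr' fun j => ?_
    rw [diagonal_apply, Matrix.one_apply]
    by_cases hij : i = j
    · subst hij; simp [h]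
    · simp [hij]

/-- Block embedding of square matrices along an embedding of index types. -/
def iotaM (e : ι ↪ κ) : Matrix ι ι R →* Matrix κ κ R where
  toFun g := 1 + embM R e * (g - 1) * (embM R e)ᵀ
  map_one' := by simp
  map_mul' g h := by
    have key : ∀ a b : Matrix ι ι R, embM R e * a * (embM R e)ᵀ * (embM R e * b * (embM R e)ᵀ)
        = embM R e * (a * b) * (embM R e)ᵀ := fun a b => by
      rw [Matrix.mul_assoc (embM R e * a), ← Matrix.mul_assoc (embM R e)ᵀ,
        ← Matrix.mul_assoc (embM R e)ᵀ, transpose_embM_self, Matrix.one_mul,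
        ← Matrix.mul_assoc (embM R e * a), Matrix.mul_assoc (embM R e) a b]
    rw [Matrix.add_mul, Matrix.one_mul, Matrix.mul_add, Matrix.mul_one, key,
      show g * h - 1 = h - 1 + ((g - 1) + (g - 1) * (h - 1)) by noncomm_ring,
      Matrix.mul_add, Matrix.mul_add, Matrix.add_mul, Matrix.add_mul]
    abel

lemma iotaM_apply (e : ι ↪ κ) (g : Matrix ι ι R) :
    iotaM e g = 1 + embM R e * (g - 1) * (embM R e)ᵀ := rfl

lemma iotaM_trans (e : ι ↪ κ) (e' : κ ↪ μ) (g : Matrix ι ι R) :
    iotaM e' (iotaM e g) = iotaM (e.trans e') g := by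
  simp only [iotaM_apply, add_sub_cancel_left]
  rw [← embM_mul_embM, Matrix.transpose_mul]
  simp only [Matrix.mul_assoc]

lemma iotaM_refl (g : Matrix ι ι R) : iotaM (Function.Embedding.refl ι) g = g := by
  simp [iotaM_apply, embM_refl]

lemma iotaM_map (φ : R →+* S) (e : ι ↪ κ) (g : Matrix ι ι R) :
    (iotaM e g).map φ = iotaM e (g.map φ) := by
  have h1 : ∀ (M : Matrix κ κ R), (1 + M).map φ = 1 + M.map φ := fun M => by
    rw [Matrix.map_add φ (map_add φ), Matrix.map_one φ (map_zero φ) (map_one φ)]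
  rw [iotaM_apply, h1, Matrix.map_mul, Matrix.map_mul, Matrix.transpose_map, embM_map,
    Matrix.map_sub φ (map_sub φ), Matrix.map_one φ (map_zero φ) (map_one φ), iotaM_apply]

lemma coM_mul_iotaM (e : ι ↪ κ) (g : Matrix ι ι R) : coM e * iotaM e g = coM e := by
  rw [iotaM_apply, Matrix.mul_add, Matrix.mul_one, ← Matrix.mul_assoc, ← Matrix.mul_assoc,
    coM_mul_embM, Matrix.zero_mul, Matrix.zero_mul, add_zero]

lemma iotaM_mul_coM (e : ι ↪ κ) (g : Matrix ι ι R) : iotaM e g * coM e = coM e := by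
  rw [iotaM_apply, Matrix.add_mul, Matrix.one_mul, Matrix.mul_assoc, transpose_embM_mul_coM,
    Matrix.mul_zero, add_zero]

/-- The corner of a matrix. -/
def corner (e : ι ↪ κ) (g : Matrix κ κ R) : Matrix ι ι R := (embM R e)ᵀ * g * embM R e

lemma corner_apply (e : ι ↪ κ) (g : Matrix κ κ R) (i j : ι) :
    corner e g i j = g (e i) (e j) := by
  rw [corner, mul_embM_apply, transpose_embM_mul]

lemma corner_one (e : ι ↪ κ) : corner e (1 : Matrix κ κ R) = 1 := by
  rw [corner, Matrix.mul_one, transpose_embM_self]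

lemma corner_map (φ : R →+* S) (e : ι ↪ κ) (g : Matrix κ κ R) :
    (corner e g).map φ = corner e (g.map φ) := by
  ext i j
  simp [corner_apply]

lemma corner_iotaM (e : ι ↪ κ) (g : Matrix ι ι R) : corner e (iotaM e g) = g := by
  rw [corner, iotaM_apply, Matrix.mul_add, Matrix.add_mul, Matrix.mul_one, transpose_embM_self,
    ← Matrix.mul_assoc, ← Matrix.mul_assoc, transpose_embM_self, Matrix.one_mul, Matrix.mul_assoc,
    transpose_embM_self, Matrix.mul_one, add_sub_cancel]

lemma corner_mul (e : ι ↪ κ) {g h : Matrix κ κ R}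
    (hgh : g * coM e = coM e ∨ coM e * h = coM e) :
    corner e (g * h) = corner e g * corner e h := by
  have h0 : (embM R e)ᵀ * (g * coM e * h) * embM R e = 0 := by
    rcases hgh with hh | hh
    · rw [hh, ← Matrix.mul_assoc, transpose_embM_mul_coM, Matrix.zero_mul, Matrix.zero_mul]
    · rw [Matrix.mul_assoc g, hh, ← Matrix.mul_assoc, Matrix.mul_assoc, coM_mul_embM,
        Matrix.mul_zero]
  have : g * h = g * (embM R e * (embM R e)ᵀ) * h + g * coM e * h := by
    rw [← Matrix.add_mul, ← Matrix.mul_add, coM, add_sub_cancel, Matrix.mul_one]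
  rw [corner, this, Matrix.mul_add, Matrix.add_mul, h0, add_zero, corner, corner]
  simp only [Matrix.mul_assoc]

/-- Two elements of the kernel of the corner map multiply additively. -/
lemma mul_eq_of_corner_one (e : ι ↪ κ) {g h : Matrix κ κ R}
    (hfix : g * coM e = coM e ∧ h * coM e = coM e ∨ coM e * g = coM e ∧ coM e * h = coM e)
    (hg : corner e g = 1) (hh : corner e h = 1) : g * h = g + h - 1 := by
  have hz : ∀ {a : Matrix κ κ R}, corner e a = 1 → (embM R e)ᵀ * (a - 1) * embM R e = 0 := fun ha => by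
    rw [Matrix.mul_sub, Matrix.sub_mul, Matrix.mul_one, transpose_embM_self, ← corner, ha, sub_self]
  have key : (g - 1) * (h - 1) = 0 := by
    rcases hfix with ⟨h1, h2⟩ | ⟨h1, h2⟩
    · have e1 : ∀ {a : Matrix κ κ R}, a * coM e = coM e →
          a - 1 = (a - 1) * embM R e * (embM R e)ᵀ := fun {a} ha => by
        have : (a - 1) * coM e = 0 := by rw [Matrix.sub_mul, ha, Matrix.one_mul, sub_self]
        rw [coM, Matrix.mul_sub, Matrix.mul_one, sub_eq_zero] at this
        rw [Matrix.mul_assoc]; exact this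
      rw [e1 h1, e1 h2, show (g - 1) * embM R e * (embM R e)ᵀ * ((h - 1) * embM R e * (embM R e)ᵀ)
        = (g - 1) * embM R e * ((embM R e)ᵀ * (h - 1) * embM R e) * (embM R e)ᵀ by
          simp only [Matrix.mul_assoc], hz hh, Matrix.mul_zero, Matrix.zero_mul]
    · have e1 : ∀ {a : Matrix κ κ R}, coM e * a = coM e →
          a - 1 = embM R e * ((embM R e)ᵀ * (a - 1)) := fun {a} ha => by
        have : coM e * (a - 1) = 0 := by rw [Matrix.mul_sub, ha, Matrix.mul_one, sub_self]
        rw [coM, Matrix.sub_mul, Matrix.one_mul, sub_eq_zero] at this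
        rw [← Matrix.mul_assoc]; exact this
      rw [e1 h1, e1 h2, show embM R e * ((embM R e)ᵀ * (g - 1)) * (embM R e * ((embM R e)ᵀ * (h - 1)))
        = embM R e * ((embM R e)ᵀ * (g - 1) * embM R e) * ((embM R e)ᵀ * (h - 1)) by
          simp only [Matrix.mul_assoc], hz hg, Matrix.mul_zero, Matrix.zero_mul]
  rw [Matrix.sub_mul, Matrix.mul_sub, Matrix.mul_sub, Matrix.mul_one, Matrix.one_mul,
    Matrix.mul_one] at key
  linear_combination (norm := abel) key

end Basic

/-! ### Congruence groups on an index type -/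

section Groups

variable (F : Type) [Field F] (ι : Type) [Fintype ι] [DecidableEq ι]

/-- Matrices congruent to the identity modulo `X ^ m`, on any index type. -/
noncomputable def cg (m : ℕ) : Subgroup (GL ι F[X]) :=
  MonoidHom.ker (Matrix.GeneralLinearGroup.map (n := ι)
    (Ideal.Quotient.mk (Ideal.span {(X : F[X]) ^ m})))

lemma congr_eq_cg (N m : ℕ) : congr F N m = cg F (Fin N) m := rfl

instance (m : ℕ) : (cg F ι m).Normal := MonoidHom.normal_ker _

variable {F ι}

lemma mem_cg {m : ℕ} {g : GL ι F[X]} :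
    g ∈ cg F ι m ↔ (g : Matrix ι ι F[X]).map
      (Ideal.Quotient.mk (Ideal.span {(X : F[X]) ^ m})) = 1 := by
  rw [cg, MonoidHom.mem_ker, ← Units.val_inj]
  rfl

/-- Conjugation on a congruence group. -/
noncomputable def conjC {m : ℕ} (g : GL ι F[X]) : cg F ι m →* cg F ι m :=
  (MulAut.conjNormal g : MulAut (cg F ι m)).toMonoidHom

lemma conjC_coe {m : ℕ} (g : GL ι F[X]) (h : cg F ι m) :
    (conjC g h : GL ι F[X]) = g * h * g⁻¹ := MulAut.conjNormal_apply g h

lemma conjC_mul {m : ℕ} (g g' : GL ι F[X]) :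
    conjC (m := m) (g * g') = (conjC g).comp (conjC g') := by
  ext1 h
  apply Subtype.ext
  simp only [MonoidHom.comp_apply, conjC_coe, _root_.mul_inv_rev, mul_assoc]

lemma conjC_one {m : ℕ} : conjC (m := m) (1 : GL ι F[X]) = MonoidHom.id _ := by
  ext1 h
  apply Subtype.ext
  simp [conjC_coe]

variable {κ μ : Type} [Fintype κ] [DecidableEq κ] [Fintype μ] [DecidableEq μ]

/-- Block embedding of general linear groups. -/
noncomputable def iotaG (e : ι ↪ κ) : GL ι F[X] →* GL κ F[X] := Units.map (iotaM e)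

lemma iotaG_coe (e : ι ↪ κ) (g : GL ι F[X]) :
    (iotaG e g : Matrix κ κ F[X]) = iotaM e (g : Matrix ι ι F[X]) := rfl

lemma iotaG_mem {m : ℕ} (e : ι ↪ κ) {g : GL ι F[X]} (hg : g ∈ cg F ι m) :
    iotaG e g ∈ cg F κ m := by
  rw [mem_cg] at hg ⊢
  rw [iotaG_coe, iotaM_map, hg, map_one]

/-- Block embedding of congruence groups. -/
noncomputable def iotaC (m : ℕ) (e : ι ↪ κ) : cg F ι m →* cg F κ m :=
  ((iotaG e).comp (cg F ι m).subtype).codRestrict _ fun g => iotaG_mem e g.2

lemma iotaC_coe {m : ℕ} (e : ι ↪ κ) (g : cg F ι m) :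
    (iotaC m e g : GL κ F[X]) = iotaG e (g : GL ι F[X]) := rfl

lemma iotaC_trans {m : ℕ} (e : ι ↪ κ) (e' : κ ↪ μ) :
    (iotaC (F := F) m e').comp (iotaC m e) = iotaC m (e.trans e') := by
  ext1 g
  apply Subtype.ext
  apply Units.ext
  exact iotaM_trans e e' _

lemma iotaC_refl {m : ℕ} :
    iotaC (F := F) m (Function.Embedding.refl ι) = MonoidHom.id _ := by
  ext1 g
  apply Subtype.ext
  apply Units.ext
  exact iotaM_refl _

lemma conjC_iotaC {m : ℕ} (e : ι ↪ κ) (g : GL ι F[X]) :
    (conjC (m := m) (iotaG e g)).comp (iotaC m e) = (iotaC m e).comp (conjC g) := by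
  ext1 h
  apply Subtype.ext
  simp only [MonoidHom.comp_apply, conjC_coe, iotaC_coe, map_mul, map_inv]

/-- The elements fixing the columns outside the range of `e`. -/
noncomputable def colFix (m : ℕ) (e : ι ↪ κ) : Subgroup (cg F κ m) where
  carrier := {g | ((g : GL κ F[X]) : Matrix κ κ F[X]) * coM e = coM e}
  one_mem' := by simp
  mul_mem' := by
    intro a b ha hb
    simp only [Set.mem_ofPred_eq, Subgroup.coe_mul, Units.val_mul] at *
    rw [Matrix.mul_assoc, hb, ha]
  inv_mem' := by
    intro a ha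
    simp only [Set.mem_ofPred_eq, Subgroup.coe_inv] at *
    conv_lhs => rw [← ha, ← Matrix.mul_assoc, Units.inv_mul, Matrix.one_mul]

/-- The elements fixing the rows outside the range of `e`. -/
noncomputable def rowFix (m : ℕ) (e : ι ↪ κ) : Subgroup (cg F κ m) where
  carrier := {g | coM e * ((g : GL κ F[X]) : Matrix κ κ F[X]) = coM e}
  one_mem' := by simp
  mul_mem' := by
    intro a b ha hb
    simp only [Set.mem_ofPred_eq, Subgroup.coe_mul, Units.val_mul] at *
    rw [← Matrix.mul_assoc, ha, hb]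
  inv_mem' := by
    intro a ha
    simp only [Set.mem_ofPred_eq, Subgroup.coe_inv] at *
    conv_lhs => rw [← ha, Matrix.mul_assoc, Units.mul_inv, Matrix.mul_one]

lemma mem_colFix {m : ℕ} {e : ι ↪ κ} {g : cg F κ m} :
    g ∈ colFix m e ↔ ∀ j, j ∉ Set.range e → ∀ i,
      ((g : GL κ F[X]) : Matrix κ κ F[X]) i j = (1 : Matrix κ κ F[X]) i j :=
  mul_coM_eq_iff e _

lemma mem_rowFix {m : ℕ} {e : ι ↪ κ} {g : cg F κ m} :
    g ∈ rowFix m e ↔ ∀ i, i ∉ Set.range e → ∀ j,
      ((g : GL κ F[X]) : Matrix κ κ F[X]) i j = (1 : Matrix κ κ F[X]) i j :=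
  coM_mul_eq_iff e _

/-- The corner, as a homomorphism, on a group fixing the complementary rows or columns. -/
noncomputable def cornerHom {m : ℕ} (e : ι ↪ κ) (P : Subgroup (cg F κ m))
    (hP : ∀ g ∈ P, ∀ h ∈ P, ((g : GL κ F[X]) : Matrix κ κ F[X]) * coM e = coM e ∨
      coM e * ((h : GL κ F[X]) : Matrix κ κ F[X]) = coM e) : P →* cg F ι m :=
  (MonoidHom.toHomUnits
    { toFun := fun g : P => corner e (((g : cg F κ m) : GL κ F[X]) : Matrix κ κ F[X])
      map_one' := by simp [corner_one]
      map_mul' := fun g h => by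
        simp only [Subgroup.coe_mul, Units.val_mul]
        exact corner_mul e (hP g g.2 h h.2) }).codRestrict _ fun g => by
    rw [mem_cg]
    show (corner e _).map _ = 1
    rw [corner_map, mem_cg.1 (g : cg F κ m).2, corner_one]

/-- The projection of the column group. -/
noncomputable def colProj (m : ℕ) (e : ι ↪ κ) : colFix (F := F) m e →* cg F ι m :=
  cornerHom e _ fun _ hg _ _ => Or.inl hg

/-- The projection of the row group. -/
noncomputable def rowProj (m : ℕ) (e : ι ↪ κ) : rowFix (F := F) m e →* cg F ι m :=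
  cornerHom e _ fun _ _ _ hh => Or.inr hh

/-- The section of `colProj`. -/
noncomputable def colSec (m : ℕ) (e : ι ↪ κ) : cg F ι m →* colFix (F := F) m e :=
  (iotaC m e).codRestrict _ fun g => iotaM_mul_coM e _

/-- The section of `rowProj`. -/
noncomputable def rowSec (m : ℕ) (e : ι ↪ κ) : cg F ι m →* rowFix (F := F) m e :=
  (iotaC m e).codRestrict _ fun g => coM_mul_iotaM e _

lemma colProj_colSec {m : ℕ} (e : ι ↪ κ) :
    (colProj (F := F) m e).comp (colSec m e) = MonoidHom.id _ := by
  ext1 g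
  apply Subtype.ext
  apply Units.ext
  exact corner_iotaM e _

lemma rowProj_rowSec {m : ℕ} (e : ι ↪ κ) :
    (rowProj (F := F) m e).comp (rowSec m e) = MonoidHom.id _ := by
  ext1 g
  apply Subtype.ext
  apply Units.ext
  exact corner_iotaM e _

lemma subtype_colSec {m : ℕ} (e : ι ↪ κ) :
    (colFix (F := F) m e).subtype.comp (colSec m e) = iotaC m e := by
  ext1 g; rfl

lemma subtype_rowSec {m : ℕ} (e : ι ↪ κ) :
    (rowFix (F := F) m e).subtype.comp (rowSec m e) = iotaC m e := by
  ext1 g; rfl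

lemma ker_cornerHom {m : ℕ} (p : ℕ) [CharP F p] (e : ι ↪ κ) (P : Subgroup (cg F κ m))
    (hP : ∀ g ∈ P, ∀ h ∈ P, ((g : GL κ F[X]) : Matrix κ κ F[X]) * coM e = coM e ∨
      coM e * ((h : GL κ F[X]) : Matrix κ κ F[X]) = coM e)
    (hP' : ∀ g ∈ P, ∀ h ∈ P,
      ((g : GL κ F[X]) : Matrix κ κ F[X]) * coM e = coM e ∧
        ((h : GL κ F[X]) : Matrix κ κ F[X]) * coM e = coM e ∨
      coM e * ((g : GL κ F[X]) : Matrix κ κ F[X]) = coM e ∧
        coM e * ((h : GL κ F[X]) : Matrix κ κ F[X]) = coM e)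
    {a b : P} (ha : cornerHom e P hP a = 1) (hb : cornerHom e P hP b = 1) :
    a * b = b * a ∧ a ^ p = 1 := by
  set v : P → Matrix κ κ F[X] := fun g => (((g : cg F κ m) : GL κ F[X]) : Matrix κ κ F[X]) with hv
  have hc : ∀ {g : P}, cornerHom e P hP g = 1 → corner e (v g) = 1 := fun {g} hg =>
    congrArg (fun x : cg F ι m => ((x : GL ι F[X]) : Matrix ι ι F[X])) hg
  have hmul : ∀ {g h : P}, cornerHom e P hP g = 1 → cornerHom e P hP h = 1 →
      v (g * h) = v g + v h - 1 := fun {g h} hg hh => by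
    simp only [hv, Subgroup.coe_mul, Units.val_mul]
    exact mul_eq_of_corner_one e (hP' g g.2 h h.2) (hc hg) (hc hh)
  have hinj : ∀ {g h : P}, v g = v h → g = h := fun hgh =>
    Subtype.ext (Subtype.ext (Units.ext hgh))
  refine ⟨hinj ?_, hinj ?_⟩
  · rw [hmul ha hb, hmul hb ha, add_comm]
  · have hk : ∀ k : ℕ, cornerHom e P hP (a ^ k) = 1 ∧ v (a ^ k) = 1 + k • (v a - 1) := by
      intro k
      induction k with
      | zero => simp [hv]
      | succ k ih =>
        refine ⟨by rw [map_pow, ha, one_pow], ?_⟩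
        rw [pow_succ, hmul ih.1 ha, ih.2, succ_nsmul]
        abel
    have : (p • (v a - 1) : Matrix κ κ F[X]) = 0 := by
      ext i j : 1
      simp [nsmul_eq_mul]
    rw [(hk p).2, this, add_zero]
    simp [hv]

lemma colProj_ker {m : ℕ} (p : ℕ) [CharP F p] (e : ι ↪ κ) {a b : colFix (F := F) m e}
    (ha : colProj m e a = 1) (hb : colProj m e b = 1) : a * b = b * a ∧ a ^ p = 1 :=
  ker_cornerHom p e _ _ (fun _ hg _ hh => Or.inl ⟨hg, hh⟩) ha hb

lemma rowProj_ker {m : ℕ} (p : ℕ) [CharP F p] (e : ι ↪ κ) {a b : rowFix (F := F) m e}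
    (ha : rowProj m e a = 1) (hb : rowProj m e b = 1) : a * b = b * a ∧ a ^ p = 1 :=
  ker_cornerHom p e _ _ (fun _ hg _ hh => Or.inr ⟨hg, hh⟩) ha hb

end Groups

/-! ### Whitehead's factorisation -/

section Whitehead

variable {F : Type} [Field F] {ι : Type} [Fintype ι] [DecidableEq ι]

lemma iotaM_inl (g : Matrix ι ι F[X]) :
    iotaM (Function.Embedding.inl : ι ↪ ι ⊕ ι) g = fromBlocks g 0 0 1 := by
  have h : embM F[X] (Function.Embedding.inl : ι ↪ ι ⊕ ι) = fromRows 1 0 := by
    ext (i | i) j : 1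
    · show (if (Sum.inl i : ι ⊕ ι) = Sum.inl j then (1 : F[X]) else 0) = _
      simp [Matrix.one_apply]
    · show (if (Sum.inr i : ι ⊕ ι) = Sum.inl j then (1 : F[X]) else 0) = _
      simp
  rw [iotaM_apply, h, transpose_fromRows, Matrix.fromRows_mul, Matrix.fromRows_mul_fromCols,
    ← fromBlocks_one, fromBlocks_add]
  simp

/-- Upper block unipotents. -/
noncomputable def upB (A : Matrix ι ι F[X]) : GL (ι ⊕ ι) F[X] where
  val := fromBlocks 1 A 0 1
  inv := fromBlocks 1 (-A) 0 1
  val_inv := by simp [fromBlocks_multiply, fromBlocks_one]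
  inv_val := by simp [fromBlocks_multiply, fromBlocks_one]

/-- Lower block unipotents. -/
noncomputable def loB (A : Matrix ι ι F[X]) : GL (ι ⊕ ι) F[X] where
  val := fromBlocks 1 0 A 1
  inv := fromBlocks 1 0 (-A) 1
  val_inv := by simp [fromBlocks_multiply, fromBlocks_one]
  inv_val := by simp [fromBlocks_multiply, fromBlocks_one]

/-- `diag (x, x⁻¹)` as a product of six block unipotents. -/
noncomputable def whB (x : GL ι F[X]) : GL (ι ⊕ ι) F[X] :=
  upB (x : Matrix ι ι F[X]) * loB (-((x⁻¹ : GL ι F[X]) : Matrix ι ι F[X]))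
    * upB (x : Matrix ι ι F[X]) * upB (-1) * loB 1 * upB (-1)

lemma whB_coe (x : GL ι F[X]) : (whB x : Matrix (ι ⊕ ι) (ι ⊕ ι) F[X]) =
    fromBlocks (x : Matrix ι ι F[X]) 0 0 ((x⁻¹ : GL ι F[X]) : Matrix ι ι F[X]) := by
  simp [whB, upB, loB, fromBlocks_multiply]

lemma conjC_whB {m : ℕ} (x : GL ι F[X]) :
    (conjC (m := m) (whB x)).comp (iotaC m Function.Embedding.inl)
      = (iotaC m Function.Embedding.inl).comp (conjC x) := by
  ext1 h
  apply Subtype.ext
  simp only [MonoidHom.comp_apply, conjC_coe, iotaC_coe]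
  rw [mul_inv_eq_iff_eq_mul]
  apply Units.ext
  simp only [Units.val_mul, iotaG_coe, iotaM_inl, whB_coe, fromBlocks_multiply]
  simp [Matrix.mul_assoc]

lemma conjC_upB_mem {m : ℕ} (A : Matrix ι ι F[X]) (h : cg F ι m) :
    ∃ hm : conjC (upB A) (iotaC m Function.Embedding.inl h)
        ∈ rowFix m (Function.Embedding.inl : ι ↪ ι ⊕ ι),
      rowProj m _ ⟨_, hm⟩ = h := by
  have key : ((conjC (upB A) (iotaC m Function.Embedding.inl h) : GL (ι ⊕ ι) F[X])
      : Matrix (ι ⊕ ι) (ι ⊕ ι) F[X]) = fromBlocks (((h : GL ι F[X])) : Matrix ι ι F[X])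
        (A - ((h : GL ι F[X]) : Matrix ι ι F[X]) * A) 0 1 := by
    simp only [conjC_coe, iotaC_coe, Units.val_mul, iotaG_coe, iotaM_inl]
    simp [upB, fromBlocks_multiply]
    abel
  refine ⟨mem_rowFix.2 fun i hi j => ?_, ?_⟩
  · rcases i with i | i
    · exact absurd ⟨i, rfl⟩ hi
    · rw [key]; rcases j with j | j <;> simp [Matrix.one_apply]
  · apply Subtype.ext
    apply Units.ext
    ext1 i j
    show corner _ _ i j = _
    rw [corner_apply, key]
    rfl

lemma conjC_loB_mem {m : ℕ} (A : Matrix ι ι F[X]) (h : cg F ι m) :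
    ∃ hm : conjC (loB A) (iotaC m Function.Embedding.inl h)
        ∈ colFix m (Function.Embedding.inl : ι ↪ ι ⊕ ι),
      colProj m _ ⟨_, hm⟩ = h := by
  have key : ((conjC (loB A) (iotaC m Function.Embedding.inl h) : GL (ι ⊕ ι) F[X])
      : Matrix (ι ⊕ ι) (ι ⊕ ι) F[X]) = fromBlocks (((h : GL ι F[X])) : Matrix ι ι F[X])
        0 (A * ((h : GL ι F[X]) : Matrix ι ι F[X]) - A) 1 := by
    simp only [conjC_coe, iotaC_coe, Units.val_mul, iotaG_coe, iotaM_inl]
    simp [loB, fromBlocks_multiply]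
    abel
  refine ⟨mem_colFix.2 fun j hj i => ?_, ?_⟩
  · rcases j with j | j
    · exact absurd ⟨j, rfl⟩ hj
    · rw [key]; rcases i with i | i <;> simp [Matrix.one_apply]
  · apply Subtype.ext
    apply Units.ext
    ext1 i j
    show corner _ _ i j = _
    rw [corner_apply, key]
    rfl

end Whitehead

end Stab
end Vale.Agent.P067
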