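import Vale.Agent.P067.CobdBasic

/-!
Acyclicity of chains gives exactness of cochains.
-/

namespace Vale.Agent.P067

open Finset

lemma exists_factor {K M W U : Type*} [Field K] [AddCommGroup M] [Module K M] [AddCommGroup W]
    [Module K W] [AddCommGroup U] [Module K U] (g : M →ₗ[K] W) (f : M →ₗ[K] U) (Z : Submodule K M)
    (h : ∀ z ∈ Z, g z = 0 → f z = 0) : ∃ ψ : W →ₗ[K] U, ∀ m ∈ Z, ψ (g m) = f m := by
  set g' := g.domRestrict Z with hg'
  have h' : LinearMap.ker g' ≤ LinearMap.ker (f.domRestrict Z) := by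
    rintro ⟨z, hz⟩ hzg
    rw [LinearMap.mem_ker, hg', LinearMap.domRestrict_apply] at hzg
    rw [LinearMap.mem_ker, LinearMap.domRestrict_apply]
    exact h z hz hzg
  obtain ⟨ψ, hψ⟩ := LinearMap.exists_extend
    ((Submodule.liftQ (LinearMap.ker g') (f.domRestrict Z) h').comp g'.quotKerEquivRange.symm.toLinearMap)
  refine ⟨ψ, fun m hm => ?_⟩
  have h1 := LinearMap.congr_fun hψ ⟨g' ⟨m, hm⟩, LinearMap.mem_range_self g' _⟩
  simp only [LinearMap.comp_apply, Submodule.coe_subtype, LinearEquiv.coe_coe] at h1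
  rw [LinearMap.quotKerEquivRange_symm_apply_image, Submodule.mkQ_apply, Submodule.liftQ_apply] at h1
  exact h1

variable {V : Type*} [DecidableEq V]

lemma pairing_bdry (C : Finset (Finset V)) (j : ℕ) (S : Finset (Finset V))
    (hd : cobd C (j + 1) S = ∅) {y : Chain V} (hy : y ∈ chainsOf (facesCx C) (j + 2)) :
    Finsupp.linearCombination (ZMod 2) (ind S) (bdry y) = 0 := by
  rw [chainsOf, Finsupp.supported_eq_span_single] at hy
  induction hy using Submodule.span_induction with
  | mem x hx =>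
    obtain ⟨τ, ⟨hτ, hcard⟩, rfl⟩ := hx
    obtain ⟨c, hc, hsub⟩ := hτ
    have hf : τ ∈ faces C (j + 1 + 1) := mem_faces_card.2 ⟨hcard, c, hc, hsub⟩
    have h0 : ∑ v ∈ τ, ind S (τ.erase v) = 0 := by
      rw [← ind_cobd hf, hd]
      simp [ind]
    simp only [bdry_single_one, bdryS, map_sum, Finsupp.linearCombination_single, one_smul]
    exact h0
  | zero => simp
  | add x y _ _ hx hy => simp [map_add, hx, hy]
  | smul a x _ hx => simp [map_smul, hx]

lemma eq_ite_zmod_two (a : ZMod 2) : a = if a = 1 then 1 else 0 := by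
  revert a; decide

/-- Cocycles on faces with `k` vertices are coboundaries if the chains are exact there. -/
theorem cocycle_coboundary (C : Finset (Finset V)) (k : ℕ) (hk : 1 ≤ k)
    (hac : Acyclic (facesCx C) k) (S : Finset (Finset V)) (hS : S ⊆ faces C k)
    (hd : cobd C k S = ∅) :
    ∃ h, h ⊆ faces C (k - 1) ∧ S = cobd C (k - 1) h := by
  classical
  obtain ⟨j, rfl⟩ : ∃ j, k = j + 1 := ⟨k - 1, by omega⟩
  obtain ⟨ψ, hψ⟩ := exists_factor (bdry (V := V)) (Finsupp.linearCombination (ZMod 2) (ind S))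
    (chainsOf (facesCx C) (j + 1)) (fun z hz hz0 => by
      obtain ⟨y, hy, rfl⟩ := hac z hz hz0
      exact pairing_bdry C j S hd hy)
  rw [Nat.add_sub_cancel]
  refine ⟨(faces C j).filter (fun σ => ψ (Finsupp.single σ 1) = 1), Finset.filter_subset _ _, ext_ind fun τ => ?_⟩
  by_cases hτ : τ ∈ faces C (j + 1)
  · rw [ind_cobd hτ]
    obtain ⟨hcard, c, hc, hsub⟩ := mem_faces_card.1 hτ
    have hmem : Finsupp.single τ (1 : ZMod 2) ∈ chainsOf (facesCx C) (j + 1) :=
      single_mem_chainsOf (K := facesCx C) ⟨c, hc, hsub⟩ hcard 1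
    have h2 := hψ _ hmem
    rw [bdry_single_one, bdryS, map_sum, Finsupp.linearCombination_single, one_smul] at h2
    rw [← h2]
    refine Finset.sum_congr rfl fun v hv => ?_
    have hf := erase_mem_faces hτ hv
    rw [eq_ite_zmod_two (ψ (Finsupp.single (τ.erase v) 1))]
    simp only [ind, Finset.mem_filter, hf, true_and]
  · have h1 : ind S τ = 0 := if_neg fun h => hτ (hS h)
    rw [h1]
    exact (if_neg fun h => hτ (cobd_subset C j _ h)).symm

end Vale.Agent.P067
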