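import Vale.Agent.P067.LocalLink

/-!
From expansion of links and mixing to expansion of the whole complex
(fat machinery: small locally minimal cochains expand).
-/

namespace Vale.Agent.P067

open Finset

variable {V : Type} [DecidableEq V]

/-- Faces of size `j` in which `F` has density more than `η`. -/
noncomputable def heavy (n : ℕ) (C : Finset (Finset V)) (η : ℝ) (j : ℕ)
    (F : Finset (Finset V)) : Finset (Finset V) :=
  (faces C j).filter fun ρ =>
    η * (((n - j : ℕ) : ℝ) * (cnt C ρ : ℝ)) < (mass C (F.filter fun σ => ρ ⊆ σ) : ℝ)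

/-- The iterated heavy faces, counted downwards from `k`. -/
noncomputable def layer (n : ℕ) (C : Finset (Finset V)) (η : ℕ → ℝ) (k : ℕ)
    (S : Finset (Finset V)) : ℕ → Finset (Finset V)
  | 0 => S
  | i + 1 => heavy n C (η (k - (i + 1))) (k - (i + 1)) (layer n C η k S i)

/-- Descending chains of heavy faces ending in a terminal face `r`. -/
inductive Reach (lev : ℕ → Finset (Finset V)) (r : Finset V) : Finset V → Prop where
  | refl : r ∈ lev r.card → (∀ v ∈ r, r.erase v ∉ lev (r.card - 1)) → Reach lev r r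
  | step (σ : Finset V) (v : V) : v ∈ σ → σ ∈ lev σ.card → Reach lev r (σ.erase v) →
      Reach lev r σ

lemma Reach.mem {lev : ℕ → Finset (Finset V)} {r σ : Finset V} (h : Reach lev r σ) :
    r ∈ lev r.card ∧ r ⊆ σ ∧ σ ∈ lev σ.card := by
  induction h with
  | refl h1 _ => exact ⟨h1, Subset.refl _, h1⟩
  | step σ v _ hσ _ ih => exact ⟨ih.1, ih.2.1.trans (erase_subset _ _), hσ⟩

lemma exists_reach (lev : ℕ → Finset (Finset V)) :
    ∀ (m : ℕ) (σ : Finset V), σ.card = m → σ ∈ lev m → ∃ r, Reach lev r σ := by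
  intro m
  induction m with
  | zero =>
    intro σ hm hσ
    exact ⟨σ, .refl (by rw [hm]; exact hσ) fun v hv => by simp [card_eq_zero.1 hm] at hv⟩
  | succ m ih =>
    intro σ hm hσ
    by_cases h : ∃ v ∈ σ, σ.erase v ∈ lev m
    · obtain ⟨v, hv, hm'⟩ := h
      obtain ⟨r, hr⟩ := ih _ (by rw [card_erase_of_mem hv, hm]; omega) hm'
      exact ⟨r, .step σ v hv (by rw [hm]; exact hσ) hr⟩
    · push Not at h
      exact ⟨σ, .refl (by rw [hm]; exact hσ) fun v hv => by
        rw [hm, Nat.add_sub_cancel]; exact h v hv⟩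

/-- A face is spoiled if two heavy faces in it share a light facet. -/
def Spoiled (C : Finset (Finset V)) (lev : ℕ → Finset (Finset V)) (k : ℕ) (τ : Finset V) : Prop :=
  ∃ j < k, ∃ ρ ∈ faces C j, ρ ∉ lev j ∧ ∃ u v : V, u ≠ v ∧ u ∉ ρ ∧ v ∉ ρ ∧
    insert u ρ ∈ lev (j + 1) ∧ insert v ρ ∈ lev (j + 1) ∧ insert u (insert v ρ) ⊆ τ

/-- In an unspoiled face all heavy chains end at the same terminal face. -/
lemma Reach.transfer {C : Finset (Finset V)} {lev : ℕ → Finset (Finset V)} {k : ℕ}
    (hlev : ∀ j ≤ k, lev j ⊆ faces C j) {τ : Finset V} (hτ : ¬ Spoiled C lev k τ)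
    {r σ : Finset V} (h : Reach lev r σ) :
    σ.card ≤ k → σ ⊆ τ → ∀ u ∈ σ, ∀ w ∈ τ, w ∉ σ → insert w (σ.erase u) ∈ lev σ.card →
      u ∉ r ∧ Reach lev r (insert w (σ.erase u)) := by
  have facet : ∀ σ : Finset V, σ ∈ lev σ.card → σ.card ≤ k → σ ⊆ τ → ∀ u ∈ σ, ∀ w ∈ τ, w ∉ σ →
      insert w (σ.erase u) ∈ lev σ.card → σ.erase u ∈ lev (σ.card - 1) := by
    intro σ hσ hk hsub u hu w hw hwσ hs'
    by_contra hl
    have hcard : σ.card - 1 + 1 = σ.card := by
      have : 0 < σ.card := card_pos.2 ⟨u, hu⟩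
      omega
    refine hτ ⟨σ.card - 1, by omega, σ.erase u, ?_, hl, u, w, ?_, notMem_erase u σ,
      fun h => hwσ (mem_of_mem_erase h), ?_, ?_, ?_⟩
    · have := mem_faces_of_subset (hlev _ hk hσ) (erase_subset u σ)
      rwa [card_erase_of_mem hu] at this
    · rintro rfl; exact hwσ hu
    · rw [hcard, insert_erase hu]; exact hσ
    · rw [hcard]; exact hs'
    · intro x hx
      simp only [mem_insert, mem_erase] at hx
      rcases hx with rfl | rfl | ⟨-, hx⟩
      · exact hsub hu
      · exact hw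
      · exact hsub hx
  have cardins : ∀ (σ : Finset V) (u w : V), u ∈ σ → w ∉ σ →
      (insert w (σ.erase u)).card = σ.card := by
    intro σ u w hu hw
    rw [card_insert_of_notMem fun h => hw (mem_of_mem_erase h), card_erase_of_mem hu]
    have : 0 < σ.card := card_pos.2 ⟨u, hu⟩
    omega
  induction h with
  | refl h1 h2 =>
    intro hk hsub u hu w hw hwσ hs'
    exact absurd (facet r h1 hk hsub u hu w hw hwσ hs') (h2 u hu)
  | step σ v hv hσ hr ih =>
    intro hk hsub u hu w hw hwσ hs'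
    have hfac := facet σ hσ hk hsub u hu w hw hwσ hs'
    have hfin : Reach lev r (σ.erase u) → Reach lev r (insert w (σ.erase u)) := fun hru =>
      .step _ w (mem_insert_self _ _) (by rw [cardins σ u w hu hwσ]; exact hs')
        (by rwa [erase_insert fun h => hwσ (mem_of_mem_erase h)])
    by_cases huv : u = v
    · subst huv
      exact ⟨fun h => notMem_erase u σ (hr.mem.2.1 h), hfin hr⟩
    · have e : insert v ((σ.erase v).erase u) = σ.erase u := by
        rw [erase_right_comm, insert_erase (mem_erase.2 ⟨Ne.symm huv, hv⟩)]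
      obtain ⟨h1, h2⟩ := ih (le_trans (card_le_card (erase_subset _ _)) hk)
        ((erase_subset _ _).trans hsub) u (mem_erase.2 ⟨huv, hu⟩) v (hsub hv)
        (notMem_erase v σ) (by rw [e, card_erase_of_mem hv]; exact hfac)
      rw [e] at h2
      exact ⟨h1, hfin h2⟩

lemma mass_biUnion_le {ι : Type*} [DecidableEq ι] (C : Finset (Finset V)) (s : Finset ι)
    (t : ι → Finset (Finset V)) : mass C (s.biUnion t) ≤ ∑ i ∈ s, mass C (t i) := by
  induction s using Finset.induction_on with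
  | empty => simp [mass]
  | @insert a s ha ih =>
    rw [biUnion_insert, sum_insert ha]
    refine le_trans ?_ (Nat.add_le_add_left ih _)
    rw [mass, mass, mass, ← sum_union_inter]
    exact Nat.le_add_right _ _

lemma sum_mass_filter_le {n : ℕ} (C A F : Finset (Finset V)) (hF : ∀ σ ∈ F, σ.card ≤ n) :
    ∑ ρ ∈ A, mass C (F.filter fun σ => ρ ⊆ σ) ≤ 2 ^ n * mass C F := by
  simp only [mass, sum_filter]
  rw [sum_comm, mul_sum]
  refine sum_le_sum fun σ hσ => ?_
  rw [← sum_filter, sum_const, smul_eq_mul]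
  refine Nat.mul_le_mul_right _ (le_trans ?_ (Nat.pow_le_pow_right (by norm_num) (hF σ hσ)))
  rw [← card_powerset]
  exact card_le_card fun ρ hρ => mem_powerset.2 (mem_filter.1 hρ).2

lemma heavy_mass {n j : ℕ} {C F : Finset (Finset V)} {η : ℝ} (hη : 0 < η) (hj : j < n)
    (hF : ∀ σ ∈ F, σ.card ≤ n) :
    (mass C (heavy n C η j F) : ℝ) ≤ (2 : ℝ) ^ n / η * (mass C F : ℝ) := by
  rw [div_mul_eq_mul_div, le_div_iff₀ hη]
  have h1 : ∀ ρ ∈ heavy n C η j F,
      η * (cnt C ρ : ℝ) ≤ (mass C (F.filter fun σ => ρ ⊆ σ) : ℝ) := by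
    intro ρ hρ
    refine le_trans (mul_le_mul_of_nonneg_left ?_ hη.le) (mem_filter.1 hρ).2.le
    have : (1 : ℝ) ≤ ((n - j : ℕ) : ℝ) := by exact_mod_cast (by omega : 1 ≤ n - j)
    exact le_mul_of_one_le_left (Nat.cast_nonneg _) this
  calc (mass C (heavy n C η j F) : ℝ) * η
      = ∑ ρ ∈ heavy n C η j F, η * (cnt C ρ : ℝ) := by
        rw [mass, Nat.cast_sum, sum_mul]; exact sum_congr rfl fun _ _ => mul_comm _ _
    _ ≤ ∑ ρ ∈ heavy n C η j F, (mass C (F.filter fun σ => ρ ⊆ σ) : ℝ) := sum_le_sum h1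
    _ ≤ (2 : ℝ) ^ n * (mass C F : ℝ) := by
        exact_mod_cast sum_mass_filter_le C (heavy n C η j F) F hF

open Classical in
/-- Few faces are spoiled at one level. -/
lemma spoiled_mass {n j k : ℕ} {C F : Finset (Finset V)} {η c lam lam0 : ℝ} (hC : Uniform n C)
    (hc : 0 ≤ c) (hη : 0 ≤ η) (hlam : lam ≤ lam0) (hlam0 : 0 ≤ lam0) (hjk : j < k) (hkn : k < n)
    (hmix : ∀ ρ ∈ faces C j, Mixing (n - j) (chLink C ρ) c lam)
    (hF : F ⊆ faces C (j + 1)) :
    (mass C ((faces C (k + 1)).filter fun τ => ∃ ρ ∈ faces C j, ρ ∉ heavy n C η j F ∧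
        ∃ u v : V, u ≠ v ∧ u ∉ ρ ∧ v ∉ ρ ∧ insert u ρ ∈ F ∧ insert v ρ ∈ F ∧
          insert u (insert v ρ) ⊆ τ) : ℝ)
      ≤ ((2 : ℝ) ^ n) ^ 3 * c * (η + lam0) * (mass C F : ℝ) := by
  set X : Finset V → Finset V := fun ρ =>
    ((chLink C ρ).biUnion id).filter fun u => insert u ρ ∈ F with hX
  set E : Finset V → Finset (Finset V) := fun ρ =>
    (faces (chLink C ρ) 2).filter fun e => e ⊆ X ρ with hE
  set A := (faces C j).filter fun ρ => ρ ∉ heavy n C η j F with hA
  have hXmem : ∀ ρ u, u ∉ ρ → insert u ρ ∈ F → u ∈ X ρ := by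
    intro ρ u hu hi
    refine mem_filter.2 ⟨mem_biUnion.2 ?_, hi⟩
    obtain ⟨-, a, ha, hsa⟩ := mem_faces_card.1 (hF hi)
    exact ⟨a \ ρ, mem_chLink_union.2 ⟨sdiff_disjoint, by
      rwa [sdiff_union_of_subset ((subset_insert u ρ).trans hsa)]⟩,
      mem_sdiff.2 ⟨hsa (mem_insert_self u ρ), hu⟩⟩
  set T := A.biUnion fun ρ => (E ρ).biUnion fun e =>
    (faces C (k + 1)).filter fun τ => e ∪ ρ ⊆ τ with hT
  have hsub : ((faces C (k + 1)).filter fun τ => ∃ ρ ∈ faces C j, ρ ∉ heavy n C η j F ∧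
      ∃ u v : V, u ≠ v ∧ u ∉ ρ ∧ v ∉ ρ ∧ insert u ρ ∈ F ∧ insert v ρ ∈ F ∧
        insert u (insert v ρ) ⊆ τ) ⊆ T := by
    intro τ hτ
    obtain ⟨hτf, ρ, hρ, hnh, u, v, huv, hu, hv, hiu, hiv, hsubτ⟩ := mem_filter.1 hτ
    have he : ({u, v} : Finset V) ∪ ρ = insert u (insert v ρ) := by
      ext x; simp
    refine mem_biUnion.2 ⟨ρ, mem_filter.2 ⟨hρ, hnh⟩, mem_biUnion.2 ⟨{u, v}, ?_,
      mem_filter.2 ⟨hτf, by rw [he]; exact hsubτ⟩⟩⟩
    have hd : Disjoint ({u, v} : Finset V) ρ := by simp [hu, hv]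
    refine mem_filter.2 ⟨mem_faces_chLink.2 ⟨hd, ?_⟩, ?_⟩
    · rw [he]
      have hcard : (insert u (insert v ρ)).card = 2 + ρ.card := by
        rw [← he, card_union_of_disjoint hd, card_pair huv]
      rw [← hcard]
      exact mem_faces_of_subset hτf hsubτ
    · intro x hx
      rcases mem_insert.1 hx with rfl | hx
      · exact hXmem ρ _ hu hiu
      · rw [mem_singleton] at hx; subst hx; exact hXmem ρ _ hv hiv
  have hN : (0 : ℝ) ≤ (2 : ℝ) ^ n := by positivity
  have key : ∀ ρ ∈ A, (mass C ((E ρ).biUnion fun e =>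
      (faces C (k + 1)).filter fun τ => e ∪ ρ ⊆ τ) : ℝ)
      ≤ ((2 : ℝ) ^ n) ^ 2 * c * (η + lam0) * (mass C (F.filter fun σ => ρ ⊆ σ) : ℝ) := by
    intro ρ hρ
    obtain ⟨hρf, hρh⟩ := mem_filter.1 hρ
    obtain ⟨hρj, -⟩ := mem_faces_card.1 hρf
    set L := chLink C ρ with hL
    have h1 : mass C ((E ρ).biUnion fun e => (faces C (k + 1)).filter fun τ => e ∪ ρ ⊆ τ)
        ≤ 2 ^ n * mass L (E ρ) := by
      refine le_trans (mass_biUnion_le _ _ _) ?_
      rw [mass, mul_sum]
      refine sum_le_sum fun e he => ?_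
      obtain ⟨hd, hef⟩ := mem_faces_chLink.1 (mem_filter.1 he).1
      have hce := (mem_faces_card.1 hef).1
      rw [mass, sum_cnt_above hC _ (by omega), hL, cnt_chLink hd]
      refine Nat.mul_le_mul_right _ (le_trans (Nat.choose_le_two_pow _ _) ?_)
      exact Nat.pow_le_pow_right (by norm_num) (Nat.sub_le _ _)
    have hLpos : (0 : ℝ) < (L.card : ℝ) := by
      rw [hL, card_chLink]; exact_mod_cast cnt_pos hρf
    have hnj : (0 : ℝ) < ((n - j : ℕ) : ℝ) := by exact_mod_cast (by omega : 0 < n - j)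
    -- mass of the vertex set
    set mF : ℝ := (mass C (F.filter fun σ => ρ ⊆ σ) : ℝ) with hmF
    have hm : (∑ v ∈ X ρ, wt (n - j) L {v}) ≤ mF / (((n - j : ℕ) : ℝ) * (L.card : ℝ)) := by
      simp only [wt_eq, card_singleton, Nat.choose_one_right]
      rw [← sum_div]
      refine div_le_div_of_nonneg_right ?_ (by positivity)
      rw [hmF, ← Nat.cast_sum]
      norm_cast
      have hd : ∀ v ∈ X ρ, v ∉ ρ := by
        intro v hv
        obtain ⟨b, hb, hvb⟩ := mem_biUnion.1 (mem_filter.1 hv).1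
        exact fun h => (disjoint_left.1 (mem_chLink_union.1 hb).1 hvb) h
      calc ∑ v ∈ X ρ, cnt L {v} = ∑ v ∈ X ρ, cnt C (insert v ρ) := by
            refine sum_congr rfl fun v hv => ?_
            rw [hL, cnt_chLink (by simpa using hd v hv), insert_eq]
        _ = ∑ σ ∈ (X ρ).image (fun v => insert v ρ), cnt C σ := by
            rw [sum_image]
            intro x hx y hy h
            have h' : insert x ρ = insert y ρ := h
            have : x ∈ insert y ρ := h' ▸ mem_insert_self x ρ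
            exact (mem_insert.1 this).resolve_right (hd x hx)
        _ ≤ _ := by
            refine sum_le_sum_of_subset fun σ hσ => ?_
            obtain ⟨v, hv, rfl⟩ := mem_image.1 hσ
            exact mem_filter.2 ⟨(mem_filter.1 hv).2, subset_insert v ρ⟩
    have hlight : mF / (((n - j : ℕ) : ℝ) * (L.card : ℝ)) ≤ η := by
      rw [div_le_iff₀ (by positivity), hL, card_chLink]
      by_contra hlt
      exact hρh (mem_filter.2 ⟨hρf, lt_of_not_ge hlt⟩)
    have hm0 : 0 ≤ ∑ v ∈ X ρ, wt (n - j) L {v} :=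
      sum_nonneg fun v _ => by rw [wt_eq]; positivity
    have h2 : cnorm (n - j) L (E ρ) ≤ c * ((η + lam0) * (mF / (((n - j : ℕ) : ℝ) * L.card))) := by
      refine le_trans (hmix ρ hρf (X ρ) (filter_subset _ _)) (mul_le_mul_of_nonneg_left ?_ hc)
      have := le_trans hm hlight
      calc (∑ v ∈ X ρ, wt (n - j) L {v}) ^ 2 + lam * ∑ v ∈ X ρ, wt (n - j) L {v}
          ≤ (η + lam0) * ∑ v ∈ X ρ, wt (n - j) L {v} := by nlinarith
        _ ≤ _ := mul_le_mul_of_nonneg_left hm (by linarith)
    rw [cnorm_eq_mass (k := 2) fun e he => (mem_faces_card.1 (mem_filter.1 he).1).1,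
      div_le_iff₀ (mul_pos (by exact_mod_cast Nat.choose_pos (by omega)) hLpos)] at h2
    have hch : ((n - j).choose 2 : ℝ) / ((n - j : ℕ) : ℝ) ≤ (2 : ℝ) ^ n := by
      rw [div_le_iff₀ hnj]
      have h : (n - j).choose 2 ≤ 2 ^ n * (n - j) :=
        le_trans (Nat.choose_le_two_pow _ _) (le_trans
          (Nat.pow_le_pow_right (by norm_num) (Nat.sub_le n j)) (Nat.le_mul_of_pos_right _ (by omega)))
      exact_mod_cast h
    have hmF0 : 0 ≤ mF := Nat.cast_nonneg _
    calc (mass C ((E ρ).biUnion fun e => (faces C (k + 1)).filter fun τ => e ∪ ρ ⊆ τ) : ℝ)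
        ≤ (2 : ℝ) ^ n * (mass L (E ρ) : ℝ) := by exact_mod_cast h1
      _ ≤ (2 : ℝ) ^ n * (c * ((η + lam0) * (mF / (((n - j : ℕ) : ℝ) * L.card))) *
            (((n - j).choose 2 : ℝ) * L.card)) := mul_le_mul_of_nonneg_left h2 hN
      _ = (2 : ℝ) ^ n * c * (η + lam0) * mF * (((n - j).choose 2 : ℝ) / ((n - j : ℕ) : ℝ)) := by
          field_simp
      _ ≤ (2 : ℝ) ^ n * c * (η + lam0) * mF * (2 : ℝ) ^ n := by
          refine mul_le_mul_of_nonneg_left hch ?_
          exact mul_nonneg (mul_nonneg (mul_nonneg hN hc) (by linarith)) hmF0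
      _ = _ := by ring
  calc _ ≤ (mass C T : ℝ) := by exact_mod_cast mass_mono C hsub
    _ ≤ ((∑ ρ ∈ A, mass C ((E ρ).biUnion fun e =>
          (faces C (k + 1)).filter fun τ => e ∪ ρ ⊆ τ) : ℕ) : ℝ) := by
        rw [Nat.cast_le]; exact mass_biUnion_le _ _ _
    _ ≤ ∑ ρ ∈ A, ((2 : ℝ) ^ n) ^ 2 * c * (η + lam0) *
          (mass C (F.filter fun σ => ρ ⊆ σ) : ℝ) := by
        push_cast; exact sum_le_sum key
    _ ≤ ((2 : ℝ) ^ n) ^ 2 * c * (η + lam0) * ((2 : ℝ) ^ n * (mass C F : ℝ)) := by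
        rw [← mul_sum]
        refine mul_le_mul_of_nonneg_left ?_ (mul_nonneg (mul_nonneg (by positivity) hc) (by linarith))
        exact_mod_cast sum_mass_filter_le C A F fun σ hσ => by
          have := (mem_faces_card.1 (hF hσ)).1; omega
    _ = _ := by ring

/-- Growth of the thresholds. -/
noncomputable def thrP (N δ : ℝ) : ℕ → ℝ
  | 0 => 1
  | i + 1 => N * thrP N δ i ^ 2 / δ

lemma thrP_one_le {N δ : ℝ} (hN : 1 ≤ N) (hδ0 : 0 < δ) (hδ : δ ≤ 1) :
    ∀ i, 1 ≤ thrP N δ i ∧ thrP N δ i ≤ thrP N δ (i + 1) := by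
  have h1 : ∀ i, 1 ≤ thrP N δ i := by
    intro i
    induction i with
    | zero => simp [thrP]
    | succ i ih =>
      rw [thrP, le_div_iff₀ hδ0, one_mul]
      exact le_trans hδ (one_le_mul_of_one_le_of_one_le hN (one_le_pow₀ ih))
  intro i
  refine ⟨h1 i, ?_⟩
  rw [thrP, le_div_iff₀ hδ0]
  have := h1 i
  calc thrP N δ i * δ ≤ thrP N δ i * 1 := mul_le_mul_of_nonneg_left hδ (by linarith)
    _ ≤ thrP N δ i * (N * thrP N δ i) :=
        mul_le_mul_of_nonneg_left (one_le_mul_of_one_le_of_one_le hN this) (by linarith)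
    _ = _ := by ring

open Classical in
/-- Expansion of the link of a terminal face bounds the cochain above it. -/
lemma terminal_bound {n k d j : ℕ} {C S : Finset (Finset V)} {β : ℝ} (hC : Uniform n C)
    (hβ : 0 < β) (hk1 : 1 ≤ k) (hkd : k ≤ d + 1) (hkn : k < n)
    (hlink : ∀ ρ : Finset V, ρ ∈ facesCx C → 1 ≤ ρ.card → ∀ k, ρ.card < k → k ≤ d + 1 →
      LinkExp (n - ρ.card) (chLink C ρ) (k - ρ.card) β)
    (hS : S ⊆ faces C k) (hmin : LocMin n C k S) {lev : ℕ → Finset (Finset V)}
    (lev0 : lev 0 = ∅) (hjk : j < k + 1) {r a : Finset V} (hrj : r ∈ lev j)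
    (hrf : r ∈ faces C j) (hrcard : r.card = j) (ha : a ∈ C) (hra : r ⊆ a) :
    (mass C (S.filter fun σ => Reach lev r σ) : ℝ) ≤ (1 + (2 : ℝ) ^ n / β) *
      (mass C (cobd C k (S.filter fun σ => Reach lev r σ)) : ℝ) := by
  have hnS : cnorm n C S = (mass C S : ℝ) / ((n.choose k : ℝ) * C.card) :=
    cnorm_eq_mass fun σ hσ => (mem_faces_card.1 (hS hσ)).1
  have hCpos : (0 : ℝ) < (C.card : ℝ) := by exact_mod_cast card_pos.2 hC.1
  have hck : (0 : ℝ) < (n.choose k : ℝ) := by exact_mod_cast Nat.choose_pos hkn.le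
  set g : Finset V → Finset (Finset V) := fun r => S.filter fun σ => Reach lev r σ with hg
  show (mass C (g r) : ℝ) ≤ (1 + (2 : ℝ) ^ n / β) * (mass C (cobd C k (g r)) : ℝ)
  set N : ℝ := (2 : ℝ) ^ n with hNdef
  set B : ℝ := 1 + N / β with hBdef
  have hB1 : 1 ≤ B := le_add_of_nonneg_right (div_nonneg (by positivity) hβ.le)
  have hj0 : j ≠ 0 := fun e => by rw [e, lev0] at hrj; simp at hrj
  have hgsub : g r ⊆ S := filter_subset _ _
  by_cases hne : g r = ∅
  · rw [hne]; simp only [mass, sum_empty, Nat.cast_zero]; positivity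
  rcases eq_or_lt_of_le (show j ≤ k by omega) with rfl | hlt
  · have hone : g r = {r} := by
      refine eq_singleton_iff_nonempty_unique_mem.2 ⟨nonempty_iff_ne_empty.2 hne, fun σ hσ => ?_⟩
      obtain ⟨hσS, hσr⟩ := mem_filter.1 hσ
      exact (eq_of_subset_of_card_le hσr.mem.2.1 (by rw [(mem_faces_card.1 (hS hσS)).1, hrcard])).symm
    have hle : mass C (g r) ≤ mass C (cobd C j (g r)) := by
      have hsub : (faces C (j + 1)).filter (fun τ => r ⊆ τ) ⊆ cobd C j (g r) := by
        intro τ hτ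
        obtain ⟨hτf, hrτ⟩ := mem_filter.1 hτ
        obtain ⟨v, hv, hvr⟩ := exists_of_ssubset (ssubset_of_subset_of_ne hrτ fun e => by
          have := (mem_faces_card.1 hτf).1; rw [← e, hrcard] at this; omega)
        have he : τ.erase v = r := (eq_of_subset_of_card_le (subset_erase.2 ⟨hrτ, hvr⟩) (by
          rw [card_erase_of_mem hv, (mem_faces_card.1 hτf).1, hrcard]; omega)).symm
        refine mem_cobd.2 ⟨hτf, ?_⟩
        rw [sum_eq_single_of_mem v hv fun w hw hwv =>
          show ind (g r) (τ.erase w) = 0 from if_neg fun hm => hwv ?_]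
        · exact ind_eq_one.2 (by rw [he, hone]; exact mem_singleton_self r)
        · rw [hone, mem_singleton, ← he] at hm
          by_contra hne'
          exact notMem_erase w τ (hm ▸ mem_erase.2 ⟨hne', hw⟩)
      refine le_trans ?_ (mass_mono C hsub)
      rw [hone, mass, sum_singleton, mass, sum_cnt_above hC r (by omega), hrcard,
        Nat.add_sub_cancel_left, Nat.choose_one_right]
      exact Nat.le_mul_of_pos_left _ (by omega)
    refine le_trans ?_ (le_mul_of_one_le_left (Nat.cast_nonneg _) hB1)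
    exact_mod_cast hle
  · set g' := (g r).image (fun σ => σ \ r) with hg'
    have hd' : ∀ σ ∈ g', Disjoint σ r := by
      intro σ hσ
      obtain ⟨x, -, rfl⟩ := mem_image.1 hσ
      exact sdiff_disjoint
    have hglift : lift r g' = g r := by
      rw [lift, hg', image_image]
      refine (image_congr fun σ hσ => ?_).trans image_id
      exact sdiff_union_of_subset (mem_filter.1 hσ).2.mem.2.1
    have hg'f : g' ⊆ faces (chLink C r) (k - j) := by
      intro σ hσ
      obtain ⟨x, hx, rfl⟩ := mem_image.1 hσ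
      have hsub := (mem_filter.1 hx).2.mem.2.1
      refine mem_faces_chLink.2 ⟨sdiff_disjoint, ?_⟩
      rw [sdiff_union_of_subset hsub, hrcard, show k - j + j = k by omega]
      exact hS (hgsub hx)
    have hle := hlink r ⟨a, ha, hra⟩ (by omega) k (by omega) hkd
    rw [hrcard] at hle
    obtain ⟨h, hh, hexp⟩ := hle g' hg'f
    set dh := cobd (chLink C r) (k - j - 1) h with hdh
    have hhd : ∀ σ ∈ h, Disjoint σ r := fun σ hσ => (mem_faces_chLink.1 (hh hσ)).1
    have hdhf : dh ⊆ faces (chLink C r) (k - j) := by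
      have := cobd_subset (chLink C r) (k - j - 1) h
      rwa [show k - j - 1 + 1 = k - j by omega] at this
    have hdhd : ∀ σ ∈ dh, Disjoint σ r := fun σ hσ => (mem_faces_chLink.1 (hdhf hσ)).1
    have hX : cobd C (k - 1) (lift r h) = lift r dh := by
      rw [hdh, ← cobd_lift hhd, hrcard, show k - j - 1 + j = k - 1 by omega]
    have hmin' := hmin r (by omega) (by omega) (lift r h) (by
        have := lift_sub_faces hh
        rwa [hrcard, show k - j - 1 + j = k - 1 by omega] at this)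
      (fun x hx => ((mem_lift hhd).1 hx).1)
    rw [hX] at hmin'
    have hXf : lift r dh ⊆ faces C k := by
      have := lift_sub_faces hdhf
      rwa [hrcard, show k - j + j = k by omega] at this
    rw [hnS, cnorm_eq_mass (k := k) fun σ hσ => by
        rcases mem_symmDiff.1 hσ with ⟨h', -⟩ | ⟨h', -⟩
        · exact (mem_faces_card.1 (hS h')).1
        · exact (mem_faces_card.1 (hXf h')).1,
      div_le_div_iff_of_pos_right (by positivity)] at hmin'
    have hmin'' : mass C S ≤ mass C (symmDiff S (lift r dh)) := by exact_mod_cast hmin'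
    have hstep : mass C (symmDiff S (lift r dh))
        ≤ mass C (S \ g r) + mass C (symmDiff (g r) (lift r dh)) := by
      refine le_trans (mass_mono C (T := (S \ g r) ∪ symmDiff (g r) (lift r dh)) fun x hx => ?_) ?_
      · simp only [mem_union, mem_sdiff, mem_symmDiff] at hx ⊢
        by_cases hxg : x ∈ g r
        · have := hgsub hxg; tauto
        · tauto
      · rw [mass, mass, mass, ← sum_union_inter]
        exact Nat.le_add_right _ _
    have hsplit : mass C (S \ g r) + mass C (g r) = mass C S := sum_sdiff hgsub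
    have hg1 : mass C (g r) ≤ mass (chLink C r) (symmDiff g' dh) := by
      have hsd : ∀ σ ∈ symmDiff g' dh, Disjoint σ r := fun σ hσ =>
        (mem_symmDiff.1 hσ).elim (fun h => hd' σ h.1) fun h => hdhd σ h.1
      rw [← mass_lift hsd, lift_symmDiff hd' hdhd, hglift]
      omega
    have hdg : mass C (cobd C k (g r)) = mass (chLink C r) (cobd (chLink C r) (k - j) g') := by
      rw [← mass_lift fun σ hσ => (mem_faces_chLink.1 (cobd_subset _ _ _ hσ)).1,
        ← cobd_lift hd', hglift, hrcard, show k - j + j = k by omega]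
    rw [cnorm_eq_mass (k := k - j) fun σ hσ => by
        rcases mem_symmDiff.1 hσ with ⟨h', -⟩ | ⟨h', -⟩
        · exact (mem_faces_card.1 (hg'f h')).1
        · exact (mem_faces_card.1 (hdhf h')).1,
      cnorm_eq_mass (k := k - j + 1) fun σ hσ => (mem_faces_card.1 (cobd_subset _ _ _ hσ)).1,
      ← hdg, card_chLink] at hexp
    have hLpos : (0 : ℝ) < (cnt C r : ℝ) := by exact_mod_cast cnt_pos hrf
    have hc1 : (0 : ℝ) < ((n - j).choose (k - j) : ℝ) := by
      exact_mod_cast Nat.choose_pos (by omega)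
    have hc2 : (1 : ℝ) ≤ ((n - j).choose (k - j + 1) : ℝ) := by
      exact_mod_cast (Nat.choose_pos (by omega) : 0 < (n - j).choose (k - j + 1))
    have hc3 : ((n - j).choose (k - j) : ℝ) ≤ N := by
      rw [hNdef]
      exact_mod_cast le_trans (Nat.choose_le_two_pow _ _)
        (Nat.pow_le_pow_right (by norm_num) (Nat.sub_le n j))
    rw [mul_div_assoc', div_le_div_iff₀ (by positivity) (by positivity)] at hexp
    set A : ℝ := (mass (chLink C r) (symmDiff g' dh) : ℝ) with hAdef
    set D : ℝ := (mass C (cobd C k (g r)) : ℝ) with hDdef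
    have hA0 : 0 ≤ A := Nat.cast_nonneg _
    have hD0 : 0 ≤ D := Nat.cast_nonneg _
    have hAD : β * A ≤ N * D := by
      refine le_of_mul_le_mul_right ?_ hLpos
      calc β * A * (cnt C r : ℝ)
          ≤ β * A * (((n - j).choose (k - j + 1) : ℝ) * cnt C r) :=
            mul_le_mul_of_nonneg_left (le_mul_of_one_le_left hLpos.le hc2) (by positivity)
        _ ≤ D * (((n - j).choose (k - j) : ℝ) * cnt C r) := hexp
        _ ≤ D * (N * cnt C r) :=
            mul_le_mul_of_nonneg_left (mul_le_mul_of_nonneg_right hc3 hLpos.le) hD0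
        _ = N * D * cnt C r := by ring
    calc (mass C (g r) : ℝ) ≤ A := by rw [hAdef]; exact_mod_cast hg1
      _ ≤ N / β * D := by rw [div_mul_eq_mul_div, le_div_iff₀ hβ]; linarith
      _ ≤ B * D := mul_le_mul_of_nonneg_right (by rw [hBdef]; linarith) hD0

open Classical in
/-- Small locally minimal cochains expand. -/
theorem small_minimal (d n : ℕ) (β c : ℝ) (hβ : 0 < β) (hc : 0 ≤ c) : ∃ lam0 η κ : ℝ,
    0 < lam0 ∧ 0 < η ∧ 0 < κ ∧
    ∀ (V : Type) [DecidableEq V] (C : Finset (Finset V)), Uniform n C → d + 2 ≤ n →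
    (∀ ρ : Finset V, ρ ∈ facesCx C → 1 ≤ ρ.card → ∀ k, ρ.card < k → k ≤ d + 1 →
      LinkExp (n - ρ.card) (chLink C ρ) (k - ρ.card) β) →
    ∀ lam ≤ lam0, (∀ ρ : Finset V, ρ ∈ facesCx C → ρ.card ≤ d →
      Mixing (n - ρ.card) (chLink C ρ) c lam) →
    ∀ k, 1 ≤ k → k ≤ d + 1 → ∀ S, S ⊆ faces C k → LocMin n C k S → cnorm n C S ≤ η →
      κ * cnorm n C S ≤ cnorm n C (cobd C k S) := by
  set N : ℝ := (2 : ℝ) ^ n with hNdef
  have hN1 : 1 ≤ N := one_le_pow₀ (by norm_num)
  set B : ℝ := 1 + N / β with hBdef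
  have hB1 : 1 ≤ B := le_add_of_nonneg_right (div_nonneg (by linarith) hβ.le)
  set δ : ℝ := 1 / (4 * (B * (N ^ 4 * ((c + 1) * ((d : ℝ) + 1))))) with hδdef
  have hden : 1 ≤ B * (N ^ 4 * ((c + 1) * ((d : ℝ) + 1))) :=
    one_le_mul_of_one_le_of_one_le hB1 (one_le_mul_of_one_le_of_one_le (one_le_pow₀ hN1)
      (one_le_mul_of_one_le_of_one_le (by linarith) (by linarith [(Nat.cast_nonneg d : (0:ℝ) ≤ d)])))
  have hδ0 : 0 < δ := by rw [hδdef]; positivity
  have hδ1 : δ ≤ 1 := by rw [hδdef, div_le_one (by linarith)]; linarith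
  set P : ℕ → ℝ := thrP N δ with hPdef
  have hP := thrP_one_le hN1 hδ0 hδ1
  have hPmono : Monotone P := monotone_nat_of_le_succ fun i => (hP i).2
  have hPpos : ∀ i, 0 < P i := fun i => lt_of_lt_of_le one_pos (hP i).1
  set et : ℕ → ℝ := fun j => δ / P (d - j) with hetdef
  have het : ∀ j, 0 < et j := fun j => div_pos hδ0 (hPpos _)
  refine ⟨δ / P (d + 1), δ / (N * P d ^ 2), 1 / (2 * B * N ^ 2), div_pos hδ0 (hPpos _),
    div_pos hδ0 (mul_pos (by linarith) (pow_pos (hPpos _) 2)),
    by positivity, ?_⟩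
  intro V _ C hC hdn hlink lam hlam hmix k hk1 hkd S hS hmin hsmall
  set lev : ℕ → Finset (Finset V) := fun j => layer n C et k S (k - j) with hlevdef
  have levk : lev k = S := by simp [hlevdef, layer]
  have levj : ∀ j < k, lev j = heavy n C (et j) j (lev (j + 1)) := by
    intro j hj
    have e1 : k - j = k - (j + 1) + 1 := by omega
    have e2 : k - (k - (j + 1) + 1) = j := by omega
    simp only [hlevdef]
    rw [e1, layer, e2]
  have levsub : ∀ j ≤ k, lev j ⊆ faces C j := by
    intro j hj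
    rcases eq_or_lt_of_le hj with rfl | hlt
    · rw [levk]; exact hS
    · rw [levj j hlt]; exact filter_subset _ _
  set MS : ℝ := (mass C S : ℝ) with hMS
  have hMS0 : 0 ≤ MS := Nat.cast_nonneg _
  have levmass : ∀ i j, j + i = k → (mass C (lev j) : ℝ) ≤ P (d + 1 - j) * MS := by
    intro i
    induction i with
    | zero =>
      intro j hj; rw [Nat.add_zero] at hj; subst hj
      rw [levk]; exact le_mul_of_one_le_left hMS0 (hP _).1
    | succ i ih =>
      intro j hj
      have h1 := ih (j + 1) (by omega)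
      rw [show d + 1 - (j + 1) = d - j by omega] at h1
      rw [levj j (by omega)]
      refine le_trans (heavy_mass (het j) (by omega) fun σ hσ => by
        have := (mem_faces_card.1 (levsub (j + 1) (by omega) hσ)).1; omega) ?_
      refine le_trans (mul_le_mul_of_nonneg_left h1
        (div_nonneg (by linarith) (het j).le)) (le_of_eq ?_)
      rw [show d + 1 - j = d - j + 1 by omega]
      simp only [hPdef, hetdef, thrP, ← hNdef]
      have := (hPpos (d - j)).ne'
      simp only [hPdef] at this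
      field_simp
  have hCpos : (0 : ℝ) < (C.card : ℝ) := by exact_mod_cast card_pos.2 hC.1
  have hck : (0 : ℝ) < (n.choose k : ℝ) := by exact_mod_cast Nat.choose_pos (by omega)
  have hckN : ∀ i, (n.choose i : ℝ) ≤ N := fun i => by
    rw [hNdef]; exact_mod_cast Nat.choose_le_two_pow n i
  have hnS : cnorm n C S = MS / ((n.choose k : ℝ) * C.card) :=
    cnorm_eq_mass fun σ hσ => (mem_faces_card.1 (hS hσ)).1
  have lev0 : lev 0 = ∅ := by
    rw [levj 0 hk1]
    refine filter_eq_empty_iff.2 fun ρ hρ hlt => ?_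
    obtain rfl : ρ = ∅ := card_eq_zero.1 (mem_faces_card.1 hρ).1
    revert hlt
    simp only [empty_subset, filter_true, cnt_empty, Nat.sub_zero, imp_false, not_lt, hetdef]
    have h1 := levmass (k - 1) 1 (by omega)
    rw [Nat.add_sub_cancel] at h1
    refine le_trans h1 ?_
    rw [hnS, div_le_iff₀ (by positivity)] at hsmall
    calc P d * MS ≤ P d * (δ / (N * P d ^ 2) * (N * C.card)) := by
          refine mul_le_mul_of_nonneg_left (hsmall.trans ?_) (hPpos d).le
          refine mul_le_mul_of_nonneg_left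
            (mul_le_mul_of_nonneg_right (hckN k) hCpos.le) ?_
          exact div_nonneg hδ0.le (mul_nonneg (by linarith) (sq_nonneg _))
      _ = δ / P d * (1 * C.card) := by
          have := (hPpos d).ne'
          field_simp
      _ ≤ δ / P d * ((n : ℝ) * C.card) := by
          refine mul_le_mul_of_nonneg_left (mul_le_mul_of_nonneg_right ?_ hCpos.le)
            (div_pos hδ0 (hPpos d)).le
          exact_mod_cast (show 1 ≤ n by omega)
  -- spoiled faces
  set bad := (faces C (k + 1)).filter fun τ => Spoiled C lev k τ with hbad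
  have hbadm : (mass C bad : ℝ) ≤ ((d : ℝ) + 1) * (N ^ 3 * c * (2 * δ)) * MS := by
    set Bj : ℕ → Finset (Finset V) := fun j => (faces C (k + 1)).filter fun τ =>
      ∃ ρ ∈ faces C j, ρ ∉ heavy n C (et j) j (lev (j + 1)) ∧
        ∃ u v : V, u ≠ v ∧ u ∉ ρ ∧ v ∉ ρ ∧ insert u ρ ∈ lev (j + 1) ∧
          insert v ρ ∈ lev (j + 1) ∧ insert u (insert v ρ) ⊆ τ with hBj
    have hsub : bad ⊆ (range k).biUnion Bj := by
      intro τ hτ
      obtain ⟨hτf, j, hj, ρ, hρ, hl, rest⟩ := mem_filter.1 hτ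
      rw [levj j hj] at hl
      exact mem_biUnion.2 ⟨j, mem_range.2 hj, mem_filter.2 ⟨hτf, ρ, hρ, hl, rest⟩⟩
    calc (mass C bad : ℝ) ≤ ((∑ j ∈ range k, mass C (Bj j) : ℕ) : ℝ) := by
          rw [Nat.cast_le]
          exact (mass_mono C hsub).trans (mass_biUnion_le _ _ _)
      _ ≤ ∑ j ∈ range k, N ^ 3 * c * (2 * δ) * MS := by
          push_cast
          refine sum_le_sum fun j hj => ?_
          rw [mem_range] at hj
          refine le_trans (spoiled_mass hC hc (het j).le hlam (div_pos hδ0 (hPpos _)).le hj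
            (by omega) (fun ρ hρ => ?_) (levsub (j + 1) (by omega))) ?_
          · obtain ⟨hcard, a, ha, hsa⟩ := mem_faces_card.1 hρ
            have := hmix ρ ⟨a, ha, hsa⟩ (by omega)
            rwa [hcard] at this
          have h1 := levmass (k - (j + 1)) (j + 1) (by omega)
          rw [show d + 1 - (j + 1) = d - j by omega] at h1
          rw [← hNdef, mul_assoc (N ^ 3 * c), mul_assoc (N ^ 3 * c)]
          refine mul_le_mul_of_nonneg_left ?_ (mul_nonneg (pow_nonneg (by linarith) 3) hc)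
          refine le_trans (mul_le_mul_of_nonneg_left h1
            (add_nonneg (het j).le (div_pos hδ0 (hPpos _)).le)) ?_
          rw [← mul_assoc]
          refine mul_le_mul_of_nonneg_right ?_ hMS0
          have hmono : P (d - j) ≤ P (d + 1) := hPmono (by omega)
          have := hPpos (d - j)
          have := hPpos (d + 1)
          have e1 : et j * P (d - j) = δ := div_mul_cancel₀ δ (hPpos _).ne'
          have e2 : δ / P (d + 1) * P (d - j) ≤ δ :=
            le_trans (mul_le_mul_of_nonneg_left hmono (div_pos hδ0 (hPpos _)).le)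
              (le_of_eq (div_mul_cancel₀ δ (hPpos _).ne'))
          linarith [add_mul (et j) (δ / P (d + 1)) (P (d - j))]
      _ ≤ _ := by
          rw [sum_const, card_range, nsmul_eq_mul, mul_assoc ((d : ℝ) + 1)]
          refine mul_le_mul_of_nonneg_right (by exact_mod_cast hkd) ?_
          exact mul_nonneg (mul_nonneg (mul_nonneg (pow_nonneg (by linarith) 3) hc)
            (by linarith)) hMS0
  -- terminal faces
  set T := (range (k + 1)).biUnion lev with hT
  set dS := cobd C k S with hdS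
  set g : Finset V → Finset (Finset V) := fun r => S.filter fun σ => Reach lev r σ with hg
  have hcover : S ⊆ T.biUnion g := by
    intro σ hσ
    have hc' := (mem_faces_card.1 (hS hσ)).1
    obtain ⟨r, hr⟩ := exists_reach lev k σ hc' (by rw [levk]; exact hσ)
    refine mem_biUnion.2 ⟨r, mem_biUnion.2 ⟨r.card, mem_range.2 ?_, hr.mem.1⟩,
      mem_filter.2 ⟨hσ, hr⟩⟩
    have := card_le_card hr.mem.2.1
    omega
  have hgood : ∀ r, cobd C k (g r) ⊆ (dS ∪ bad).filter fun τ => r ⊆ τ := by
    intro r τ hτ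
    obtain ⟨hτf, hsum⟩ := mem_cobd.1 hτ
    obtain ⟨v, hv, hvg⟩ : ∃ v ∈ τ, τ.erase v ∈ g r := by
      by_contra hne
      push Not at hne
      rw [sum_eq_zero fun v hv => show ind (g r) (τ.erase v) = 0 from if_neg (hne v hv)] at hsum
      exact zero_ne_one hsum
    obtain ⟨hvS, hvr⟩ := mem_filter.1 hvg
    refine mem_filter.2 ⟨?_, hvr.mem.2.1.trans (erase_subset _ _)⟩
    by_cases hsp : Spoiled C lev k τ
    · exact mem_union_right _ (mem_filter.2 ⟨hτf, hsp⟩)
    refine mem_union_left _ (mem_cobd.2 ⟨hτf, ?_⟩)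
    rw [← hsum]
    refine sum_congr rfl fun u hu => ind_eq_of_iff ⟨fun huS => ?_, fun h => (mem_filter.1 h).1⟩
    refine mem_filter.2 ⟨huS, ?_⟩
    by_cases huv : u = v
    · rw [huv]; exact hvr
    have e : insert v ((τ.erase v).erase u) = τ.erase u := by
      rw [erase_right_comm, insert_erase (mem_erase.2 ⟨Ne.symm huv, hv⟩)]
    have hcv : (τ.erase v).card = k := (mem_faces_card.1 (hS hvS)).1
    have := (hvr.transfer levsub hsp hcv.le (erase_subset _ _) u (mem_erase.2 ⟨huv, hu⟩) v hv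
      (notMem_erase v τ) (by rw [hcv, e, levk]; exact huS)).2
    rwa [e] at this
  have hgr : ∀ r ∈ T, (mass C (g r) : ℝ) ≤ B * (mass C (cobd C k (g r)) : ℝ) := by
    intro r hr
    obtain ⟨j, hjk, hrj⟩ := mem_biUnion.1 hr
    rw [mem_range] at hjk
    have hrf := levsub j (by omega) hrj
    obtain ⟨hrcard, a, ha, hra⟩ := mem_faces_card.1 hrf
    exact terminal_bound hC hβ hk1 hkd (by omega) hlink hS hmin lev0 hjk hrj hrf hrcard ha hra
  -- conclusion
  have hmain : MS ≤ B * N * ((mass C dS : ℝ) + (mass C bad : ℝ)) := by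
    calc MS ≤ ((∑ r ∈ T, mass C (g r) : ℕ) : ℝ) := by
          rw [hMS, Nat.cast_le]
          exact (mass_mono C hcover).trans (mass_biUnion_le _ _ _)
      _ ≤ ∑ r ∈ T, B * (mass C (cobd C k (g r)) : ℝ) := by push_cast; exact sum_le_sum hgr
      _ = B * ((∑ r ∈ T, mass C (cobd C k (g r)) : ℕ) : ℝ) := by push_cast; rw [mul_sum]
      _ ≤ B * ((2 ^ n * (mass C dS + mass C bad) : ℕ) : ℝ) := by
          refine mul_le_mul_of_nonneg_left ?_ (by linarith)
          rw [Nat.cast_le]
          refine le_trans (sum_le_sum fun r _ => mass_mono C (hgood r)) ?_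
          refine le_trans (sum_mass_filter_le (n := n) C T _ fun τ hτ => ?_)
            (Nat.mul_le_mul_left _ ?_)
          · rcases mem_union.1 hτ with h | h
            · rw [(mem_faces_card.1 (cobd_subset _ _ _ h)).1]; omega
            · rw [(mem_faces_card.1 (mem_filter.1 h).1).1]; omega
          · rw [mass, mass, mass, ← sum_union_inter]
            exact Nat.le_add_right _ _
      _ = _ := by push_cast; rw [hNdef]; ring
  have hhalf : B * N * (((d : ℝ) + 1) * (N ^ 3 * c * (2 * δ))) ≤ 1 / 2 := by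
    have hcd : c ≤ c + 1 := by linarith
    calc B * N * (((d : ℝ) + 1) * (N ^ 3 * c * (2 * δ)))
        ≤ B * N * (((d : ℝ) + 1) * (N ^ 3 * (c + 1) * (2 * δ))) := by gcongr
      _ = 1 / 2 := by rw [hδdef]; field_simp; ring
  have hfinal : MS ≤ 2 * B * N * (mass C dS : ℝ) := by
    have h1 : B * N * (mass C bad : ℝ) ≤ 1 / 2 * MS := by
      calc B * N * (mass C bad : ℝ)
          ≤ B * N * (((d : ℝ) + 1) * (N ^ 3 * c * (2 * δ)) * MS) := by gcongr
        _ = (B * N * (((d : ℝ) + 1) * (N ^ 3 * c * (2 * δ)))) * MS := by ring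
        _ ≤ _ := mul_le_mul_of_nonneg_right hhalf hMS0
    nlinarith
  rw [hnS, cnorm_eq_mass (k := k + 1) (S := dS) fun s hs =>
    (mem_faces_card.1 (cobd_subset _ _ _ hs)).1]
  have hck1 : (0 : ℝ) < (n.choose (k + 1) : ℝ) := by exact_mod_cast Nat.choose_pos (by omega)
  have hckone : (1 : ℝ) ≤ (n.choose k : ℝ) := by
    exact_mod_cast (Nat.choose_pos (by omega) : 0 < n.choose k)
  rw [div_mul_div_comm, one_mul, div_le_div_iff₀ (by positivity) (by positivity)]
  calc MS * ((n.choose (k + 1) : ℝ) * C.card)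
      ≤ (2 * B * N * (mass C dS : ℝ)) * (N * C.card) := by
        refine mul_le_mul hfinal (mul_le_mul_of_nonneg_right (hckN _) hCpos.le) (by positivity) ?_
        positivity
    _ = (mass C dS : ℝ) * (2 * B * N ^ 2 * (1 * C.card)) := by ring
    _ ≤ _ := by gcongr

/-- Expanding links with good mixing give coboundary expansion. -/
theorem expander_of_links (d n : ℕ) (β c : ℝ) (hβ : 0 < β) (hc : 0 ≤ c) : ∃ lam0 : ℝ, 0 < lam0 ∧
    ∀ D : ℕ, ∃ ε : ℝ, 0 < ε ∧
    ∀ (V : Type) [DecidableEq V] (C : Finset (Finset V)), Uniform n C → d + 2 ≤ n →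
    (∀ ρ : Finset V, ρ ∈ facesCx C → 1 ≤ ρ.card → ∀ k, ρ.card < k → k ≤ d + 1 →
      LinkExp (n - ρ.card) (chLink C ρ) (k - ρ.card) β) →
    ∀ lam ≤ lam0, (∀ ρ : Finset V, ρ ∈ facesCx C → ρ.card ≤ d →
      Mixing (n - ρ.card) (chLink C ρ) c lam) →
    (∀ v : V, (C.filter (fun a => v ∈ a)).card ≤ D) →
    (∀ k, 1 ≤ k → k ≤ d → ∀ S, S ⊆ faces C k → cobd C k S = ∅ →
      ∃ h, h ⊆ faces C (k - 1) ∧ S = cobd C (k - 1) h) →
    ∀ k, 1 ≤ k → k ≤ d → ∀ S, S ⊆ faces C k →
      ∃ h, h ⊆ faces C (k - 1) ∧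
        ε * cnorm n C (symmDiff S (cobd C (k - 1) h)) ≤ cnorm n C (cobd C k S) := by
  obtain ⟨lam0, η, κ, hl0, hη, hκ, hsm⟩ := small_minimal d n β c hβ hc
  refine ⟨lam0, hl0, fun D => ?_⟩
  set N : ℝ := (2 : ℝ) ^ n with hNdef
  have hN1 : 1 ≤ N := one_le_pow₀ (by norm_num)
  refine ⟨min η (1 / (N ^ 2 * ((D : ℝ) + 1))), lt_min hη (by positivity), ?_⟩
  intro V _ C hC hdn hlink lam hlam hmix hdeg hexact k hk1 hkd S hS
  have hCpos : (0 : ℝ) < (C.card : ℝ) := by exact_mod_cast card_pos.2 hC.1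
  have hck : (0 : ℝ) < (n.choose k : ℝ) := by exact_mod_cast Nat.choose_pos (by omega)
  have hck1 : (0 : ℝ) < (n.choose (k + 1) : ℝ) := by exact_mod_cast Nat.choose_pos (by omega)
  have hckN : ∀ i, (n.choose i : ℝ) ≤ N := fun i => by
    rw [hNdef]; exact_mod_cast Nat.choose_le_two_pow n i
  have normd : ∀ f, cnorm n C (cobd C k f)
      = (mass C (cobd C k f) : ℝ) / ((n.choose (k + 1) : ℝ) * C.card) := fun f =>
    cnorm_eq_mass fun s hs => (mem_faces_card.1 (cobd_subset _ _ _ hs)).1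
  by_cases hbig : η < cnorm n C (cobd C k S)
  · refine ⟨∅, empty_subset _, ?_⟩
    rw [cobd_empty, show symmDiff S ∅ = S from symmDiff_bot S]
    refine le_trans (mul_le_mul (min_le_left _ _) ?_ (cnorm_nonneg _ _ _) hη.le)
      (by rw [mul_one]; exact hbig.le)
    rw [cnorm_eq_mass (k := k) fun s hs => (mem_faces_card.1 (hS hs)).1,
      div_le_one (by positivity)]
    have h1 : mass C S ≤ n.choose k * C.card := by
      rw [← sum_cnt_faces hC k]; exact mass_mono C hS
    exact_mod_cast h1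
  push Not at hbig
  have moves : ∀ (m : ℕ) (f : Finset (Finset V)), f ⊆ faces C k → mass C (cobd C k f) ≤ m →
      cnorm n C (cobd C k f) ≤ η → ∃ H, H ⊆ faces C k ∧ cobd C k (symmDiff f H) = ∅ ∧
        mass C H ≤ 2 ^ n * D * m := by
    intro m
    induction m using Nat.strong_induction_on with
    | h m ih =>
      intro f hf hm hsmall
      by_cases hmin : LocMin n C (k + 1) (cobd C k f)
      · refine ⟨∅, empty_subset _, ?_, by simp [mass]⟩
        have h1 := hsm V C hC hdn hlink lam hlam hmix (k + 1) (by omega) (by omega) _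
          (cobd_subset _ _ _) hmin hsmall
        rw [cobd_cobd, cnorm, cnorm, sum_empty] at h1
        have hpos : ∀ σ ∈ cobd C k f, 0 < wt n C σ := by
          intro σ hσ
          have hσf := cobd_subset _ _ _ hσ
          rw [wt_eq, (mem_faces_card.1 hσf).1]
          exact div_pos (by exact_mod_cast cnt_pos hσf) (mul_pos hck1 hCpos)
        rw [show symmDiff f ∅ = f from symmDiff_bot f]
        by_contra hne
        have := sum_pos hpos (nonempty_iff_ne_empty.2 hne)
        nlinarith [mul_pos hκ this]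
      · simp only [LocMin] at hmin
        push Not at hmin
        obtain ⟨ρ, hρ1, hρk, h, hh, hρh, hlt⟩ := hmin
        rw [Nat.add_sub_cancel] at hh
        simp only [Nat.add_sub_cancel] at hlt
        rw [← cobd_symmDiff, normd, normd] at hlt
        have hlt' : mass C (cobd C k (symmDiff f h)) < mass C (cobd C k f) := by
          exact_mod_cast (div_lt_div_iff_of_pos_right (mul_pos hck1 hCpos)).1 hlt
        have hfh : symmDiff f h ⊆ faces C k := fun x hx =>
          (mem_symmDiff.1 hx).elim (fun h' => hf h'.1) fun h' => hh h'.1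
        obtain ⟨H, hHf, hH0, hHm⟩ := ih (mass C (cobd C k (symmDiff f h))) (by omega) _ hfh le_rfl
          (le_trans (le_of_lt (by rw [normd, normd]; exact
            (div_lt_div_iff_of_pos_right (mul_pos hck1 hCpos)).2 (by exact_mod_cast hlt')))
            hsmall)
        refine ⟨symmDiff h H, fun x hx => (mem_symmDiff.1 hx).elim (fun h' => hh h'.1)
          fun h' => hHf h'.1, by rwa [← symmDiff_assoc], ?_⟩
        have hhm : mass C h ≤ 2 ^ n * D := by
          obtain ⟨v, hv⟩ : ρ.Nonempty := card_pos.1 (by omega)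
          refine le_trans (mass_mono C (T := (faces C k).filter fun σ => ρ ⊆ σ)
            fun x hx => mem_filter.2 ⟨hh hx, hρh x hx⟩) ?_
          rw [mass, sum_cnt_above hC ρ (by omega)]
          refine Nat.mul_le_mul (le_trans (Nat.choose_le_two_pow _ _)
            (Nat.pow_le_pow_right (by norm_num) (Nat.sub_le _ _))) (le_trans ?_ (hdeg v))
          exact card_le_card fun a ha =>
            mem_filter.2 ⟨(mem_filter.1 ha).1, (mem_filter.1 ha).2 hv⟩
        calc mass C (symmDiff h H) ≤ mass C (h ∪ H) :=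
              mass_mono C fun x hx => (mem_symmDiff.1 hx).elim (fun h' => mem_union_left _ h'.1)
                fun h' => mem_union_right _ h'.1
          _ ≤ mass C h + mass C H := by
              rw [mass, mass, mass, ← sum_union_inter]; exact Nat.le_add_right _ _
          _ ≤ 2 ^ n * D + 2 ^ n * D * mass C (cobd C k (symmDiff f h)) := Nat.add_le_add hhm hHm
          _ = 2 ^ n * D * (mass C (cobd C k (symmDiff f h)) + 1) := by ring
          _ ≤ _ := Nat.mul_le_mul_left _ (by omega)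
  obtain ⟨H, hHf, hH0, hHm⟩ := moves _ S hS le_rfl hbig
  obtain ⟨h, hh, he⟩ := hexact k hk1 hkd _ (fun x hx =>
    (mem_symmDiff.1 hx).elim (fun h' => hS h'.1) fun h' => hHf h'.1) hH0
  refine ⟨h, hh, ?_⟩
  rw [← he, symmDiff_symmDiff_cancel_left, normd,
    cnorm_eq_mass (k := k) fun s hs => (mem_faces_card.1 (hHf hs)).1]
  refine le_trans (mul_le_mul_of_nonneg_right (min_le_right _ _) (by positivity)) ?_
  rw [div_mul_div_comm, one_mul, div_le_div_iff₀ (by positivity) (by positivity)]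
  have h1 : (mass C H : ℝ) ≤ N * ((D : ℝ) + 1) * (mass C (cobd C k S) : ℝ) := by
    have : (mass C H : ℝ) ≤ N * (D : ℝ) * (mass C (cobd C k S) : ℝ) := by
      rw [hNdef]; exact_mod_cast hHm
    refine le_trans this ?_
    gcongr
    linarith
  calc (mass C H : ℝ) * ((n.choose (k + 1) : ℝ) * C.card)
      ≤ (N * ((D : ℝ) + 1) * (mass C (cobd C k S) : ℝ)) * (N * C.card) := by
        refine mul_le_mul h1 (mul_le_mul_of_nonneg_right (hckN _) hCpos.le) (by positivity) ?_
        positivity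
    _ = (mass C (cobd C k S) : ℝ) * (N ^ 2 * ((D : ℝ) + 1) * (1 * C.card)) := by ring
    _ ≤ _ := by
        gcongr
        exact_mod_cast (Nat.choose_pos (by omega) : 0 < n.choose k)

end Vale.Agent.P067
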