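import Mathlib

/-!
The statement of the bounded-degree coboundary expander problem, spelled out from scratch.

A pure `d`-dimensional complex on the vertex set `Fin n` is given by its set `X` of `d`-faces
(finsets with `d + 1` elements); its faces are the subsets of these.
-/

namespace Vale.Agent.P067

open Finset

variable {n : ℕ}

/-- The `i`-faces: subsets with `i + 1` vertices of the top faces. -/
def iFaces (X : Finset (Finset (Fin n))) (i : ℕ) : Finset (Finset (Fin n)) :=
  X.biUnion (Finset.powersetCard (i + 1))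

/-- The weight `w_i(σ)`. -/
noncomputable def faceWeight (d : ℕ) (X : Finset (Finset (Fin n))) (i : ℕ)
    (σ : Finset (Fin n)) : ℝ :=
  ((X.filter (fun τ => σ ⊆ τ)).card : ℝ) / (((d + 1).choose (i + 1) : ℝ) * (X.card : ℝ))

/-- The norm of an `i`-cochain. -/
noncomputable def cochainNorm (d : ℕ) (X : Finset (Finset (Fin n))) (i : ℕ)
    (f : Finset (Fin n) → ZMod 2) : ℝ :=
  ∑ σ ∈ (iFaces X i).filter (fun σ => f σ ≠ 0), faceWeight d X i σ

/-- The coboundary: the sum over the codimension one subsets. -/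
def coboundary (f : Finset (Fin n) → ZMod 2) (τ : Finset (Fin n)) : ZMod 2 :=
  ∑ v ∈ τ, f (τ.erase v)

/-- `ε`-coboundary expansion in all degrees `i < d`; in degree `0` the coboundaries are the
constants. -/
def IsCoboundaryExpander (d : ℕ) (X : Finset (Finset (Fin n))) (ε : ℝ) : Prop :=
  (∀ f : Finset (Fin n) → ZMod 2, ∃ c : ZMod 2,
      ε * cochainNorm d X 0 (fun σ => f σ + c) ≤ cochainNorm d X 1 (coboundary f)) ∧
  ∀ i, 1 ≤ i → i < d → ∀ f : Finset (Fin n) → ZMod 2, ∃ h : Finset (Fin n) → ZMod 2,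
      ε * cochainNorm d X i (fun σ => f σ + coboundary h σ) ≤
        cochainNorm d X (i + 1) (coboundary f)

/-- Connectedness: the 1-skeleton is a connected graph on all the vertices. -/
def IsConnectedCx (X : Finset (Finset (Fin n))) : Prop :=
  0 < n ∧ ∀ u v : Fin n,
    Relation.ReflTransGen (fun a b => a ≠ b ∧ ∃ τ ∈ X, a ∈ τ ∧ b ∈ τ) u v

/-- Bounded-degree coboundary expanders of dimension `d` exist: for some `D` and `ε > 0` there are
arbitrarily large connected pure `d`-dimensional complexes in which every vertex lies in at least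
one and at most `D` faces of dimension `d`, and which are `ε`-coboundary expanders. -/
def BoundedDegreeCoboundaryExpanders (d : ℕ) : Prop :=
  ∃ (D : ℕ) (ε : ℝ), 0 < ε ∧ ∀ m : ℕ, ∃ (n : ℕ) (X : Finset (Finset (Fin n))),
    m ≤ n ∧ (∀ τ ∈ X, τ.card = d + 1) ∧ (∀ v : Fin n, ∃ τ ∈ X, v ∈ τ) ∧
    (∀ v : Fin n, (X.filter (fun τ => v ∈ τ)).card ≤ D) ∧
    IsConnectedCx X ∧ IsCoboundaryExpander d X ε

end Vale.Agent.P067
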