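import Vale.Agent.P067.Transport
import Vale.Agent.P067.Statement

/-!
From chamber systems with coboundary expansion up to dimension `d` to the `d`-skeleton statement.
-/

namespace Vale.Agent.P067

open Finset

variable {n : ℕ}

lemma zmod2_ne_zero_iff (a : ZMod 2) : a ≠ 0 ↔ a = 1 := by
  revert a; decide

lemma natCast_zmod2_ne_zero (a : ℕ) : ((a : ZMod 2) ≠ 0) ↔ Odd a := by
  constructor
  · intro h
    by_contra h'
    exact h ((ZMod.natCast_eq_zero_iff_even).2 (Nat.not_odd_iff_even.1 h'))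
  · intro h h'
    exact (Nat.not_even_iff_odd.2 h) ((ZMod.natCast_eq_zero_iff_even).1 h')

/-- The support of a cochain. -/
def suppC (X : Finset (Finset (Fin n))) (i : ℕ) (f : Finset (Fin n) → ZMod 2) :
    Finset (Finset (Fin n)) :=
  (iFaces X i).filter (fun σ => f σ ≠ 0)

/-- The indicator cochain of a set of faces. -/
def indC (S : Finset (Finset (Fin n))) (σ : Finset (Fin n)) : ZMod 2 :=
  if σ ∈ S then 1 else 0

lemma coboundary_indC (S : Finset (Finset (Fin n))) (τ : Finset (Fin n)) :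
    coboundary (indC S) τ = (((τ.filter fun v => τ.erase v ∈ S).card : ℕ) : ZMod 2) := by
  simp [coboundary, indC, Finset.sum_boole]

lemma suppC_coboundary (X : Finset (Finset (Fin n))) (i : ℕ) (f : Finset (Fin n) → ZMod 2) :
    suppC X (i + 1) (coboundary f) = cobd X (i + 1) (suppC X i f) := by
  unfold suppC cobd
  refine Finset.filter_congr fun τ hτ => ?_
  have hτ' : τ ∈ faces X (i + 2) := hτ
  obtain ⟨⟨c, hc, hτc⟩, hcard⟩ := mem_facesC.1 hτ'
  have heq : coboundary f τ = coboundary (indC (suppC X i f)) τ := by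
    refine Finset.sum_congr rfl fun v hv => ?_
    have hmem : τ.erase v ∈ iFaces X i := by
      show τ.erase v ∈ faces X (i + 1)
      refine mem_facesC.2 ⟨⟨c, hc, (Finset.erase_subset _ _).trans hτc⟩, ?_⟩
      rw [Finset.card_erase_of_mem hv, hcard]; omega
    unfold indC suppC
    by_cases h : f (τ.erase v) = 0
    · simp [h, hmem]
    · simp [hmem, (zmod2_ne_zero_iff _).1 h]
  rw [heq, coboundary_indC, natCast_zmod2_ne_zero]
  rfl

lemma weight_ratio {r s t P Dr : ℝ} (hP : 1 ≤ P) (hD : 1 ≤ Dr) (hr0 : 0 ≤ r)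
    (hr : r ≤ Dr * P * (P * Dr)) (hs : 1 ≤ s) (ht : 0 ≤ t) :
    r * t ≤ (P * P * Dr * Dr * P) * s * t := by
  refine mul_le_mul_of_nonneg_right ?_ ht
  calc r ≤ Dr * P * (P * Dr) := hr
    _ = P * P * Dr * Dr * 1 * 1 := by ring
    _ ≤ P * P * Dr * Dr * P * s := by gcongr

lemma ratio_bound {a b u v x c P Dr : ℝ} (hb : b ≤ Dr * P) (ha : 1 ≤ a) (hu : u ≤ P)
    (hv : 1 ≤ v) (hcx : c ≤ x * Dr) (hx : 0 < x) (hc : 0 < c) (hD : 1 ≤ Dr) (hP : 1 ≤ P)
    (hb1 : 1 ≤ b) (hu1 : 1 ≤ u) :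
    b / (v * x) ≤ (P * P * Dr * Dr * P) * (a / (u * c)) := by
  rw [← mul_div_assoc, div_le_div_iff₀ (by positivity) (by positivity)]
  calc b * (u * c) ≤ b * (u * (x * Dr)) := by gcongr
    _ = (b * (u * Dr)) * x := by ring
    _ ≤ (P * P * Dr * Dr * P) * a * x := by
      refine weight_ratio hP hD (by positivity) ?_ ha hx.le
      gcongr
    _ = (P * P * Dr * Dr * P * a) * (1 * x) := by ring
    _ ≤ (P * P * Dr * Dr * P * a) * (v * x) := by gcongr

lemma ratio_bound' {a b u v x c P Dr : ℝ} (ha : a ≤ Dr) (hb : 1 ≤ b) (hv : v ≤ P)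
    (hu : 1 ≤ u) (hxc : x ≤ c * P) (hc : 0 < c) (hx : 0 < x) (hD : 1 ≤ Dr) (hP : 1 ≤ P)
    (ha1 : 1 ≤ a) (hv1 : 1 ≤ v) :
    a / (u * c) ≤ (P * P * Dr * Dr * P) * (b / (v * x)) := by
  rw [← mul_div_assoc, div_le_div_iff₀ (by positivity) (by positivity)]
  calc a * (v * x) ≤ a * (v * (c * P)) := by gcongr
    _ = (a * (v * P)) * c := by ring
    _ ≤ (P * P * Dr * Dr * P) * b * c := by
      refine weight_ratio hP hD (by positivity) ?_ hb hc.le
      calc a * (v * P) ≤ Dr * (P * P) := by gcongr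
        _ = Dr * P * (P * 1) := by ring
        _ ≤ Dr * P * (P * Dr) := by gcongr
    _ = (P * P * Dr * Dr * P * b) * (1 * c) := by ring
    _ ≤ (P * P * Dr * Dr * P * b) * (u * c) := by gcongr

set_option maxHeartbeats 1600000 in
/-- Coboundary expansion in all degrees below `d` for the `d`-skeleton, and its other
properties, from chamber data. -/
theorem bdce_of_chambers (d : ℕ) (hd : 1 ≤ d)
    (h : ∃ (N D₀ : ℕ) (ε₀ : ℝ), 0 < ε₀ ∧ d + 1 ≤ N ∧ ∀ m : ℕ,
      ∃ (n : ℕ) (C : Finset (Finset (Fin n))), m ≤ n ∧ Uniform N C ∧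
        (∀ v : Fin n, (C.filter (fun c => v ∈ c)).card ≤ D₀ ∧ ∃ c ∈ C, v ∈ c) ∧
        ∀ k, 1 ≤ k → k ≤ d → ∀ S, S ⊆ faces C k → ∃ g, g ⊆ faces C (k - 1) ∧
          ε₀ * cnorm N C (symmDiff S (cobd C (k - 1) g)) ≤ cnorm N C (cobd C k S)) :
    BoundedDegreeCoboundaryExpanders d := by
  obtain ⟨N, D₀, ε₀, hε₀, hdN, h⟩ := h
  classical
  set P : ℝ := (2 : ℝ) ^ N with hP
  set Dr : ℝ := (D₀ : ℝ) + 1 with hDr
  set B : ℝ := P * P * Dr * Dr * P with hB
  have hP1 : (1 : ℝ) ≤ P := one_le_pow₀ (by norm_num)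
  have hD1 : (1 : ℝ) ≤ Dr := by rw [hDr]; linarith [Nat.cast_nonneg (α := ℝ) D₀]
  have hB0 : 0 < B := by positivity
  refine ⟨D₀ * 2 ^ N, ε₀ / (B * B), by positivity, fun m => ?_⟩
  obtain ⟨n, C, hmn, hU, hdeg, hexp⟩ := h (max m 1)
  set X := faces C (d + 1) with hX
  have hn : 0 < n := by omega
  -- faces of the skeleton
  have hXmem : ∀ τ, τ ∈ X ↔ (∃ c ∈ C, τ ⊆ c) ∧ τ.card = d + 1 := fun τ => mem_facesC
  have hfaces : ∀ k, k ≤ d + 1 → faces X k = faces C k := by
    intro k hk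
    ext σ
    rw [mem_facesC, mem_facesC]
    constructor
    · rintro ⟨⟨τ, hτ, hστ⟩, hc⟩
      obtain ⟨c, hc', hτc⟩ := ((hXmem τ).1 hτ).1
      exact ⟨⟨c, hc', hστ.trans hτc⟩, hc⟩
    · rintro ⟨⟨c, hc', hσc⟩, hc⟩
      obtain ⟨τ, hστ, hτc, hτ⟩ := Finset.exists_subsuperset_card_eq hσc
        (hc ▸ hk) (by rw [hU.2 c hc']; exact hdN)
      exact ⟨⟨τ, (hXmem τ).2 ⟨⟨c, hc', hτc⟩, hτ⟩, hστ⟩, hc⟩
  have hiF : ∀ i, iFaces X i = faces X (i + 1) := fun i => rfl
  -- comparison of counts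
  have hcle : ∀ σ : Finset (Fin n), σ.Nonempty →
      (C.filter (fun c => σ ⊆ c)).card ≤ D₀ := by
    rintro σ ⟨v, hv⟩
    refine le_trans (Finset.card_le_card ?_) (hdeg v).1
    exact Finset.monotone_filter_right _ fun c _ hc => hc hv
  have hsub : ∀ σ : Finset (Fin n), X.filter (fun τ => σ ⊆ τ) ⊆
      (C.filter (fun c => σ ⊆ c)).biUnion (Finset.powersetCard (d + 1)) := by
    intro σ τ hτ
    obtain ⟨hτX, hστ⟩ := Finset.mem_filter.1 hτ
    obtain ⟨⟨c, hc, hτc⟩, hcard⟩ := (hXmem τ).1 hτX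
    exact Finset.mem_biUnion.2 ⟨c, Finset.mem_filter.2 ⟨hc, hστ.trans hτc⟩,
      Finset.mem_powersetCard.2 ⟨hτc, hcard⟩⟩
  have hpc : ∀ σ : Finset (Fin n), ((C.filter (fun c => σ ⊆ c)).biUnion
      (Finset.powersetCard (d + 1))).card ≤ (C.filter (fun c => σ ⊆ c)).card * 2 ^ N := by
    intro σ
    refine Finset.card_biUnion_le_card_mul _ _ _ fun c hc => ?_
    rw [Finset.card_powersetCard, hU.2 c (Finset.mem_filter.1 hc).1]
    exact Nat.choose_le_two_pow N (d + 1)
  have hXC : X.card ≤ C.card * 2 ^ N := by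
    have h0 : C.filter (fun c => ∅ ⊆ c) = C := Finset.filter_true_of_mem fun c _ => Finset.empty_subset c
    have := hpc ∅
    rw [h0] at this
    exact le_trans (le_of_eq rfl) this
  have hCX : C.card ≤ X.card * D₀ := by
    have : C ⊆ X.biUnion (fun τ => C.filter (fun c => τ ⊆ c)) := by
      intro c hc
      obtain ⟨τ, hτc, hτ⟩ := Finset.exists_subset_card_eq (n := d + 1) (s := c)
        (by rw [hU.2 c hc]; exact hdN)
      exact Finset.mem_biUnion.2 ⟨τ, (hXmem τ).2 ⟨⟨c, hc, hτc⟩, hτ⟩,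
        Finset.mem_filter.2 ⟨hc, hτc⟩⟩
    refine le_trans (Finset.card_le_card this) (Finset.card_biUnion_le_card_mul _ _ _ fun τ hτ => ?_)
    exact hcle τ (Finset.card_pos.1 (by rw [((hXmem τ).1 hτ).2]; omega))
  have hXne : X.Nonempty := by
    obtain ⟨c, hc⟩ := hU.1
    obtain ⟨τ, hτc, hτ⟩ := Finset.exists_subset_card_eq (n := d + 1) (s := c)
      (by rw [hU.2 c hc]; exact hdN)
    exact ⟨τ, (hXmem τ).2 ⟨⟨c, hc, hτc⟩, hτ⟩⟩
  -- weight comparison
  have hw : ∀ i, i ≤ d → ∀ σ ∈ faces C (i + 1),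
      faceWeight d X i σ ≤ B * wt N C σ ∧ wt N C σ ≤ B * faceWeight d X i σ := by
    intro i hi σ hσ
    have hσcard := (mem_facesC.1 hσ).2
    have hσX : σ ∈ faces X (i + 1) := by rw [hfaces _ (by omega)]; exact hσ
    obtain ⟨⟨c, hc, hσc⟩, -⟩ := mem_facesC.1 hσ
    obtain ⟨⟨τ, hτ, hστ⟩, -⟩ := mem_facesC.1 hσX
    set a := (C.filter (fun c => σ ⊆ c)).card with ha
    set b := (X.filter (fun τ => σ ⊆ τ)).card with hb
    have ha1 : (1 : ℝ) ≤ a := by
      exact_mod_cast Finset.card_pos.2 ⟨c, Finset.mem_filter.2 ⟨hc, hσc⟩⟩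
    have hb1 : (1 : ℝ) ≤ b := by
      exact_mod_cast Finset.card_pos.2 ⟨τ, Finset.mem_filter.2 ⟨hτ, hστ⟩⟩
    have haD : (a : ℝ) ≤ Dr := by
      have : (a : ℝ) ≤ D₀ := by exact_mod_cast hcle σ (Finset.card_pos.1 (by omega))
      linarith
    have hbD : (b : ℝ) ≤ Dr * P := by
      have : b ≤ D₀ * 2 ^ N := le_trans (Finset.card_le_card (hsub σ))
        (le_trans (hpc σ) (Nat.mul_le_mul_right _ (hcle σ (Finset.card_pos.1 (by omega)))))
      have : (b : ℝ) ≤ D₀ * P := by rw [hP]; exact_mod_cast this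
      nlinarith
    set u : ℝ := ((N.choose (i + 1) : ℕ) : ℝ) with hu
    set v : ℝ := (((d + 1).choose (i + 1) : ℕ) : ℝ) with hv
    have hu1 : 1 ≤ u := by rw [hu]; exact_mod_cast Nat.choose_pos (by omega : i + 1 ≤ N)
    have hv1 : 1 ≤ v := by rw [hv]; exact_mod_cast Nat.choose_pos (by omega : i + 1 ≤ d + 1)
    have huP : u ≤ P := by rw [hu, hP]; exact_mod_cast Nat.choose_le_two_pow N (i + 1)
    have hvP : v ≤ P := by
      rw [hv, hP]
      exact_mod_cast le_trans (Nat.choose_le_two_pow _ _) (Nat.pow_le_pow_right (by norm_num) hdN)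
    have hc0 : (0 : ℝ) < C.card := by exact_mod_cast hU.1.card_pos
    have hx0 : (0 : ℝ) < X.card := by exact_mod_cast hXne.card_pos
    have hXC' : (X.card : ℝ) ≤ C.card * P := by rw [hP]; exact_mod_cast hXC
    have hCX' : (C.card : ℝ) ≤ X.card * Dr := by
      have : (C.card : ℝ) ≤ X.card * D₀ := by exact_mod_cast hCX
      nlinarith
    have e1 : wt N C σ = a / (u * C.card) := by rw [wt, hσcard]
    have e2 : faceWeight d X i σ = b / (v * X.card) := rfl
    rw [e1, e2]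
    exact ⟨ratio_bound hbD ha1 huP hv1 hCX' hx0 hc0 hD1 hP1 hb1 hu1,
      ratio_bound' haD hb1 hvP hu1 hXC' hc0 hx0 hD1 hP1 ha1 hv1⟩
  -- norm comparison
  have hn1 : ∀ i, i ≤ d → ∀ f, cochainNorm d X i f ≤ B * cnorm N C (suppC X i f) ∧
      cnorm N C (suppC X i f) ≤ B * cochainNorm d X i f := by
    intro i hi f
    have hS : ∀ σ ∈ suppC X i f, σ ∈ faces C (i + 1) := fun σ hσ => by
      rw [← hfaces _ (by omega)]; exact (Finset.mem_filter.1 hσ).1
    unfold cnorm cochainNorm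
    rw [Finset.mul_sum, Finset.mul_sum]
    exact ⟨Finset.sum_le_sum fun σ hσ => (hw i hi σ (hS σ hσ)).1,
      Finset.sum_le_sum fun σ hσ => (hw i hi σ (hS σ hσ)).2⟩
  -- the main step
  have main : ∀ i, i < d → ∀ f f' : Finset (Fin n) → ZMod 2, ∀ g,
      ε₀ * cnorm N C (symmDiff (suppC X i f) (cobd C i g)) ≤
        cnorm N C (cobd C (i + 1) (suppC X i f)) →
      suppC X i f' ⊆ symmDiff (suppC X i f) (cobd C i g) →
      ε₀ / (B * B) * cochainNorm d X i f' ≤ cochainNorm d X (i + 1) (coboundary f) := by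
    intro i hi f f' g hg hsub'
    have hcd : cobd C (i + 1) (suppC X i f) = suppC X (i + 1) (coboundary f) := by
      rw [suppC_coboundary]; unfold cobd; rw [hfaces _ (by omega)]
    rw [hcd] at hg
    have h1 : cnorm N C (suppC X i f') ≤ cnorm N C (symmDiff (suppC X i f) (cobd C i g)) :=
      Finset.sum_le_sum_of_subset_of_nonneg hsub' fun σ _ _ => by unfold wt; positivity
    have h2 := (hn1 i hi.le f').1
    have h3 := (hn1 (i + 1) hi (coboundary f)).2
    rw [div_mul_eq_mul_div, div_le_iff₀ (by positivity)]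
    calc ε₀ * cochainNorm d X i f'
        ≤ ε₀ * (B * cnorm N C (suppC X i f')) := by gcongr
      _ ≤ B * (ε₀ * cnorm N C (symmDiff (suppC X i f) (cobd C i g))) := by
          rw [mul_left_comm]; gcongr
      _ ≤ B * (B * cochainNorm d X (i + 1) (coboundary f)) := by
          exact mul_le_mul_of_nonneg_left (hg.trans h3) hB0.le
      _ = _ := by ring
  have hcover : ∀ v : Fin n, ∃ τ ∈ X, v ∈ τ := by
    intro v
    obtain ⟨c, hc, hv⟩ := (hdeg v).2
    obtain ⟨τ, hvτ, hτc, hτ⟩ := Finset.exists_subsuperset_card_eq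
      (Finset.singleton_subset_iff.2 hv) (n := d + 1) (by simp) (by rw [hU.2 c hc]; exact hdN)
    exact ⟨τ, (hXmem τ).2 ⟨⟨c, hc, hτc⟩, hτ⟩, hvτ (Finset.mem_singleton_self v)⟩
  have hf0 : ∀ v : Fin n, ({v} : Finset (Fin n)) ∈ faces X 1 := fun v => by
    obtain ⟨τ, hτ, hv⟩ := hcover v
    exact mem_facesC.2 ⟨⟨τ, hτ, Finset.singleton_subset_iff.2 hv⟩, Finset.card_singleton v⟩
  refine ⟨n, X, le_trans (le_max_left _ _) hmn, fun τ hτ => ((hXmem τ).1 hτ).2, hcover, ?_, ?_,
    ?_, ?_⟩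
  · intro v
    have h1 : X.filter (fun τ => v ∈ τ) = X.filter (fun τ => {v} ⊆ τ) :=
      Finset.filter_congr fun τ _ => Finset.singleton_subset_iff.symm
    rw [h1]
    exact le_trans (Finset.card_le_card (hsub {v}))
      (le_trans (hpc {v}) (Nat.mul_le_mul_right _ (hcle {v} (Finset.singleton_nonempty v))))
  · refine ⟨hn, fun u v => ?_⟩
    set A : Finset (Fin n) := Finset.univ.filter (fun w =>
      Relation.ReflTransGen (fun a b => a ≠ b ∧ ∃ τ ∈ X, a ∈ τ ∧ b ∈ τ) u w) with hA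
    set S : Finset (Finset (Fin n)) := A.image (fun w => {w}) with hS
    have hSF : S ⊆ faces C 1 := by
      intro s hs
      obtain ⟨w, -, rfl⟩ := Finset.mem_image.1 hs
      rw [← hfaces 1 (by omega)]; exact hf0 w
    have hmemS : ∀ w, ({w} : Finset (Fin n)) ∈ S ↔ w ∈ A := fun w => by simp [hS]
    have hδ : cobd C 1 S = ∅ := by
      unfold cobd
      rw [Finset.filter_eq_empty_iff]
      intro e he
      rw [← hfaces 2 (by omega)] at he
      obtain ⟨⟨τ, hτ, heτ⟩, hcard⟩ := mem_facesC.1 he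
      obtain ⟨a, b, hab, rfl⟩ := Finset.card_eq_two.1 hcard
      have hea : ({a, b} : Finset (Fin n)).erase a = {b} := by simp [hab]
      have heb : ({a, b} : Finset (Fin n)).erase b = {a} := by
        rw [Finset.pair_comm]; simp [Ne.symm hab]
      have hiff : a ∈ A ↔ b ∈ A := by
        simp only [hA, Finset.mem_filter, Finset.mem_univ, true_and]
        exact ⟨fun h => h.tail ⟨hab, τ, hτ, heτ (by simp), heτ (by simp)⟩,
          fun h => h.tail ⟨Ne.symm hab, τ, hτ, heτ (by simp), heτ (by simp)⟩⟩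
      rw [Finset.filter_insert, Finset.filter_singleton, hea, heb]
      by_cases hb : b ∈ A
      · rw [if_pos ((hmemS b).2 hb), if_pos ((hmemS a).2 (hiff.2 hb)), Finset.card_pair hab]; decide
      · rw [if_neg (mt (hmemS b).1 hb), if_neg (fun h => hb (hiff.1 ((hmemS a).1 h))),
          Finset.card_empty]; decide
    obtain ⟨g, hg, hgb⟩ := hexp 1 le_rfl hd S hSF
    rw [hδ] at hgb
    have h0 : cnorm N C (∅ : Finset (Finset (Fin n))) = 0 := by simp [cnorm]
    rw [h0] at hgb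
    have hempty : symmDiff S (cobd C 0 g) = ∅ := by
      by_contra hne
      obtain ⟨σ, hσ⟩ := Finset.nonempty_iff_ne_empty.2 hne
      have hσF : σ ∈ faces C 1 := by
        rcases Finset.mem_symmDiff.1 hσ with ⟨h1, -⟩ | ⟨h1, -⟩
        exacts [hSF h1, Finset.filter_subset _ _ h1]
      obtain ⟨⟨c, hc, hσc⟩, hcard⟩ := mem_facesC.1 hσF
      have hpos : 0 < wt N C σ := by
        unfold wt
        rw [hcard]
        refine div_pos (by exact_mod_cast Finset.card_pos.2 ⟨c, Finset.mem_filter.2 ⟨hc, hσc⟩⟩)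
          (mul_pos (by exact_mod_cast Nat.choose_pos (by omega : 1 ≤ N))
            (by exact_mod_cast hU.1.card_pos))
      have hle : wt N C σ ≤ cnorm N C (symmDiff S (cobd C (1 - 1) g)) :=
        Finset.single_le_sum (f := wt N C) (fun s _ => by unfold wt; positivity) hσ
      nlinarith
    have hSeq : S = cobd C 0 g := symmDiff_eq_bot.1 hempty
    have hu : u ∈ A := by simp [hA, Relation.ReflTransGen.refl]
    have hgne : ∅ ∈ g := by
      have := (hmemS u).2 hu
      rw [hSeq] at this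
      obtain ⟨-, hodd⟩ := Finset.mem_filter.1 this
      by_contra hg0
      rw [Finset.filter_false_of_mem fun x hx => by
        rw [Finset.mem_singleton.1 hx, Finset.erase_singleton]; exact hg0] at hodd
      simp at hodd
    have : ({v} : Finset (Fin n)) ∈ S := by
      rw [hSeq]
      refine Finset.mem_filter.2 ⟨by rw [← hfaces 1 (by omega)]; exact hf0 v, ?_⟩
      rw [Finset.filter_true_of_mem fun x hx => by
        rw [Finset.mem_singleton.1 hx, Finset.erase_singleton]; exact hgne]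
      simp
    simpa [hA] using (hmemS v).1 this
  · intro f
    have hS : suppC X 0 f ⊆ faces C 1 := fun σ hσ => by
      rw [← hfaces 1 (by omega)]; exact (Finset.mem_filter.1 hσ).1
    obtain ⟨g, -, hgb⟩ := hexp 1 le_rfl hd _ hS
    refine ⟨if ∅ ∈ g then 1 else 0, main 0 hd f _ g hgb ?_⟩
    intro σ hσ
    obtain ⟨hσm, hσv⟩ := Finset.mem_filter.1 hσ
    have hσC : σ ∈ faces C 1 := by rw [← hfaces 1 (by omega)]; exact hσm
    obtain ⟨v, rfl⟩ := Finset.card_eq_one.1 (mem_facesC.1 hσC).2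
    have hcg : ({v} : Finset (Fin n)) ∈ cobd C 0 g ↔ ∅ ∈ g := by
      unfold cobd
      rw [Finset.mem_filter, Finset.filter_singleton, Finset.erase_singleton]
      by_cases hg0 : ∅ ∈ g
      · simp [hg0, hσC]
      · simp [hg0]
    have hfs : ({v} : Finset (Fin n)) ∈ suppC X 0 f ↔ f {v} = 1 := by
      rw [suppC, Finset.mem_filter, zmod2_ne_zero_iff]; simp [hσm]
    rw [Finset.mem_symmDiff, hcg, hfs]
    revert hσv
    by_cases hg0 : ∅ ∈ g <;> simp only [hg0, if_true, if_false] <;>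
      generalize f {v} = a <;> revert a <;> decide
  · intro i hi hid f
    have hS : suppC X i f ⊆ faces C (i + 1) := fun σ hσ => by
      rw [← hfaces (i + 1) (by omega)]; exact (Finset.mem_filter.1 hσ).1
    obtain ⟨g, -, hgb⟩ := hexp (i + 1) (by omega) (by omega) _ hS
    refine ⟨indC g, main i hid f _ g hgb ?_⟩
    intro σ hσ
    obtain ⟨hσm, hσv⟩ := Finset.mem_filter.1 hσ
    have hσC : σ ∈ faces C (i + 1) := by rw [← hfaces (i + 1) (by omega)]; exact hσm
    have hcg : σ ∈ cobd C i g ↔ coboundary (indC g) σ = 1 := by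
      rw [← zmod2_ne_zero_iff, coboundary_indC, natCast_zmod2_ne_zero, cobd, Finset.mem_filter]
      simp [hσC]
    have hfs : σ ∈ suppC X i f ↔ f σ = 1 := by
      rw [suppC, Finset.mem_filter, zmod2_ne_zero_iff]; simp [hσm]
    rw [Finset.mem_symmDiff, hcg, hfs]
    revert hσv
    show f σ + coboundary (indC g) σ ≠ 0 → _
    generalize f σ = a
    generalize coboundary (indC g) σ = b
    revert a b
    decide

end Vale.Agent.P067
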