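import Vale.Agent.P067.PBBasic

/-!
Lifting invertible matrices with constant determinant from truncated polynomial rings, keeping
prescribed unit columns.
-/

namespace Vale.Agent.P067

open Polynomial Matrix

variable (F : Type*) [Field F]

/-- The truncated polynomial ring. -/
abbrev PolyQ (m : ℕ) : Type _ := Polynomial F ⧸ Ideal.span {(X : Polynomial F) ^ m}

/-- The reduction map. -/
noncomputable abbrev polyRed (m : ℕ) : Polynomial F →+* PolyQ F m :=
  Ideal.Quotient.mk (Ideal.span {(X : Polynomial F) ^ m})

variable {F}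

lemma polyRed_eq_iff {m : ℕ} {p q : Polynomial F} :
    polyRed F m p = polyRed F m q ↔ X ^ m ∣ p - q := by
  rw [Ideal.Quotient.eq, Ideal.mem_span_singleton]

lemma nontrivial_polyQ {m : ℕ} (hm : 1 ≤ m) : Nontrivial (PolyQ F m) := by
  refine Ideal.Quotient.nontrivial_iff.2 ?_
  rw [Ne, Ideal.span_singleton_eq_top, isUnit_pow_iff (by omega)]
  exact not_isUnit_X

lemma polyRed_algebraMap (m : ℕ) (c : F) :
    algebraMap F (PolyQ F m) c = polyRed F m (C c) := rfl

lemma det_pmat_const {N : ℕ} (P : PMat F N) :
    ∃ c : F, c ≠ 0 ∧ (P : Matrix (Fin N) (Fin N) (Polynomial F)).det = C c := by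
  obtain ⟨c, hc, h⟩ := Polynomial.isUnit_iff.1
    ((Matrix.isUnit_iff_isUnit_det _).1 P.isUnit)
  exact ⟨c, hc.ne_zero, h.symm⟩

variable {N : ℕ}

/-- The columns in `J` are the unit vectors. -/
def StdCols {R : Type*} [Zero R] [One R] (J : Finset (Fin N)) (M : Matrix (Fin N) (Fin N) R) :
    Prop :=
  ∀ i ∈ J, ∀ a, M a i = if a = i then 1 else 0

lemma stdCols_iff_mulVec {R : Type*} [CommRing R] {J : Finset (Fin N)}
    {M : Matrix (Fin N) (Fin N) R} :
    StdCols J M ↔ ∀ i ∈ J, M *ᵥ Pi.single i 1 = Pi.single i 1 := by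
  simp only [StdCols, funext_iff, mulVec_single, Pi.single_apply]
  simp

lemma stdCols_mul {R : Type*} [CommRing R] {J : Finset (Fin N)}
    {M M' : Matrix (Fin N) (Fin N) R} (h : StdCols J M) (h' : StdCols J M') :
    StdCols J (M * M') := by
  rw [stdCols_iff_mulVec] at h h' ⊢
  intro i hi
  rw [← mulVec_mulVec, h' i hi, h i hi]

lemma stdCols_inv {R : Type*} [CommRing R] {J : Finset (Fin N)} {P : GL (Fin N) R}
    (h : StdCols J (P : Matrix (Fin N) (Fin N) R)) :
    StdCols J ((P⁻¹ : GL (Fin N) R) : Matrix (Fin N) (Fin N) R) := by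
  rw [stdCols_iff_mulVec] at h ⊢
  intro i hi
  conv_lhs => rw [← h i hi]
  rw [mulVec_mulVec, glInv_mul_self, one_mulVec]

lemma stdCols_one {R : Type*} [CommRing R] {J : Finset (Fin N)} :
    StdCols J (1 : Matrix (Fin N) (Fin N) R) := fun i _ a => by simp [Matrix.one_apply]

/-- `B` is the first order part at `X ^ i` of an invertible matrix fixing the columns in `J`. -/
def FirstOrder (J : Finset (Fin N)) (i : ℕ) (B : Matrix (Fin N) (Fin N) F) : Prop :=
  ∃ Q : PMat F N, StdCols J (Q : Matrix (Fin N) (Fin N) (Polynomial F)) ∧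
    (Q : Matrix (Fin N) (Fin N) (Polynomial F)).map (polyRed F (i + 1)) =
      1 + (((X : Polynomial F) ^ i) • B.map C).map (polyRed F (i + 1))

lemma smul_map_mul (i : ℕ) (A B : Matrix (Fin N) (Fin N) F) (hi : 1 ≤ i) :
    (((X : Polynomial F) ^ i) • A.map C).map (polyRed F (i + 1)) *
      (((X : Polynomial F) ^ i) • B.map C).map (polyRed F (i + 1)) = 0 := by
  rw [← Matrix.map_mul, Matrix.smul_mul, Matrix.mul_smul, smul_smul]
  ext a b
  simp only [Matrix.map_apply, Matrix.smul_apply, smul_eq_mul, Matrix.zero_apply]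
  rw [← map_zero (polyRed F (i + 1)), polyRed_eq_iff, sub_zero, ← pow_add]
  exact dvd_mul_of_dvd_left (pow_dvd_pow X (by omega)) _

lemma firstOrder_zero (J : Finset (Fin N)) (i : ℕ) :
    FirstOrder J i (0 : Matrix (Fin N) (Fin N) F) := by
  refine ⟨1, ?_, ?_⟩
  · rw [Units.val_one]; exact stdCols_one
  · rw [Units.val_one, Matrix.map_one _ (map_zero _) (map_one _)]
    ext a b
    simp

lemma firstOrder_add {J : Finset (Fin N)} {i : ℕ} (hi : 1 ≤ i)
    {A B : Matrix (Fin N) (Fin N) F} (hA : FirstOrder J i A) (hB : FirstOrder J i B) :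
    FirstOrder J i (A + B) := by
  obtain ⟨P, hP, eP⟩ := hA
  obtain ⟨Q, hQ, eQ⟩ := hB
  refine ⟨P * Q, by rw [Units.val_mul]; exact stdCols_mul hP hQ, ?_⟩
  rw [Units.val_mul, Matrix.map_mul, eP, eQ, mul_add, add_mul, add_mul, smul_map_mul i A B hi]
  have : (((X : Polynomial F) ^ i) • (A + B).map C).map (polyRed F (i + 1)) =
      (((X : Polynomial F) ^ i) • A.map C).map (polyRed F (i + 1)) +
        (((X : Polynomial F) ^ i) • B.map C).map (polyRed F (i + 1)) := by
    ext a b
    simp [mul_add]
  rw [this]
  simp [add_assoc]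

/-- Square zero rank one matrices. -/
lemma firstOrder_rankOne {J : Finset (Fin N)} (i : ℕ) (u w : Fin N → F)
    (huw : ∑ x, w x * u x = 0) (hJ : ∀ b ∈ J, w b = 0) :
    FirstOrder J i (Matrix.of fun a b => u a * w b) := by
  set D : Matrix (Fin N) (Fin N) (Polynomial F) :=
    ((X : Polynomial F) ^ i) • (Matrix.of fun a b => u a * w b).map C with hD
  have hsq : D * D = 0 := by
    ext a b
    simp only [hD, Matrix.mul_apply, Matrix.smul_apply, Matrix.map_apply, Matrix.of_apply,
      smul_eq_mul, map_mul, Matrix.zero_apply]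
    have : ∀ x, (X : Polynomial F) ^ i * (C (u a) * C (w x)) * (X ^ i * (C (u x) * C (w b))) =
        (X ^ i * C (u a) * (X ^ i * C (w b))) * C (w x * u x) := by
      intro x; rw [map_mul]; ring
    simp only [this, ← Finset.mul_sum, ← map_sum, huw, map_zero, mul_zero]
  refine ⟨⟨1 + D, 1 - D, by rw [mul_sub, add_mul, add_mul, hsq]; simp,
    by rw [mul_add, sub_mul, sub_mul, hsq]; simp⟩, ?_, ?_⟩
  · intro x hx a
    show (1 + D) a x = _
    simp [hD, hJ x hx, Matrix.one_apply]
  · show (1 + D).map (polyRed F (i + 1)) = _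
    rw [Matrix.map_add _ (map_add _), Matrix.map_one _ (map_zero _) (map_one _)]

lemma firstOrder_offDiag {J : Finset (Fin N)} (i : ℕ) {a b : Fin N} (hab : a ≠ b) (hb : b ∉ J)
    (c : F) : FirstOrder J i (Matrix.single a b c) := by
  have h := firstOrder_rankOne (J := J) i (fun x => if x = a then c else 0)
    (fun x => if x = b then 1 else 0) (by simp [hab])
    (fun x hx => if_neg (fun (e : x = b) => hb (e ▸ hx)))
  convert h using 1
  ext x y
  simp only [Matrix.single_apply, Matrix.of_apply]
  grind

lemma firstOrder_diag {J : Finset (Fin N)} {i : ℕ} (hi : 1 ≤ i) {a b : Fin N} (hab : a ≠ b)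
    (ha : a ∉ J) (hb : b ∉ J) (c : F) :
    FirstOrder J i (Matrix.single a a c - Matrix.single b b c) := by
  have h1 := firstOrder_rankOne (J := J) i
    (fun x => (if x = a then c else 0) - (if x = b then c else 0))
    (fun x => (if x = a then 1 else 0) + (if x = b then 1 else 0))
    (by
      simp only [add_mul, Finset.sum_add_distrib, mul_sub, Finset.sum_sub_distrib]
      simp [hab, Ne.symm hab])
    (fun x hx => by
      rw [if_neg (fun (e : x = a) => ha (e ▸ hx)), if_neg (fun (e : x = b) => hb (e ▸ hx)),
        add_zero])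
  have h := firstOrder_add hi (firstOrder_add hi h1 (firstOrder_offDiag i hab hb (-c)))
    (firstOrder_offDiag i hab.symm ha c)
  convert h using 1
  ext x y
  simp only [Matrix.add_apply, Matrix.sub_apply, Matrix.of_apply, Matrix.single_apply]
  by_cases hxa : x = a <;> by_cases hxb : x = b <;> by_cases hya : y = a <;>
    by_cases hyb : y = b <;> simp_all [eq_comm]

/-- Matrices supported outside `J` of trace zero are first order parts. -/
lemma firstOrder_of_trace {J : Finset (Fin N)} {i : ℕ} (hi : 1 ≤ i) {j₀ : Fin N} (hj₀ : j₀ ∉ J)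
    (B : Matrix (Fin N) (Fin N) F) (hB : ∀ b ∈ J, ∀ a, B a b = 0) :
    FirstOrder J i (B - Matrix.single j₀ j₀ B.trace) := by
  have e : B - Matrix.single j₀ j₀ B.trace =
      ∑ a, ∑ b, if a = b then Matrix.single a a (B a a) - Matrix.single j₀ j₀ (B a a)
        else Matrix.single a b (B a b) := by
    have hsplit : ∀ a b : Fin N, (if a = b then Matrix.single a a (B a a) -
        Matrix.single j₀ j₀ (B a a) else Matrix.single a b (B a b)) =
        Matrix.single a b (B a b) - (if a = b then Matrix.single j₀ j₀ (B a a) else 0) := by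
      intro a b
      split_ifs with h
      · subst h; rfl
      · rw [sub_zero]
    simp only [hsplit, Finset.sum_sub_distrib, Finset.sum_ite_eq, Finset.mem_univ, if_true]
    rw [← Matrix.matrix_eq_sum_single B]
    congr 1
    ext x y
    by_cases h : j₀ = x ∧ j₀ = y
    · simp [Matrix.sum_apply, Matrix.single_apply, h, Matrix.trace]
    · simp [Matrix.sum_apply, h]
  rw [e]
  refine Finset.sum_induction _ (FirstOrder J i) (fun _ _ => firstOrder_add hi)
    (firstOrder_zero J i) fun a _ => ?_
  refine Finset.sum_induction _ (FirstOrder J i) (fun _ _ => firstOrder_add hi)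
    (firstOrder_zero J i) fun b _ => ?_
  by_cases hab : a = b
  · rw [if_pos hab]
    by_cases haj : a = j₀
    · rw [haj, sub_self]; exact firstOrder_zero J i
    · by_cases haJ : a ∈ J
      · have h0 : B a a = 0 := hB a haJ a
        simp only [h0, Matrix.single_zero, sub_zero]
        exact firstOrder_zero J i
      · exact firstOrder_diag hi haj haJ hj₀ _
  · rw [if_neg hab]
    by_cases hbJ : b ∈ J
    · simp only [hB b hbJ a, Matrix.single_zero]
      exact firstOrder_zero J i
    · exact firstOrder_offDiag i hab hbJ _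

/-- Lift a matrix with constant determinant, keeping unit columns. -/
theorem exists_gl_lift {m : ℕ} (hm : 1 ≤ m) (J : Finset (Fin N)) {j₀ : Fin N} (hj₀ : j₀ ∉ J)
    (A : GL (Fin N) (PolyQ F m)) (hJ : StdCols J (A : Matrix (Fin N) (Fin N) (PolyQ F m)))
    (c : F) (hdet : (A : Matrix (Fin N) (Fin N) (PolyQ F m)).det = algebraMap F (PolyQ F m) c) :
    ∃ P : PMat F N, Matrix.GeneralLinearGroup.map (n := Fin N) (polyRed F m) P = A ∧
      StdCols J (P : Matrix (Fin N) (Fin N) (Polynomial F)) := by
  classical
  have := nontrivial_polyQ (F := F) hm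
  choose r hr using fun x : PolyQ F m => Ideal.Quotient.mk_surjective x
  set M : Matrix (Fin N) (Fin N) (Polynomial F) := Matrix.of fun a b =>
    if b ∈ J then (if a = b then 1 else 0) else r ((A : Matrix (Fin N) (Fin N) (PolyQ F m)) a b)
    with hM
  have hMJ : StdCols J M := fun b hb a => by simp [hM, hb]
  have hMA : M.map (polyRed F m) = (A : Matrix (Fin N) (Fin N) (PolyQ F m)) := by
    ext a b
    by_cases hb : b ∈ J
    · simp only [hM, Matrix.map_apply, Matrix.of_apply, hb, if_true, hJ b hb a]
      split_ifs <;> simp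
    · simp only [hM, Matrix.map_apply, Matrix.of_apply, hb, if_false]
      exact hr _
  have hc : c ≠ 0 := by
    intro h0
    have hu : IsUnit (A : Matrix (Fin N) (Fin N) (PolyQ F m)).det :=
      (Matrix.isUnit_iff_isUnit_det _).1 A.isUnit
    rw [hdet, h0, map_zero] at hu
    exact not_isUnit_zero hu
  have hMdet : X ^ m ∣ M.det - C c := by
    rw [← polyRed_eq_iff, RingHom.map_det, RingHom.mapMatrix_apply, hMA, hdet,
      polyRed_algebraMap]
  have main : ∀ i, 1 ≤ i → i ≤ m → ∃ P : PMat F N,
      StdCols J (P : Matrix (Fin N) (Fin N) (Polynomial F)) ∧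
        ∀ a b, X ^ i ∣ ((P : Matrix (Fin N) (Fin N) (Polynomial F)) a b - M a b) := by
    intro i hi
    induction i, hi using Nat.le_induction with
    | base =>
      intro _
      set M₀ : Matrix (Fin N) (Fin N) (Polynomial F) :=
        ((C : F →+* Polynomial F).comp Polynomial.constantCoeff).mapMatrix M with hM₀
      have hd : M₀.det = C c := by
        rw [hM₀, ← RingHom.map_det, RingHom.comp_apply, Polynomial.constantCoeff_apply]
        congr 1
        have h1 := Polynomial.X_pow_dvd_iff.1 hMdet 0 (by omega)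
        rw [coeff_sub, coeff_C, if_pos rfl, sub_eq_zero] at h1
        exact h1
      have hu : IsUnit M₀ := by
        rw [Matrix.isUnit_iff_isUnit_det, hd]
        exact Polynomial.isUnit_C.2 (isUnit_iff_ne_zero.2 hc)
      refine ⟨hu.unit, fun b hb a => ?_, fun a b => ?_⟩
      · simp only [IsUnit.unit_spec, hM₀, RingHom.mapMatrix_apply, Matrix.map_apply,
          RingHom.comp_apply, hMJ b hb a]
        split_ifs <;> simp
      · simp only [IsUnit.unit_spec, hM₀, RingHom.mapMatrix_apply, Matrix.map_apply,
          RingHom.comp_apply, pow_one, Polynomial.X_dvd_iff, coeff_sub, Polynomial.constantCoeff_apply,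
          coeff_C, if_true, sub_self]
    | succ i hi ih =>
      intro him
      obtain ⟨P, hPJ, hP⟩ := ih (by omega)
      set Pi' : Matrix (Fin N) (Fin N) (Polynomial F) :=
        ((P⁻¹ : PMat F N) : Matrix (Fin N) (Fin N) (Polynomial F)) with hPi
      set D := Pi' * M - 1 with hD
      have hDdvd : ∀ a b, X ^ i ∣ D a b := by
        intro a b
        have e : D = Pi' * (M - (P : Matrix (Fin N) (Fin N) (Polynomial F))) := by
          rw [mul_sub, hPi, glInv_mul_self, ← hPi]
        rw [e, Matrix.mul_apply]
        refine Finset.dvd_sum fun x _ => dvd_mul_of_dvd_right ?_ _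
        rw [Matrix.sub_apply, ← neg_sub, dvd_neg]
        exact hP x b
      choose D' hD' using hDdvd
      set B : Matrix (Fin N) (Fin N) F := Matrix.of fun a b => (D' a b).coeff 0 with hB
      have hstd : StdCols J (Pi' * M) := stdCols_mul (stdCols_inv hPJ) hMJ
      have hBJ : ∀ b ∈ J, ∀ a, B a b = 0 := by
        intro b hb a
        have h1 : D a b = 0 := by simp [hD, hstd b hb a, Matrix.one_apply]
        rw [hD' a b, mul_eq_zero] at h1
        rcases h1 with h1 | h1
        · exact absurd h1 (pow_ne_zero _ X_ne_zero)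
        · simp [hB, h1]
      have hlead : (Pi' * M).map (polyRed F (i + 1)) =
          1 + (((X : Polynomial F) ^ i) • B.map C).map (polyRed F (i + 1)) := by
        have e : Pi' * M = 1 + D := by rw [hD]; abel
        rw [e, Matrix.map_add _ (map_add _), Matrix.map_one _ (map_zero _) (map_one _)]
        congr 1
        ext a b
        simp only [Matrix.map_apply, Matrix.smul_apply, smul_eq_mul, hB, Matrix.of_apply]
        rw [polyRed_eq_iff, hD' a b, ← mul_sub, pow_succ]
        refine mul_dvd_mul_left _ (Polynomial.X_dvd_iff.2 ?_)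
        simp
      obtain ⟨Q, hQJ, hQ⟩ := firstOrder_of_trace hi hj₀ B hBJ
      -- the trace vanishes
      have ht : B.trace = 0 := by
        have hstep : (((Q⁻¹ : PMat F N) : Matrix (Fin N) (Fin N) (Polynomial F)) * (Pi' * M)).map
            (polyRed F (i + 1)) =
            1 + (((X : Polynomial F) ^ i) • (Matrix.single j₀ j₀ B.trace).map C).map
              (polyRed F (i + 1)) := by
          have hs : (Pi' * M).map (polyRed F (i + 1)) =
              (Q : Matrix (Fin N) (Fin N) (Polynomial F)).map (polyRed F (i + 1)) *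
              (1 + (((X : Polynomial F) ^ i) • (Matrix.single j₀ j₀ B.trace).map C).map
                (polyRed F (i + 1))) := by
            rw [hlead, hQ, add_mul, one_mul, mul_add, mul_one, smul_map_mul i _ _ hi, add_zero,
              add_assoc]
            congr 1
            ext a b
            simp only [Matrix.add_apply, Matrix.map_apply, Matrix.smul_apply, Matrix.sub_apply,
              smul_eq_mul, map_sub, map_mul]
            ring
          rw [Matrix.map_mul, hs, ← mul_assoc, ← Matrix.map_mul, glInv_mul_self,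
            Matrix.map_one _ (map_zero _) (map_one _), one_mul]
        obtain ⟨e₁, he₁, hQd⟩ := det_pmat_const Q⁻¹
        obtain ⟨e₂, he₂, hPd⟩ := det_pmat_const P⁻¹
        have h2 := congrArg Matrix.det hstep
        rw [← RingHom.mapMatrix_apply, ← RingHom.map_det, Matrix.det_mul, Matrix.det_mul, hQd,
          hPi, hPd] at h2
        have hdiag : (1 + (((X : Polynomial F) ^ i) • (Matrix.single j₀ j₀ B.trace).map C).map
            (polyRed F (i + 1))).det = polyRed F (i + 1) (1 + X ^ i * C B.trace) := by
          have ed : (1 + (((X : Polynomial F) ^ i) • (Matrix.single j₀ j₀ B.trace).map C).map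
              (polyRed F (i + 1))) = Matrix.diagonal fun x =>
                if x = j₀ then polyRed F (i + 1) (1 + X ^ i * C B.trace) else 1 := by
            ext a b
            by_cases hab : a = b
            · subst hab
              by_cases ha : a = j₀
              · simp [ha]
              · simp [ha, Ne.symm ha]
            · have : ¬(j₀ = a ∧ j₀ = b) := fun h => hab (h.1 ▸ h.2)
              simp [hab, this]
          rw [ed, Matrix.det_diagonal, Finset.prod_ite_eq' _ j₀, if_pos (Finset.mem_univ _)]
        rw [hdiag, polyRed_eq_iff] at h2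
        have h3 : X ^ (i + 1) ∣ M.det - C c := dvd_trans (pow_dvd_pow X (by omega)) hMdet
        have h4 : X ^ (i + 1) ∣ C (e₁ * e₂ * c) - (1 + X ^ i * C B.trace) := by
          have e : C (e₁ * e₂ * c) - (1 + X ^ i * C B.trace) =
              C e₁ * (C e₂ * M.det) - (1 + X ^ i * C B.trace) - C e₁ * C e₂ * (M.det - C c) := by
            rw [map_mul, map_mul]; ring
          rw [e]
          exact dvd_sub h2 (dvd_mul_of_dvd_right h3 _)
        have h5 := Polynomial.X_pow_dvd_iff.1 h4 i (by omega)
        have hi0 : i ≠ 0 := by omega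
        simpa [coeff_one, coeff_C, hi0, Polynomial.coeff_X_pow_mul'] using h5
      rw [ht, Matrix.single_zero, sub_zero] at hQ
      refine ⟨P * Q, by rw [Units.val_mul]; exact stdCols_mul hPJ hQJ, fun a b => ?_⟩
      rw [← polyRed_eq_iff]
      have h6 : ((P * Q : PMat F N) : Matrix (Fin N) (Fin N) (Polynomial F)).map
          (polyRed F (i + 1)) = M.map (polyRed F (i + 1)) := by
        have hPP : (P : Matrix (Fin N) (Fin N) (Polynomial F)) * Pi' = 1 := by
          rw [hPi, ← Units.val_mul, mul_inv_cancel, Units.val_one]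
        rw [Units.val_mul, Matrix.map_mul, hQ, ← hlead, ← Matrix.map_mul, ← mul_assoc, hPP,
          one_mul]
      exact congrFun (congrFun h6 a) b
  obtain ⟨P, hPJ, hP⟩ := main m hm le_rfl
  refine ⟨P, ?_, hPJ⟩
  refine Units.ext ?_
  rw [← hMA]
  ext a b
  exact polyRed_eq_iff.2 (hP a b)

end Vale.Agent.P067
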