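import Vale.Agent.P067.PBAcyclic
import Vale.Agent.P067.PBLift

/-!
Size functions on polynomial rings and their truncations, and reduction of partial basis complexes
modulo powers of the variable.
-/

namespace Vale.Agent.P067

open Polynomial Matrix

variable (F : Type*) [Field F]

lemma isSize_poly : IsSize (fun p : Polynomial F => p.natDegree) := by
  intro a b hb
  refine ⟨a / b, ?_⟩
  have e : a - a / b * b = a % b := by
    rw [eq_comm, eq_sub_iff_add_eq, add_comm, mul_comm]
    exact EuclideanDomain.div_add_mod a b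
  rw [e]
  by_cases h : a % b = 0
  · exact Or.inl h
  · exact Or.inr (Polynomial.natDegree_lt_natDegree h (EuclideanDomain.mod_lt a hb))

/-- The trailing degree of some lift. -/
noncomputable def quotSize (m : ℕ) (a : PolyQ F m) : ℕ :=
  (Function.surjInv Ideal.Quotient.mk_surjective a : Polynomial F).natTrailingDegree

lemma isSize_quot (m : ℕ) : IsSize (quotSize F m) := by
  intro a b hb
  set p := Function.surjInv Ideal.Quotient.mk_surjective a with hp
  set r := Function.surjInv Ideal.Quotient.mk_surjective b with hr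
  have ea : polyRed F m p = a := Function.surjInv_eq Ideal.Quotient.mk_surjective a
  have eb : polyRed F m r = b := Function.surjInv_eq Ideal.Quotient.mk_surjective b
  by_cases ha : a = 0
  · exact ⟨0, Or.inl (by simp [ha])⟩
  by_cases hlt : p.natTrailingDegree < r.natTrailingDegree
  · exact ⟨0, Or.inr (by simpa [quotSize, ← hp, ← hr] using hlt)⟩
  have hr0 : r ≠ 0 := fun h => hb (by rw [← eb, h, map_zero])
  set e := r.natTrailingDegree with he
  obtain ⟨r', hr'⟩ : (X : Polynomial F) ^ e ∣ r :=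
    Polynomial.X_pow_dvd_iff.2 fun d hd => coeff_eq_zero_of_lt_natTrailingDegree hd
  have hcop : IsCoprime r' ((X : Polynomial F) ^ m) := by
    refine IsCoprime.pow_right ((Polynomial.prime_X.coprime_iff_not_dvd).2 ?_).symm
    rw [Polynomial.X_dvd_iff]
    intro h0
    have h1 : r.coeff e ≠ 0 := Polynomial.trailingCoeff_nonzero_iff_nonzero.2 hr0
    apply h1
    have h2 := Polynomial.coeff_X_pow_mul r' e 0
    rw [zero_add] at h2
    rw [hr', h2]
    exact h0
  obtain ⟨u, v, huv⟩ := hcop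
  have hu : polyRed F m u * polyRed F m r' = 1 := by
    rw [← map_mul, ← map_one (polyRed F m), polyRed_eq_iff]
    exact ⟨-v, by linear_combination huv⟩
  obtain ⟨p', hp'⟩ : (X : Polynomial F) ^ e ∣ p :=
    Polynomial.X_pow_dvd_iff.2 fun d hd => coeff_eq_zero_of_lt_natTrailingDegree (by omega)
  refine ⟨polyRed F m p' * polyRed F m u, Or.inl ?_⟩
  rw [← ea, ← eb, hp', hr', map_mul, map_mul]
  linear_combination (-(polyRed F m p') * polyRed F m (X ^ e)) * hu

variable {F}

lemma pb_acyclic_poly (N k : ℕ) (hk : k + 1 ≤ N) :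
    Acyclic (PB (Polynomial F) (baseUnits (Polynomial F) F) N) k :=
  pb_acyclic _ _ (isSize_poly F) _ N k hk

lemma pb_acyclic_quot {m : ℕ} (hm : 1 ≤ m) (N k : ℕ) (hk : k + 1 ≤ N) :
    Acyclic (PB (PolyQ F m) (baseUnits (PolyQ F m) F) N) k :=
  have := nontrivial_polyQ (F := F) hm
  pb_acyclic _ _ (isSize_quot F m) _ N k hk

variable {N : ℕ}

/-- Reduction of invertible matrices. -/
noncomputable def glRed (F : Type*) [Field F] (N m : ℕ) : PMat F N →* GL (Fin N) (PolyQ F m) :=
  Matrix.GeneralLinearGroup.map (n := Fin N) (polyRed F m)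

lemma glRed_apply (m : ℕ) (g : PMat F N) (a b : Fin N) :
    (glRed F N m g : Matrix (Fin N) (Fin N) (PolyQ F m)) a b =
      polyRed F m ((g : Matrix (Fin N) (Fin N) (Polynomial F)) a b) := rfl

lemma mem_congr_iff_glRed {m : ℕ} {g : PMat F N} : g ∈ congr F N m ↔ glRed F N m g = 1 := Iff.rfl

lemma congr_normal (m : ℕ) : (congr F N m).Normal := MonoidHom.normal_ker _

lemma mem_baseUnits {R : Type*} [CommRing R] [Algebra F R] {u : Rˣ} :
    u ∈ baseUnits R F ↔ ∃ c : F, c ≠ 0 ∧ (u : R) = algebraMap F R c := by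
  constructor
  · rintro ⟨c, rfl⟩
    exact ⟨c, c.ne_zero, rfl⟩
  · rintro ⟨c, hc, h⟩
    exact ⟨Units.mk0 c hc, Units.ext h.symm⟩

/-- Reduction of columns. -/
noncomputable def uRed (m : ℕ) (w : UVec (Polynomial F) N) : UVec (PolyQ F m) N :=
  ⟨fun j => polyRed F m (w.1 j), by
    obtain ⟨g, i, h⟩ := w.2
    exact ⟨glRed F N m g, i, fun j => congrArg (polyRed F m) (h j)⟩⟩

/-- Reduction of vertices. -/
noncomputable def pbRed (F : Type*) [Field F] (N m : ℕ) :
    PBVert (Polynomial F) (baseUnits (Polynomial F) F) N →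
      PBVert (PolyQ F m) (baseUnits (PolyQ F m) F) N :=
  Quotient.map (uRed m) (by
    rintro a b ⟨u, hu, e⟩
    refine ⟨Units.map (polyRed F m).toMonoidHom u, ?_, fun j => ?_⟩
    · obtain ⟨c, hc, h⟩ := mem_baseUnits.1 hu
      exact mem_baseUnits.2 ⟨c, hc, by
        show polyRed F m (u : Polynomial F) = _
        rw [h, polyRed_algebraMap]; rfl⟩
    · show polyRed F m (b.1 j) = polyRed F m u * polyRed F m (a.1 j)
      rw [← map_mul, e j])

lemma pbRed_colV (m : ℕ) (g : PMat F N) (i : Fin N) :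
    pbRed F N m (colV (baseUnits (Polynomial F) F) g i) =
      colV (baseUnits (PolyQ F m) F) (glRed F N m g) i := rfl

lemma pbRed_image_mem_PB (m : ℕ) {s : Finset (PBVert (Polynomial F) (baseUnits (Polynomial F) F) N)}
    (hs : s ∈ PB (Polynomial F) (baseUnits (Polynomial F) F) N) :
    s.image (pbRed F N m) ∈ PB (PolyQ F m) (baseUnits (PolyQ F m) F) N := by
  obtain ⟨g, hg⟩ := mem_PB.1 hs
  refine mem_PB.2 ⟨glRed F N m g, fun v hv => ?_⟩
  obtain ⟨w, hw, rfl⟩ := Finset.mem_image.1 hv
  obtain ⟨i, rfl⟩ := hg w hw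
  exact ⟨i, (pbRed_colV m g i).symm⟩

lemma pbRed_injOn {m : ℕ} (hm : 1 ≤ m)
    {s : Finset (PBVert (Polynomial F) (baseUnits (Polynomial F) F) N)}
    (hs : s ∈ PB (Polynomial F) (baseUnits (Polynomial F) F) N) :
    Set.InjOn (pbRed F N m) ↑s := by
  have := nontrivial_polyQ (F := F) hm
  obtain ⟨g, hg⟩ := mem_PB.1 hs
  intro v hv w hw e
  obtain ⟨i, rfl⟩ := hg v hv
  obtain ⟨j, rfl⟩ := hg w hw
  rw [pbRed_colV, pbRed_colV] at e
  rw [colV_injective _ e]

lemma pbRed_pbAct {m : ℕ} {γ : PMat F N} (hγ : γ ∈ congr F N m)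
    (v : PBVert (Polynomial F) (baseUnits (Polynomial F) F) N) :
    pbRed F N m (pbAct (Polynomial F) (baseUnits (Polynomial F) F) N γ v) = pbRed F N m v := by
  obtain ⟨g, i, rfl⟩ := exists_colV v
  rw [pbAct_colV, pbRed_colV, pbRed_colV, map_mul, mem_congr_iff_glRed.1 hγ, one_mul]

/-- Simplices that are not full frames lift. -/
theorem pbRed_lift {m : ℕ} (hm : 1 ≤ m)
    {t : Finset (PBVert (PolyQ F m) (baseUnits (PolyQ F m) F) N)}
    (ht : t ∈ PB (PolyQ F m) (baseUnits (PolyQ F m) F) N) (hc : t.card < N) :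
    ∃ s ∈ PB (Polynomial F) (baseUnits (Polynomial F) F) N,
      s.image (pbRed F N m) = t ∧ s.card = t.card := by
  classical
  have := nontrivial_polyQ (F := F) hm
  obtain ⟨A, J, rfl, hJc⟩ := exists_indexSet ht
  obtain ⟨j₀, hj₀⟩ : ∃ j₀, j₀ ∉ J := by
    by_contra h
    push Not at h
    have hJN : J.card = N := by rw [Finset.eq_univ_iff_forall.2 h]; simp
    omega
  have hu : IsUnit (A : Matrix (Fin N) (Fin N) (PolyQ F m)).det :=
    (Matrix.isUnit_iff_isUnit_det _).1 A.isUnit
  set d : Fin N → (PolyQ F m)ˣ := fun i => if i = j₀ then hu.unit⁻¹ else 1 with hd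
  have hdet : ((A * diagGL d : GL (Fin N) (PolyQ F m)) :
      Matrix (Fin N) (Fin N) (PolyQ F m)).det = algebraMap F (PolyQ F m) 1 := by
    rw [Units.val_mul, Matrix.det_mul, map_one]
    show _ * (Matrix.diagonal fun i => (d i : PolyQ F m)).det = 1
    rw [Matrix.det_diagonal, Finset.prod_eq_single j₀ (fun b _ hb => by simp [hd, hb])
      (fun h => absurd (Finset.mem_univ _) h)]
    simp only [hd, if_true]
    exact hu.mul_val_inv
  obtain ⟨P, hP, -⟩ := exists_gl_lift hm (∅ : Finset (Fin N)) (Finset.notMem_empty j₀)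
    (A * diagGL d) (fun i hi => absurd hi (Finset.notMem_empty i)) 1 hdet
  have hcol : ∀ i ∈ J, pbRed F N m (colV (baseUnits (Polynomial F) F) P i) =
      colV (baseUnits (PolyQ F m) F) A i := by
    intro i hi
    have e : glRed F N m P = A * diagGL d := hP
    rw [pbRed_colV, e, colV_mul_diagGL]
    rw [show d i = 1 from if_neg fun (e : i = j₀) => hj₀ (e ▸ hi)]
    exact Subgroup.one_mem _
  refine ⟨J.image (colV _ P), colV_image_mem_PB P J, ?_, ?_⟩
  · rw [Finset.image_image]
    exact Finset.image_congr hcol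
  · rw [Finset.card_image_of_injective _ (colV_injective P), hJc]

/-- Simplices that are not full frames with the same reduction are congruent. -/
theorem exists_congr_image {m : ℕ} (hm : 1 ≤ m)
    {s t : Finset (PBVert (Polynomial F) (baseUnits (Polynomial F) F) N)}
    (hs : s ∈ PB (Polynomial F) (baseUnits (Polynomial F) F) N)
    (ht : t ∈ PB (Polynomial F) (baseUnits (Polynomial F) F) N) (hc : s.card < N)
    (e : s.image (pbRed F N m) = t.image (pbRed F N m)) :
    ∃ γ ∈ congr F N m,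
      s.image (pbAct (Polynomial F) (baseUnits (Polynomial F) F) N γ) = t := by
  classical
  have := nontrivial_polyQ (F := F) hm
  have hti := pbRed_injOn hm ht
  have hsi := pbRed_injOn hm hs
  have hcard : t.card = s.card := by
    rw [← Finset.card_image_of_injOn hti, ← e, Finset.card_image_of_injOn hsi]
  obtain ⟨g, J, rfl, hJ⟩ := exists_indexSet hs
  obtain ⟨h, J', rfl, hJ'⟩ := exists_indexSet ht
  have hex : ∀ i : {i // i ∈ J}, ∃ i' : {i // i ∈ J'},
      pbRed F N m (colV (baseUnits (Polynomial F) F) h i') =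
        pbRed F N m (colV (baseUnits (Polynomial F) F) g i) := by
    intro i
    have : pbRed F N m (colV (baseUnits (Polynomial F) F) g i) ∈
        (J'.image (colV (baseUnits (Polynomial F) F) h)).image (pbRed F N m) :=
      e ▸ Finset.mem_image_of_mem _ (Finset.mem_image_of_mem _ i.2)
    obtain ⟨w, hw, hwe⟩ := Finset.mem_image.1 this
    obtain ⟨i', hi', rfl⟩ := Finset.mem_image.1 hw
    exact ⟨⟨i', hi'⟩, hwe⟩
  choose φ hφ using hex
  have hφi : Function.Injective φ := by
    intro i j hij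
    have h1 := hφ i
    rw [hij, hφ j, pbRed_colV, pbRed_colV] at h1
    exact Subtype.ext (colV_injective _ h1).symm
  set eJ : {i // i ∈ J} ≃ {i // i ∈ J'} := Equiv.ofBijective φ
    ((Fintype.bijective_iff_injective_and_card φ).2 ⟨hφi, by
      simp only [Fintype.card_coe]; omega⟩) with heJ
  set π : Equiv.Perm (Fin N) := eJ.extendSubtype with hπ
  have hπJ : ∀ i (hi : i ∈ J), π i = (φ ⟨i, hi⟩ : Fin N) := fun i hi => by
    rw [hπ, Equiv.extendSubtype_apply_of_mem eJ i hi]
    rfl
  have hunit : IsUnit ((h : Matrix (Fin N) (Fin N) (Polynomial F)).submatrix id π) := by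
    rw [Matrix.isUnit_iff_isUnit_det, Matrix.det_permute']
    refine IsUnit.mul ?_ ((Matrix.isUnit_iff_isUnit_det _).1 h.isUnit)
    exact ((Units.map (Int.castRingHom (Polynomial F)).toMonoidHom) (Equiv.Perm.sign π)).isUnit
  have hsc : ∀ i, ∃ u : (Polynomial F)ˣ, u ∈ baseUnits (Polynomial F) F ∧ (i ∈ J → ∀ a,
      polyRed F m ((g : Matrix (Fin N) (Fin N) (Polynomial F)) a i) =
        polyRed F m ((h : Matrix (Fin N) (Fin N) (Polynomial F)) a (π i) * u)) := by
    intro i
    by_cases hi : i ∈ J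
    · have h1 := hφ ⟨i, hi⟩
      rw [pbRed_colV, pbRed_colV] at h1
      obtain ⟨u, hu, he⟩ := colV_eq_iff.1 h1
      obtain ⟨c, hc0, hcu⟩ := mem_baseUnits.1 hu
      obtain ⟨u', hu'⟩ : IsUnit (C c : Polynomial F) :=
        Polynomial.isUnit_C.2 (isUnit_iff_ne_zero.2 hc0)
      refine ⟨u', mem_baseUnits.2 ⟨c, hc0, hu'⟩, fun _ a => ?_⟩
      rw [map_mul, hu', hπJ i hi, mul_comm]
      have h2 := he a
      rw [glRed_apply, glRed_apply, hcu, polyRed_algebraMap] at h2
      exact h2
    · exact ⟨1, Subgroup.one_mem _, fun h => absurd h hi⟩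
  choose u huU hu using hsc
  set h' : PMat F N := hunit.unit * diagGL u with hh'
  have hh'a : ∀ a i, (h' : Matrix (Fin N) (Fin N) (Polynomial F)) a i =
      (h : Matrix (Fin N) (Fin N) (Polynomial F)) a (π i) * (u i : Polynomial F) := by
    intro a i
    rw [hh', mul_diagGL_apply]
    simp
  set P : PMat F N := g⁻¹ * h' with hP
  have hgh : ∀ i ∈ J, ∀ a, polyRed F m ((h' : Matrix (Fin N) (Fin N) (Polynomial F)) a i) =
      polyRed F m ((g : Matrix (Fin N) (Fin N) (Polynomial F)) a i) := fun i hi a => by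
    rw [hh'a, hu i hi a]
  have hstd : StdCols J (glRed F N m P : Matrix (Fin N) (Fin N) (PolyQ F m)) := by
    intro i hi a
    have e1 : ((glRed F N m g⁻¹ * glRed F N m h' : GL (Fin N) (PolyQ F m)) :
        Matrix (Fin N) (Fin N) (PolyQ F m)) a i =
        ((glRed F N m g⁻¹ * glRed F N m g : GL (Fin N) (PolyQ F m)) :
        Matrix (Fin N) (Fin N) (PolyQ F m)) a i := by
      simp only [Units.val_mul, Matrix.mul_apply, glRed_apply, hgh i hi]
    rw [hP, map_mul, e1, ← map_mul, inv_mul_cancel, map_one, Units.val_one, Matrix.one_apply]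
  obtain ⟨c, hc0, hdetP⟩ := det_pmat_const P
  obtain ⟨j₀, hj₀⟩ : ∃ j₀, j₀ ∉ J := by
    by_contra h0
    push Not at h0
    have hJN : J.card = N := by rw [Finset.eq_univ_iff_forall.2 h0]; simp
    omega
  have hdetA : (glRed F N m P : Matrix (Fin N) (Fin N) (PolyQ F m)).det =
      algebraMap F (PolyQ F m) c := by
    show ((polyRed F m).mapMatrix (P : Matrix (Fin N) (Fin N) (Polynomial F))).det = _
    rw [← RingHom.map_det, hdetP, polyRed_algebraMap]
  obtain ⟨S, hS, hSJ⟩ := exists_gl_lift hm J hj₀ (glRed F N m P) hstd c hdetA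
  refine ⟨h' * S⁻¹ * g⁻¹, ?_, ?_⟩
  · have hS' : glRed F N m S = glRed F N m P := hS
    have h4 : glRed F N m (h' * S⁻¹ * g⁻¹) = glRed F N m (h' * P⁻¹ * g⁻¹) := by
      simp only [map_mul, map_inv, hS']
    have h5 : h' * P⁻¹ * g⁻¹ = 1 := by rw [hP]; group
    rw [mem_congr_iff_glRed, h4, h5, map_one]
  · have hact : ∀ i ∈ J, pbAct (Polynomial F) (baseUnits (Polynomial F) F) N (h' * S⁻¹ * g⁻¹)
        (colV _ g i) = colV _ h (π i) := by
      intro i hi
      rw [pbAct_colV, inv_mul_cancel_right]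
      refine (colV_eq_of_mul (huU i) fun a => ?_).symm
      rw [mul_comm, ← hh'a a i]
      have h3 := stdCols_inv hSJ i hi
      rw [Units.val_mul, Matrix.mul_apply]
      simp [h3]
    rw [Finset.image_image]
    refine Finset.eq_of_subset_of_card_le (fun v hv => ?_) (le_of_eq ?_)
    · obtain ⟨i, hi, rfl⟩ := Finset.mem_image.1 hv
      simp only [Function.comp_apply]
      rw [hact i hi, hπJ i hi]
      exact Finset.mem_image_of_mem _ (φ ⟨i, hi⟩).2
    · rw [Finset.card_image_of_injective _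
        ((Equiv.injective _).comp (colV_injective g)), hJ, ← hcard]

lemma pbRed_eq_iff_congr {m : ℕ} (hm : 1 ≤ m) (hN : 2 ≤ N)
    {v w : PBVert (Polynomial F) (baseUnits (Polynomial F) F) N} :
    pbRed F N m v = pbRed F N m w ↔
      ∃ γ ∈ congr F N m, pbAct (Polynomial F) (baseUnits (Polynomial F) F) N γ v = w := by
  constructor
  · intro h
    have hmem : ∀ x : PBVert (Polynomial F) (baseUnits (Polynomial F) F) N,
        ({x} : Finset _) ∈ PB (Polynomial F) (baseUnits (Polynomial F) F) N := by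
      intro x
      obtain ⟨g, i, rfl⟩ := exists_colV x
      exact mem_PB.2 ⟨g, fun y hy => ⟨i, (Finset.mem_singleton.1 hy).symm⟩⟩
    obtain ⟨γ, hγ, e⟩ := exists_congr_image hm (hmem v) (hmem w) (by simp; omega) (by simp [h])
    exact ⟨γ, hγ, by simpa using e⟩
  · rintro ⟨γ, hγ, rfl⟩
    exact (pbRed_pbAct hγ v).symm

/-- A congruence matrix fixing a vertex fixes its vectors. -/
lemma congr_fix_iff {m : ℕ} (hm : 1 ≤ m) {γ : PMat F N} (hγ : γ ∈ congr F N m) (g : PMat F N)
    (i : Fin N) :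
    pbAct (Polynomial F) (baseUnits (Polynomial F) F) N γ (colV _ g i) = colV _ g i ↔
      ∀ a, ((g⁻¹ * γ * g : PMat F N) : Matrix (Fin N) (Fin N) (Polynomial F)) a i =
        if a = i then 1 else 0 := by
  have := nontrivial_polyQ (F := F) hm
  constructor
  · intro h
    rw [pbAct_colV] at h
    obtain ⟨u, hu, e⟩ := colV_eq_iff.1 h
    obtain ⟨c, hc, hcu⟩ := mem_baseUnits.1 hu
    have e2 : ∀ a, (g : Matrix (Fin N) (Fin N) (Polynomial F)) a i =
        C c * ((γ * g : PMat F N) : Matrix (Fin N) (Fin N) (Polynomial F)) a i := by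
      intro a; rw [e a, hcu]; rfl
    have e3 : ((g⁻¹ * γ * g : PMat F N) : Matrix (Fin N) (Fin N) (Polynomial F)) i i * C c = 1 := by
      rw [mul_assoc, Units.val_mul, Matrix.mul_apply, Finset.sum_mul]
      rw [Finset.sum_congr rfl fun x _ => show _ = ((g⁻¹ : PMat F N) :
          Matrix (Fin N) (Fin N) (Polynomial F)) i x *
          (g : Matrix (Fin N) (Fin N) (Polynomial F)) x i by rw [e2 x]; ring,
        ← Matrix.mul_apply, glInv_mul_self, Matrix.one_apply_eq]
    have e4 : c = 1 := by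
      have hγ1 : glRed F N m (g⁻¹ * γ * g) = 1 := by
        rw [map_mul, map_mul, mem_congr_iff_glRed.1 hγ, mul_one, map_inv, inv_mul_cancel]
      have h5 := congrArg (polyRed F m) e3
      rw [map_mul, ← glRed_apply, hγ1, Units.val_one, Matrix.one_apply_eq, one_mul, map_one,
        ← map_one (polyRed F m), polyRed_eq_iff] at h5
      have h6 := Polynomial.X_pow_dvd_iff.1 h5 0 (by omega)
      simpa [sub_eq_zero] using h6
    intro a
    rw [mul_assoc, Units.val_mul, Matrix.mul_apply]
    rw [show (∑ x, ((g⁻¹ : PMat F N) : Matrix (Fin N) (Fin N) (Polynomial F)) a x *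
        ((γ * g : PMat F N) : Matrix (Fin N) (Fin N) (Polynomial F)) x i) =
        ∑ x, ((g⁻¹ : PMat F N) : Matrix (Fin N) (Fin N) (Polynomial F)) a x *
        (g : Matrix (Fin N) (Fin N) (Polynomial F)) x i by simp [e2, e4],
      ← Matrix.mul_apply, glInv_mul_self, Matrix.one_apply]
  · intro h
    rw [pbAct_colV]
    refine colV_eq_of_mul (Subgroup.one_mem _) fun a => ?_
    have e : γ * g = g * (g⁻¹ * γ * g) := by group
    rw [e, Units.val_mul _ (g⁻¹ * γ * g), Matrix.mul_apply, Units.val_one, one_mul]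
    simp [h]

/-- The stabiliser of the columns in `J` of a frame. -/
lemma congr_fix_image_iff {m : ℕ} (hm : 1 ≤ m) {γ : PMat F N} (hγ : γ ∈ congr F N m) (g : PMat F N)
    (J : Finset (Fin N)) :
    (∀ v ∈ J.image (colV (baseUnits (Polynomial F) F) g),
      pbAct (Polynomial F) (baseUnits (Polynomial F) F) N γ v = v) ↔
      StdCols J ((g⁻¹ * γ * g : PMat F N) : Matrix (Fin N) (Fin N) (Polynomial F)) := by
  simp only [Finset.forall_mem_image, congr_fix_iff hm hγ, StdCols]

/-- A congruence matrix preserving a simplex fixes it pointwise. -/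
lemma congr_fix_pointwise {m : ℕ} (hm : 1 ≤ m) {γ : PMat F N} (hγ : γ ∈ congr F N m)
    {s : Finset (PBVert (Polynomial F) (baseUnits (Polynomial F) F) N)}
    (hs : s ∈ PB (Polynomial F) (baseUnits (Polynomial F) F) N)
    (h : s.image (pbAct (Polynomial F) (baseUnits (Polynomial F) F) N γ) = s) :
    ∀ v ∈ s, pbAct (Polynomial F) (baseUnits (Polynomial F) F) N γ v = v := fun v hv =>
  pbRed_injOn hm hs (Finset.mem_coe.2 (h ▸ Finset.mem_image_of_mem _ hv)) hv (pbRed_pbAct hγ v)

/-- Reduction is onto below the top degree, so the image complex is acyclic there. -/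
theorem pb_image_acyclic {m : ℕ} (hm : 1 ≤ m) (k : ℕ) (hk : k + 2 ≤ N) :
    Acyclic (Finset.image (pbRed F N m) '' PB (Polynomial F) (baseUnits (Polynomial F) F) N) k := by
  intro z hz hbz
  have hsub : ∀ t ∈ Finset.image (pbRed F N m) '' PB (Polynomial F) (baseUnits (Polynomial F) F) N,
      t ∈ PB (PolyQ F m) (baseUnits (PolyQ F m) F) N := by
    rintro t ⟨s, hs, rfl⟩
    exact pbRed_image_mem_PB m hs
  obtain ⟨y, hy, hby⟩ := pb_acyclic_quot hm N k (by omega) z
    (chainsOf_mono (fun t ht _ => hsub t ht) hz) hbz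
  refine ⟨y, chainsOf_mono (fun t ht htc => ?_) hy, hby⟩
  obtain ⟨s, hs, he, -⟩ := pbRed_lift hm ht (by omega)
  exact ⟨s, hs, he⟩

end Vale.Agent.P067
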