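import Vale.Agent.P067.StabPB
import Vale.Agent.P067.PBQuot
import Vale.Agent.P067.Corner
import Vale.Agent.P067.BarLemmas

/-!
P067: homological stability for principal congruence subgroups of polynomial general linear
groups: acyclicity of `congr F N m` in a range follows from that of `congr F n 1`, `n ≤ N`.
-/

open Matrix Polynomial

namespace Vale.Agent.P067
namespace Stab

variable {F : Type} [Field F] {ι κ : Type} [Fintype ι] [DecidableEq ι] [Fintype κ] [DecidableEq κ]

/-! ### Column and row groups -/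

lemma colFix_groupAcyclic (p : ℕ) [CharP F p] (hp : Odd p) {m q : ℕ} (e : ι ↪ κ)
    (h : GroupAcyclic (cg F ι m) q) : GroupAcyclic (colFix (F := F) m e) q := by
  rw [groupAcyclic_iff_homZero] at h ⊢
  refine HomZero.of_homEq (homEq_of_proj_abelian (colProj m e) _ ((colSec m e).comp (colProj m e))
    ?_ q hp (fun a b ha hb => (colProj_ker p e ha hb).1) fun a ha => (colProj_ker p e ha ha).2) ?_
  · rw [← MonoidHom.comp_assoc, colProj_colSec, MonoidHom.id_comp, MonoidHom.comp_id]
  · exact (h.comp_left (colSec m e)).comp_right (colProj m e)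

lemma colFix_homEq (p : ℕ) [CharP F p] (hp : Odd p) {m : ℕ} (e : ι ↪ κ) (q : ℕ) :
    HomEq (colFix (F := F) m e).subtype ((iotaC m e).comp (colProj m e)) q := by
  have := (homEq_of_proj_abelian (colProj m e) (MonoidHom.id _) ((colSec m e).comp (colProj m e))
    (by rw [← MonoidHom.comp_assoc, colProj_colSec, MonoidHom.id_comp, MonoidHom.comp_id])
    q hp (fun a b ha hb => (colProj_ker p e ha hb).1)
    fun a ha => (colProj_ker p e ha ha).2).comp_left (colFix (F := F) m e).subtype
  rwa [MonoidHom.comp_id, ← MonoidHom.comp_assoc, subtype_colSec] at this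

/-! ### The block trick -/

/-- Conjugation by `u` is invisible on the first diagonal block. -/
def Invis (m q : ℕ) (u : GL (ι ⊕ ι) F[X]) : Prop :=
  HomEq ((conjC (m := m) u).comp (iotaC m Function.Embedding.inl))
    (iotaC m Function.Embedding.inl) q

lemma Invis.mul {m q : ℕ} {u v : GL (ι ⊕ ι) F[X]} (hu : Invis m q u) (hv : Invis m q v) :
    Invis m q (u * v) := by
  rw [Invis, conjC_mul, MonoidHom.comp_assoc]
  exact (hv.comp_left (conjC u)).trans hu

lemma invis_upB (p : ℕ) [CharP F p] (hp : Odd p) (m q : ℕ) (A : Matrix ι ι F[X]) :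
    Invis m q (upB A) := by
  let f : cg F ι m →* rowFix (F := F) m (Function.Embedding.inl : ι ↪ ι ⊕ ι) :=
    ((conjC (m := m) (upB A)).comp (iotaC m Function.Embedding.inl)).codRestrict _
      fun h => (conjC_upB_mem A h).1
  have h := (homEq_of_proj_abelian (rowProj m Function.Embedding.inl) f
    (rowSec m Function.Embedding.inl)
    (by rw [rowProj_rowSec]; ext1 h; exact (conjC_upB_mem A h).2) q hp
    (fun a b ha hb => (rowProj_ker p _ ha hb).1) fun a ha => (rowProj_ker p _ ha ha).2).comp_left
      (rowFix (F := F) m (Function.Embedding.inl : ι ↪ ι ⊕ ι)).subtype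
  rw [subtype_rowSec] at h
  exact h

lemma invis_loB (p : ℕ) [CharP F p] (hp : Odd p) (m q : ℕ) (A : Matrix ι ι F[X]) :
    Invis m q (loB A) := by
  let f : cg F ι m →* colFix (F := F) m (Function.Embedding.inl : ι ↪ ι ⊕ ι) :=
    ((conjC (m := m) (loB A)).comp (iotaC m Function.Embedding.inl)).codRestrict _
      fun h => (conjC_loB_mem A h).1
  have h := (homEq_of_proj_abelian (colProj m Function.Embedding.inl) f
    (colSec m Function.Embedding.inl)
    (by rw [colProj_colSec]; ext1 h; exact (conjC_loB_mem A h).2) q hp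
    (fun a b ha hb => (colProj_ker p _ ha hb).1) fun a ha => (colProj_ker p _ ha ha).2).comp_left
      (colFix (F := F) m (Function.Embedding.inl : ι ↪ ι ⊕ ι)).subtype
  rw [subtype_colSec] at h
  exact h

lemma homEq_conj (p : ℕ) [CharP F p] (hp : Odd p) (m q : ℕ) (ee : ι ⊕ ι ↪ κ) (x : GL ι F[X]) :
    HomEq ((iotaC m (Function.Embedding.inl.trans ee)).comp (conjC x))
      (iotaC m (Function.Embedding.inl.trans ee)) q := by
  have h : Invis m q (whB x) := by
    unfold whB
    exact (((((invis_upB p hp m q _).mul (invis_loB p hp m q _)).mul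
      (invis_upB p hp m q _)).mul (invis_upB p hp m q _)).mul (invis_loB p hp m q _)).mul
        (invis_upB p hp m q _)
  have h' := h.comp_left (iotaC m ee)
  rwa [conjC_whB, ← MonoidHom.comp_assoc, iotaC_trans] at h'

/-! ### The index of a congruence subgroup -/

lemma cg_le_cg {m : ℕ} (hm : 1 ≤ m) : cg F ι m ≤ cg F ι 1 := by
  intro g hg
  rw [mem_cg] at hg ⊢
  have hle : Ideal.span {(X : F[X]) ^ m} ≤ Ideal.span {(X : F[X]) ^ 1} :=
    Ideal.span_singleton_le_span_singleton.2 (pow_dvd_pow X hm)
  have := congrArg (fun M => M.map (Ideal.Quotient.factor hle)) hg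
  simpa [Matrix.map_map, Function.comp_def, Matrix.map_one] using this

lemma odd_index (p : ℕ) [CharP F p] [Fact p.Prime] (hp : Odd p) [Finite F] [Nonempty ι] (m : ℕ) :
    ((cg F ι m).subgroupOf (cg F ι 1)).FiniteIndex ∧
      Odd ((cg F ι m).subgroupOf (cg F ι 1)).index := by
  have hfin : Finite (F[X] ⧸ Ideal.span {(X : F[X]) ^ m}) := by
    have := (monic_X_pow m : (X ^ m : F[X]).Monic).finite_quotient
    exact Module.finite_of_finite F
  set ψ := (Matrix.GeneralLinearGroup.map (n := ι)
    (Ideal.Quotient.mk (Ideal.span {(X : F[X]) ^ m}))).comp (cg F ι 1).subtype with hψ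
  have hK : (cg F ι m).subgroupOf (cg F ι 1) = ψ.ker := rfl
  have hfi : ((cg F ι m).subgroupOf (cg F ι 1)).FiniteIndex := by
    refine ⟨?_⟩
    rw [hK, Subgroup.index_ker]
    exact Nat.card_pos.ne'
  refine ⟨hfi, ?_⟩
  have hP : IsPGroup p (cg F ι 1 ⧸ (cg F ι m).subgroupOf (cg F ι 1)) := by
    intro x
    obtain ⟨g, rfl⟩ := QuotientGroup.mk_surjective x
    refine ⟨m, ?_⟩
    rw [← QuotientGroup.mk_pow, QuotientGroup.eq_one_iff, Subgroup.mem_subgroupOf, mem_cg]
    have hg := mem_cg.1 g.2
    have hb : ∀ i j, ∃ b : F[X],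
        (((g : GL ι F[X]) : Matrix ι ι F[X]) - 1) i j = X * b := fun i j => by
      have h1 := congrFun (congrFun hg i) j
      rw [Matrix.map_apply, ← Matrix.map_one (Ideal.Quotient.mk (Ideal.span {(X : F[X]) ^ 1}))
        (map_zero _) (map_one _), Matrix.map_apply, Ideal.Quotient.mk_eq_mk_iff_sub_mem,
        Ideal.mem_span_singleton, pow_one] at h1
      exact h1
    choose b hb using hb
    have hgb : ((g : GL ι F[X]) : Matrix ι ι F[X]) = 1 + (X : F[X]) • Matrix.of b := by
      ext i j : 1
      rw [Matrix.add_apply, Matrix.smul_apply, Matrix.of_apply, smul_eq_mul, ← hb i j,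
        Matrix.sub_apply]
      ring
    have hmp : m ≤ p ^ m := (Nat.lt_pow_self (Fact.out : p.Prime).one_lt).le
    simp only [SubgroupClass.coe_pow, Units.val_pow_eq_pow_val]
    rw [hgb, add_pow_char_pow_of_commute p m (Commute.one_left _), one_pow, _root_.smul_pow,
      Matrix.map_add _ (map_add _), Matrix.map_one _ (map_zero _) (map_one _), add_eq_left]
    ext i j : 1
    rw [Matrix.map_apply, Matrix.smul_apply, smul_eq_mul, Matrix.zero_apply,
      Ideal.Quotient.eq_zero_iff_mem, Ideal.mem_span_singleton]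
    exact dvd_mul_of_dvd_left (pow_dvd_pow X hmp) _
  have := hfi
  obtain ⟨k, hk⟩ := IsPGroup.iff_card.1 hP
  rw [Subgroup.index, hk]
  exact hp.pow

lemma homZero_base (p : ℕ) [CharP F p] [Fact p.Prime] (hp : Odd p) [Finite F] {n N m q : ℕ}
    (hn : 1 ≤ n) (hnN : n + n ≤ N) (hm : 1 ≤ m) (hG : GroupAcyclic (congr F n 1) q)
    (e : Fin n ↪ Fin N) : HomZero (iotaC (F := F) m e) q := by
  classical
  have : Nonempty (Fin n) := ⟨⟨0, hn⟩⟩
  obtain ⟨e2⟩ : Nonempty (Fin n ↪ {x : Fin N // x ∉ Set.range e}) := by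
    refine Function.Embedding.nonempty_of_card_le ?_
    rw [Fintype.card_fin, Fintype.card_subtype_compl]
    have : Fintype.card {x : Fin N // x ∈ Set.range e} = n := by
      have h := Set.card_range_of_injective e.injective
      rw [Fintype.card_fin] at h
      convert h using 2
    simp only [Fintype.card_fin] at *
    all_goals omega
  let ee : Fin n ⊕ Fin n ↪ Fin N :=
    ⟨Sum.elim e (fun i => (e2 i : Fin N)), e.injective.sumElim
      (Subtype.val_injective.comp e2.injective) (fun a b h => (e2 b).2 ⟨a, h⟩)⟩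
  have hee : Function.Embedding.inl.trans ee = e := by ext i; rfl
  obtain ⟨hfi, hodd⟩ := odd_index (F := F) (ι := Fin n) p hp m
  have hle := cg_le_cg (F := F) (ι := Fin n) hm
  set K := (cg F (Fin n) m).subgroupOf (cg F (Fin n) 1) with hK
  let φ : K ≃* cg F (Fin n) m := Subgroup.subgroupOfEquivOfLe hle
  have h := homZero_of_transfer (G := cg F (Fin n) 1) K hodd (hG.homZero_to K.subtype)
    ((iotaC (F := F) m e).comp φ.toMonoidHom) (fun x => by
      have hx := (homEq_conj (F := F) p hp m q ee (x : GL (Fin n) F[X])).comp_right φ.toMonoidHom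
      rw [hee] at hx
      convert hx using 2
      ext1 k
      apply congrArg (iotaC (F := F) m e)
      apply Subtype.ext
      rfl)
  have h' := h.comp_right φ.symm.toMonoidHom
  rwa [MonoidHom.comp_assoc, show φ.toMonoidHom.comp φ.symm.toMonoidHom = MonoidHom.id _ by
    ext1 x; exact φ.apply_symm_apply x, MonoidHom.comp_id] at h'

/-! ### The partial basis complex -/

lemma exists_frame {a m : ℕ} (hm : 1 ≤ m) {s : Finset (PBVert F[X] (baseUnits F[X] F) a)}
    (hs : s ∈ PB F[X] (baseUnits F[X] F) a) :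
    ∃ (g : PMat F a) (e : Fin (a - s.card) ↪ Fin a), ∀ σ : cg F (Fin a) m,
      (∀ v ∈ s, pbRho F a m σ v = v) ↔ conjC g⁻¹ σ ∈ colFix m e := by
  classical
  obtain ⟨g, idx, hinj, hrep⟩ := hs
  have hcard : ((s.image idx)ᶜ).card = a - s.card := by
    rw [Finset.card_compl, Fintype.card_fin, Finset.card_image_of_injOn hinj]
  refine ⟨g, (((s.image idx)ᶜ).orderEmbOfFin hcard).toEmbedding, fun σ => ?_⟩
  have hr : ∀ i, i ∉ Set.range (((s.image idx)ᶜ).orderEmbOfFin hcard).toEmbedding ↔
      ∃ v ∈ s, idx v = i := by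
    intro i
    simp [Finset.range_orderEmbOfFin]
  rw [mem_colFix]
  have hcol : ∀ i, (∀ j, ((conjC g⁻¹ σ : cg F (Fin a) m) : GL (Fin a) F[X]) j i
      = (1 : Matrix (Fin a) (Fin a) F[X]) j i) ↔
      (((σ : GL (Fin a) F[X]) : Matrix (Fin a) (Fin a) F[X]).mulVec
        (fun j => (g : Matrix (Fin a) (Fin a) F[X]) j i)
          = fun j => (g : Matrix (Fin a) (Fin a) F[X]) j i) := by
    intro i
    set G := (g : Matrix (Fin a) (Fin a) F[X]) with hG
    set T := ((σ : GL (Fin a) F[X]) : Matrix (Fin a) (Fin a) F[X]) with hT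
    set H := ((g⁻¹ : GL (Fin a) F[X]) : Matrix (Fin a) (Fin a) F[X]) with hH
    have e1 : (((conjC g⁻¹ σ : cg F (Fin a) m) : GL (Fin a) F[X]) : Matrix (Fin a) (Fin a) F[X])
        = H * T * G := by simp [conjC_coe, hG, hT, hH]
    have e2 : (fun j => G j i) = G.mulVec (Pi.single i 1) := by ext j; simp
    have e3 : ∀ M : Matrix (Fin a) (Fin a) F[X], (∀ j, M j i = (1 : Matrix _ _ F[X]) j i) ↔
        M.mulVec (Pi.single i 1) = Pi.single i 1 := fun M => by
      rw [funext_iff]
      refine forall_congr' fun j => ?_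
      simp [Matrix.one_apply, Pi.single_apply]
    rw [e3, e1, e2, Matrix.mulVec_mulVec]
    constructor
    · intro h
      have := congrArg G.mulVec h
      rwa [Matrix.mulVec_mulVec, ← Matrix.mul_assoc, ← Matrix.mul_assoc, hH, hG, Units.mul_inv,
        Matrix.one_mul] at this
    · intro h
      have := congrArg H.mulVec h
      rwa [Matrix.mulVec_mulVec, Matrix.mulVec_mulVec, ← Matrix.mul_assoc, hH, hG, Units.inv_mul,
        Matrix.one_mulVec] at this
  constructor
  · intro hfix i hi
    obtain ⟨v, hv, rfl⟩ := (hr i).1 hi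
    obtain ⟨w, hw, hwe⟩ := hrep v hv
    refine (hcol _).2 ?_
    have := hfix v hv
    rw [hw] at this
    have := (pbRho_fix_iff hm σ w).1 this
    rwa [show w.1 = fun j => (g : Matrix (Fin a) (Fin a) F[X]) j (idx v) from funext hwe] at this
  · intro hfix v hv
    obtain ⟨w, hw, hwe⟩ := hrep v hv
    rw [hw]
    refine (pbRho_fix_iff hm σ w).2 ?_
    rw [show w.1 = fun j => (g : Matrix (Fin a) (Fin a) F[X]) j (idx v) from funext hwe]
    exact (hcol _).1 (hfix _ ((hr _).2 ⟨v, hv, rfl⟩))

lemma thr_add_le (i : ℕ) : ∀ q ≤ i, thr q ≤ thr i := by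
  induction i with
  | zero => intro q hq; rw [Nat.le_zero.1 hq]
  | succ i ih =>
    intro q hq
    rcases Nat.lt_or_ge q (i + 1) with h | h
    · refine (ih q (by omega)).trans ?_
      simp only [thr]
      omega
    · rw [show q = i + 1 by omega]

lemma homZero_step (p : ℕ) [CharP F p] (hp : Odd p) {a b N m q : ℕ} (hq : 1 ≤ q) (hm : 1 ≤ m)
    (hb : b + 1 = a) (hbq : q + 3 ≤ b)
    (hlow : ∀ j, 2 ≤ j → j ≤ q → GroupAcyclic (cg F (Fin (a - j)) m) (q + 1 - j))
    (hprev : ∀ e : Fin b ↪ Fin N, HomZero (iotaC (F := F) m e) q) (e : Fin a ↪ Fin N) :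
    HomZero (iotaC (F := F) m e) q := by
  classical
  refine homZero_of_stab (iotaC m e) (pbRho F a m) (PB F[X] (baseUnits F[X] F) a)
    pb_downClosed pb_empty (fun g s hs => pbRho_inv g hs) (pbRed F a m)
    (fun g v => pbRed_pbAct g.2 v) q (fun s hs _ => pbRed_injOn hm hs)
    (fun s hs t ht hc _ he => by
      obtain ⟨γ, hγ, e'⟩ := exists_congr_image hm hs ht (by omega) he
      exact ⟨⟨γ, hγ⟩, e'⟩)
    (fun j hj => pb_acyclicX (by omega)) (pb_image_acyclic hm _ (by omega)) ?_ ?_
  · intro s hs h2 hsq S hS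
    obtain ⟨g, e', he'⟩ := exists_frame hm hs
    have hc : GroupAcyclic (colFix (F := F) m e') (q + 1 - s.card) :=
      colFix_groupAcyclic p hp e' (hlow _ h2 hsq)
    let φ : S →* colFix (F := F) m e' := ((conjC g⁻¹).comp S.subtype).codRestrict _
      fun σ => (he' σ).1 ((hS σ).1 σ.2)
    let ψ : colFix (F := F) m e' →* S := ((conjC g).comp (colFix (F := F) m e').subtype).codRestrict _
      fun σ => (hS _).2 ((he' _).2 (by
        rw [← MonoidHom.comp_apply, ← MonoidHom.comp_assoc, ← conjC_mul, inv_mul_cancel,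
          conjC_one]
        exact σ.2))
    rw [groupAcyclic_iff_homZero] at hc ⊢
    have : MonoidHom.id S = (ψ.comp (MonoidHom.id _)).comp φ := by
      ext1 σ
      apply Subtype.ext
      show (σ : cg F (Fin a) m) = conjC g (conjC g⁻¹ σ)
      rw [← MonoidHom.comp_apply, ← conjC_mul, mul_inv_cancel, conjC_one, MonoidHom.id_apply]
    rw [this]
    exact (hc.comp_left ψ).comp_right φ
  · intro v hv S hS
    obtain ⟨g, e', he'⟩ := exists_frame hm hv
    let φ : S →* colFix (F := F) m e' := ((conjC g⁻¹).comp S.subtype).codRestrict _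
      fun σ => (he' σ).1 fun w hw => by
        rw [Finset.mem_singleton.1 hw]; exact (hS σ).1 σ.2
    have hfac : (iotaC (F := F) m e).comp S.subtype = (((conjC (iotaG e g)).comp
        (iotaC (F := F) m e)).comp (colFix (F := F) m e').subtype).comp φ := by
      rw [conjC_iotaC]
      ext1 σ
      show iotaC m e σ = iotaC m e (conjC g (conjC g⁻¹ σ))
      rw [← MonoidHom.comp_apply (conjC g), ← conjC_mul, mul_inv_cancel, conjC_one,
        MonoidHom.id_apply]
    rw [hfac]
    refine (HomZero.of_homEq ((colFix_homEq p hp e' q).comp_left _) ?_).comp_right φ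
    show HomZero (((conjC (iotaG e g)).comp ((iotaC m e).comp (iotaC m e'))).comp (colProj m e')) q
    rw [iotaC_trans]
    have h1 : HomZero (iotaC (F := F) m (e'.trans e)) q := by
      have hcard : a - ({v} : Finset _).card = b := by rw [Finset.card_singleton]; omega
      revert e'
      rw [hcard]
      intro e'
      intros
      exact hprev _
    exact (h1.comp_left _).comp_right _

lemma two_le_thr : ∀ i, 2 ≤ thr i
  | 0 => le_rfl
  | i + 1 => by
    have := two_le_thr i
    simp only [thr]
    omega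

/-- The stability statement for one degree. -/
lemma congr_acyclic_deg (p : ℕ) [CharP F p] [Fact p.Prime] (hp : Odd p) [Finite F] :
    ∀ q N, thr q ≤ N →
      (∀ n, n ≤ N → ∀ q', q' ≤ q → q' + 4 ≤ n → GroupAcyclic (congr F n 1) q') →
      ∀ m, 1 ≤ m → GroupAcyclic (congr F N m) q := by
  intro q
  induction q using Nat.strong_induction_on with
  | _ q ih =>
    intro N hN hbase m hm
    rcases Nat.eq_zero_or_pos q with rfl | hq
    · exact BarAction.groupAcyclic_zero _
    set n0 := thr (q - 1) + q + 3 with hn0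
    have hthr : thr q = 2 * n0 := by
      obtain ⟨r, rfl⟩ : ∃ r, q = r + 1 := ⟨q - 1, by omega⟩
      rw [hn0, thr, Nat.add_sub_cancel]
      omega
    have h2 := two_le_thr (q - 1)
    have hmain : ∀ a, n0 ≤ a → a ≤ N → ∀ e : Fin a ↪ Fin N, HomZero (iotaC (F := F) m e) q := by
      intro a ha
      induction a, ha using Nat.le_induction with
      | base =>
        intro _ e
        exact homZero_base p hp (by omega) (by omega) hm
          (hbase n0 (by omega) q le_rfl (by omega)) e
      | succ a ha iha =>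
        intro haN e
        refine homZero_step p hp hq hm rfl (by omega) (fun j h2 hj => ?_) (iha (by omega)) e
        refine ih (q + 1 - j) (by omega) (a + 1 - j) ?_ (fun n hn q' hq' => hbase n (by omega) q'
          (by omega)) m hm
        refine (thr_add_le (q - 1) _ (by omega)).trans ?_
        omega
    rw [groupAcyclic_iff_homZero]
    have h := hmain N (by omega) le_rfl (Function.Embedding.refl (Fin N))
    rw [iotaC_refl] at h
    exact h

end Stab

open Stab in
/-- Homological stability: acyclicity at level one gives acyclicity of all principal congruence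
subgroups in a range. -/
theorem congr_acyclic (i : ℕ) : ∀ (F : Type) [Field F] [Fintype F], Odd (Fintype.card F) →
    ∀ N, thr i ≤ N →
      (∀ n, n ≤ N → ∀ q, q ≤ i → q + 4 ≤ n → GroupAcyclic (congr F n 1) q) →
      ∀ m, 1 ≤ m → ∀ q, q ≤ i → GroupAcyclic (congr F N m) q := by
  intro F _ _ hodd N hN hbase m hm q hq
  obtain ⟨p, hpc⟩ := CharP.exists F
  obtain ⟨n, hp, hc⟩ := FiniteField.card F p
  have := Fact.mk hp
  have hpo : Odd p := by
    rw [hc] at hodd
    exact (Nat.odd_pow_iff n.ne_zero).1 hodd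
  exact congr_acyclic_deg p hpo q N ((thr_add_le i q hq).trans hN)
    (fun n hn q' hq' => hbase n hn q' (by omega)) m hm

end Vale.Agent.P067
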