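import Vale.Agent.P067.XModel
import Vale.Agent.P067.BarAction
import Vale.Agent.P067.LatticeStab

/-!
Acyclicity of the finite quotient complexes from acyclicity of the infinite one and of the
congruence group.
-/

namespace Vale.Agent.P067

variable {F : Type} [Field F] {N m : ℕ}

/-- Congruence subgroups of high level act freely on closed stars. -/
theorem closeFree_of_le [Finite F] [DecidableEq (BVert F N)] (hm : 8 ≤ m) : CloseFree F N m :=
  fun _ hγ _ hv _ _ h1 h2 => close hm hγ hv h1 h2

/-- The finite complex is acyclic where the infinite complex and the group are. -/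
theorem xCh_acyclic [Finite F] [DecidableEq (BVert F N)] [DecidableEq (XVert F N m)]
    (hN : 1 ≤ N) (hc : CloseFree F N m) (k : ℕ) (hk : 1 ≤ k)
    (hY : ∀ j ≤ k, Acyclic (lowCx F N) j) (hG : GroupAcyclic (congr F N m) (k - 1)) :
    Acyclic (facesCx (xCh F N m)) k := by
  rw [facesCx_xCh hN]
  refine acyclic_image_of_free ((actB F N).comp (congr F N m).subtype) (lowCx F N)
    lowCx_downClosed (fun g s hs => image_actB_mem_lowCx _ hs) (projX F N m)
    (fun g v => projX_actB g.2 v) k hk (fun s hs _ => projX_injOn hc hs)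
    (fun s hs t ht _ _ h => ?_) (fun g v hv h => Subtype.ext (free_vertex hc g.2 hv h)) hY hG
  obtain ⟨γ, hγ, he⟩ := projX_lift hc hs ht h
  exact ⟨⟨γ, hγ⟩, he⟩

end Vale.Agent.P067
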