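import Vale.Agent.P067.XExpansion
import Vale.Agent.P067.XAcyclic
import Vale.Agent.P067.BaseAcyclic
import Vale.Agent.P067.Stability
import Vale.Agent.P067.MorseLow
import Vale.Agent.P067.LocalToGlobal
import Vale.Agent.P067.Duality
import Vale.Agent.P067.Skeleton

/-!
Assembly: bounded-degree coboundary expanders in every dimension.
-/

namespace Vale.Agent.P067

open Finset Module

/-- Vanishing of cohomology in degree one gives connectivity of the skeleton. -/
lemma conn_of_cocycle {V : Type*} [DecidableEq V] {C : Finset (Finset V)}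
    (h : ∀ S, S ⊆ faces C 1 → cobd C 1 S = ∅ → ∃ g, g ⊆ faces C 0 ∧ S = cobd C 0 g) :
    Conn C := by
  classical
  intro φ hφ u hu v hv
  have hf : ∀ w ∈ C.biUnion id, ({w} : Finset V) ∈ faces C 1 := by
    intro w hw
    obtain ⟨c, hc, hwc⟩ := Finset.mem_biUnion.1 hw
    exact mem_facesC.2 ⟨⟨c, hc, Finset.singleton_subset_iff.2 hwc⟩, Finset.card_singleton w⟩
  set S := ((C.biUnion id).filter (fun w => φ w = φ u)).image (fun w => ({w} : Finset V)) with hS
  have hmem : ∀ w, ({w} : Finset V) ∈ S ↔ w ∈ C.biUnion id ∧ φ w = φ u := fun w => by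
    rw [hS, Finset.mem_image]
    constructor
    · rintro ⟨x, hx, he⟩
      rw [Finset.singleton_inj] at he
      subst he
      exact Finset.mem_filter.1 hx
    · exact fun hw => ⟨w, Finset.mem_filter.2 hw, rfl⟩
  have hSF : S ⊆ faces C 1 := by
    intro s hs
    rw [hS, Finset.mem_image] at hs
    obtain ⟨w, hw, rfl⟩ := hs
    exact hf w (Finset.mem_filter.1 hw).1
  have hd : cobd C 1 S = ∅ := by
    unfold cobd
    rw [Finset.filter_eq_empty_iff]
    intro e he
    have heU := subset_verts he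
    have hcard : e.card = 2 := (mem_facesC.1 he).2
    obtain ⟨a, b, hab, rfl⟩ := Finset.card_eq_two.1 hcard
    have hea : ({a, b} : Finset V).erase a = {b} := by simp [hab]
    have heb : ({a, b} : Finset V).erase b = {a} := by rw [Finset.pair_comm]; simp [Ne.symm hab]
    have heq : φ a = φ b := hφ {a, b} he a (by simp) b (by simp)
    have haU : a ∈ C.biUnion id := heU (by simp)
    have hbU : b ∈ C.biUnion id := heU (by simp)
    rw [Finset.filter_insert, Finset.filter_singleton, hea, heb]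
    by_cases hb : φ b = φ u
    · rw [if_pos ((hmem b).2 ⟨hbU, hb⟩), if_pos ((hmem a).2 ⟨haU, heq.trans hb⟩),
        Finset.card_pair hab]
      decide
    · rw [if_neg (fun h => hb ((hmem b).1 h).2),
        if_neg (fun h => hb (heq.symm.trans ((hmem a).1 h).2)), Finset.card_empty]
      decide
  obtain ⟨g, -, hg⟩ := h S hSF hd
  have hgne : ∅ ∈ g := by
    have := (hmem u).2 ⟨hu, rfl⟩
    rw [hg] at this
    obtain ⟨-, hodd⟩ := Finset.mem_filter.1 this
    by_contra hg0
    rw [Finset.filter_false_of_mem fun x hx => by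
      rw [Finset.mem_singleton.1 hx, Finset.erase_singleton]; exact hg0] at hodd
    simp at hodd
  have : ({v} : Finset V) ∈ S := by
    rw [hg]
    refine Finset.mem_filter.2 ⟨hf v hv, ?_⟩
    rw [Finset.filter_true_of_mem fun x hx => by
      rw [Finset.mem_singleton.1 hx, Finset.erase_singleton]; exact hgne]
    simp
  exact ((hmem v).1 this).2.symm

/-- Relabel a chamber system by an initial segment of the natural numbers. -/
lemma chambers_fin {V : Type*} [DecidableEq V] {C : Finset (Finset V)} {N D d : ℕ} {ε : ℝ}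
    (hN : 1 ≤ N) (hU : Uniform N C) (hD : ∀ v, (C.filter (fun c => v ∈ c)).card ≤ D)
    (hexp : ∀ k, 1 ≤ k → k ≤ d → ∀ S, S ⊆ faces C k → ∃ h, h ⊆ faces C (k - 1) ∧
      ε * cnorm N C (symmDiff S (cobd C (k - 1) h)) ≤ cnorm N C (cobd C k S)) :
    ∃ C' : Finset (Finset (Fin (C.biUnion id).card)), Uniform N C' ∧
      (∀ v, (C'.filter (fun c => v ∈ c)).card ≤ D ∧ ∃ c ∈ C', v ∈ c) ∧
      ∀ k, 1 ≤ k → k ≤ d → ∀ S, S ⊆ faces C' k → ∃ h, h ⊆ faces C' (k - 1) ∧
        ε * cnorm N C' (symmDiff S (cobd C' (k - 1) h)) ≤ cnorm N C' (cobd C' k S) := by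
  classical
  have hpos : 0 < (C.biUnion id).card := by
    obtain ⟨c, hc⟩ := hU.1
    obtain ⟨v, hv⟩ := Finset.card_pos.1 (by rw [hU.2 c hc]; omega : 0 < c.card)
    exact Finset.card_pos.2 ⟨v, Finset.mem_biUnion.2 ⟨c, hc, hv⟩⟩
  set e := (C.biUnion id).equivFin
  let f : V → Fin (C.biUnion id).card := fun v =>
    if h : v ∈ C.biUnion id then e ⟨v, h⟩ else ⟨0, hpos⟩
  have hf : Set.InjOn f (C.biUnion id : Set V) := by
    intro a ha b hb h
    simp only [f, dif_pos (Finset.mem_coe.1 ha), dif_pos (Finset.mem_coe.1 hb)] at h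
    exact congrArg Subtype.val (e.injective h)
  refine ⟨mapC f C, uniform_mapC hf hU, fun i => ?_, fun k hk1 hkd S hS => ?_⟩
  · obtain ⟨⟨v, hv⟩, rfl⟩ := e.surjective i
    have hfv : f v = e ⟨v, hv⟩ := dif_pos hv
    rw [← hfv]
    refine ⟨le_trans ?_ (hD v), ?_⟩
    · unfold mapC
      rw [Finset.filter_image]
      refine le_trans Finset.card_image_le (Finset.card_le_card fun c hc => ?_)
      obtain ⟨hcC, hvc⟩ := Finset.mem_filter.1 hc
      obtain ⟨w, hw, hwv⟩ := Finset.mem_image.1 hvc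
      exact Finset.mem_filter.2 ⟨hcC, hf (Finset.subset_biUnion_of_mem id hcC hw) hv hwv ▸ hw⟩
    · obtain ⟨c, hc, hvc⟩ := Finset.mem_biUnion.1 hv
      exact ⟨c.image f, Finset.mem_image_of_mem _ hc, Finset.mem_image_of_mem f hvc⟩
  · rw [faces_mapC hf, Finset.subset_image_iff] at hS
    obtain ⟨S', hS', rfl⟩ := hS
    have hS'' := Finset.coe_subset.1 hS'
    obtain ⟨g, hg, hb⟩ := hexp k hk1 hkd S' hS''
    have hSU : ∀ s ∈ S', s ⊆ C.biUnion id := fun s hs => subset_verts (hS'' hs)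
    have hgU : ∀ s ∈ g, s ⊆ C.biUnion id := fun s hs => subset_verts (hg hs)
    have hcU : ∀ (j : ℕ) (T : Finset (Finset V)), ∀ s ∈ cobd C j T, s ⊆ C.biUnion id :=
      fun j T s hs => subset_verts (Finset.filter_subset _ _ hs)
    refine ⟨g.image (Finset.image f), by rw [faces_mapC hf]; exact Finset.image_subset_image hg, ?_⟩
    rw [cobd_mapC hf _ hgU, cobd_mapC hf _ hSU, symmDiff_mapC hf hSU (hcU _ _), cnorm_mapC hf N,
      cnorm_mapC hf N (hcU _ _)]
    · exact hb
    · intro s hs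
      rcases Finset.mem_symmDiff.1 hs with ⟨h1, -⟩ | ⟨h1, -⟩
      exacts [hSU s h1, hcU _ _ s h1]

/-- Bounded-degree coboundary expanders exist in every dimension. -/
theorem bdce_all (d : ℕ) (hd : 1 ≤ d) : BoundedDegreeCoboundaryExpanders d := by
  classical
  set N := thr d + (d + 1) * (d + 1) + d + 8 with hNdef
  obtain ⟨β, qF, hβ, hflag⟩ := flag_linkExp d N (by omega)
  obtain ⟨lam0, hlam0, hexp⟩ := expander_of_links d N β 1 hβ zero_le_one
  choose qY hY using fun j : Fin (d + 1) => lowCx_acyclic N j (by omega)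
  choose qB hB using fun p : Fin (N + 1) × Fin (d + 1) =>
    show ∃ q0 : ℕ, ∀ (F : Type) [Field F] [Fintype F], q0 ≤ Fintype.card F →
        Odd (Fintype.card F) → (p.2 : ℕ) + 4 ≤ p.1 → GroupAcyclic (congr F p.1 1) p.2 from by
      by_cases h : 1 ≤ (p.2 : ℕ) ∧ (p.2 : ℕ) + 4 ≤ p.1
      · obtain ⟨q0, h0⟩ := congr_one_acyclic p.1 p.2 h.1 h.2
        exact ⟨q0, fun F _ _ hq hodd _ => h0 F hq hodd⟩
      · refine ⟨0, fun F _ _ _ _ hh => ?_⟩
        have : (p.2 : ℕ) = 0 := by omega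
        rw [this]
        exact BarAction.groupAcyclic_zero _
  obtain ⟨L, hL⟩ : ∃ L : ℕ, 4 / lam0 ≤ (L : ℝ) := ⟨_, Nat.le_ceil _⟩
  obtain ⟨p, hp, hprime⟩ := Nat.exists_infinite_primes
    (qF + Finset.univ.sup qY + Finset.univ.sup qB + (L + 4 * N) ^ 2 + 7)
  haveI : Fact p.Prime := ⟨hprime⟩
  haveI : Fintype (Submodule (ZMod p) (Fin N → ZMod p)) := Fintype.ofFinite _
  have hcard : Fintype.card (ZMod p) = p := ZMod.card p
  have hodd : Odd (Fintype.card (ZMod p)) := by
    rw [hcard]; exact hprime.odd_of_ne_two (by omega)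
  have hsqrt : ((L : ℝ) + 4 * N) ≤ Real.sqrt (Nat.card (ZMod p)) := by
    rw [Nat.card_eq_fintype_card, hcard]
    refine Real.le_sqrt_of_sq_le ?_
    have : (L + 4 * N) ^ 2 ≤ p := by omega
    exact_mod_cast this
  have hN0 : (0 : ℝ) < N := by exact_mod_cast (show 0 < N by omega)
  have hs0 : (0 : ℝ) < Real.sqrt (Nat.card (ZMod p)) := by
    have : (0 : ℝ) ≤ L := Nat.cast_nonneg L
    linarith
  set lam : ℝ := 2 * (2 / Real.sqrt (Nat.card (ZMod p))) with hlam
  have hsmall : (N : ℝ) * (2 / Real.sqrt (Nat.card (ZMod p))) ≤ 1 / 2 := by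
    rw [← mul_div_assoc, div_le_iff₀ hs0]
    have : (0 : ℝ) ≤ L := Nat.cast_nonneg L
    linarith
  have hlamle : lam ≤ lam0 := by
    rw [hlam, ← mul_div_assoc, div_le_iff₀ hs0]
    have h4 : 4 ≤ lam0 * L := by
      have := (div_le_iff₀ hlam0).1 hL
      linarith
    nlinarith
  set D := 2 ^ Fintype.card (Submodule (ZMod p) (Fin N → ZMod p)) with hD
  obtain ⟨ε, hε, hfinal⟩ := hexp D
  refine bdce_of_chambers d hd ⟨N, D, ε, hε, by omega, fun M => ?_⟩
  obtain ⟨m, hm, T, hT, hTcard, hTne⟩ :=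
    exists_inequiv_vertices (F := ZMod p) (N := N) (by omega) M
  have hc : CloseFree (ZMod p) N m := closeFree_of_le hm
  have hbase : ∀ n, n ≤ N → ∀ q, q ≤ d → q + 4 ≤ n → GroupAcyclic (congr (ZMod p) n 1) q := by
    intro n hn q hq hqn
    refine hB (⟨n, by omega⟩, ⟨q, by omega⟩) (ZMod p) ?_ hodd hqn
    have h1 := Finset.le_sup (f := qB) (Finset.mem_univ (⟨n, by omega⟩, ⟨q, by omega⟩))
    omega
  have hG := congr_acyclic d (ZMod p) hodd N (by omega) hbase m (by omega)
  have hY' : ∀ j, j ≤ d → Acyclic (lowCx (ZMod p) N) j := fun j hj => by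
    refine hY ⟨j, by omega⟩ (ZMod p) ?_
    have h1 := Finset.le_sup (f := qY) (Finset.mem_univ (⟨j, by omega⟩ : Fin (d + 1)))
    omega
  have hcoc : ∀ k, 1 ≤ k → k ≤ d → ∀ S, S ⊆ faces (xCh (ZMod p) N m) k →
      cobd (xCh (ZMod p) N m) k S = ∅ →
      ∃ h, h ⊆ faces (xCh (ZMod p) N m) (k - 1) ∧ S = cobd (xCh (ZMod p) N m) (k - 1) h :=
    fun k hk1 hkd S hS hS0 => cocycle_coboundary _ k hk1
      (xCh_acyclic (by omega) hc k hk1 (fun j hj => hY' j (by omega)) (hG (k - 1) (by omega)))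
      S hS hS0
  have hconn : Conn (xCh (ZMod p) N m) :=
    conn_of_cocycle fun S hS h0 => hcoc 1 le_rfl hd S hS h0
  have hU := uniform_xCh (F := ZMod p) (N := N) (m := m) (by omega) hc
  have hdeg := fun x => xCh_degree (F := ZMod p) (N := N) (m := m) (by omega) hc x
  have hmain := hfinal (XVert (ZMod p) N m) (xCh (ZMod p) N m) hU (by omega)
    (xCh_linkExp (by omega) hc fun S P hP hPc hPd k hk1 hkd =>
      hflag (ZMod p) (by omega) (Fin N → ZMod p) S P (Module.finrank_fin_fun _) hP hPc hPd k hk1 hkd)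
    lam hlamle (xCh_mixing hc (by omega) hsmall hconn (by omega)) hdeg hcoc
  obtain ⟨C', h1, h2, h3⟩ := chambers_fin (by omega) hU hdeg hmain
  refine ⟨_, C', ?_, h1, h2, h3⟩
  rw [← hTcard]
  have hinj : Set.InjOn (projX (ZMod p) N m) (T : Set (BVert (ZMod p) N)) := by
    intro v hv w hw he
    obtain ⟨γ, hγ, hγv⟩ := projX_eq_iff.1 he
    exact hTne v hv w hw γ hγ hγv
  rw [← Finset.card_image_of_injOn hinj]
  refine Finset.card_le_card fun x hx => ?_
  obtain ⟨v, hv, rfl⟩ := Finset.mem_image.1 hx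
  have hvlow : ({v} : Finset (BVert (ZMod p) N)) ∈ lowCx (ZMod p) N :=
    ⟨singleton_mem_bldg v, fun w hw => by rw [Finset.mem_singleton.1 hw]; exact hT hv⟩
  obtain ⟨c, hc1, hc2, hc3⟩ := exists_top_simplex (by omega) hvlow
  exact Finset.mem_biUnion.2 ⟨_, mem_xCh.2 ⟨c, hc1, hc3, rfl⟩,
    Finset.mem_image_of_mem _ (hc2 (Finset.mem_singleton_self v))⟩

end Vale.Agent.P067
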