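import Vale.Agent.P067.FlagLink
import Vale.Agent.P067.ConeExpansion

/-!
Coboundary expansion of the flag complexes with a constant independent of the field.
-/

namespace Vale.Agent.P067

open Finset Module

lemma linkExp_mono {V : Type*} [DecidableEq V] {n k : ℕ} {C : Finset (Finset V)} {β β' : ℝ}
    (hle : β' ≤ β) (h : LinkExp n C k β) : LinkExp n C k β' := by
  intro S hS
  obtain ⟨g, hg, hb⟩ := h S hS
  refine ⟨g, hg, le_trans (mul_le_mul_of_nonneg_right hle ?_) hb⟩
  exact Finset.sum_nonneg fun σ _ => by unfold wt; positivity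

/-- Expansion of all flag complexes of a space of dimension `N` relative to chains with at most
`d` members, in all degrees at most `d`. -/
theorem flag_linkExp (d N : ℕ) (hN : (d + 1) * (d + 1) < N) :
    ∃ (β : ℝ) (q0 : ℕ), 0 < β ∧ ∀ (F : Type) [Field F] [Fintype F], q0 ≤ Fintype.card F →
      ∀ (E : Type) [AddCommGroup E] [Module F E] [FiniteDimensional F E]
        [Fintype (Submodule F E)] (S : Submodule F E) (P : Finset (Submodule F E)),
        finrank F E = N → (∀ V ∈ P, V ∈ genSub S) → IsChainF P → P.card ≤ d →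
        ∀ k, 1 ≤ k → k ≤ d → LinkExp (N - 1 - P.card) (flagCh S P) k β := by
  choose R q hRq using flag_coneData
  choose β hβ hLE using fun n k => linkExp_of_cone n k (R k)
  have hne : ((Finset.range (N + 1)) ×ˢ (Finset.range (d + 1))).Nonempty :=
    ⟨(0, 0), by simp⟩
  refine ⟨((Finset.range (N + 1)) ×ˢ (Finset.range (d + 1))).inf' hne (fun p => β p.1 p.2),
    (Finset.range (d + 1)).sup q, (Finset.lt_inf'_iff hne).2 fun p _ => hβ p.1 p.2, ?_⟩
  intro F _ _ hq E _ _ _ _ S P hfr hP hPc hPd k hk1 hkd
  classical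
  have hqk : q k ≤ Fintype.card F :=
    le_trans (Finset.le_sup (f := q) (Finset.mem_range.2 (by omega))) hq
  refine linkExp_mono (Finset.inf'_le _ (b := (N - 1 - P.card, k))
    (Finset.mem_product.2 ⟨Finset.mem_range.2 (by omega), Finset.mem_range.2 (by omega)⟩)) ?_
  have hbig : (P.card + 1) * (k + 1) < finrank F E := by
    rw [hfr]
    exact lt_of_le_of_lt (Nat.mul_le_mul (by omega) (by omega)) hN
  obtain ⟨c, hc⟩ := hRq k F hqk E S P hP hPc hbig
  have hn : 1 ≤ finrank F E := by omega
  have hU : Uniform (N - 1 - P.card) (flagCh S P) := hfr ▸ uniform_flagCh hP hPc hn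
  have hNd : d + 1 ≤ N - 1 - P.card := by
    have : d + (d + 1) + 1 ≤ N ∨ d = 0 := by
      rcases Nat.eq_zero_or_pos d with h | h
      · exact Or.inr h
      · left
        have : d + d + 1 ≤ (d + 1) * (d + 1) := by nlinarith
        omega
    omega
  have hfin : Finite (E ≃ₗ[F] E) := by
    have : Finite E := Module.finite_of_finite F
    exact Finite.of_injective _ DFunLike.coe_injective
  refine hLE _ k (Submodule F E) (flagCh S P) hU hk1 (by omega) ℕ
    (fun V : Submodule F E => finrank F V) ?_ ?_ (flagSym S P) (flagAct S P)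
    (fun g a ha => flagAct_image_mem g ha) ?_ c ?_
  · intro a ha
    exact (chain_injOn (mem_flagCh.1 ha).1.2.2).mono (Finset.coe_subset.2 Finset.subset_union_left)
  · intro a ha b hb
    rw [flagCh_colours ha, flagCh_colours hb]
  · intro σ hσ τ hτ hd'
    have h : ∀ x, x ∈ faces (flagCh S P) (k + 1) → x ∈ flagCx S P := fun x hx => by
      rw [← facesCx_flagCh hn]; exact (mem_facesC.1 hx).1
    exact flagAct_transitive (h σ hσ) (h τ hτ) hd'
  · rw [facesCx_flagCh hn]
    exact hc

end Vale.Agent.P067
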