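import Vale.Agent.P067.Chambers

/-!
Invariance of the chamber notions under relabelling of the vertices.
-/

namespace Vale.Agent.P067

open Finset

variable {V W : Type*} [DecidableEq V] [DecidableEq W]

/-- Relabelled chambers. -/
def mapC (f : V → W) (C : Finset (Finset V)) : Finset (Finset W) :=
  C.image (Finset.image f)

lemma mem_facesC {C : Finset (Finset V)} {k : ℕ} {σ : Finset V} :
    σ ∈ faces C k ↔ (∃ c ∈ C, σ ⊆ c) ∧ σ.card = k := by
  simp only [faces, Finset.mem_biUnion, Finset.mem_powersetCard]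
  constructor
  · rintro ⟨c, hc, h1, h2⟩; exact ⟨⟨c, hc, h1⟩, h2⟩
  · rintro ⟨⟨c, hc, h1⟩, h2⟩; exact ⟨c, hc, h1, h2⟩

lemma subset_verts {C : Finset (Finset V)} {k : ℕ} {σ : Finset V} (h : σ ∈ faces C k) :
    σ ⊆ C.biUnion id := by
  obtain ⟨⟨c, hc, hs⟩, -⟩ := mem_facesC.1 h
  exact hs.trans (Finset.subset_biUnion_of_mem id hc)

lemma image_subset_image_iff' {f : V → W} {U s t : Finset V} (hf : Set.InjOn f (U : Set V))
    (hs : s ⊆ U) (ht : t ⊆ U) : s.image f ⊆ t.image f ↔ s ⊆ t := by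
  refine ⟨fun h v hv => ?_, Finset.image_subset_image⟩
  obtain ⟨w, hw, hwv⟩ := Finset.mem_image.1 (h (Finset.mem_image_of_mem f hv))
  exact hf (ht hw) (hs hv) hwv ▸ hw

lemma image_injOn_powerset {f : V → W} {U : Finset V} (hf : Set.InjOn f (U : Set V)) :
    Set.InjOn (Finset.image f) {s : Finset V | s ⊆ U} := by
  intro s hs t ht h
  exact Finset.Subset.antisymm ((image_subset_image_iff' hf hs ht).1 h.le)
    ((image_subset_image_iff' hf ht hs).1 h.ge)

lemma card_image_of_subset {f : V → W} {U s : Finset V} (hf : Set.InjOn f (U : Set V))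
    (hs : s ⊆ U) : (s.image f).card = s.card :=
  Finset.card_image_of_injOn (hf.mono (by exact_mod_cast hs))

variable {f : V → W} {C : Finset (Finset V)}

lemma biUnion_mapC : (mapC f C).biUnion id = (C.biUnion id).image f := by
  ext w
  simp only [mapC, Finset.mem_biUnion, Finset.mem_image, id]
  constructor
  · rintro ⟨_, ⟨c, hc, rfl⟩, hw⟩
    obtain ⟨v, hv, rfl⟩ := Finset.mem_image.1 hw
    exact ⟨v, ⟨c, hc, hv⟩, rfl⟩
  · rintro ⟨v, ⟨c, hc, hv⟩, rfl⟩
    exact ⟨_, ⟨c, hc, rfl⟩, Finset.mem_image_of_mem f hv⟩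

lemma faces_mapC (hf : Set.InjOn f (C.biUnion id : Set V)) (k : ℕ) :
    faces (mapC f C) k = (faces C k).image (Finset.image f) := by
  ext σ
  simp only [mem_facesC, mapC, Finset.mem_image]
  constructor
  · rintro ⟨⟨_, ⟨c, hc, rfl⟩, hs⟩, hk⟩
    obtain ⟨s, hsc, rfl⟩ := Finset.subset_image_iff.1 hs
    have hsc' : s ⊆ C.biUnion id :=
      (Finset.coe_subset.1 hsc).trans (Finset.subset_biUnion_of_mem id hc)
    exact ⟨s, ⟨⟨c, hc, Finset.coe_subset.1 hsc⟩, by rw [← hk, card_image_of_subset hf hsc']⟩, rfl⟩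
  · rintro ⟨s, ⟨⟨c, hc, hsc⟩, hk⟩, rfl⟩
    exact ⟨⟨_, ⟨c, hc, rfl⟩, Finset.image_subset_image hsc⟩,
      by rw [card_image_of_subset hf (hsc.trans (Finset.subset_biUnion_of_mem id hc)), hk]⟩

lemma wt_mapC (hf : Set.InjOn f (C.biUnion id : Set V)) (n : ℕ) {σ : Finset V}
    (hσ : σ ⊆ C.biUnion id) : wt n (mapC f C) (σ.image f) = wt n C σ := by
  have hinj : Set.InjOn (Finset.image f) (C : Set (Finset V)) :=
    (image_injOn_powerset hf).mono fun c hc => Finset.subset_biUnion_of_mem id hc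
  have h1 : (mapC f C).filter (fun c => σ.image f ⊆ c) =
      (C.filter (fun c => σ ⊆ c)).image (Finset.image f) := by
    rw [mapC, Finset.filter_image]
    congr 1
    refine Finset.filter_congr fun c hc => ?_
    exact image_subset_image_iff' hf hσ (Finset.subset_biUnion_of_mem id hc)
  unfold wt
  rw [h1, Finset.card_image_of_injOn (hinj.mono (Finset.coe_subset.2 (Finset.filter_subset _ _))),
    card_image_of_subset hf hσ, mapC, Finset.card_image_of_injOn hinj]

lemma cnorm_mapC (hf : Set.InjOn f (C.biUnion id : Set V)) (n : ℕ) {S : Finset (Finset V)}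
    (hS : ∀ s ∈ S, s ⊆ C.biUnion id) :
    cnorm n (mapC f C) (S.image (Finset.image f)) = cnorm n C S := by
  unfold cnorm
  rw [Finset.sum_image ((image_injOn_powerset hf).mono fun s hs => hS s hs)]
  exact Finset.sum_congr rfl fun s hs => wt_mapC hf n (hS s hs)

lemma cobd_mapC (hf : Set.InjOn f (C.biUnion id : Set V)) (k : ℕ) {S : Finset (Finset V)}
    (hS : ∀ s ∈ S, s ⊆ C.biUnion id) :
    cobd (mapC f C) k (S.image (Finset.image f)) = (cobd C k S).image (Finset.image f) := by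
  unfold cobd
  rw [faces_mapC hf, Finset.filter_image]
  congr 1
  refine Finset.filter_congr fun τ hτ => ?_
  have hτU := subset_verts hτ
  rw [Finset.filter_image, Finset.card_image_of_injOn
    (hf.mono ((Finset.coe_subset.2 (Finset.filter_subset _ _)).trans (Finset.coe_subset.2 hτU)))]
  suffices h : ∀ v ∈ τ, ((τ.image f).erase (f v) ∈ S.image (Finset.image f) ↔ τ.erase v ∈ S) by
    rw [Finset.filter_congr h]
  intro v hv
  have he : (τ.image f).erase (f v) = (τ.erase v).image f := by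
    ext w
    simp only [Finset.mem_erase, Finset.mem_image]
    constructor
    · rintro ⟨hne, u, hu, rfl⟩
      exact ⟨u, ⟨fun h => hne (by rw [h]), hu⟩, rfl⟩
    · rintro ⟨u, ⟨hne, hu⟩, rfl⟩
      exact ⟨fun h => hne (hf (hτU hu) (hτU hv) h), u, hu, rfl⟩
  rw [he]
  refine ⟨fun h => ?_, fun h => Finset.mem_image_of_mem _ h⟩
  obtain ⟨s, hs, hse⟩ := Finset.mem_image.1 h
  exact image_injOn_powerset hf (hS s hs) ((Finset.erase_subset v τ).trans hτU) hse ▸ hs

lemma symmDiff_mapC (hf : Set.InjOn f (C.biUnion id : Set V)) {S T : Finset (Finset V)}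
    (hS : ∀ s ∈ S, s ⊆ C.biUnion id) (hT : ∀ s ∈ T, s ⊆ C.biUnion id) :
    symmDiff (S.image (Finset.image f)) (T.image (Finset.image f)) =
      (symmDiff S T).image (Finset.image f) := by
  have key : ∀ a ∈ S ∪ T, ∀ b ∈ S ∪ T, a.image f = b.image f → a = b := by
    intro a ha b hb h
    refine image_injOn_powerset hf ?_ ?_ h
    · rcases Finset.mem_union.1 ha with h' | h'
      exacts [hS a h', hT a h']
    · rcases Finset.mem_union.1 hb with h' | h'
      exacts [hS b h', hT b h']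
  ext x
  simp only [Finset.mem_symmDiff, Finset.mem_image]
  constructor
  · rintro (⟨⟨a, ha, rfl⟩, hn⟩ | ⟨⟨a, ha, rfl⟩, hn⟩)
    · exact ⟨a, Or.inl ⟨ha, fun h => hn ⟨a, h, rfl⟩⟩, rfl⟩
    · exact ⟨a, Or.inr ⟨ha, fun h => hn ⟨a, h, rfl⟩⟩, rfl⟩
  · rintro ⟨a, ⟨ha, hn⟩ | ⟨ha, hn⟩, rfl⟩
    · refine Or.inl ⟨⟨a, ha, rfl⟩, ?_⟩
      rintro ⟨b, hb, hbe⟩
      exact hn (key b (Finset.mem_union_right _ hb) a (Finset.mem_union_left _ ha) hbe ▸ hb)
    · refine Or.inr ⟨⟨a, ha, rfl⟩, ?_⟩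
      rintro ⟨b, hb, hbe⟩
      exact hn (key b (Finset.mem_union_left _ hb) a (Finset.mem_union_right _ ha) hbe ▸ hb)

lemma linkExp_mapC (hf : Set.InjOn f (C.biUnion id : Set V)) {n k : ℕ} {β : ℝ}
    (h : LinkExp n C k β) : LinkExp n (mapC f C) k β := by
  intro S hS
  rw [faces_mapC hf, Finset.subset_image_iff] at hS
  obtain ⟨S', hS', rfl⟩ := hS
  have hS'' := Finset.coe_subset.1 hS'
  obtain ⟨g, hg, hb⟩ := h S' hS''
  have hSU : ∀ s ∈ S', s ⊆ C.biUnion id := fun s hs => subset_verts (hS'' hs)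
  have hgU : ∀ s ∈ g, s ⊆ C.biUnion id := fun s hs => subset_verts (hg hs)
  have hcU : ∀ (j : ℕ) (T : Finset (Finset V)), ∀ s ∈ cobd C j T, s ⊆ C.biUnion id :=
    fun j T s hs => subset_verts (Finset.filter_subset _ _ hs)
  refine ⟨g.image (Finset.image f), ?_, ?_⟩
  · rw [faces_mapC hf]; exact Finset.image_subset_image hg
  · rw [cobd_mapC hf _ hgU, cobd_mapC hf _ hSU, symmDiff_mapC hf hSU (hcU _ _), cnorm_mapC hf n,
      cnorm_mapC hf n (hcU _ _)]
    · exact hb
    · intro s hs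
      rcases Finset.mem_symmDiff.1 hs with ⟨h1, -⟩ | ⟨h1, -⟩
      exacts [hSU s h1, hcU _ _ s h1]

lemma gapLe_mapC (hf : Set.InjOn f (C.biUnion id : Set V)) {n : ℕ} {lam : ℝ}
    (h : GapLe n C lam) : GapLe n (mapC f C) lam := by
  intro φ hφ
  have hsub : ∀ v ∈ C.biUnion id, ({v} : Finset V) ⊆ C.biUnion id :=
    fun v hv => Finset.singleton_subset_iff.2 hv
  have hwv : ∀ v ∈ C.biUnion id, wt n (mapC f C) {f v} = wt n C {v} := fun v hv => by
    rw [← wt_mapC hf n (hsub v hv), Finset.image_singleton]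
  rw [biUnion_mapC, Finset.sum_image hf, Finset.sum_congr rfl fun v hv => show wt n (mapC f C) {f v} * φ (f v) = wt n C {v} * φ (f v) by rw [hwv v hv]] at hφ
  have := h (fun v => φ (f v)) hφ
  rw [biUnion_mapC, Finset.sum_image hf, Finset.sum_congr rfl fun v hv => show wt n (mapC f C) {f v} * φ (f v) ^ 2 = wt n C {v} * φ (f v) ^ 2 by rw [hwv v hv],
    faces_mapC hf, Finset.sum_image ((image_injOn_powerset hf).mono fun s hs => subset_verts hs)]
  refine le_trans (le_of_eq (Finset.sum_congr rfl fun e he => ?_)) this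
  rw [wt_mapC hf n (subset_verts he), Finset.prod_image (hf.mono (Finset.coe_subset.2 (subset_verts he)))]

lemma conn_mapC (hf : Set.InjOn f (C.biUnion id : Set V)) (h : Conn C) : Conn (mapC f C) := by
  intro φ hφ u hu v hv
  rw [biUnion_mapC, Finset.mem_image] at hu hv
  obtain ⟨a, ha, rfl⟩ := hu
  obtain ⟨b, hb, rfl⟩ := hv
  refine h (fun x => φ (f x)) (fun e he x hx y hy => ?_) a ha b hb
  refine hφ (e.image f) ?_ _ (Finset.mem_image_of_mem f hx) _ (Finset.mem_image_of_mem f hy)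
  rw [faces_mapC hf]
  exact Finset.mem_image_of_mem _ he

lemma uniform_mapC (hf : Set.InjOn f (C.biUnion id : Set V)) {n : ℕ} (h : Uniform n C) :
    Uniform n (mapC f C) := by
  refine ⟨h.1.image _, fun c' hc' => ?_⟩
  obtain ⟨c, hc, rfl⟩ := Finset.mem_image.1 hc'
  rw [card_image_of_subset hf (s := c) (Finset.subset_biUnion_of_mem id hc)]; exact h.2 c hc

end Vale.Agent.P067
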