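import Vale.Agent.P067.FlagModel
import Vale.Agent.P067.Transport
import Vale.Agent.P067.CoreMap

/-!
Chambers of the flag complexes, intervals cut out by a chain, and the join decomposition.
-/

namespace Vale.Agent.P067

open Finset Module

variable {F : Type*} [Field F] {E : Type*} [AddCommGroup E] [Module F E] [FiniteDimensional F E]
  [Fintype (Submodule F E)]

open Classical in
/-- Maximal chains, with the members of `P` removed. -/
noncomputable def flagCh (S : Submodule F E) (P : Finset (Submodule F E)) :
    Finset (Finset (Submodule F E)) :=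
  Finset.univ.filter (fun s => s ∈ flagCx S P ∧ s.card + P.card + 1 = finrank F E)

omit [Fintype (Submodule F E)] in
lemma flagCx_empty_mem {S : Submodule F E} {P : Finset (Submodule F E)}
    (hP : ∀ V ∈ P, V ∈ genSub S) (hPc : IsChainF P) : ∅ ∈ flagCx S P := by
  classical
  refine ⟨Finset.disjoint_empty_left P, ?_, ?_⟩ <;> simp only [Finset.empty_union]
  exacts [hP, hPc]

omit [Fintype (Submodule F E)] in
lemma chain_card_le {S : Submodule F E} {t : Finset (Submodule F E)}
    (hg : ∀ V ∈ t, V ∈ genSub S) (hc : IsChainF t) :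
    t.card + 1 ≤ finrank F E ∨ t = ∅ := by
  rcases t.eq_empty_or_nonempty with h | ⟨V, hV⟩
  · exact Or.inr h
  · left
    have h1 : t.card ≤ (Finset.Ioo 0 (finrank F E)).card := by
      refine Finset.card_le_card_of_injOn (fun V : Submodule F E => finrank F V)
        (fun W hW => Finset.mem_Ioo.2 (genSub_finrank (hg W hW))) (chain_injOn hc)
    rw [Nat.card_Ioo] at h1
    have := genSub_finrank (hg V hV)
    omega

omit [Fintype (Submodule F E)] in
/-- A general position chain is full iff it has every dimension. -/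
lemma chain_card_eq_of_dims {S : Submodule F E} {t : Finset (Submodule F E)}
    (hg : ∀ V ∈ t, V ∈ genSub S) (hc : IsChainF t)
    (hd : ∀ j, 0 < j → j < finrank F E → ∃ V ∈ t, finrank F (V : Submodule F E) = j) :
    t.card = finrank F E - 1 := by
  classical
  have : t.image (fun V : Submodule F E => finrank F V) = Finset.Ioo 0 (finrank F E) := by
    ext j
    rw [Finset.mem_image, Finset.mem_Ioo]
    constructor
    · rintro ⟨V, hV, rfl⟩; exact genSub_finrank (hg V hV)
    · rintro ⟨h1, h2⟩; exact hd j h1 h2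
  rw [← Finset.card_image_of_injOn (chain_injOn hc), this, Nat.card_Ioo]
  omega

lemma mem_flagCh {S : Submodule F E} {P s : Finset (Submodule F E)} :
    s ∈ flagCh S P ↔ s ∈ flagCx S P ∧ s.card + P.card + 1 = finrank F E := by
  simp [flagCh]

/-- The faces of the chambers are exactly the chains. -/
lemma facesCx_flagCh {S : Submodule F E} {P : Finset (Submodule F E)} (hn : 1 ≤ finrank F E) :
    facesCx (flagCh S P) = flagCx S P := by
  ext s
  constructor
  · rintro ⟨c, hc, hs⟩
    exact flagCx_downClosed S P c (mem_flagCh.1 hc).1 s hs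
  · intro hs
    obtain ⟨c, hsc, hcg, hcc, hcd⟩ := exists_full (t := s ∪ P) hs.2.1 hs.2.2
    have hcard := chain_card_eq_of_dims hcg hcc hcd
    have hPc : P ⊆ c := Finset.subset_union_right.trans hsc
    refine ⟨c \ P, mem_flagCh.2 ⟨⟨Finset.sdiff_disjoint, ?_, ?_⟩, ?_⟩, ?_⟩
    · rw [Finset.sdiff_union_of_subset hPc]; exact hcg
    · rw [Finset.sdiff_union_of_subset hPc]; exact hcc
    · rw [Finset.card_sdiff_of_subset hPc]
      have := Finset.card_le_card hPc
      omega
    · exact fun V hV => Finset.mem_sdiff.2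
        ⟨hsc (Finset.mem_union_left _ hV), Finset.disjoint_left.1 hs.1 hV⟩

lemma uniform_flagCh {S : Submodule F E} {P : Finset (Submodule F E)}
    (hP : ∀ V ∈ P, V ∈ genSub S) (hPc : IsChainF P) (hn : 1 ≤ finrank F E) :
    Uniform (finrank F E - 1 - P.card) (flagCh S P) := by
  refine ⟨?_, fun c hc => ?_⟩
  · have : (∅ : Finset (Submodule F E)) ∈ facesCx (flagCh S P) := by
      rw [facesCx_flagCh hn]; exact flagCx_empty_mem hP hPc
    obtain ⟨c, hc, -⟩ := this
    exact ⟨c, hc⟩
  · have := (mem_flagCh.1 hc).2; omega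

lemma flagCh_colours {S : Submodule F E} {P c : Finset (Submodule F E)} (hc : c ∈ flagCh S P) :
    c.image (fun V : Submodule F E => finrank F V) =
      Finset.Ioo 0 (finrank F E) \ P.image (fun V : Submodule F E => finrank F V) := by
  obtain ⟨⟨hdis, hg, hch⟩, hcard⟩ := mem_flagCh.1 hc
  have hinj := chain_injOn hch
  have hall : (c ∪ P).image (fun V : Submodule F E => finrank F V) =
      Finset.Ioo 0 (finrank F E) := by
    refine Finset.eq_of_subset_of_card_le (fun j hj => ?_) ?_
    · obtain ⟨V, hV, rfl⟩ := Finset.mem_image.1 hj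
      exact Finset.mem_Ioo.2 (genSub_finrank (hg V hV))
    · rw [Finset.card_image_of_injOn hinj, Finset.card_union_of_disjoint hdis, Nat.card_Ioo]
      omega
  rw [← hall, Finset.image_union, Finset.union_sdiff_right, Finset.sdiff_eq_self_of_disjoint]
  rw [Finset.disjoint_left]
  intro j hj hj'
  obtain ⟨V, hV, rfl⟩ := Finset.mem_image.1 hj
  obtain ⟨W, hW, hd⟩ := Finset.mem_image.1 hj'
  have := hinj (Finset.mem_coe.2 (Finset.mem_union_right _ hW))
    (Finset.mem_coe.2 (Finset.mem_union_left _ hV)) hd
  exact Finset.disjoint_left.1 hdis hV (this ▸ hW)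

/-- Consecutive members of `P ∪ {⊥, ⊤}`. -/
def IsGap (P : Finset (Submodule F E)) (A W : Submodule F E) : Prop :=
  (A ∈ P ∨ A = ⊥) ∧ (W ∈ P ∨ W = ⊤) ∧ A < W ∧ ∀ U ∈ P, U ≤ A ∨ W ≤ U

omit [Fintype (Submodule F E)] in
lemma isGap_genPos {S : Submodule F E} {P : Finset (Submodule F E)} {A W : Submodule F E}
    (hP : ∀ V ∈ P, V ∈ genSub S) (h : IsGap P A W) : GenPos F S A ∧ GenPos F S W :=
  ⟨h.1.elim (fun hh => (hP A hh).2.2) (fun hh => hh ▸ genPos_bot S),
    h.2.1.elim (fun hh => (hP W hh).2.2) (fun hh => hh ▸ genPos_top S)⟩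

omit [Fintype (Submodule F E)] in
/-- Pigeonhole: some gap is large. -/
lemma exists_large_gap {P : Finset (Submodule F E)} (hPc : IsChainF P) (g : ℕ)
    (hbig : (P.card + 1) * g < finrank F E) :
    ∃ A W, IsGap P A W ∧ finrank F A + g + 1 ≤ finrank F W := by
  classical
  by_contra hne
  push Not at hne
  -- every member has dimension at most `g` times its rank in the chain
  suffices key : ∀ d, ∀ W : Submodule F E, finrank F W = d → (W ∈ P ∨ W = ⊤) →
      d ≤ ((P.filter (fun U => U < W)).card + 1) * g by
    have h1 := key _ ⊤ rfl (Or.inr rfl)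
    rw [finrank_top] at h1
    have : ((P.filter (fun U => U < (⊤ : Submodule F E))).card + 1) * g ≤ (P.card + 1) * g :=
      Nat.mul_le_mul_right _ (Nat.succ_le_succ (Finset.card_filter_le _ _))
    omega
  intro d
  induction d using Nat.strong_induction_on with
  | _ d ih =>
    intro W hWd hW
    by_cases hW0 : W = ⊥
    · rw [← hWd, hW0, finrank_bot]; exact Nat.zero_le _
    rcases (P.filter (fun U => U < W)).eq_empty_or_nonempty with he | hne'
    · have hgap : IsGap P ⊥ W := ⟨Or.inr rfl, hW, bot_lt_iff_ne_bot.2 hW0, fun U hU => Or.inr ?_⟩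
      · have := hne ⊥ W hgap
        rw [finrank_bot] at this
        rw [he, Finset.card_empty]; omega
      · rcases hW with hW | hW
        · rcases hPc W hW U hU with h | h
          · exact h
          · rcases eq_or_lt_of_le h with h' | h'
            · exact h'.ge
            · exact absurd h' (Finset.filter_eq_empty_iff.1 he hU)
        · rcases eq_or_lt_of_le (show U ≤ W from hW ▸ le_top) with h' | h'
          · exact h'.ge
          · exact absurd h' (Finset.filter_eq_empty_iff.1 he hU)
    · obtain ⟨A, hA, hmax⟩ := Finset.exists_max_image _ (fun U : Submodule F E => finrank F U) hne'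
      obtain ⟨hAP, hAW⟩ := Finset.mem_filter.1 hA
      have hcompW : ∀ U ∈ P, U ≤ W ∨ W ≤ U := fun U hU =>
        hW.elim (fun h => hPc U hU W h) (fun h => Or.inl (h ▸ le_top))
      have hgap : IsGap P A W := by
        refine ⟨Or.inl hAP, hW, hAW, fun U hU => ?_⟩
        rcases hcompW U hU with h | h
        · rcases eq_or_lt_of_le h with h' | h'
          · exact Or.inr h'.ge
          · rcases hPc U hU A hAP with h'' | h''
            · exact Or.inl h''
            · exact Or.inl (Submodule.eq_of_le_of_finrank_le h''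
                (hmax U (Finset.mem_filter.2 ⟨hU, h'⟩))).ge
        · exact Or.inr h
      have h1 := hne A W hgap
      have h2 := ih (finrank F A) (hWd ▸ Submodule.finrank_lt_finrank_of_lt hAW) A rfl (Or.inl hAP)
      have h3 : (P.filter (fun U => U < A)).card + 1 ≤ (P.filter (fun U => U < W)).card := by
        rw [← Finset.card_insert_of_notMem
          (show A ∉ P.filter (fun U => U < A) from fun h => lt_irrefl _ (Finset.mem_filter.1 h).2)]
        refine Finset.card_le_card fun U hU => ?_
        rcases Finset.mem_insert.1 hU with h | h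
        · rw [h]; exact hA
        · exact Finset.mem_filter.2
            ⟨(Finset.mem_filter.1 h).1, (Finset.mem_filter.1 h).2.trans hAW⟩
      have h4 : ((P.filter (fun U => U < A)).card + 1) * g ≤
          (P.filter (fun U => U < W)).card * g := Nat.mul_le_mul_right _ h3
      rw [Nat.add_one_mul ((P.filter (fun U => U < W)).card)]
      omega

omit [Fintype (Submodule F E)] in
/-- Every member of a chain compatible with `P` and not in it lies inside some gap. -/
lemma exists_gap_of_mem {S : Submodule F E} {P : Finset (Submodule F E)} {V : Submodule F E}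
    (hPc : IsChainF P) (hV : {V} ∈ flagCx S P) :
    ∃ A W, IsGap P A W ∧ A < V ∧ V < W := by
  classical
  obtain ⟨hd, hg, hc⟩ := hV
  have hVP : V ∉ P := Finset.disjoint_left.1 hd (Finset.mem_singleton_self V)
  have hVg := hg V (Finset.mem_union_left _ (Finset.mem_singleton_self V))
  have hcomp : ∀ U ∈ P, U ≤ V ∨ V ≤ U := fun U hU =>
    hc U (Finset.mem_union_right _ hU) V (Finset.mem_union_left _ (Finset.mem_singleton_self V))
  obtain ⟨A, hA, hAmax⟩ := Finset.exists_max_image (insert ⊥ (P.filter (fun U => U < V)))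
    (fun U : Submodule F E => finrank F U) (Finset.insert_nonempty _ _)
  obtain ⟨W, hW, hWmin⟩ := Finset.exists_min_image (insert ⊤ (P.filter (fun U => V < U)))
    (fun U : Submodule F E => finrank F U) (Finset.insert_nonempty _ _)
  have hAV : A < V := (Finset.mem_insert.1 hA).elim
    (fun h => h ▸ bot_lt_iff_ne_bot.2 hVg.1) (fun h => (Finset.mem_filter.1 h).2)
  have hVW : V < W := (Finset.mem_insert.1 hW).elim
    (fun h => h ▸ lt_top_iff_ne_top.2 hVg.2.1) (fun h => (Finset.mem_filter.1 h).2)
  refine ⟨A, W, ⟨?_, ?_, hAV.trans hVW, fun U hU => ?_⟩, hAV, hVW⟩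
  · exact (Finset.mem_insert.1 hA).elim Or.inr (fun h => Or.inl (Finset.mem_filter.1 h).1)
  · exact (Finset.mem_insert.1 hW).elim Or.inr (fun h => Or.inl (Finset.mem_filter.1 h).1)
  · rcases hcomp U hU with h | h
    · left
      have hlt : U < V := lt_of_le_of_ne h fun e => hVP (e ▸ hU)
      have hmem : U ∈ insert ⊥ (P.filter (fun U => U < V)) :=
        Finset.mem_insert_of_mem (Finset.mem_filter.2 ⟨hU, hlt⟩)
      rcases Finset.mem_insert.1 hA with hA' | hA'
      · have := hAmax U hmem
        rw [hA', finrank_bot, Nat.le_zero, Submodule.finrank_eq_zero] at this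
        exact this ▸ bot_le
      · rcases hPc U hU A (Finset.mem_filter.1 hA').1 with h' | h'
        · exact h'
        · exact (Submodule.eq_of_le_of_finrank_le h' (hAmax U hmem)).ge
    · right
      have hlt : V < U := lt_of_le_of_ne h fun e => hVP (e ▸ hU)
      have hmem : U ∈ insert ⊤ (P.filter (fun U => V < U)) :=
        Finset.mem_insert_of_mem (Finset.mem_filter.2 ⟨hU, hlt⟩)
      rcases Finset.mem_insert.1 hW with hW' | hW'
      · have := hWmin U hmem
        rw [hW', finrank_top] at this
        exact absurd (Submodule.eq_top_of_finrank_eq (le_antisymm (Submodule.finrank_le U) this))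
          (hg U (Finset.mem_union_right _ hU)).2.1
      · rcases hPc W (Finset.mem_filter.1 hW').1 U hU with h' | h'
        · exact h'
        · exact (Submodule.eq_of_le_of_finrank_le h' (hWmin U hmem)).ge

omit [Fintype (Submodule F E)] in
/-- A general position subspace inside a gap is a vertex, comparable to everything outside it. -/
lemma gap_vertex {S : Submodule F E} {P : Finset (Submodule F E)} {A W : Submodule F E}
    (hP : ∀ V ∈ P, V ∈ genSub S) (hPc : IsChainF P) (hgap : IsGap P A W) {V : Submodule F E}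
    (h1 : A < V) (h2 : V < W) (hVg : GenPos F S V) :
    V ∉ P ∧ V ∈ genSub S ∧ (∀ U ∈ P, U ≤ V ∨ V ≤ U) ∧
      ∀ U, {U} ∈ flagCx S P → ¬(A < U ∧ U < W) → U ≤ V ∨ V ≤ U := by
  classical
  have hVP : V ∉ P := fun h => (hgap.2.2.2 V h).elim
    (fun h' => absurd (lt_of_lt_of_le h1 h') (lt_irrefl _))
    (fun h' => absurd (lt_of_lt_of_le h2 h') (lt_irrefl _))
  have hcP : ∀ U ∈ P, U ≤ V ∨ V ≤ U := fun U hU => (hgap.2.2.2 U hU).elim
    (fun h' => Or.inl (h'.trans h1.le)) (fun h' => Or.inr (h2.le.trans h'))
  refine ⟨hVP, ⟨?_, ?_, hVg⟩, hcP, ?_⟩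
  · exact fun h => not_lt_bot (h ▸ h1)
  · exact fun h => not_top_lt (h ▸ h2)
  intro U hU hout
  obtain ⟨hd, hg, hc⟩ := hU
  have hUP : U ∉ P := Finset.disjoint_left.1 hd (Finset.mem_singleton_self U)
  have hcU : ∀ X, (X ∈ P ∨ X = ⊥ ∨ X = ⊤) → U ≤ X ∨ X ≤ U := by
    rintro X (hX | rfl | rfl)
    · exact hc U (Finset.mem_union_left _ (Finset.mem_singleton_self U)) X
        (Finset.mem_union_right _ hX)
    · exact Or.inr bot_le
    · exact Or.inl le_top
  rcases hcU A (hgap.1.imp_right Or.inl) with h | h
  · exact Or.inl (h.trans h1.le)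
  rcases hcU W (hgap.2.1.imp_right Or.inr) with h' | h'
  · rcases eq_or_lt_of_le h with e | hlt
    · exact Or.inl (e ▸ h1.le)
    rcases eq_or_lt_of_le h' with e' | hlt'
    · exact Or.inr (e' ▸ h2.le)
    exact absurd ⟨hlt, hlt'⟩ hout
  · exact Or.inr (h2.le.trans h')

end Vale.Agent.P067
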