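import Vale.Agent.P067.FlagInterval
import Vale.Agent.P067.Fill

/-!
Bounded cone data, connectivity and transitive symmetry of the flag complexes.
-/

namespace Vale.Agent.P067

open Finset Module

/-- Cone data of bounded size on the flag complexes, uniformly in the field. -/
theorem flag_coneData (k : ℕ) :
    ∃ R q0 : ℕ, ∀ (F : Type) [Field F] [Fintype F], q0 ≤ Fintype.card F →
      ∀ (E : Type) [AddCommGroup E] [Module F E] [FiniteDimensional F E]
        (S : Submodule F E) (P : Finset (Submodule F E)), (∀ V ∈ P, V ∈ genSub S) → IsChainF P →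
        (P.card + 1) * (k + 1) < finrank F E →
        ∃ c, ConeData (flagCx S P) k R c := by
  obtain ⟨R, q0, h⟩ := cone_join k 1
  refine ⟨R, q0, fun F _ _ hq E _ _ _ S P hP hPc hbig => ?_⟩
  classical
  obtain ⟨A, W, hgap, hd⟩ := exists_large_gap hPc (k + 1) hbig
  obtain ⟨hAg, hWg⟩ := isGap_genPos hP hgap
  set Q : Set (Submodule F E) := {V | A < V ∧ V < W ∧ GenPos F S V} with hQ
  have hgood : Good Q A W 1 := genPos_good S A W hgap.2.2.1.le hAg hWg
  set KJ : Set (Finset (Submodule F E)) :=
    {s | s ∈ flagCx S P ∧ ∀ U ∈ s, ¬(A < U ∧ U < W)} with hKJ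
  have hKJd : DownClosed KJ := fun s hs t ht =>
    ⟨flagCx_downClosed S P s hs.1 t ht, fun U hU => hs.2 U (ht hU)⟩
  have hKJ0 : (∅ : Finset (Submodule F E)) ∈ KJ :=
    ⟨flagCx_empty_mem hP hPc, fun U hU => absurd hU (Finset.notMem_empty U)⟩
  obtain ⟨c, hc⟩ := h F hq E Q A W hgood (by omega) (Submodule F E) KJ hKJd hKJ0
  refine ⟨_, ConeData.map (K := joinCx Q KJ) (f := Sum.elim id id)
    (g := fun V => if A < V ∧ V < W then Sum.inl V else Sum.inr V) ?_ ?_ ?_ ?_ hc⟩
  · -- injectivity
    intro s hs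
    have hr : ∀ U, Sum.inr U ∈ s → ¬(A < U ∧ U < W) := fun U hU =>
      hs.2.2.2 U (Finset.mem_toRight.2 hU)
    rintro (a | a) ha (b | b) hb hab <;> simp only [Sum.elim_inl, Sum.elim_inr, id] at hab
    · rw [hab]
    · exact absurd (hab ▸ (⟨(hs.1 a ha).1, (hs.1 a ha).2.1⟩ : A < a ∧ a < W)) (hr b hb)
    · exact absurd (hab ▸ (⟨(hs.1 b hb).1, (hs.1 b hb).2.1⟩ : A < b ∧ b < W)) (hr a ha)
    · rw [hab]
  · -- images are chains
    intro s hs
    have hmem : ∀ U ∈ s.image (Sum.elim id id : Submodule F E ⊕ Submodule F E → Submodule F E),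
        (U ∈ Q ∧ Sum.inl U ∈ s) ∨ U ∈ s.toRight := by
      intro U hU
      obtain ⟨x, hx, hxU⟩ := Finset.mem_image.1 hU
      rcases x with a | a <;> simp only [Sum.elim_inl, Sum.elim_inr, id] at hxU <;> subst hxU
      · exact Or.inl ⟨hs.1 a hx, hx⟩
      · exact Or.inr (Finset.mem_toRight.2 hx)
    have hvert : ∀ U ∈ s.toRight, ({U} : Finset (Submodule F E)) ∈ flagCx S P := fun U hU =>
      flagCx_downClosed S P _ hs.2.2.1 _ (Finset.singleton_subset_iff.2 hU)
    refine ⟨Finset.disjoint_left.2 fun U hU hUP => ?_, fun U hU => ?_, fun U hU V hV => ?_⟩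
    · rcases hmem U hU with ⟨hq', -⟩ | hr
      · exact (gap_vertex hP hPc hgap hq'.1 hq'.2.1 hq'.2.2).1 hUP
      · exact Finset.disjoint_left.1 hs.2.2.1.1 hr hUP
    · rcases Finset.mem_union.1 hU with hU | hU
      · rcases hmem U hU with ⟨hq', -⟩ | hr
        · exact (gap_vertex hP hPc hgap hq'.1 hq'.2.1 hq'.2.2).2.1
        · exact hs.2.2.1.2.1 U (Finset.mem_union_left _ hr)
      · exact hP U hU
    · have key : ∀ U ∈ s.image (Sum.elim id id : Submodule F E ⊕ Submodule F E → Submodule F E),
          ∀ X ∈ P, U ≤ X ∨ X ≤ U := by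
        intro U hU X hX
        rcases hmem U hU with ⟨hq', -⟩ | hr
        · exact ((gap_vertex hP hPc hgap hq'.1 hq'.2.1 hq'.2.2).2.2.1 X hX).symm
        · exact hs.2.2.1.2.2 U (Finset.mem_union_left _ hr) X (Finset.mem_union_right _ hX)
      rcases Finset.mem_union.1 hU with hU | hU <;> rcases Finset.mem_union.1 hV with hV | hV
      · rcases hmem U hU with ⟨hqU, hlU⟩ | hrU <;> rcases hmem V hV with ⟨hqV, hlV⟩ | hrV
        · exact hs.2.1 U V hlU hlV
        · exact ((gap_vertex hP hPc hgap hqU.1 hqU.2.1 hqU.2.2).2.2.2 V (hvert V hrV)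
            (hs.2.2.2 V hrV)).symm
        · exact (gap_vertex hP hPc hgap hqV.1 hqV.2.1 hqV.2.2).2.2.2 U (hvert U hrU)
            (hs.2.2.2 U hrU)
        · exact hs.2.2.1.2.2 U (Finset.mem_union_left _ hrU) V (Finset.mem_union_left _ hrV)
      · exact key U hU V hV
      · exact (key V hV U hU).symm
      · exact hPc U hU V hV
  · -- preimages
    intro t ht
    have hinv : ∀ V, Sum.inl V ∈ t.image
        (fun V : Submodule F E => if A < V ∧ V < W then Sum.inl V else Sum.inr V) →
        V ∈ t ∧ A < V ∧ V < W := by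
      intro V hV
      obtain ⟨U, hU, hUV⟩ := Finset.mem_image.1 hV
      by_cases h' : A < U ∧ U < W
      · rw [if_pos h'] at hUV; cases hUV; exact ⟨hU, h'⟩
      · rw [if_neg h'] at hUV; cases hUV
    refine ⟨fun V hV => ?_, fun V X hV hX => ?_, ?_, ?_⟩
    · obtain ⟨hVt, h1, h2⟩ := hinv V hV
      exact ⟨h1, h2, (ht.2.1 V (Finset.mem_union_left _ hVt)).2.2⟩
    · exact ht.2.2 V (Finset.mem_union_left _ (hinv V hV).1) X
        (Finset.mem_union_left _ (hinv X hX).1)
    · refine flagCx_downClosed S P t ht _ fun U hU => ?_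
      obtain ⟨X, hX, hXU⟩ := Finset.mem_image.1 (Finset.mem_toRight.1 hU)
      by_cases h' : A < X ∧ X < W
      · rw [if_pos h'] at hXU; cases hXU
      · rw [if_neg h'] at hXU; cases hXU; exact hX
    · intro U hU
      obtain ⟨X, hX, hXU⟩ := Finset.mem_image.1 (Finset.mem_toRight.1 hU)
      by_cases h' : A < X ∧ X < W
      · rw [if_pos h'] at hXU; cases hXU
      · rw [if_neg h'] at hXU; cases hXU; exact h'
  · intro t _ V _
    show Sum.elim id id (if A < V ∧ V < W then Sum.inl V else Sum.inr V) = V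
    split_ifs <;> rfl

variable {F : Type*} [Field F] {E : Type*} [AddCommGroup E] [Module F E] [FiniteDimensional F E]

/-- Automorphisms fixing `S` and every member of `P`. -/
def flagSym (S : Submodule F E) (P : Finset (Submodule F E)) : Subgroup (E ≃ₗ[F] E) where
  carrier := {e | S.map e.toLinearMap = S ∧ ∀ V ∈ P, V.map e.toLinearMap = V}
  one_mem' := ⟨Submodule.map_id S, fun V _ => Submodule.map_id V⟩
  mul_mem' := by
    intro a b ha hb
    refine ⟨?_, fun V hV => ?_⟩
    · change S.map (a.toLinearMap.comp b.toLinearMap) = S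
      rw [Submodule.map_comp, hb.1, ha.1]
    · change V.map (a.toLinearMap.comp b.toLinearMap) = V
      rw [Submodule.map_comp, hb.2 V hV, ha.2 V hV]
  inv_mem' := by
    intro a ha
    have key : ∀ V : Submodule F E, V.map a.toLinearMap = V → V.map (a⁻¹).toLinearMap = V := by
      intro V hV
      conv_lhs => rw [← hV]
      rw [← Submodule.map_comp]
      convert Submodule.map_id V
      ext x
      exact a.symm_apply_apply x
    exact ⟨key S ha.1, fun V hV => key V (ha.2 V hV)⟩

/-- The action on subspaces. -/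
def flagAct (S : Submodule F E) (P : Finset (Submodule F E)) :
    flagSym S P →* Equiv.Perm (Submodule F E) where
  toFun e :=
    { toFun := fun V => V.map e.1.toLinearMap
      invFun := fun V => V.map (e.1⁻¹).toLinearMap
      left_inv := fun V => by
        show (V.map e.1.toLinearMap).map (e.1⁻¹).toLinearMap = V
        rw [← Submodule.map_comp]
        convert Submodule.map_id V
        ext x
        exact e.1.symm_apply_apply x
      right_inv := fun V => by
        show (V.map (e.1⁻¹).toLinearMap).map e.1.toLinearMap = V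
        rw [← Submodule.map_comp]
        convert Submodule.map_id V
        ext x
        exact e.1.apply_symm_apply x }
  map_one' := Equiv.ext fun V => Submodule.map_id V
  map_mul' a b := Equiv.ext fun V => Submodule.map_comp b.1.toLinearMap a.1.toLinearMap V

omit [FiniteDimensional F E] in
@[simp] lemma flagAct_apply (S : Submodule F E) (P : Finset (Submodule F E)) (e : flagSym S P)
    (V : Submodule F E) : flagAct S P e V = V.map e.1.toLinearMap := rfl

omit [FiniteDimensional F E] in
/-- Symmetries preserve the chambers. -/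
lemma flagAct_image_mem [Fintype (Submodule F E)] {S : Submodule F E}
    {P c : Finset (Submodule F E)} [FiniteDimensional F E] (e : flagSym S P)
    (hc : c ∈ flagCh S P) : c.image (flagAct S P e) ∈ flagCh S P := by
  obtain ⟨⟨hd, hg, hch⟩, hcard⟩ := mem_flagCh.1 hc
  have hfix : ∀ V ∈ P, flagAct S P e V = V := fun V hV => e.2.2 V hV
  have hcu : ∀ U ∈ c.image (flagAct S P e) ∪ P, ∃ V ∈ c ∪ P, flagAct S P e V = U := by
    intro U hU
    rcases Finset.mem_union.1 hU with hU | hU
    · obtain ⟨V, hV, h⟩ := Finset.mem_image.1 hU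
      exact ⟨V, Finset.mem_union_left _ hV, h⟩
    · exact ⟨U, Finset.mem_union_right _ hU, hfix U hU⟩
  refine mem_flagCh.2 ⟨⟨Finset.disjoint_left.2 fun U hU hUP => ?_, fun U hU => ?_,
    fun U hU U' hU' => ?_⟩, ?_⟩
  · obtain ⟨V, hV, h⟩ := Finset.mem_image.1 hU
    have : V = U := (flagAct S P e).injective (h.trans (hfix U hUP).symm)
    exact Finset.disjoint_left.1 hd hV (this ▸ hUP)
  · obtain ⟨V, hV, rfl⟩ := hcu U hU
    obtain ⟨h1, h2, h3⟩ := hg V hV
    have hinj := (flagAct S P e).injective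
    refine ⟨fun h => h1 (hinj (h.trans ?_)), fun h => h2 (hinj (h.trans ?_)), ?_⟩
    · simp
    · simp
    · have hS : S.map e.1.toLinearMap = S := e.2.1
      rcases h3 with h3 | h3
      · left
        calc S ⊓ flagAct S P e V = S.map e.1.toLinearMap ⊓ V.map e.1.toLinearMap := by
              rw [hS, flagAct_apply]
          _ = ⊥ := by rw [← Submodule.map_inf _ e.1.injective, h3, Submodule.map_bot]
      · right
        calc S ⊔ flagAct S P e V = S.map e.1.toLinearMap ⊔ V.map e.1.toLinearMap := by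
              rw [hS, flagAct_apply]
          _ = ⊤ := by rw [← Submodule.map_sup, h3, Submodule.map_top, LinearEquiv.range]
  · obtain ⟨V, hV, rfl⟩ := hcu U hU
    obtain ⟨V', hV', rfl⟩ := hcu U' hU'
    exact (hch V hV V' hV').imp (fun h => Submodule.map_mono h) (fun h => Submodule.map_mono h)
  · rw [Finset.card_image_of_injective _ (flagAct S P e).injective, hcard]

/-- Chains with the same dimensions are related by a symmetry. -/
lemma flagAct_transitive {S : Submodule F E} {P s t : Finset (Submodule F E)}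
    (hs : s ∈ flagCx S P) (ht : t ∈ flagCx S P)
    (hd : s.image (fun V : Submodule F E => finrank F V) =
      t.image (fun V : Submodule F E => finrank F V)) :
    ∃ e : flagSym S P, s.image (flagAct S P e) = t := by
  classical
  obtain ⟨e, heS, hmap, hfix⟩ := exists_equiv_of_dims hs.2.1 hs.2.2 ht.2.1 ht.2.2
    (by rw [Finset.image_union, Finset.image_union, hd])
  refine ⟨⟨e, heS, fun V hV => hfix V (Finset.mem_union_right _ hV) (Finset.mem_union_right _ hV)⟩,
    ?_⟩
  refine Finset.eq_of_subset_of_card_le (fun U hU => ?_) ?_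
  · obtain ⟨V, hV, rfl⟩ := Finset.mem_image.1 hU
    simp only [flagAct_apply]
    rcases Finset.mem_union.1 (hmap V (Finset.mem_union_left _ hV)) with h | h
    · exact h
    · exfalso
      have h' := hfix _ (Finset.mem_union_right s h) (Finset.mem_union_right _ h)
      have : V = V.map e.toLinearMap :=
        (Submodule.map_injective_of_injective e.injective h').symm
      exact Finset.disjoint_left.1 hs.1 hV (this ▸ h)
  · rw [Finset.card_image_of_injective _ (Equiv.injective _),
      ← Finset.card_image_of_injOn (chain_injOn ht.2.2 |>.mono (Finset.coe_subset.2 Finset.subset_union_left)),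
      ← hd]
    exact Finset.card_image_le

/-- Inside a gap with at least two free dimensions, comparability connects everything. -/
lemma gap_conn [Fintype F] (hq : 6 ≤ Fintype.card F) {S A W : Submodule F E}
    (hA : GenPos F S A) (hW : GenPos F S W) (hAW : A < W)
    (hd : finrank F A + 3 ≤ finrank F W) (φ : Submodule F E → ℝ)
    (hφ : ∀ U V, A < U → U < W → GenPos F S U → A < V → V < W → GenPos F S V →
      (U ≤ V ∨ V ≤ U) → φ U = φ V) :
    ∀ U V, A < U → U < W → GenPos F S U → A < V → V < W → GenPos F S V → φ U = φ V := by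
  classical
  have hgood := genPos_good S A W hAW.le hA hW
  have atom : ∀ U, A < U → U < W → GenPos F S U → ∃ L, A < L ∧ L < W ∧ GenPos F S L ∧
      finrank F L = finrank F A + 1 ∧ φ U = φ L := by
    intro U h1 h2 h3
    obtain ⟨L, hAL, hLU, hLd, hLg⟩ := exists_next hA h3 h1
    exact ⟨L, hAL, lt_of_le_of_lt hLU h2, hLg, hLd,
      hφ U L h1 h2 h3 hAL (lt_of_le_of_lt hLU h2) hLg (Or.inr hLU)⟩
  intro U V hU1 hU2 hU3 hV1 hV2 hV3
  obtain ⟨L₁, a1, b1, g1, d1, e1⟩ := atom U hU1 hU2 hU3
  obtain ⟨L₂, a2, b2, g2, d2, e2⟩ := atom V hV1 hV2 hV3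
  obtain ⟨A0, hA0c, hA0, hA0g⟩ := hgood.2.2 A W (Or.inr rfl) (Or.inr rfl) hAW.le (by omega)
  obtain ⟨A1, hA1c, hA1, hA1g⟩ := hgood.2.2 L₁ W (Or.inl ⟨a1, b1, g1⟩) (Or.inr rfl) b1.le (by omega)
  obtain ⟨A2, hA2c, hA2, hA2g⟩ := hgood.2.2 L₂ W (Or.inl ⟨a2, b2, g2⟩) (Or.inr rfl) b2.le (by omega)
  obtain ⟨x, hxW, hx⟩ := exists_mem_forall_notMem W ({A, L₁, L₂} ∪ (A0 ∪ (A1 ∪ A2))) (by
      intro H hH
      simp only [Finset.mem_union, Finset.mem_insert, Finset.mem_singleton] at hH
      rcases hH with (rfl | rfl | rfl) | h | h | h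
      exacts [hAW.not_ge, b1.not_ge, b2.not_ge, (hA0 H h).2.not_ge, (hA1 H h).2.not_ge,
        (hA2 H h).2.not_ge]) (by
      have h1 := Finset.card_union_le ({A, L₁, L₂} : Finset (Submodule F E)) (A0 ∪ (A1 ∪ A2))
      have h2 := Finset.card_union_le A0 (A1 ∪ A2)
      have h3 := Finset.card_union_le A1 A2
      have h4 : ({A, L₁, L₂} : Finset (Submodule F E)).card ≤ 3 := Finset.card_le_three
      have h5 : 6 ≤ Fintype.card F := hq
      rcases Nat.lt_or_ge 6 (Fintype.card F) with h | h
      · omega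
      · -- no field has exactly six elements
        exfalso
        obtain ⟨p, hp⟩ := CharP.exists F
        obtain ⟨n, hpp, hn⟩ := FiniteField.card F p
        have h6 : p ^ (n : ℕ) = 6 := by omega
        have hn0 : (n : ℕ) ≠ 0 := n.ne_zero
        have : p ∣ 6 := h6 ▸ dvd_pow_self p hn0
        have hple : p ≤ 6 := Nat.le_of_dvd (by norm_num) this
        have hn3 : (n : ℕ) < 3 := by
          by_contra hh
          push Not at hh
          have h8 : 2 ^ 3 ≤ p ^ (n : ℕ) :=
            le_trans (Nat.pow_le_pow_left hpp.two_le 3) (Nat.pow_le_pow_right hpp.pos hh)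
          omega
        interval_cases p <;> interval_cases (n : ℕ) <;> revert hpp <;> norm_num at *)
  have hxA : ∀ H ∈ ({A, L₁, L₂} : Finset (Submodule F E)), x ∉ H := fun H hH =>
    hx H (Finset.mem_union_left _ hH)
  obtain ⟨p1, p2, p3⟩ := hA0g x hxW (hxA A (by simp))
    (fun H hH => hx H (Finset.mem_union_right _ (Finset.mem_union_left _ hH)))
  obtain ⟨q1, q2, q3⟩ := hA1g x hxW (hxA L₁ (by simp))
    (fun H hH => hx H (Finset.mem_union_right _ (Finset.mem_union_right _ (Finset.mem_union_left _ hH))))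
  obtain ⟨r1, r2, r3⟩ := hA2g x hxW (hxA L₂ (by simp))
    (fun H hH => hx H (Finset.mem_union_right _ (Finset.mem_union_right _ (Finset.mem_union_right _ hH))))
  have s1 : φ L₁ = φ (A ⊔ Submodule.span F {x}) :=
    (hφ _ _ a1 b1 g1 q1 q2 q3 (Or.inl le_sup_left)).trans
      (hφ _ _ q1 q2 q3 p1 p2 p3 (Or.inr (sup_le_sup_right a1.le _)))
  have s2 : φ L₂ = φ (A ⊔ Submodule.span F {x}) :=
    (hφ _ _ a2 b2 g2 r1 r2 r3 (Or.inl le_sup_left)).trans
      (hφ _ _ r1 r2 r3 p1 p2 p3 (Or.inr (sup_le_sup_right a2.le _)))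
  rw [e1, e2, s1, s2]

/-- With at least three missing dimensions the flag complex is connected. -/
lemma flag_conn [Fintype F] (hq : 6 ≤ Fintype.card F) [Fintype (Submodule F E)] {S : Submodule F E} {P : Finset (Submodule F E)}
    (hP : ∀ V ∈ P, V ∈ genSub S) (hPc : IsChainF P) (hdim : P.card + 4 ≤ finrank F E) :
    Conn (flagCh S P) := by
  classical
  intro φ hφ
  have hn : 1 ≤ finrank F E := by omega
  have hedge : ∀ U V, {U} ∈ flagCx S P → {V} ∈ flagCx S P → U ≠ V → (U ≤ V ∨ V ≤ U) →
      φ U = φ V := by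
    intro U V hU hV hne hUV
    refine hφ {U, V} (mem_facesC.2 ⟨?_, Finset.card_pair hne⟩) U (by simp) V (by simp)
    have hUV' : ({U, V} : Finset (Submodule F E)) ∈ facesCx (flagCh S P) := by
      rw [facesCx_flagCh hn]
      refine ⟨?_, ?_, ?_⟩
      · rw [Finset.disjoint_insert_left, Finset.disjoint_singleton_left]
        exact ⟨Finset.disjoint_left.1 hU.1 (by simp), Finset.disjoint_left.1 hV.1 (by simp)⟩
      · intro X hX
        simp only [Finset.mem_union, Finset.mem_insert, Finset.mem_singleton] at hX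
        rcases hX with (rfl | rfl) | hX
        exacts [hU.2.1 X (by simp), hV.2.1 X (by simp), hP X hX]
      · intro X hX Y hY
        simp only [Finset.mem_union, Finset.mem_insert, Finset.mem_singleton] at hX hY
        rcases hX with (rfl | rfl) | hX <;> rcases hY with (rfl | rfl) | hY
        exacts [Or.inl le_rfl, hUV, hU.2.2 X (by simp) Y (by simp [hY]), hUV.symm, Or.inl le_rfl,
          hV.2.2 X (by simp) Y (by simp [hY]), hU.2.2 X (by simp [hX]) Y (by simp),
          hV.2.2 X (by simp [hX]) Y (by simp), hPc X hX Y hY]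
    exact hUV'
  have hvert : ∀ U, U ∈ (flagCh S P).biUnion id → {U} ∈ flagCx S P := by
    intro U hU
    obtain ⟨c, hc, hUc⟩ := Finset.mem_biUnion.1 hU
    exact flagCx_downClosed S P c (mem_flagCh.1 hc).1 _ (Finset.singleton_subset_iff.2 hUc)
  intro U hU V hV
  obtain ⟨A, W, hgap, hA1, hA2⟩ := exists_gap_of_mem hPc (hvert U hU)
  obtain ⟨A', W', hgap', hB1, hB2⟩ := exists_gap_of_mem hPc (hvert V hV)
  have hVg : GenPos F S V := ((hvert V hV).2.1 V (by simp)).2.2
  have hUg : GenPos F S U := ((hvert U hU).2.1 U (by simp)).2.2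
  by_cases hin : A < V ∧ V < W
  swap
  · by_cases hne : U = V
    · rw [hne]
    exact hedge U V (hvert U hU) (hvert V hV) hne
      ((gap_vertex hP hPc hgap hA1 hA2 hUg).2.2.2 V (hvert V hV) hin).symm
  by_cases hlarge : finrank F A + 3 ≤ finrank F W
  · obtain ⟨hAg, hWg⟩ := isGap_genPos hP hgap
    refine gap_conn hq hAg hWg hgap.2.2.1 hlarge φ (fun X Y hX1 hX2 hX3 hY1 hY2 hY3 hXY => ?_)
      U V hA1 hA2 hUg hin.1 hin.2 hVg
    have hsing : ∀ Z, A < Z → Z < W → GenPos F S Z → ({Z} : Finset (Submodule F E)) ∈ flagCx S P := by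
      intro Z hZ1 hZ2 hZ3
      obtain ⟨g1, g2, g3, -⟩ := gap_vertex hP hPc hgap hZ1 hZ2 hZ3
      refine ⟨Finset.disjoint_singleton_left.2 g1, fun M hM => ?_, fun M hM M' hM' => ?_⟩
      · rcases Finset.mem_union.1 hM with h | h
        · rw [Finset.mem_singleton.1 h]; exact g2
        · exact hP M h
      · rcases Finset.mem_union.1 hM with h | h <;> rcases Finset.mem_union.1 hM' with h' | h'
        · rw [Finset.mem_singleton.1 h, Finset.mem_singleton.1 h']; exact Or.inl le_rfl
        · rw [Finset.mem_singleton.1 h]; exact (g3 M' h').symm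
        · rw [Finset.mem_singleton.1 h']; exact g3 M h
        · exact hPc M h M' h'
    by_cases hne : X = Y
    · rw [hne]
    exact hedge X Y (hsing X hX1 hX2 hX3) (hsing Y hY1 hY2 hY3) hne hXY
  -- the gap has only one free dimension: use a vertex outside it
  obtain ⟨c, hc, hUc⟩ := Finset.mem_biUnion.1 hU
  have hcc := (mem_flagCh.1 hc)
  have : ∃ X ∈ c, ¬(A < X ∧ X < W) := by
    by_contra hall
    push Not at hall
    have hmap : Set.MapsTo (fun X : Submodule F E => finrank F X) (c : Set (Submodule F E))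
        (Finset.Ioo (finrank F A) (finrank F W) : Set ℕ) := fun X hX => by
      rw [Finset.mem_coe, Finset.mem_Ioo]
      exact ⟨Submodule.finrank_lt_finrank_of_lt (hall X hX).1,
        Submodule.finrank_lt_finrank_of_lt (hall X hX).2⟩
    have h1 := Finset.card_le_card_of_injOn _ hmap
      ((chain_injOn hcc.1.2.2).mono (Finset.coe_subset.2 Finset.subset_union_left))
    rw [Nat.card_Ioo] at h1
    omega
  obtain ⟨X, hX, hXout⟩ := this
  have hXv : ({X} : Finset (Submodule F E)) ∈ flagCx S P :=
    flagCx_downClosed S P c hcc.1 _ (Finset.singleton_subset_iff.2 hX)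
  have h1 : φ U = φ X := by
    by_cases hne : U = X
    · rw [hne]
    exact hedge U X (hvert U hU) hXv hne
      ((gap_vertex hP hPc hgap hA1 hA2 hUg).2.2.2 X hXv hXout).symm
  have h2 : φ V = φ X := by
    by_cases hne : V = X
    · rw [hne]
    exact hedge V X (hvert V hV) hXv hne
      ((gap_vertex hP hPc hgap hin.1 hin.2 hVg).2.2.2 X hXv hXout).symm
  rw [h1, h2]

end Vale.Agent.P067
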