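import Vale.Agent.P067.Chambers
import Vale.Agent.P067.Interval

/-!
Flag complexes of subspaces in general position with respect to a fixed subspace: maximal flags,
adapted bases and transitivity.
-/

namespace Vale.Agent.P067

open Finset Module

variable {F : Type*} [Field F] {E : Type*} [AddCommGroup E] [Module F E]

/-- A finset of subspaces is a chain. -/
def IsChainF (s : Finset (Submodule F E)) : Prop :=
  ∀ V ∈ s, ∀ W ∈ s, V ≤ W ∨ W ≤ V

/-- Proper nonzero subspaces in general position to `S`. -/
def genSub (S : Submodule F E) : Set (Submodule F E) :=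
  {V | V ≠ ⊥ ∧ V ≠ ⊤ ∧ GenPos F S V}

open Classical in
/-- Chains of general position subspaces compatible with, and disjoint from, `P`. -/
def flagCx (S : Submodule F E) (P : Finset (Submodule F E)) : Set (Finset (Submodule F E)) :=
  {s | Disjoint s P ∧ (∀ V ∈ s ∪ P, V ∈ genSub S) ∧ IsChainF (s ∪ P)}

lemma flagCx_downClosed (S : Submodule F E)
    (P : Finset (Submodule F E)) : DownClosed (flagCx S P) := by
  intro s hs t hts
  refine ⟨Finset.disjoint_of_subset_left hts hs.1, fun V hV => hs.2.1 V ?_,
    fun V hV W hW => hs.2.2 V ?_ W ?_⟩ <;>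
  · simp only [Finset.mem_union] at *
    first
      | exact hV.imp_left (@hts _)
      | exact hW.imp_left (@hts _)

variable [FiniteDimensional F E]

/-- Insert one generic subspace of the next dimension between two general position subspaces. -/
lemma exists_next {S A W : Submodule F E} (hA : GenPos F S A) (hW : GenPos F S W) (hAW : A < W) :
    ∃ V, A < V ∧ V ≤ W ∧ finrank F V = finrank F A + 1 ∧ GenPos F S V := by
  have key : ∀ T : Submodule F E, T < W → A ≤ T → ∃ x, x ∈ W ∧ x ∉ T ∧
      finrank F ↥(A ⊔ Submodule.span F {x}) = finrank F A + 1 := by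
    intro T hT hAT
    obtain ⟨x, hxW, hxT⟩ := SetLike.exists_of_lt hT
    refine ⟨x, hxW, hxT, ?_⟩
    have hxA : x ∉ A := fun h => hxT (hAT h)
    have hx0 : x ≠ 0 := fun h => hxA (h ▸ A.zero_mem)
    have h1 := Submodule.finrank_sup_add_finrank_inf_eq A (Submodule.span F {x})
    have h2 : A ⊓ Submodule.span F {x} = ⊥ := by
      rw [Submodule.eq_bot_iff]
      rintro y ⟨hy, hy'⟩
      obtain ⟨c, rfl⟩ := Submodule.mem_span_singleton.1 hy'
      by_contra hne
      have hc : c ≠ 0 := fun h => hne (by rw [h, zero_smul])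
      exact hxA (by simpa [smul_smul, inv_mul_cancel₀ hc] using A.smul_mem c⁻¹ hy)
    rw [h2, finrank_bot, add_zero, finrank_span_singleton hx0] at h1
    exact h1
  have fin : ∀ T, A ≤ T → ∀ x ∈ W, x ∉ T →
      A < A ⊔ Submodule.span F {x} ∧ A ⊔ Submodule.span F {x} ≤ W := by
    intro T hAT x hx hxT
    refine ⟨lt_of_le_of_ne le_sup_left fun h => hxT (hAT ?_), sup_le hAW.le ?_⟩
    · rw [h]; exact Submodule.mem_sup_right (Submodule.mem_span_singleton_self x)
    · rwa [Submodule.span_singleton_le_iff_mem]
  by_cases hsup : S ⊔ A = ⊤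
  · obtain ⟨x, hxW, hxT, hr⟩ := key A hAW le_rfl
    obtain ⟨h1, h2⟩ := fin A le_rfl x hxW hxT
    exact ⟨_, h1, h2, hr, Or.inr (top_le_iff.1 (hsup ▸ sup_le_sup_left le_sup_left S))⟩
  · replace hA := hA.resolve_right hsup
    set T := A ⊔ S ⊓ W with hT
    have hTW : T < W := by
      refine lt_of_le_of_ne (sup_le hAW.le inf_le_right) fun h => ?_
      rcases hW with hW | hW
      · rw [hT, hW, sup_bot_eq] at h; exact hAW.ne h
      · refine hsup (top_le_iff.1 (hW ▸ sup_le le_sup_left ?_))
        conv_lhs => rw [← h, hT]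
        exact sup_le le_sup_right (inf_le_left.trans le_sup_left)
    obtain ⟨x, hxW, hxT, hr⟩ := key T hTW le_sup_left
    obtain ⟨h1, h2⟩ := fin T le_sup_left x hxW hxT
    refine ⟨_, h1, h2, hr, Or.inl ?_⟩
    rw [Submodule.eq_bot_iff]
    rintro y ⟨hyS, hyV⟩
    obtain ⟨a, ha, b, hb, rfl⟩ := Submodule.mem_sup.1 hyV
    obtain ⟨c, rfl⟩ := Submodule.mem_span_singleton.1 hb
    by_cases hc : c = 0
    · rw [hc, zero_smul, add_zero] at hyS ⊢
      exact (Submodule.eq_bot_iff _).1 hA a ⟨hyS, ha⟩
    · exfalso
      apply hxT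
      have hy : a + c • x ∈ T := Submodule.mem_sup_right
        ⟨hyS, W.add_mem (hAW.le ha) (W.smul_mem c hxW)⟩
      have : c • x ∈ T := by
        simpa using T.sub_mem hy ((le_sup_left : A ≤ T) ha)
      simpa [smul_smul, inv_mul_cancel₀ hc] using T.smul_mem c⁻¹ this

lemma genPos_bot (S : Submodule F E) : GenPos F S ⊥ := Or.inl (inf_bot_eq S)

lemma genPos_top (S : Submodule F E) : GenPos F S ⊤ := Or.inr (sup_top_eq S)

lemma chain_eq_of_finrank {V W : Submodule F E} (h : V ≤ W ∨ W ≤ V)
    (hd : finrank F V = finrank F W) : V = W :=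
  h.elim (fun h => Submodule.eq_of_le_of_finrank_eq h hd)
    (fun h => (Submodule.eq_of_le_of_finrank_eq h hd.symm).symm)

/-- A chain with a missing dimension can be extended by one subspace of that dimension. -/
lemma exists_fill_dim {S : Submodule F E}
    {t : Finset (Submodule F E)} (hg : ∀ V ∈ t, V ∈ genSub S) (hc : IsChainF t) :
    ∀ j, 0 < j → j < finrank F E → (∀ V ∈ t, finrank F V ≠ j) →
      ∃ V : Submodule F E, finrank F V = j ∧ V ∈ genSub S ∧ IsChainF (insert V t) := by
  intro j hj hjn hmiss
  induction j with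
  | zero => omega
  | succ i ih =>
    classical
    -- a subspace of dimension `i` compatible with the chain
    obtain ⟨A, hA, hAg, hAc⟩ : ∃ A : Submodule F E, finrank F A = i ∧ GenPos F S A ∧
        ∀ U ∈ t, U ≤ A ∨ A ≤ U := by
      by_cases hi : i = 0
      · exact ⟨⊥, by rw [hi]; exact finrank_bot F E, genPos_bot S, fun U _ => Or.inr bot_le⟩
      by_cases hex : ∀ V ∈ t, finrank F V ≠ i
      · obtain ⟨A, hA, hAg, hAc⟩ := ih (by omega) (by omega) hex
        exact ⟨A, hA, hAg.2.2, fun U hU =>
          hAc U (Finset.mem_insert_of_mem hU) A (Finset.mem_insert_self _ _)⟩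
      · push Not at hex
        obtain ⟨A, hAt, hA⟩ := hex
        exact ⟨A, hA, (hg A hAt).2.2, fun U hU => hc U hU A hAt⟩
    -- the smallest member above it
    set up := insert ⊤ (t.filter (fun U : Submodule F E => i + 1 < finrank F U)) with hup
    obtain ⟨W, hWup, hWmin⟩ := Finset.exists_min_image up (fun U : Submodule F E => finrank F U)
      (Finset.insert_nonempty _ _)
    have hWdim : i + 1 ≤ finrank F W := by
      rcases Finset.mem_insert.1 hWup with h | h
      · rw [h, finrank_top]; omega
      · exact (Finset.mem_filter.1 h).2.le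
    have hWg : GenPos F S W := by
      rcases Finset.mem_insert.1 hWup with h | h
      · rw [h]; exact genPos_top S
      · exact (hg W (Finset.mem_filter.1 h).1).2.2
    have hAW : A < W := by
      have hle : A ≤ W := by
        rcases Finset.mem_insert.1 hWup with h | h
        · rw [h]; exact le_top
        · refine (hAc W (Finset.mem_filter.1 h).1).resolve_left fun hh => ?_
          have := Submodule.finrank_mono hh; omega
      refine lt_of_le_of_ne hle fun h => ?_
      rw [h] at hA; omega
    obtain ⟨V, hAV, hVW, hVd, hVg⟩ := exists_next hAg hWg hAW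
    rw [hA] at hVd
    have hcomp : ∀ U ∈ t, U ≤ V ∨ V ≤ U := by
      intro U hU
      rcases lt_or_gt_of_ne (hmiss U hU) with h | h
      · refine Or.inl (le_trans ?_ hAV.le)
        rcases hAc U hU with h' | h'
        · exact h'
        · exact (chain_eq_of_finrank (Or.inl h') (by
            have := Submodule.finrank_mono h'; omega)).ge
      · refine Or.inr (le_trans hVW ?_)
        have hUup : U ∈ up := Finset.mem_insert_of_mem (Finset.mem_filter.2 ⟨hU, h⟩)
        have hmin := hWmin U hUup
        rcases Finset.mem_insert.1 hWup with hW | hW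
        · rw [hW, finrank_top] at hmin
          rw [hW, Submodule.eq_top_of_finrank_eq (le_antisymm (Submodule.finrank_le U) hmin)]
        · rcases hc U hU W (Finset.mem_filter.1 hW).1 with h' | h'
          · exact (chain_eq_of_finrank (Or.inl h')
              (le_antisymm (Submodule.finrank_mono h') hmin)).ge
          · exact h'
    refine ⟨V, hVd, ⟨fun h => ?_, fun h => ?_, hVg⟩, ?_⟩
    · rw [h, finrank_bot] at hVd; omega
    · rw [h, finrank_top] at hVd; omega
    · intro X hX Y hY
      rcases Finset.mem_insert.1 hX with h1 | h1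
      · rcases Finset.mem_insert.1 hY with h2 | h2
        · exact Or.inl (by rw [h1, h2])
        · rw [h1]; exact (hcomp Y h2).symm
      · rcases Finset.mem_insert.1 hY with h2 | h2
        · rw [h2]; exact hcomp X h1
        · exact hc X h1 Y h2

/-- The dimension of a member of a general position chain. -/
lemma genSub_finrank {S V : Submodule F E} (h : V ∈ genSub S) :
    0 < finrank F V ∧ finrank F V < finrank F E :=
  ⟨Nat.pos_of_ne_zero fun h0 => h.1 (Submodule.finrank_eq_zero.1 h0),
    Submodule.finrank_lt h.2.1⟩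

lemma chain_injOn {t : Finset (Submodule F E)} (hc : IsChainF t) :
    Set.InjOn (fun V : Submodule F E => finrank F V) (t : Set (Submodule F E)) :=
  fun V hV W hW h => chain_eq_of_finrank (hc V hV W hW) h

/-- Every chain extends to a full flag. -/
lemma exists_full {S : Submodule F E}
    {t : Finset (Submodule F E)} (hg : ∀ V ∈ t, V ∈ genSub S) (hc : IsChainF t) :
    ∃ c, t ⊆ c ∧ (∀ V ∈ c, V ∈ genSub S) ∧ IsChainF c ∧
      ∀ j, 0 < j → j < finrank F E → ∃ V ∈ c, finrank F (V : Submodule F E) = j := by
  suffices key : ∀ m, ∀ t : Finset (Submodule F E), (∀ V ∈ t, V ∈ genSub S) → IsChainF t →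
      ((Finset.Ioo 0 (finrank F E)).filter (fun j => ∀ V ∈ t, finrank F V ≠ j)).card ≤ m →
      ∃ c, t ⊆ c ∧ (∀ V ∈ c, V ∈ genSub S) ∧ IsChainF c ∧
        ∀ j, 0 < j → j < finrank F E → ∃ V ∈ c, finrank F (V : Submodule F E) = j from
    key _ t hg hc le_rfl
  intro m
  induction m with
  | zero =>
    intro t hg hc hm
    refine ⟨t, Finset.Subset.refl t, hg, hc, fun j h1 h2 => ?_⟩
    by_contra hne
    push Not at hne
    have : j ∈ ((Finset.Ioo 0 (finrank F E)).filter (fun j => ∀ V ∈ t, finrank F V ≠ j)) :=
      Finset.mem_filter.2 ⟨Finset.mem_Ioo.2 ⟨h1, h2⟩, hne⟩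
    have := Finset.card_pos.2 ⟨j, this⟩
    omega
  | succ m ih =>
    intro t hg hc hm
    rcases ((Finset.Ioo 0 (finrank F E)).filter
      (fun j => ∀ V ∈ t, finrank F V ≠ j)).eq_empty_or_nonempty with he | ⟨j, hj⟩
    · exact ih t hg hc (by simp [he])
    · obtain ⟨hj', hmiss⟩ := Finset.mem_filter.1 hj
      rw [Finset.mem_Ioo] at hj'
      obtain ⟨V, hVd, hVg, hVc⟩ := exists_fill_dim hg hc j hj'.1 hj'.2 hmiss
      obtain ⟨c, h1, h2⟩ := ih (insert V t)
        (fun X hX => (Finset.mem_insert.1 hX).elim (fun h => h ▸ hVg) (hg X)) hVc (by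
          have hsub : (Finset.Ioo 0 (finrank F E)).filter
              (fun i => ∀ X ∈ insert V t, finrank F X ≠ i) ⊆
              ((Finset.Ioo 0 (finrank F E)).filter
              (fun i => ∀ X ∈ t, finrank F X ≠ i)).erase j := by
            intro i hi
            obtain ⟨h1, h2⟩ := Finset.mem_filter.1 hi
            refine Finset.mem_erase.2 ⟨fun h => h2 V (Finset.mem_insert_self _ _) (h ▸ hVd),
              Finset.mem_filter.2 ⟨h1, fun X hX => h2 X (Finset.mem_insert_of_mem hX)⟩⟩
          have := Finset.card_le_card hsub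
          rw [Finset.card_erase_of_mem hj] at this
          omega)
      exact ⟨c, (Finset.subset_insert V t).trans h1, h2⟩

/-- An adapted basis of a full general position flag: the flag is spanned by initial segments and
`S` by a final segment. -/
lemma exists_adapted_basis {S : Submodule F E} (W : ℕ → Submodule F E)
    (hmono : ∀ i j, i ≤ j → j ≤ finrank F E → W i ≤ W j)
    (hdim : ∀ j, j ≤ finrank F E → finrank F (W j) = j)
    (hgen : ∀ j, j ≤ finrank F E → GenPos F S (W j)) :
    ∃ b : Basis (Fin (finrank F E)) F E,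
      (∀ j, j ≤ finrank F E → W j = Submodule.span F (b '' {i | (i : ℕ) < j})) ∧
      S = Submodule.span F (b '' {i | finrank F E ≤ (i : ℕ) + finrank F S}) := by
  set n := finrank F E with hn
  set a := finrank F S with ha
  have htop : ∀ j, j ≤ n → n ≤ j + a → finrank F ↥(S ⊓ W j) + n = j + a := by
    intro j hj hja
    have h1 := Submodule.finrank_sup_add_finrank_inf_eq S (W j)
    rw [hdim j hj] at h1
    have h2 := Submodule.finrank_le (S ⊔ W j)
    rcases hgen j hj with h | h
    · rw [h, finrank_bot] at h1 ⊢; omega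
    · rw [h, finrank_top] at h1; omega
  have hex : ∀ i : Fin n, ∃ x, x ∈ W (i + 1) ∧ x ∉ W i ∧ (n ≤ (i : ℕ) + a → x ∈ S) := by
    intro i
    have hlt : W i < W (i + 1) := by
      refine lt_of_le_of_ne (hmono _ _ (by omega) i.2) fun h => ?_
      have := hdim i i.2.le
      rw [h, hdim (i + 1) i.2] at this; omega
    by_cases hi : n ≤ (i : ℕ) + a
    · by_contra hne
      push Not at hne
      have hle : S ⊓ W (i + 1) ≤ S ⊓ W i := fun x hx =>
        ⟨hx.1, by by_contra hx'; exact (hne x hx.2 hx').2 hx.1⟩
      have := Submodule.finrank_mono hle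
      have := htop i i.2.le hi
      have := htop (i + 1) i.2 (by omega)
      omega
    · obtain ⟨x, hx1, hx2⟩ := SetLike.exists_of_lt hlt
      exact ⟨x, hx1, hx2, fun h => absurd h hi⟩
  choose b hb1 hb2 hb3 using hex
  have hW : ∀ j, j ≤ n → W j = Submodule.span F (b '' {i | (i : ℕ) < j}) := by
    intro j
    induction j with
    | zero =>
      intro hj
      simp only [Nat.not_lt_zero, Set.setOf_false, Set.image_empty, Submodule.span_empty]
      exact Submodule.finrank_eq_zero.1 (hdim 0 hj)
    | succ j ih =>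
      intro hj
      have hset : {i : Fin n | (i : ℕ) < j + 1} =
          insert (⟨j, by omega⟩ : Fin n) {i : Fin n | (i : ℕ) < j} := by
        ext i
        simp only [Set.mem_insert_iff, Fin.ext_iff]
        change (i : ℕ) < j + 1 ↔ ((i : ℕ) = j ∨ (i : ℕ) < j)
        omega
      rw [hset, Set.image_insert_eq, Submodule.span_insert, ← ih (by omega)]
      set x := b ⟨j, by omega⟩
      have hle : Submodule.span F {x} ⊔ W j ≤ W (j + 1) :=
        sup_le ((Submodule.span_singleton_le_iff_mem _ _).2 (hb1 ⟨j, by omega⟩))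
          (hmono _ _ (by omega) hj)
      refine (Submodule.eq_of_le_of_finrank_le hle ?_).symm
      have hlt : W j < Submodule.span F {x} ⊔ W j := by
        refine lt_of_le_of_ne le_sup_right fun h => hb2 ⟨j, by omega⟩ ?_
        show x ∈ W j
        rw [h]; exact Submodule.mem_sup_left (Submodule.mem_span_singleton_self x)
      have := Submodule.finrank_lt_finrank_of_lt hlt
      rw [hdim j (by omega)] at this
      rw [hdim (j + 1) hj]; omega
  have hspan : (⊤ : Submodule F E) ≤ Submodule.span F (Set.range b) := by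
    have h := hW n le_rfl
    have he : {i : Fin n | (i : ℕ) < n} = Set.univ := by ext i; simp
    rw [he, Set.image_univ] at h
    rw [← h, Submodule.eq_top_of_finrank_eq (hdim n le_rfl)]
  have hli : LinearIndependent F b :=
    linearIndependent_of_top_le_span_of_card_eq_finrank hspan (by simp [hn])
  refine ⟨Basis.mk hli hspan, fun j hj => by rw [Basis.coe_mk]; exact hW j hj, ?_⟩
  rw [Basis.coe_mk]
  have hle : Submodule.span F (b '' {i | n ≤ (i : ℕ) + a}) ≤ S := by
    rw [Submodule.span_le]
    rintro _ ⟨i, hi, rfl⟩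
    exact hb3 i hi
  refine (Submodule.eq_of_le_of_finrank_le hle ?_).symm
  have hcard : Fintype.card {i : Fin n // n ≤ (i : ℕ) + a} = a := by
    have haN : a ≤ n := Submodule.finrank_le S
    let eqv : {i : Fin n // n ≤ (i : ℕ) + a} ≃ Fin a :=
      ⟨fun i => ⟨(i.1 : ℕ) + a - n, by have := i.1.2; have := i.2; omega⟩,
        fun i => ⟨⟨(i : ℕ) + n - a, by have := i.2; omega⟩,
          show n ≤ (i : ℕ) + n - a + a by have := i.2; omega⟩,
        fun i => Subtype.ext (Fin.ext
          (show (i.1 : ℕ) + a - n + n - a = (i.1 : ℕ) by have := i.2; omega)),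
        fun i => Fin.ext (show (i : ℕ) + n - a + a - n = (i : ℕ) by have := i.2; omega)⟩
    rw [Fintype.card_congr eqv]
    exact Fintype.card_fin a
  have := finrank_span_eq_card (hli.comp (fun i : {i : Fin n // n ≤ (i : ℕ) + a} => i.1)
    Subtype.val_injective)
  rw [Set.range_comp, hcard] at this
  rw [show b '' {i | n ≤ (i : ℕ) + a} =
    b '' Set.range (fun i : {i : Fin n // n ≤ (i : ℕ) + a} => i.1) by rw [Subtype.range_coe_subtype]]
  omega

/-- Automorphisms fixing `S` act transitively on chains with given dimensions, fixing a common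
subchain. -/
theorem exists_equiv_of_dims {S : Submodule F E}
    {s t : Finset (Submodule F E)} (hsg : ∀ V ∈ s, V ∈ genSub S) (hsc : IsChainF s)
    (htg : ∀ V ∈ t, V ∈ genSub S) (htc : IsChainF t)
    (hdims : s.image (fun V : Submodule F E => finrank F V) =
      t.image (fun V : Submodule F E => finrank F V)) :
    ∃ e : E ≃ₗ[F] E, S.map e.toLinearMap = S ∧
      (∀ V ∈ s, V.map e.toLinearMap ∈ t) ∧
      (∀ V ∈ s, V ∈ t → V.map e.toLinearMap = V) := by
  classical
  have mk : ∀ u : Finset (Submodule F E), (∀ V ∈ u, V ∈ genSub S) → IsChainF u →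
      ∃ b : Basis (Fin (finrank F E)) F E,
        (∀ V ∈ u, V = Submodule.span F (b '' {i | (i : ℕ) < finrank F V})) ∧
        S = Submodule.span F (b '' {i | finrank F E ≤ (i : ℕ) + finrank F S}) := by
    intro u hug huc
    obtain ⟨c, huc', hcg, hcc, hcd⟩ := exists_full hug huc
    set W : ℕ → Submodule F E := fun j =>
      if h : ∃ V ∈ c, finrank F V = j then h.choose else if j = 0 then ⊥ else ⊤ with hWdef
    have hW : ∀ j, j ≤ finrank F E →
        (finrank F (W j) = j ∧ GenPos F S (W j)) ∧
        (0 < j → j < finrank F E → W j ∈ c) ∧ (j = 0 → W j = ⊥) ∧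
        (j = finrank F E → W j = ⊤ ∨ j = 0) := by
      intro j hj
      by_cases h : ∃ V ∈ c, finrank F V = j
      · have h2 := h.choose_spec
        have hpos := genSub_finrank (hcg _ h2.1)
        have e : W j = h.choose := dif_pos h
        rw [e]
        refine ⟨⟨h2.2, (hcg _ h2.1).2.2⟩, fun _ _ => h2.1, fun h0 => ?_, fun hn => ?_⟩
        · omega
        · omega
      · by_cases h0 : j = 0
        · have e : W j = ⊥ := (dif_neg h).trans (if_pos h0)
          rw [e]
          exact ⟨⟨h0 ▸ finrank_bot F E, genPos_bot S⟩, fun hp => by omega,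
            fun _ => rfl, fun _ => Or.inr h0⟩
        · have hjn : j = finrank F E := by
            by_contra hne
            exact h (hcd j (Nat.pos_of_ne_zero h0) (lt_of_le_of_ne hj hne))
          have e : W j = ⊤ := (dif_neg h).trans (if_neg h0)
          rw [e]
          exact ⟨⟨by rw [finrank_top, hjn], genPos_top S⟩, fun _ hp => by omega,
            fun h' => absurd h' h0, fun _ => Or.inl rfl⟩
    have hmono : ∀ i j, i ≤ j → j ≤ finrank F E → W i ≤ W j := by
      intro i j hij hj
      obtain ⟨⟨hi1, -⟩, hi2, hi3, -⟩ := hW i (hij.trans hj)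
      obtain ⟨⟨hj1, -⟩, hj2, -, hj4⟩ := hW j hj
      rcases Nat.eq_zero_or_pos i with h0 | h0
      · rw [hi3 h0]; exact bot_le
      rcases eq_or_lt_of_le hj with hn | hn
      · rw [(hj4 hn).resolve_right (by omega)]; exact le_top
      rcases hcc _ (hi2 h0 (lt_of_le_of_lt hij hn)) _ (hj2 (by omega) hn) with h | h
      · exact h
      · have := Submodule.finrank_mono h
        exact (chain_eq_of_finrank (Or.inr h) (by omega)).le
    obtain ⟨b, hb1, hb2⟩ := exists_adapted_basis W hmono (fun j hj => (hW j hj).1.1)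
      (fun j hj => (hW j hj).1.2)
    refine ⟨b, fun V hV => ?_, hb2⟩
    have hd := genSub_finrank (hug V hV)
    obtain ⟨⟨h1, -⟩, h2, -, -⟩ := hW _ hd.2.le
    rw [← hb1 _ hd.2.le]
    exact chain_eq_of_finrank (hcc V (huc' hV) _ (h2 hd.1 hd.2)) h1.symm
  obtain ⟨b, hb1, hb2⟩ := mk s hsg hsc
  obtain ⟨b', hb1', hb2'⟩ := mk t htg htc
  set e : E ≃ₗ[F] E := b.equiv b' (Equiv.refl _)
  have hmap : ∀ A : Set (Fin (finrank F E)),
      (Submodule.span F (b '' A)).map e.toLinearMap = Submodule.span F (b' '' A) := by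
    intro A
    rw [Submodule.map_span, Set.image_image]
    congr 1
    exact Set.image_congr fun i _ => by simp [e]
  refine ⟨e, by conv_lhs => rw [hb2, hmap, ← hb2'], fun V hV => ?_, fun V hV hV' => ?_⟩
  · have : finrank F V ∈ t.image (fun V : Submodule F E => finrank F V) :=
      hdims ▸ Finset.mem_image_of_mem _ hV
    obtain ⟨V', hV', hd⟩ := Finset.mem_image.1 this
    rw [hb1 V hV, hmap, ← hd, ← hb1' V' hV']
    exact hV'
  · conv_lhs => rw [hb1 V hV, hmap, ← hb1' V hV']

end Vale.Agent.P067
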