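import Vale.Agent.P067.Spectral
import Vale.Agent.P067.Interval

/-!
M7: rank two links coming from planes.  Extend functions by zero to the full projective plane,
where `∑_P (∑_{L ≤ P} f L)^2 = q ∑ f^2 + (∑ f)^2`.
-/

namespace Vale.Agent.P067

open Finset Module

variable {F E : Type*} [Field F] [AddCommGroup E] [Module F E]

/-- Counting covers of a subspace inside another one. -/
lemma count_covers [Finite F] [FiniteDimensional F E] [Fintype (Submodule F E)]
    {A W : Submodule F E} (hAW : A ≤ W) (Q : Finset (Submodule F E))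
    (hQ : ∀ B, B ∈ Q ↔ A ≤ B ∧ B ≤ W ∧ finrank F B = finrank F A + 1) :
    Q.card * (Nat.card F ^ (finrank F A + 1) - Nat.card F ^ finrank F A) =
      Nat.card F ^ finrank F W - Nat.card F ^ finrank F A := by
  classical
  have : Finite E := Module.finite_of_finite F
  have : Fintype E := Fintype.ofFinite E
  have hcard : ∀ X : Submodule F E, A ≤ X →
      (Finset.univ.filter fun v : E => v ∈ X ∧ v ∉ A).card =
        Nat.card F ^ finrank F X - Nat.card F ^ finrank F A := by
    intro X hX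
    have h1 : ∀ Y : Submodule F E,
        (Finset.univ.filter fun v : E => v ∈ Y).card = Nat.card F ^ finrank F Y := fun Y => by
      rw [← Module.natCard_eq_pow_finrank (K := F) (V := Y), ← Fintype.card_subtype,
        Nat.card_eq_fintype_card]
    rw [← h1 X, ← h1 A, ← Finset.card_sdiff_of_subset fun v hv => Finset.mem_filter.2
      ⟨Finset.mem_univ v, hX (Finset.mem_filter.1 hv).2⟩]
    congr 1
    ext v; simp
  have hdim : ∀ v, v ∉ A → finrank F ↥(A ⊔ Submodule.span F {v}) = finrank F A + 1 := by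
    intro v hv
    have hv0 : v ≠ 0 := fun h => hv (h ▸ A.zero_mem)
    have h1 := Submodule.finrank_sup_add_finrank_inf_eq A (Submodule.span F {v})
    have h2 : A ⊓ Submodule.span F {v} = ⊥ :=
      disjoint_iff.1 ((Submodule.disjoint_span_singleton' hv0).2 hv)
    rwa [h2, finrank_bot, add_zero, finrank_span_singleton hv0] at h1
  have hmap : ∀ v ∈ Finset.univ.filter (fun v : E => v ∈ W ∧ v ∉ A),
      A ⊔ Submodule.span F {v} ∈ Q := fun v hv => by
    obtain ⟨hvW, hvA⟩ := (Finset.mem_filter.1 hv).2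
    exact (hQ _).2 ⟨le_sup_left, sup_le hAW ((Submodule.span_singleton_le_iff_mem v W).2 hvW),
      hdim v hvA⟩
  rw [← hcard W hAW, Finset.card_eq_sum_card_fiberwise hmap,
    Finset.sum_congr rfl fun B hB => show _ = Nat.card F ^ (finrank F A + 1) -
      Nat.card F ^ finrank F A from ?_, Finset.sum_const, smul_eq_mul]
  obtain ⟨hAB, hBW, hd⟩ := (hQ B).1 hB
  rw [← hd, ← hcard B hAB]
  congr 1
  ext v
  simp only [Finset.mem_filter, Finset.mem_univ, true_and]
  constructor
  · rintro ⟨⟨-, hvA⟩, rfl⟩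
    exact ⟨Submodule.mem_sup_right (Submodule.mem_span_singleton_self v), hvA⟩
  · rintro ⟨hvB, hvA⟩
    exact ⟨⟨hBW hvB, hvA⟩, Submodule.eq_of_le_of_finrank_eq
      (sup_le hAB ((Submodule.span_singleton_le_iff_mem v B).2 hvB)) (by rw [hdim v hvA, hd])⟩

/-- Two distinct lines span a plane. -/
lemma finrank_sup_lines [FiniteDimensional F E] {L L' : Submodule F E} (hL : finrank F L = 1)
    (hL' : finrank F L' = 1) (hne : L ≠ L') : finrank F ↥(L ⊔ L') = 2 := by
  have h := Submodule.finrank_sup_add_finrank_inf_eq L L'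
  have h1 : finrank F ↥(L ⊓ L') < finrank F L := by
    refine Submodule.finrank_lt_finrank_of_lt (lt_of_le_of_ne inf_le_left fun he => hne ?_)
    exact Submodule.eq_of_le_of_finrank_eq (inf_eq_left.1 he) (by rw [hL, hL'])
  omega

/-- Spectral bound for general position incidences of lines and planes in a three-space. -/
theorem plane [Finite F] [DecidableEq (Submodule F E)] (hE : finrank F E = 3) (S : Submodule F E)
    {C : Finset (Finset (Submodule F E))}
    (hC : ∀ c, c ∈ C ↔ ∃ L P : Submodule F E, finrank F L = 1 ∧ finrank F P = 2 ∧ L ≤ P ∧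
      GenPos F S L ∧ GenPos F S P ∧ c = {L, P}) :
    GapLe 2 C (2 / Real.sqrt (Nat.card F)) := by
  classical
  have : FiniteDimensional F E := FiniteDimensional.of_finrank_pos (by omega)
  have : Finite E := Module.finite_of_finite F
  have : Finite (Submodule F E) :=
    Finite.of_injective (fun X : Submodule F E => (X : Set E)) SetLike.coe_injective
  have : Fintype (Submodule F E) := Fintype.ofFinite _
  rcases C.eq_empty_or_nonempty with h0 | hne
  · subst h0; intro φ _; simp [faces]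
  obtain ⟨q, hq⟩ : ∃ q : ℕ, q = Nat.card F := ⟨_, rfl⟩
  have hq2 : 2 ≤ q := hq ▸ Finite.one_lt_card
  rw [← hq]
  let lines : Finset (Submodule F E) := Finset.univ.filter fun L => finrank F L = 1
  let planes : Finset (Submodule F E) := Finset.univ.filter fun P => finrank F P = 2
  let Ls := lines.filter fun L => GenPos F S L
  let Ps := planes.filter fun P => GenPos F S P
  have hlines : ∀ {L : Submodule F E}, L ∈ lines ↔ finrank F L = 1 := fun {L} => by simp [lines]
  have hplanes : ∀ {P : Submodule F E}, P ∈ planes ↔ finrank F P = 2 := fun {P} => by simp [planes]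
  -- counts in the full plane
  have hq1 : q < q ^ 2 := by nlinarith
  have through : ∀ L ∈ lines, (planes.filter fun P => L ≤ P).card = q + 1 := by
    intro L hL
    have hL1 := hlines.1 hL
    have h := count_covers (F := F) (le_top (a := L)) (planes.filter fun P => L ≤ P) fun B => by
      simp [planes, hL1, and_comm]
    rw [finrank_top, hE, hL1, ← hq, pow_one] at h
    have h' : ((planes.filter fun P => L ≤ P).card : ℤ) * ((q : ℤ) ^ 2 - q) = (q : ℤ) ^ 3 - q := by
      have hc := congrArg (fun x : ℕ => (x : ℤ)) h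
      push_cast [Nat.cast_sub hq1.le, Nat.cast_sub (show q ≤ q ^ 3 by nlinarith)] at hc
      exact hc
    have : ((planes.filter fun P => L ≤ P).card : ℤ) = ((q + 1 : ℕ) : ℤ) := by
      refine mul_right_cancel₀ (sub_ne_zero.2 (by exact_mod_cast hq1.ne') : (q : ℤ) ^ 2 - q ≠ 0) ?_
      rw [h']; push_cast; ring
    exact_mod_cast this
  have inside : ∀ P ∈ planes, (lines.filter fun L => L ≤ P).card = q + 1 := by
    intro P hP
    have h := count_covers (F := F) (bot_le (a := P)) (lines.filter fun L => L ≤ P) fun B => by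
      simp [lines, and_comm]
    rw [hplanes.1 hP, finrank_bot, ← hq, zero_add, pow_one, pow_zero] at h
    refine Nat.eq_of_mul_eq_mul_right (show 0 < q - 1 by omega) (h.trans ?_)
    rw [pow_two, mul_self_tsub_one]
  have hN : lines.card ≤ 2 * q ^ 2 := by
    have h := count_covers (F := F) (bot_le (a := (⊤ : Submodule F E))) lines fun B => by
      simp [lines]
    rw [finrank_top, hE, finrank_bot, ← hq, zero_add, pow_one, pow_zero] at h
    have e : (q ^ 2 + q + 1) * (q - 1) + 1 = q ^ 3 := by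
      obtain ⟨r, rfl⟩ : ∃ r, q = r + 1 := ⟨q - 1, by omega⟩
      simp; ring
    have : lines.card = q ^ 2 + q + 1 :=
      Nat.eq_of_mul_eq_mul_right (show 0 < q - 1 by omega) (by omega)
    nlinarith
  have common : ∀ L ∈ lines, ∀ L' ∈ lines, L ≠ L' →
      (planes.filter fun P => L ≤ P ∧ L' ≤ P).card = 1 := by
    intro L hL L' hL' hne
    have h2 := finrank_sup_lines (hlines.1 hL) (hlines.1 hL') hne
    refine Finset.card_eq_one.2 ⟨L ⊔ L', Finset.eq_singleton_iff_unique_mem.2
      ⟨Finset.mem_filter.2 ⟨hplanes.2 h2, le_sup_left, le_sup_right⟩, fun P hP => ?_⟩⟩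
    obtain ⟨hP, h, h'⟩ := Finset.mem_filter.1 hP
    exact (Submodule.eq_of_le_of_finrank_eq (sup_le h h') (by rw [h2, hplanes.1 hP])).symm
  -- degrees among subspaces in general position
  have degL : ∀ L ∈ Ls, q ≤ (Ps.filter fun P => L ≤ P).card ∧
      (Ps.filter fun P => L ≤ P).card ≤ q + 1 := by
    intro L hL
    obtain ⟨hLl, hLg⟩ := Finset.mem_filter.1 hL
    have hL1 := hlines.1 hLl
    have hb : ((planes.filter fun P => L ≤ P).filter fun P => ¬ GenPos F S P).card ≤ 1 := by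
      refine Finset.card_le_one.2 fun P hP P' hP' => ?_
      simp only [Finset.mem_filter] at hP hP'
      obtain ⟨⟨hP2, hLP⟩, hPg⟩ := hP
      obtain ⟨⟨hP2', hLP'⟩, hPg'⟩ := hP'
      simp only [GenPos, not_or] at hPg hPg'
      have hle : ∀ R : Submodule F E, finrank F R = 2 → S ⊔ R ≠ ⊤ → S ≤ R := fun R hR hsup => by
        have h1 : finrank F ↥(S ⊔ R) < finrank F E :=
          Submodule.finrank_lt hsup
        have h2 : finrank F R ≤ finrank F ↥(S ⊔ R) := Submodule.finrank_mono le_sup_right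
        exact le_sup_left.trans
          (Submodule.eq_of_le_of_finrank_eq (le_sup_right (a := S)) (by omega)).ge
      have hSP := hle P (hplanes.1 hP2) hPg.2
      have hSP' := hle P' (hplanes.1 hP2') hPg'.2
      by_contra hne
      have hlt : finrank F ↥(P ⊓ P') < 2 := by
        rw [← hplanes.1 hP2]
        refine Submodule.finrank_lt_finrank_of_lt (lt_of_le_of_ne inf_le_left fun he => hne ?_)
        exact Submodule.eq_of_le_of_finrank_eq (inf_eq_left.1 he)
          (by rw [hplanes.1 hP2, hplanes.1 hP2'])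
      have hLI : L = P ⊓ P' := Submodule.eq_of_le_of_finrank_le (le_inf hLP hLP') (by omega)
      have hSL : S ≤ L := hLI ▸ le_inf hSP hSP'
      rcases hLg with h | h
      · rw [inf_eq_left.2 hSL] at h
        exact hPg.1 (by rw [h, bot_inf_eq])
      · rw [sup_eq_right.2 hSL] at h
        rw [h, finrank_top, hE] at hL1
        omega
    have hsplit := Finset.card_filter_add_card_filter_not
      (s := planes.filter fun P => L ≤ P) (fun P => GenPos F S P)
    rw [through L hLl] at hsplit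
    have e : Ps.filter (fun P => L ≤ P) =
        (planes.filter fun P => L ≤ P).filter fun P => GenPos F S P := Finset.filter_comm _ _ _
    rw [e]
    omega
  have degP : ∀ P ∈ Ps, q ≤ (Ls.filter fun L => L ≤ P).card := by
    intro P hP
    obtain ⟨hPp, hPg⟩ := Finset.mem_filter.1 hP
    have hP2 := hplanes.1 hPp
    have hb : ((lines.filter fun L => L ≤ P).filter fun L => ¬ GenPos F S L).card ≤ 1 := by
      refine Finset.card_le_one.2 fun L hL L' hL' => ?_
      simp only [Finset.mem_filter] at hL hL'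
      obtain ⟨⟨hL1, hLP⟩, hLg⟩ := hL
      obtain ⟨⟨hL1', hLP'⟩, hLg'⟩ := hL'
      simp only [GenPos, not_or] at hLg hLg'
      have hle : ∀ R : Submodule F E, finrank F R = 1 → S ⊓ R ≠ ⊥ → R ≤ S := fun R hR hinf => by
        have h1 : finrank F ↥(S ⊓ R) ≠ 0 := fun h => hinf (Submodule.finrank_eq_zero.1 h)
        exact (Submodule.eq_of_le_of_finrank_le (inf_le_right (a := S) (b := R)) (by omega)).ge.trans
          inf_le_left
      by_contra hne
      have h2 := finrank_sup_lines (hlines.1 hL1) (hlines.1 hL1') hne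
      have hPS : P ≤ S := (Submodule.eq_of_le_of_finrank_eq (sup_le hLP hLP')
        (by rw [h2, hP2])).ge.trans
          (sup_le (hle L (hlines.1 hL1) hLg.1) (hle L' (hlines.1 hL1') hLg'.1))
      rcases hPg with h | h
      · rw [inf_eq_right.2 hPS] at h
        rw [h, finrank_bot] at hP2
        omega
      · rw [sup_eq_left.2 hPS] at h
        exact hLg.2 (by rw [h, top_sup_eq])
    have hsplit := Finset.card_filter_add_card_filter_not
      (s := lines.filter fun L => L ≤ P) (fun L => GenPos F S L)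
    rw [inside P hPp] at hsplit
    have e : Ls.filter (fun L => L ≤ P) =
        (lines.filter fun L => L ≤ P).filter fun L => GenPos F S L := Finset.filter_comm _ _ _
    rw [e]
    omega
  -- chambers as pairs
  let pr := (Ls ×ˢ Ps).filter fun p : Submodule F E × Submodule F E => p.1 ≤ p.2
  have hpr : ∀ p ∈ pr, finrank F p.1 = 1 ∧ finrank F p.2 = 2 := fun p hp => by
    simp only [pr, Ls, Ps, lines, planes, Finset.mem_filter, Finset.mem_product,
      Finset.mem_univ, true_and] at hp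
    exact ⟨hp.1.1.1, hp.1.2.1⟩
  have hne' : ∀ p ∈ pr, p.1 ≠ p.2 := fun p hp h => by
    have := hpr p hp; rw [h] at this; omega
  have hCi : C = pr.image fun p => ({p.1, p.2} : Finset (Submodule F E)) := by
    ext c
    simp only [hC, Finset.mem_image, pr, Ls, Ps, lines, planes, Finset.mem_filter,
      Finset.mem_product, Finset.mem_univ, true_and, Prod.exists]
    constructor
    · rintro ⟨L, P, a, b, c', d, e, rfl⟩; exact ⟨L, P, ⟨⟨⟨a, d⟩, b, e⟩, c'⟩, rfl⟩
    · rintro ⟨L, P, ⟨⟨⟨a, d⟩, b, e⟩, c'⟩, rfl⟩; exact ⟨L, P, a, b, c', d, e, rfl⟩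
  have hinj : Set.InjOn (fun p : Submodule F E × Submodule F E =>
      ({p.1, p.2} : Finset (Submodule F E))) ↑pr := by
    rintro ⟨a, b⟩ hp ⟨a', b'⟩ hp' h
    obtain ⟨ha, hb⟩ := hpr _ hp
    obtain ⟨ha', hb'⟩ := hpr _ hp'
    simp only at h ha hb ha' hb'
    have h1 : a ∈ ({a', b'} : Finset (Submodule F E)) := h ▸ Finset.mem_insert_self a {b}
    have h2 : b ∈ ({a', b'} : Finset (Submodule F E)) :=
      h ▸ Finset.mem_insert_of_mem (Finset.mem_singleton_self b)
    simp only [Finset.mem_insert, Finset.mem_singleton] at h1 h2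
    have e1 : a = a' := h1.resolve_right fun e => by rw [e] at ha; omega
    have e2 : b = b' := h2.resolve_left fun e => by rw [e] at hb; omega
    rw [e1, e2]
  have hU : Uniform 2 C := by
    refine ⟨hne, fun c hc => ?_⟩
    rw [hCi] at hc
    obtain ⟨p, hp, rfl⟩ := Finset.mem_image.1 hc
    exact Finset.card_pair (hne' p hp)
  have hsum : ∀ G : Finset (Submodule F E) → ℝ, ∑ c ∈ C, G c =
      ∑ L ∈ Ls, ∑ P ∈ Ps.filter (fun P => L ≤ P), G {L, P} := fun G => by
    rw [hCi, Finset.sum_image hinj]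
    simp only [pr, Finset.sum_filter, Finset.sum_product]
  have hswap : ∀ G : Submodule F E → Submodule F E → ℝ,
      ∑ L ∈ Ls, ∑ P ∈ Ps.filter (fun P => L ≤ P), G L P =
        ∑ P ∈ Ps, ∑ L ∈ Ls.filter (fun L => L ≤ P), G L P := fun G =>
    Finset.sum_comm' fun L P => by simp only [Finset.mem_filter]; tauto
  have hpair : ∀ L ∈ Ls, ∀ P ∈ Ps.filter (fun P => L ≤ P), ∀ g : Submodule F E → ℝ,
      ∑ v ∈ ({L, P} : Finset (Submodule F E)), g v = g L + g P := fun L hL P hP g => by
    refine Finset.sum_pair fun h => ?_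
    have h1 := hlines.1 (Finset.mem_filter.1 hL).1
    have h2 := hplanes.1 (Finset.mem_filter.1 (Finset.mem_filter.1 hP).1).1
    rw [h] at h1; omega
  -- the inequality
  rw [gapLe_iff hU le_rfl]
  intro φ hT
  obtain ⟨dL, hdL⟩ : ∃ dL : Submodule F E → ℝ,
      dL = fun L => ((Ps.filter fun P => L ≤ P).card : ℝ) := ⟨_, rfl⟩
  obtain ⟨dP, hdP⟩ : ∃ dP : Submodule F E → ℝ,
      dP = fun P => ((Ls.filter fun L => L ≤ P).card : ℝ) := ⟨_, rfl⟩
  have hvert : ∀ g : Submodule F E → ℝ,
      sumT C g = ∑ L ∈ Ls, dL L * g L + ∑ P ∈ Ps, dP P * g P := fun g => by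
    rw [sumT, hsum, Finset.sum_congr rfl fun L hL =>
      (Finset.sum_congr rfl fun P hP => hpair L hL P hP g).trans Finset.sum_add_distrib,
      Finset.sum_add_distrib, hswap (fun _ P => g P), hdL, hdP]
    simp only [Finset.sum_const, nsmul_eq_mul]
  have hA : sqS C φ = sumT C (fun v => φ v ^ 2) +
      2 * ∑ L ∈ Ls, ∑ P ∈ Ps.filter (fun P => L ≤ P), φ L * φ P := by
    simp only [sqS, sumT]
    rw [hsum, hsum, Finset.mul_sum, ← Finset.sum_add_distrib]
    refine Finset.sum_congr rfl fun L hL => ?_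
    rw [Finset.mul_sum, ← Finset.sum_add_distrib]
    refine Finset.sum_congr rfl fun P hP => ?_
    rw [hpair L hL P hP, hpair L hL P hP]
    ring
  have hdLb : ∀ L ∈ Ls, (q : ℝ) ≤ dL L ∧ dL L ≤ q + 1 := fun L hL => by
    simp only [hdL]; exact ⟨by exact_mod_cast (degL L hL).1, by exact_mod_cast (degL L hL).2⟩
  have hdPb : ∀ P ∈ Ps, (q : ℝ) ≤ dP P := fun P hP => by
    simp only [hdP]; exact_mod_cast degP P hP
  have hqr : (2 : ℝ) ≤ q := by exact_mod_cast hq2
  obtain ⟨M, hM⟩ : ∃ M : ℝ, M = ∑ L ∈ Ls, dL L := ⟨_, rfl⟩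
  have hMpos : 0 < M := by
    rw [hM]
    refine Finset.sum_pos (fun L hL => by linarith [(hdLb L hL).1]) ?_
    obtain ⟨c, hc⟩ := hne
    rw [hCi] at hc
    obtain ⟨p, hp, -⟩ := Finset.mem_image.1 hc
    exact ⟨p.1, (Finset.mem_product.1 (Finset.mem_filter.1 hp).1).1⟩
  obtain ⟨a, ha⟩ : ∃ a : ℝ, a = (∑ L ∈ Ls, dL L * φ L) / M := ⟨_, rfl⟩
  have haM : ∑ L ∈ Ls, dL L * φ L = a * M := by rw [ha, div_mul_cancel₀ _ hMpos.ne']
  obtain ⟨f, hf⟩ : ∃ f : Submodule F E → ℝ, f = fun L => φ L - a := ⟨_, rfl⟩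
  have hf0 : ∑ L ∈ Ls, dL L * f L = 0 := by
    simp only [hf, mul_sub, Finset.sum_sub_distrib, ← Finset.sum_mul, ← hM, haM]
    ring
  have hf2 : ∑ L ∈ Ls, dL L * f L ^ 2 ≤ ∑ L ∈ Ls, dL L * φ L ^ 2 := by
    have : ∑ L ∈ Ls, dL L * f L ^ 2 = ∑ L ∈ Ls, dL L * φ L ^ 2 - a ^ 2 * M := by
      rw [Finset.sum_congr rfl fun L _ => show dL L * f L ^ 2 =
        dL L * φ L ^ 2 - 2 * a * (dL L * φ L) + a ^ 2 * dL L by rw [hf]; ring,
        Finset.sum_add_distrib, Finset.sum_sub_distrib, ← Finset.mul_sum, ← Finset.mul_sum,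
        haM, ← hM]
      ring
    nlinarith [sq_nonneg a]
  obtain ⟨g, hg⟩ : ∃ g : Submodule F E → ℝ,
      g = fun P => ∑ L ∈ Ls.filter (fun L => L ≤ P), f L := ⟨_, rfl⟩
  have hgg : ∑ P ∈ planes, g P ^ 2 = q * ∑ L ∈ Ls, f L ^ 2 + (∑ L ∈ Ls, f L) ^ 2 := by
    have e : ∀ P, g P ^ 2 = ∑ L ∈ Ls, ∑ L' ∈ Ls,
        (if L ≤ P ∧ L' ≤ P then f L * f L' else 0) := fun P => by
      rw [hg, pow_two, Finset.sum_mul_sum, Finset.sum_filter]
      refine Finset.sum_congr rfl fun L _ => ?_
      rw [Finset.sum_filter]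
      by_cases h : L ≤ P <;> simp [h]
    rw [Finset.sum_congr rfl fun P _ => e P, Finset.sum_comm,
      pow_two, Finset.sum_mul_sum, Finset.mul_sum, ← Finset.sum_add_distrib]
    refine Finset.sum_congr rfl fun L hL => ?_
    rw [Finset.sum_comm]
    have hstep : ∀ L' ∈ Ls, ∑ P ∈ planes, (if L ≤ P ∧ L' ≤ P then f L * f L' else 0) =
        f L * f L' + if L = L' then (q : ℝ) * (f L * f L') else 0 := by
      intro L' hL'
      rw [← Finset.sum_filter, Finset.sum_const, nsmul_eq_mul]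
      have hLl := (Finset.mem_filter.1 hL).1
      rcases eq_or_ne L L' with rfl | hne
      · rw [if_pos rfl, show (planes.filter fun P => L ≤ P ∧ L ≤ P) =
          planes.filter fun P => L ≤ P by simp, through L hLl]
        push_cast; ring
      · rw [if_neg hne, common L hLl L' (Finset.mem_filter.1 hL').1 hne]
        simp
    rw [Finset.sum_congr rfl hstep, Finset.sum_add_distrib, Finset.sum_ite_eq, if_pos hL]
    ring
  have hsumf : (∑ L ∈ Ls, f L) ^ 2 ≤ 2 * ∑ L ∈ Ls, f L ^ 2 := by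
    have h1 : (q : ℝ) * ∑ L ∈ Ls, f L = ∑ L ∈ Ls, ((q : ℝ) - dL L) * f L := by
      simp only [sub_mul, Finset.sum_sub_distrib, hf0, Finset.mul_sum, sub_zero]
    have h2 := sq_sum_le_card_mul_sum_sq (s := Ls) (f := fun L => ((q : ℝ) - dL L) * f L)
    rw [← h1] at h2
    have h3 : ∑ L ∈ Ls, (((q : ℝ) - dL L) * f L) ^ 2 ≤ ∑ L ∈ Ls, f L ^ 2 :=
      Finset.sum_le_sum fun L hL => by
        rw [mul_pow]
        refine mul_le_of_le_one_left (sq_nonneg _) ?_
        nlinarith [(hdLb L hL).1, (hdLb L hL).2]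
    have h4 : (Ls.card : ℝ) ≤ 2 * (q : ℝ) ^ 2 := by
      exact_mod_cast (Finset.card_filter_le _ _).trans hN
    have h5 := mul_le_mul h4 h3 (Finset.sum_nonneg fun L _ => sq_nonneg _) (by positivity)
    exact le_of_mul_le_mul_left (by linarith [h2, h5] :
      (q : ℝ) ^ 2 * (∑ L ∈ Ls, f L) ^ 2 ≤ (q : ℝ) ^ 2 * (2 * ∑ L ∈ Ls, f L ^ 2)) (by positivity)
  have hgP : ∑ P ∈ Ps, g P ^ 2 ≤ 2 * q * ∑ L ∈ Ls, f L ^ 2 := by
    refine le_trans (Finset.sum_le_sum_of_subset_of_nonneg (Finset.filter_subset _ _)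
      fun P _ _ => sq_nonneg (g P)) ?_
    rw [hgg]
    have : 0 ≤ ((q : ℝ) - 2) * ∑ L ∈ Ls, f L ^ 2 :=
      mul_nonneg (by linarith) (Finset.sum_nonneg fun L _ => sq_nonneg _)
    linarith
  have hI : ∑ L ∈ Ls, ∑ P ∈ Ps.filter (fun P => L ≤ P), φ L * φ P ≤ ∑ P ∈ Ps, φ P * g P := by
    rw [hswap (fun L P => φ L * φ P)]
    have e : ∀ P ∈ Ps, ∑ L ∈ Ls.filter (fun L => L ≤ P), φ L * φ P =
        φ P * g P + a * (dP P * φ P) := fun P _ => by
      simp only [hg, hf, hdP, Finset.sum_sub_distrib, Finset.sum_const, nsmul_eq_mul,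
        ← Finset.sum_mul]
      ring
    rw [Finset.sum_congr rfl e, Finset.sum_add_distrib, ← Finset.mul_sum]
    have hT' := hT
    rw [hvert, haM] at hT'
    rw [show ∑ P ∈ Ps, dP P * φ P = -(a * M) by linarith]
    nlinarith [sq_nonneg a]
  rw [hA]
  obtain ⟨r, hr⟩ : ∃ r : ℝ, r = Real.sqrt q := ⟨_, rfl⟩
  have hr0 : 0 < r := hr ▸ Real.sqrt_pos.2 (by linarith)
  have hr2 : (q : ℝ) = r ^ 2 := by rw [hr, Real.sq_sqrt (by linarith)]
  rw [← hr]
  have h1 : 2 * (∑ P ∈ Ps, φ P * g P) * r ≤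
      ∑ P ∈ Ps, g P ^ 2 + (q : ℝ) * ∑ P ∈ Ps, φ P ^ 2 := by
    rw [Finset.mul_sum, Finset.mul_sum, Finset.sum_mul, ← Finset.sum_add_distrib]
    refine Finset.sum_le_sum fun P _ => ?_
    rw [hr2]
    nlinarith [sq_nonneg (g P - r * φ P)]
  have h2 : (q : ℝ) * ∑ L ∈ Ls, f L ^ 2 ≤ ∑ L ∈ Ls, dL L * f L ^ 2 := by
    rw [Finset.mul_sum]
    exact Finset.sum_le_sum fun L hL => mul_le_mul_of_nonneg_right (hdLb L hL).1 (sq_nonneg _)
  have h3 : (q : ℝ) * ∑ P ∈ Ps, φ P ^ 2 ≤ ∑ P ∈ Ps, dP P * φ P ^ 2 := by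
    rw [Finset.mul_sum]
    exact Finset.sum_le_sum fun P hP => mul_le_mul_of_nonneg_right (hdPb P hP) (sq_nonneg _)
  have h4 : 0 ≤ ∑ P ∈ Ps, dP P * φ P ^ 2 :=
    Finset.sum_nonneg fun P hP => mul_nonneg (by linarith [hdPb P hP]) (sq_nonneg _)
  have hB := hvert (fun v => φ v ^ 2)
  rw [← sub_nonneg]
  have e : ((2 : ℕ) : ℝ) - 1 = 1 := by norm_num
  rw [e, one_mul, add_mul, one_mul, div_mul_eq_mul_div]
  have key : 2 * (∑ L ∈ Ls, ∑ P ∈ Ps.filter (fun P => L ≤ P), φ L * φ P) ≤
      2 * sumT C (fun v => φ v ^ 2) / r := by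
    rw [le_div_iff₀ hr0, hB]
    have := mul_le_mul_of_nonneg_right hI hr0.le
    linarith
  linarith

end Vale.Agent.P067
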