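import Vale.Agent.P067.FlagLink
import Vale.Agent.P067.SpectralPlane

/-!
Rank two links of the flag complexes: either complete bipartite, or the incidence complex of
points and lines of a projective plane in general position to a fixed subspace.
-/

namespace Vale.Agent.P067

open Finset Module

section Interval

variable {F : Type*} [Field F] {E : Type*} [AddCommGroup E] [Module F E]

/-- General position inside an interval with ends in general position. -/
lemma genPos_interval {S A V W : Submodule F E} (hA : GenPos F S A) (hW : GenPos F S W)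
    (hAV : A ≤ V) (hVW : V ≤ W) :
    GenPos F S V ↔ S ⊓ V ≤ A ∨ W ≤ S ⊓ W ⊔ V := by
  constructor
  · rintro (h | h)
    · exact Or.inl (h.le.trans bot_le)
    · refine Or.inr ?_
      rw [sup_comm (S ⊓ W), ← sup_inf_assoc_of_le S hVW, sup_comm, h, top_inf_eq]
  · rintro (h | h)
    · rcases hA with hA | hA
      · exact Or.inl (le_bot_iff.1 (hA ▸ le_inf inf_le_left h))
      · exact Or.inr (top_le_iff.1 (hA ▸ sup_le_sup_left hAV S))
    · rcases hW with hW | hW
      · exact Or.inl (le_bot_iff.1 (hW ▸ inf_le_inf_left S hVW))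
      · refine Or.inr (top_le_iff.1 ?_)
        rw [← hW]
        exact sup_le le_sup_left (h.trans (sup_le_sup_right inf_le_left V))

variable (A W : Submodule F E)

/-- The subspace between `A` and `W` belonging to a subspace of the quotient. -/
def liftQ (V : Submodule F (↥W ⧸ A.comap W.subtype)) : Submodule F E :=
  (V.comap (A.comap W.subtype).mkQ).map W.subtype

variable {A W}

lemma liftQ_le (V : Submodule F (↥W ⧸ A.comap W.subtype)) : liftQ A W V ≤ W :=
  Submodule.map_subtype_le W _

lemma liftQ_mono : Monotone (liftQ A W) := fun _ _ h =>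
  Submodule.map_mono (Submodule.comap_mono h)

lemma liftQ_injective : Function.Injective (liftQ A W) := fun _ _ h =>
  Submodule.comap_injective_of_surjective (Submodule.mkQ_surjective _)
    (Submodule.map_injective_of_injective W.injective_subtype h)

lemma le_of_liftQ_le {U V : Submodule F (↥W ⧸ A.comap W.subtype)}
    (h : liftQ A W U ≤ liftQ A W V) : U ≤ V := by
  have h' := (Submodule.map_le_map_iff_of_injective W.injective_subtype _ _).1 h
  exact (Submodule.comap_le_comap_iff_of_surjective (Submodule.mkQ_surjective _)).1 h'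

lemma exists_liftQ {V : Submodule F E} (hAV : A ≤ V) (hVW : V ≤ W) :
    ∃ V', liftQ A W V' = V := by
  refine ⟨(V.comap W.subtype).map (A.comap W.subtype).mkQ, ?_⟩
  rw [liftQ, Submodule.comap_map_mkQ, sup_eq_right.2 (Submodule.comap_mono hAV),
    Submodule.map_comap_subtype, inf_eq_right.2 hVW]

lemma liftQ_bot (hAW : A ≤ W) : liftQ A W ⊥ = A := by
  rw [liftQ, Submodule.comap_bot, Submodule.ker_mkQ, Submodule.map_comap_subtype,
    inf_eq_right.2 hAW]

lemma le_liftQ (hAW : A ≤ W) (V : Submodule F (↥W ⧸ A.comap W.subtype)) : A ≤ liftQ A W V :=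
  (liftQ_bot hAW).ge.trans (liftQ_mono bot_le)

lemma liftQ_top : liftQ A W ⊤ = W := by
  rw [liftQ, Submodule.comap_top, Submodule.map_subtype_top]

lemma finrank_liftQ [FiniteDimensional F E] (hAW : A ≤ W)
    (V : Submodule F (↥W ⧸ A.comap W.subtype)) :
    finrank F (liftQ A W V) = finrank F V + finrank F A := by
  rw [liftQ, Submodule.finrank_map_subtype_eq]
  have h := LinearMap.finrank_range_add_finrank_ker ((A.comap W.subtype).mkQ.domRestrict (V.comap (A.comap W.subtype).mkQ))
  rw [LinearMap.range_domRestrict,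
    Submodule.map_comap_eq_of_surjective (Submodule.mkQ_surjective _),
    LinearMap.ker_domRestrict, Submodule.ker_mkQ] at h
  have hle : (A.comap W.subtype) ≤ V.comap (A.comap W.subtype).mkQ := Submodule.le_comap_mkQ (A.comap W.subtype) V
  rw [(Submodule.comapSubtypeEquivOfLe hle).finrank_eq,
    (Submodule.comapSubtypeEquivOfLe hAW).finrank_eq] at h
  omega

end Interval

section Gap

variable {F E : Type} [Field F] [Fintype F] [AddCommGroup E] [Module F E] [FiniteDimensional F E]
  [Fintype (Submodule F E)]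

/-- The rank two links of the flag complexes have spectral gap `2 / √q`. -/
theorem flag_gap_two (S : Submodule F E) (P : Finset (Submodule F E))
    (hP : ∀ V ∈ P, V ∈ genSub S) (hPc : IsChainF P) (hd : P.card + 3 = finrank F E) :
    GapLe 2 (flagCh S P) (2 / Real.sqrt (Nat.card F)) := by
  classical
  set n := finrank F E with hn
  set miss := Finset.Ioo 0 n \ P.image (fun V : Submodule F E => finrank F V) with hmiss
  have hmc : miss.card = 2 := by
    have hsub : P.image (fun V : Submodule F E => finrank F V) ⊆ Finset.Ioo 0 n := by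
      intro j hj
      obtain ⟨V, hV, rfl⟩ := Finset.mem_image.1 hj
      exact Finset.mem_Ioo.2 (genSub_finrank (hP V hV))
    rw [hmiss, Finset.card_sdiff_of_subset hsub, Finset.card_image_of_injOn (chain_injOn hPc),
      Nat.card_Ioo]
    omega
  obtain ⟨x, y, hxy, hm⟩ := Finset.card_eq_two.1 hmc
  obtain ⟨i, j, hij, hmij⟩ : ∃ i j, i < j ∧ miss = {i, j} := by
    rcases lt_or_gt_of_ne hxy with h | h
    · exact ⟨x, y, h, hm⟩
    · exact ⟨y, x, h, by rw [hm, Finset.pair_comm]⟩
  have hi : i ∈ miss := by simp [hmij]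
  have hj : j ∈ miss := by simp [hmij]
  obtain ⟨hiI, hiP⟩ := Finset.mem_sdiff.1 hi
  obtain ⟨hjI, hjP⟩ := Finset.mem_sdiff.1 hj
  rw [Finset.mem_Ioo] at hiI hjI
  have hother : ∀ d, 0 < d → d < n → d ≠ i → d ≠ j →
      ∃ U ∈ P, finrank F (U : Submodule F E) = d := by
    intro d h1 h2 h3 h4
    by_contra hne
    have : d ∈ miss := Finset.mem_sdiff.2 ⟨Finset.mem_Ioo.2 ⟨h1, h2⟩, fun h => by
      obtain ⟨U, hU, hUd⟩ := Finset.mem_image.1 h
      exact hne ⟨U, hU, hUd⟩⟩
    simp [hmij, h3, h4] at this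
  -- vertices
  set vert : ℕ → Finset (Submodule F E) := fun d => Finset.univ.filter fun V =>
    finrank F V = d ∧ V ∈ genSub S ∧ V ∉ P ∧ ∀ U ∈ P, U ≤ V ∨ V ≤ U with hvert
  have hpair : ∀ c, c ∈ flagCh S P ↔ ∃ a ∈ vert i, ∃ b ∈ vert j, a ≤ b ∧ c = {a, b} := by
    intro c
    constructor
    · intro hc
      have hcol : c.image (fun V : Submodule F E => finrank F V) = {i, j} := by
        rw [flagCh_colours hc, ← hn, ← hmij]
      obtain ⟨⟨hdis, hg, hch⟩, hcard⟩ := mem_flagCh.1 hc
      have hmk : ∀ V ∈ c, V ∈ vert (finrank F V) := fun V hV => Finset.mem_filter.2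
        ⟨Finset.mem_univ _, rfl, hg V (Finset.mem_union_left _ hV),
          Finset.disjoint_left.1 hdis hV, fun U hU =>
            hch U (Finset.mem_union_right _ hU) V (Finset.mem_union_left _ hV)⟩
      obtain ⟨a, hac, ha⟩ := Finset.mem_image.1
        (show i ∈ c.image (fun V : Submodule F E => finrank F V) by simp [hcol])
      obtain ⟨b, hbc, hb⟩ := Finset.mem_image.1
        (show j ∈ c.image (fun V : Submodule F E => finrank F V) by simp [hcol])
      refine ⟨a, ha ▸ hmk a hac, b, hb ▸ hmk b hbc, ?_, ?_⟩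
      · refine (hch a (Finset.mem_union_left _ hac) b (Finset.mem_union_left _ hbc)).resolve_right
          fun h => ?_
        have := Submodule.finrank_mono h
        omega
      · have hab : a ≠ b := fun h => hij.ne (by rw [← ha, ← hb, h])
        refine (Finset.eq_of_subset_of_card_le ?_ ?_).symm
        · intro v hv
          rcases Finset.mem_insert.1 hv with h | h
          · rw [h]; exact hac
          · rw [Finset.mem_singleton.1 h]; exact hbc
        · rw [Finset.card_pair hab]; omega
    · rintro ⟨a, ha, b, hb, hab, rfl⟩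
      obtain ⟨-, ha1, ha2, ha3, ha4⟩ := Finset.mem_filter.1 ha
      obtain ⟨-, hb1, hb2, hb3, hb4⟩ := Finset.mem_filter.1 hb
      have hne : a ≠ b := fun h => hij.ne (by rw [← ha1, ← hb1, h])
      refine mem_flagCh.2 ⟨⟨?_, ?_, ?_⟩, by rw [Finset.card_pair hne]; omega⟩
      · rw [Finset.disjoint_insert_left, Finset.disjoint_singleton_left]
        exact ⟨ha3, hb3⟩
      · intro X hX
        simp only [Finset.mem_union, Finset.mem_insert, Finset.mem_singleton] at hX
        rcases hX with (rfl | rfl) | hX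
        exacts [ha2, hb2, hP X hX]
      · intro X hX Y hY
        simp only [Finset.mem_union, Finset.mem_insert, Finset.mem_singleton] at hX hY
        rcases hX with (rfl | rfl) | hX <;> rcases hY with (rfl | rfl) | hY
        exacts [Or.inl le_rfl, Or.inl hab, (ha4 Y hY).symm, Or.inr hab, Or.inl le_rfl,
          (hb4 Y hY).symm, ha4 X hX, hb4 X hX, hPc X hX Y hY]
  have hq : (0 : ℝ) ≤ 2 / Real.sqrt (Nat.card F) :=
    div_nonneg (by norm_num) (Real.sqrt_nonneg _)
  by_cases hadj : j = i + 1
  swap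
  · -- two separated dimensions: complete bipartite
    refine gapLe_mono hq ?_
    obtain ⟨c, hc⟩ := (uniform_flagCh hP hPc (by omega)).1
    obtain ⟨a, ha, b, hb, -, -⟩ := (hpair c).1 hc
    refine bipartite ⟨a, ha⟩ ⟨b, hb⟩ ?_ fun c => ?_
    · exact Finset.disjoint_left.2 fun V h1 h2 => hij.ne
        ((Finset.mem_filter.1 h1).2.1.symm.trans (Finset.mem_filter.1 h2).2.1)
    · rw [hpair]
      constructor
      · rintro ⟨a, ha, b, hb, -, rfl⟩; exact ⟨a, ha, b, hb, rfl⟩
      · rintro ⟨a, ha, b, hb, rfl⟩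
        refine ⟨a, ha, b, hb, ?_, rfl⟩
        obtain ⟨-, ha1, -, -, ha4⟩ := Finset.mem_filter.1 ha
        obtain ⟨-, hb1, -, -, hb4⟩ := Finset.mem_filter.1 hb
        obtain ⟨U, hU, hUd⟩ := hother (i + 1) (by omega) (by omega) (by omega) (Ne.symm hadj)
        refine le_trans ((ha4 U hU).resolve_left fun h => ?_) ((hb4 U hU).resolve_right fun h => ?_)
        · have := Submodule.finrank_mono h; omega
        · have := Submodule.finrank_mono h; omega
  -- adjacent dimensions: a projective plane
  subst hadj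
  obtain ⟨A, hA, hAd, hAg⟩ :
      ∃ A : Submodule F E, (A ∈ P ∨ A = ⊥) ∧ finrank F A + 1 = i ∧ GenPos F S A := by
    by_cases h1 : i = 1
    · exact ⟨⊥, Or.inr rfl, by rw [finrank_bot, h1], genPos_bot S⟩
    · obtain ⟨U, hU, hUd⟩ := hother (i - 1) (by omega) (by omega) (by omega) (by omega)
      exact ⟨U, Or.inl hU, by omega, (hP U hU).2.2⟩
  obtain ⟨W, hW, hWd, hWg⟩ :
      ∃ W : Submodule F E, (W ∈ P ∨ W = ⊤) ∧ finrank F W = i + 2 ∧ GenPos F S W := by
    by_cases h1 : i + 2 = n
    · exact ⟨⊤, Or.inr rfl, by rw [finrank_top, ← hn, h1], genPos_top S⟩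
    · obtain ⟨U, hU, hUd⟩ := hother (i + 2) (by omega) (by omega) (by omega) (by omega)
      exact ⟨U, Or.inl hU, hUd, (hP U hU).2.2⟩
  have hcompA : ∀ U, (U ∈ P ∨ U = ⊤) → U ≤ A ∨ A ≤ U := by
    intro U hU
    rcases hA with hA | hA
    · rcases hU with hU | hU
      · exact hPc U hU A hA
      · exact Or.inr (hU ▸ le_top)
    · exact Or.inr (hA ▸ bot_le)
  have hAW : A ≤ W := by
    refine (hcompA W hW).resolve_left fun h => ?_
    have := Submodule.finrank_mono h; omega
  have hout : ∀ U ∈ P, U ≤ A ∨ W ≤ U := by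
    intro U hU
    have hUi : finrank F U ≠ i := fun e => hiP (Finset.mem_image.2 ⟨U, hU, e⟩)
    have hUj : finrank F U ≠ i + 1 := fun e => hjP (Finset.mem_image.2 ⟨U, hU, e⟩)
    by_cases hlow : finrank F U < i
    · refine Or.inl ((hcompA U (Or.inl hU)).elim id fun h => ?_)
      exact (Submodule.eq_of_le_of_finrank_le h (by omega)).ge
    · refine Or.inr ?_
      rcases hW with hW | hW
      · exact (hPc W hW U hU).elim id fun h =>
          (Submodule.eq_of_le_of_finrank_le h (by omega)).ge
      · have := genSub_finrank (hP U hU)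
        rw [hW, finrank_top] at hWd
        omega
  have hinside : ∀ V : Submodule F E, finrank F V = i ∨ finrank F V = i + 1 →
      (V ∈ vert (finrank F V) ↔ A ≤ V ∧ V ≤ W ∧ GenPos F S V) := by
    intro V hVd
    constructor
    · intro hV
      obtain ⟨-, -, h2, -, h4⟩ := Finset.mem_filter.1 hV
      refine ⟨?_, ?_, h2.2.2⟩
      · rcases hA with hA | hA
        · refine (h4 A hA).resolve_right fun h => ?_
          have := Submodule.finrank_mono h; omega
        · exact hA ▸ bot_le
      · rcases hW with hW | hW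
        · refine (h4 W hW).resolve_left fun h => ?_
          have := Submodule.finrank_mono h; omega
        · exact hW ▸ le_top
    · rintro ⟨h1, h2, h3⟩
      refine Finset.mem_filter.2 ⟨Finset.mem_univ _, rfl, ⟨fun h => ?_, fun h => ?_, h3⟩,
        fun h => ?_, fun U hU => ?_⟩
      · rw [h, finrank_bot] at hVd; omega
      · rw [h, finrank_top, ← hn] at hVd; omega
      · rcases hVd with e | e
        · exact hiP (Finset.mem_image.2 ⟨V, h, e⟩)
        · exact hjP (Finset.mem_image.2 ⟨V, h, e⟩)
      · rcases hout U hU with h | h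
        · exact Or.inl (h.trans h1)
        · exact Or.inr (h2.trans h)
  -- the quotient plane
  have hE' : finrank F (↥W ⧸ (A.comap W.subtype)) = 3 := by
    have h1 := Submodule.finrank_quotient_add_finrank (A.comap W.subtype)
    rw [(Submodule.comapSubtypeEquivOfLe hAW).finrank_eq, hWd] at h1
    omega
  set f : Submodule F (↥W ⧸ (A.comap W.subtype)) → Submodule F E := liftQ A W with hf
  letI : Fintype (Submodule F (↥W ⧸ (A.comap W.subtype))) := Fintype.ofInjective f liftQ_injective
  set S2 : Submodule F (↥W ⧸ (A.comap W.subtype)) := ((S ⊓ W).comap W.subtype).map (A.comap W.subtype).mkQ with hS2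
  have hfS2 : f S2 = S ⊓ W ⊔ A := by
    simp only [hf, hS2, liftQ, Submodule.comap_map_mkQ]
    rw [Submodule.map_sup, Submodule.map_comap_subtype, Submodule.map_comap_subtype,
      inf_eq_right.2 hAW, inf_eq_right.2 (inf_le_right : S ⊓ W ≤ W), sup_comm]
  have hgen : ∀ V', GenPos F S2 V' ↔ GenPos F S (f V') := by
    intro V'
    have hAV : A ≤ f V' := le_liftQ hAW V'
    have hVW : f V' ≤ W := liftQ_le V'
    rw [genPos_interval hAg hWg hAV hVW]
    refine or_congr ⟨fun h => ?_, fun h => ?_⟩ ⟨fun h => ?_, fun h => ?_⟩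
    · obtain ⟨Z, hZ⟩ := exists_liftQ (A := A) (W := W) (V := S ⊓ f V' ⊔ A) le_sup_right
        (sup_le (inf_le_right.trans hVW) hAW)
      have hZ1 : Z ≤ S2 ⊓ V' := by
        refine le_inf (le_of_liftQ_le ?_) (le_of_liftQ_le ?_)
        · rw [hZ, ← hf, hfS2]; exact sup_le_sup_right (inf_le_inf_left S hVW) A
        · rw [hZ]; exact sup_le inf_le_right hAV
      have := liftQ_mono (A := A) (W := W) (hZ1.trans h.le)
      rw [hZ, liftQ_bot hAW] at this
      exact le_sup_left.trans this
    · refine le_bot_iff.1 (le_of_liftQ_le ?_)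
      rw [liftQ_bot hAW]
      refine (le_inf (liftQ_mono inf_le_left) (liftQ_mono inf_le_right)).trans ?_
      show f S2 ⊓ f V' ≤ A
      rw [hfS2, sup_comm, sup_inf_assoc_of_le _ hAV]
      exact sup_le le_rfl ((inf_le_inf_right _ inf_le_left).trans h)
    · obtain ⟨Z, hZ⟩ := exists_liftQ (A := A) (W := W) (V := S ⊓ W ⊔ f V')
        (hAV.trans le_sup_right) (sup_le inf_le_right hVW)
      have hZ1 : S2 ⊔ V' ≤ Z := by
        refine sup_le (le_of_liftQ_le ?_) (le_of_liftQ_le ?_)
        · rw [hZ, ← hf, hfS2]; exact sup_le le_sup_left (hAV.trans le_sup_right)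
        · rw [hZ]; exact le_sup_right
      have := liftQ_mono (A := A) (W := W) (h.ge.trans hZ1)
      rwa [hZ, liftQ_top] at this
    · refine top_le_iff.1 (le_of_liftQ_le ?_)
      rw [liftQ_top]
      refine h.trans (sup_le ?_ (liftQ_mono le_sup_right))
      refine le_trans ?_ (liftQ_mono (le_sup_left : S2 ≤ S2 ⊔ V'))
      rw [← hf, hfS2]; exact le_sup_left
  set C' : Finset (Finset (Submodule F (↥W ⧸ (A.comap W.subtype)))) := Finset.univ.filter fun c =>
    ∃ L Q : Submodule F (↥W ⧸ (A.comap W.subtype)), finrank F L = 1 ∧ finrank F Q = 2 ∧ L ≤ Q ∧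
      GenPos F S2 L ∧ GenPos F S2 Q ∧ c = {L, Q} with hC'
  have hCh : flagCh S P = C'.image (Finset.image f) := by
    ext c
    rw [hpair, Finset.mem_image]
    constructor
    · rintro ⟨a, ha, b, hb, hab, rfl⟩
      have hda := (Finset.mem_filter.1 ha).2.1
      have hdb := (Finset.mem_filter.1 hb).2.1
      obtain ⟨a1, a2, a3⟩ := (hinside a (Or.inl hda)).1 (hda.symm ▸ ha)
      obtain ⟨b1, b2, b3⟩ := (hinside b (Or.inr hdb)).1 (hdb.symm ▸ hb)
      obtain ⟨L, rfl⟩ := exists_liftQ a1 a2
      obtain ⟨Q, rfl⟩ := exists_liftQ b1 b2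
      rw [finrank_liftQ hAW] at hda hdb
      refine ⟨{L, Q}, Finset.mem_filter.2 ⟨Finset.mem_univ _, L, Q, by omega, by omega,
        le_of_liftQ_le hab, (hgen L).2 a3, (hgen Q).2 b3, rfl⟩, ?_⟩
      simp [hf]
    · rintro ⟨c', hc', rfl⟩
      obtain ⟨-, L, Q, hL, hQ, hLQ, gL, gQ, rfl⟩ := Finset.mem_filter.1 hc'
      have dL : finrank F (f L) = i := by rw [hf, finrank_liftQ hAW]; omega
      have dQ : finrank F (f Q) = i + 1 := by rw [hf, finrank_liftQ hAW]; omega
      refine ⟨f L, ?_, f Q, ?_, liftQ_mono hLQ, by simp⟩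
      · exact dL ▸ (hinside _ (Or.inl dL)).2 ⟨le_liftQ hAW L, liftQ_le L, (hgen L).1 gL⟩
      · exact dQ ▸ (hinside _ (Or.inr dQ)).2 ⟨le_liftQ hAW Q, liftQ_le Q, (hgen Q).1 gQ⟩
  have hU : Uniform 2 C' := by
    obtain ⟨c, hc⟩ := (uniform_flagCh hP hPc (by omega : 1 ≤ finrank F E)).1
    rw [hCh, Finset.mem_image] at hc
    obtain ⟨c', hc', -⟩ := hc
    refine ⟨⟨c', hc'⟩, fun x hx => ?_⟩
    obtain ⟨-, L, Q, hL, hQ, -, -, -, rfl⟩ := Finset.mem_filter.1 hx
    refine Finset.card_pair fun h => ?_
    rw [h, hQ] at hL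
    omega
  rw [hCh]
  refine gap_image hU le_rfl liftQ_injective.injOn ?_
  exact plane hE' S2 fun c => by simp [hC']

end Gap

end Vale.Agent.P067
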