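import Vale.Agent.P067.Core

/-!
Homogeneous bar chains of a group and acyclicity of its mod 2 homology.
-/

namespace Vale.Agent.P067

open Finset

/-- Homogeneous bar chains on tuples with `k` entries. -/
abbrev BarChain (G : Type*) (k : ℕ) := (Fin k → G) →₀ ZMod 2

variable {G : Type*} [Group G]

/-- Boundary of the augmented homogeneous bar complex. -/
noncomputable def barBdry (k : ℕ) : BarChain G (k + 1) →ₗ[ZMod 2] BarChain G k :=
  Finsupp.linearCombination (ZMod 2)
    (fun t => ∑ i : Fin (k + 1), Finsupp.single (fun j => t (i.succAbove j)) 1)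

/-- The kernel of the projection to coinvariants under left translation. -/
noncomputable def coinvKer (G : Type*) [Group G] (k : ℕ) : Submodule (ZMod 2) (BarChain G k) :=
  Submodule.span (ZMod 2) (Set.range fun p : G × (Fin k → G) =>
    Finsupp.single (fun j => p.1 * p.2 j) 1 + Finsupp.single p.2 1)

/-- `GroupAcyclic G q`: the mod 2 homology of `G` in degree `q` is that of a point,
(`q ≥ 1`: it vanishes). -/
def GroupAcyclic (G : Type*) [Group G] (q : ℕ) : Prop :=
  ∀ z : BarChain G (q + 1), barBdry q z ∈ coinvKer G q →
    ∃ y : BarChain G (q + 2), z + barBdry (q + 1) y ∈ coinvKer G (q + 1)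

/-- Threshold for homological stability in degree `i`. -/
def thr : ℕ → ℕ
  | 0 => 2
  | i + 1 => 2 * (thr i + i + 4)

end Vale.Agent.P067
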