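import Vale.Agent.P067.MatDefs

/-!
Lattices over the valuation ring at infinity of a rational function field and the associated
simplicial complex (the affine building).
-/

namespace Vale.Agent.P067

open Polynomial

variable (F : Type*) [Field F] (N : ℕ)

/-- The ring of rational functions of degree at most zero. -/
noncomputable def infRing : Subring (RatFunc F) where
  carrier := {x | x = 0 ∨ x.intDegree ≤ 0}
  one_mem' := Or.inr (by simp)
  zero_mem' := Or.inl rfl
  mul_mem' := by
    rintro a b (ha | ha) (hb | hb)
    · exact Or.inl (by simp [ha])
    · exact Or.inl (by simp [ha])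
    · exact Or.inl (by simp [hb])
    · by_cases h : a = 0 ∨ b = 0
      · exact Or.inl (by rcases h with h | h <;> simp [h])
      · push Not at h
        exact Or.inr (by rw [RatFunc.intDegree_mul h.1 h.2]; omega)
  add_mem' := by
    rintro a b ha hb
    by_cases h : a + b = 0
    · exact Or.inl h
    rcases ha with ha | ha
    · simpa [ha] using hb
    rcases hb with hb | hb
    · exact Or.inr (by simpa [hb] using ha)
    by_cases h2 : b = 0
    · exact Or.inr (by simpa [h2] using ha)
    exact Or.inr (le_trans (RatFunc.intDegree_add_le h2 h) (max_le ha hb))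
  neg_mem' := by
    rintro a (ha | ha)
    · exact Or.inl (by simp [ha])
    · exact Or.inr (by rw [RatFunc.intDegree_neg]; exact ha)

/-- Ambient vector space. -/
abbrev RVec := Fin N → RatFunc F

/-- Lattices are submodules over the ring at infinity. -/
abbrev LSub := Submodule (infRing F) (RVec F N)

/-- The powers of the variable. -/
noncomputable def tpow (z : ℤ) : RatFunc F := RatFunc.X ^ z

/-- The standard lattice with the given degree bounds. -/
noncomputable def stdLat (lam : Fin N → ℤ) : LSub F N :=
  Submodule.pi Set.univ fun i => Submodule.span (infRing F) {tpow F (lam i)}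

/-- A polynomial matrix as a linear map of the ambient space, over the ring at infinity. -/
noncomputable def gMap (g : PMat F N) : RVec F N →ₗ[infRing F] RVec F N :=
  ((Matrix.toLin' ((g : Matrix (Fin N) (Fin N) (Polynomial F)).map
    (algebraMap (Polynomial F) (RatFunc F)))).restrictScalars (infRing F))

/-- The lattice given by a polynomial basis and degree bounds. -/
noncomputable def lat (g : PMat F N) (lam : Fin N → ℤ) : LSub F N :=
  (stdLat F N lam).map (gMap F N g)

/-- Lattices. -/
def Lattice : Type _ := {L : LSub F N // ∃ g lam, L = lat F N g lam}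

/-- Scaling by a power of the variable. -/
noncomputable def scaleL (z : ℤ) (L : LSub F N) : LSub F N :=
  L.map ((tpow F z) • (LinearMap.id : RVec F N →ₗ[infRing F] RVec F N))

/-- Homothety classes. -/
noncomputable def homothety (L L' : Lattice F N) : Prop :=
  ∃ z : ℤ, L'.1 = scaleL F N z L.1

/-- Vertices of the building. -/
def BVert : Type _ := Quot (homothety F N)

/-- The class of the lattice given by a basis and degree bounds. -/
noncomputable def latClass (g : PMat F N) (lam : Fin N → ℤ) : BVert F N :=
  Quot.mk _ ⟨lat F N g lam, g, lam, rfl⟩

/-- Simplices: classes with representatives forming a chain inside one scaling period. -/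
def Bldg : Set (Finset (BVert F N)) :=
  {s | ∃ rep : BVert F N → Lattice F N, (∀ v ∈ s, Quot.mk _ (rep v) = v) ∧
    ∀ v ∈ s, ∀ w ∈ s, ((rep v).1 ≤ (rep w).1 ∨ (rep w).1 ≤ (rep v).1) ∧
      (rep w).1 ≤ scaleL F N 1 (rep v).1}

/-- The degree bounds `(1,…,1,0,…,0)` with `a` ones. -/
def stdLam (a : ℕ) : Fin N → ℤ := fun i => if (i : ℕ) < a then 1 else 0

/-- Vertices of spread at most one. -/
def lowSet : Set (BVert F N) :=
  {v | ∃ g a, v = latClass F N g (stdLam N a)}

/-- The subcomplex of spread at most one. -/
def lowCx : Set (Finset (BVert F N)) :=
  fullSub (Bldg F N) (lowSet F N)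

end Vale.Agent.P067
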