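import Vale.Agent.P067.LatDefs

/-!
Basic API for lattices over the ring at infinity: degree bounds, the maps of polynomial matrices,
scaling, homothety classes.
-/

namespace Vale.Agent.P067

open Polynomial

variable {F : Type*} [Field F] {N : ℕ}

/-- Degree at most `z` (zero allowed). -/
def degLE (x : RatFunc F) (z : ℤ) : Prop := x = 0 ∨ x.intDegree ≤ z

@[simp] lemma degLE_zero (z : ℤ) : degLE (0 : RatFunc F) z := Or.inl rfl

lemma mem_infRing {x : RatFunc F} : x ∈ infRing F ↔ degLE x 0 := Iff.rfl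

lemma degLE.mono {x : RatFunc F} {a b : ℤ} (h : degLE x a) (hab : a ≤ b) : degLE x b :=
  h.imp id fun h => h.trans hab

lemma degLE.mul {x y : RatFunc F} {a b : ℤ} (hx : degLE x a) (hy : degLE y b) :
    degLE (x * y) (a + b) := by
  rcases eq_or_ne x 0 with rfl | hx0
  · simp
  rcases eq_or_ne y 0 with rfl | hy0
  · simp
  refine Or.inr ?_
  rw [RatFunc.intDegree_mul hx0 hy0]
  exact add_le_add (hx.resolve_left hx0) (hy.resolve_left hy0)

lemma degLE.add {x y : RatFunc F} {a : ℤ} (hx : degLE x a) (hy : degLE y a) :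
    degLE (x + y) a := by
  rcases eq_or_ne y 0 with rfl | hy0
  · simpa using hx
  rcases eq_or_ne x 0 with rfl | hx0
  · simpa using hy
  by_cases h : x + y = 0
  · exact Or.inl h
  exact Or.inr ((RatFunc.intDegree_add_le hy0 h).trans
    (max_le (hx.resolve_left hx0) (hy.resolve_left hy0)))

lemma degLE.neg {x : RatFunc F} {a : ℤ} (hx : degLE x a) : degLE (-x) a :=
  hx.imp (by simp +contextual) (by rw [RatFunc.intDegree_neg]; exact id)

lemma degLE.sub {x y : RatFunc F} {a : ℤ} (hx : degLE x a) (hy : degLE y a) :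
    degLE (x - y) a := by
  simpa [sub_eq_add_neg] using hx.add hy.neg

lemma degLE_sum {ι : Type*} (s : Finset ι) (f : ι → RatFunc F) {a : ℤ}
    (h : ∀ i ∈ s, degLE (f i) a) : degLE (∑ i ∈ s, f i) a :=
  Finset.sum_induction f (fun x => degLE x a) (fun _ _ => degLE.add) (degLE_zero a) h

lemma degLE_C (a : F) : degLE (RatFunc.C a) 0 := Or.inr (by simp)

lemma degLE_polynomial_iff {p : Polynomial F} {z : ℤ} :
    degLE (algebraMap _ (RatFunc F) p) z ↔ p = 0 ∨ (p.natDegree : ℤ) ≤ z := by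
  simp [degLE, RatFunc.intDegree_polynomial]

lemma tpow_ne_zero (z : ℤ) : tpow F z ≠ 0 := zpow_ne_zero _ RatFunc.X_ne_zero

@[simp] lemma tpow_zero : tpow F 0 = 1 := zpow_zero _

lemma tpow_add (a b : ℤ) : tpow F (a + b) = tpow F a * tpow F b :=
  zpow_add₀ RatFunc.X_ne_zero a b

@[simp] lemma intDegree_tpow (z : ℤ) : (tpow F z).intDegree = z := by
  have hnat : ∀ n : ℕ, (tpow F n).intDegree = n := by
    intro n
    rw [tpow, zpow_natCast]
    induction n with
    | zero => simp
    | succ n ih =>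
      rw [pow_succ, RatFunc.intDegree_mul (pow_ne_zero _ RatFunc.X_ne_zero) RatFunc.X_ne_zero, ih]
      simp
  obtain ⟨n, rfl | rfl⟩ := z.eq_nat_or_neg
  · exact hnat n
  · rw [tpow, zpow_neg, RatFunc.intDegree_inv, ← tpow, hnat]

lemma degLE_tpow {z a : ℤ} : degLE (tpow F z) a ↔ z ≤ a := by
  simp [degLE, tpow_ne_zero]

lemma degLE_tpow_mul {x : RatFunc F} {z a : ℤ} : degLE (tpow F z * x) a ↔ degLE x (a - z) := by
  rcases eq_or_ne x 0 with rfl | hx
  · simp
  simp only [degLE, mul_eq_zero, tpow_ne_zero, hx, or_self, false_or,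
    RatFunc.intDegree_mul (tpow_ne_zero z) hx, intDegree_tpow]
  omega

lemma tpow_natCast (n : ℕ) : tpow F (n : ℤ) = algebraMap (Polynomial F) (RatFunc F) (Polynomial.X ^ n) := by
  simp [tpow, RatFunc.algebraMap_X]

lemma mem_infRing_tpow {z : ℤ} (hz : z ≤ 0) : tpow F z ∈ infRing F :=
  mem_infRing.2 (degLE_tpow.2 hz)

/-- Membership in a standard lattice. -/
lemma mem_stdLat {lam : Fin N → ℤ} {v : RVec F N} :
    v ∈ stdLat F N lam ↔ ∀ i, degLE (v i) (lam i) := by
  simp only [stdLat, Submodule.mem_pi, Set.mem_univ, forall_const, Submodule.mem_span_singleton]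
  refine forall_congr' fun i => ⟨?_, fun h => ?_⟩
  · rintro ⟨a, ha⟩
    rw [← ha, Subring.smul_def, smul_eq_mul, mul_comm, degLE_tpow_mul]
    simpa using mem_infRing.1 a.2
  · refine ⟨⟨tpow F (-lam i) * v i, mem_infRing.2 (degLE_tpow_mul.2 (h.mono (by omega)))⟩, ?_⟩
    rw [Subring.smul_def, smul_eq_mul, mul_right_comm, ← tpow_add]
    simp

lemma stdLat_le_iff {lam lam' : Fin N → ℤ} : stdLat F N lam ≤ stdLat F N lam' ↔ lam ≤ lam' := by
  constructor
  · intro h i
    have h1 : (fun j => if j = i then tpow F (lam i) else 0) ∈ stdLat F N lam := by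
      refine mem_stdLat.2 fun j => ?_
      split_ifs with hj
      · subst hj; exact degLE_tpow.2 le_rfl
      · exact degLE_zero _
    simpa [degLE_tpow] using mem_stdLat.1 (h h1) i
  · exact fun h v hv => mem_stdLat.2 fun i => (mem_stdLat.1 hv i).mono (h i)

/-- A polynomial matrix over the rational functions. -/
noncomputable def ratMat (g : PMat F N) : Matrix (Fin N) (Fin N) (RatFunc F) :=
  ((g : Matrix (Fin N) (Fin N) (Polynomial F))).map (algebraMap (Polynomial F) (RatFunc F))

lemma gMap_apply (g : PMat F N) (v : RVec F N) : gMap F N g v = (ratMat g).mulVec v :=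
  Matrix.toLin'_apply _ _

lemma ratMat_apply (g : PMat F N) (i j : Fin N) :
    ratMat g i j = algebraMap _ (RatFunc F) ((g : Matrix (Fin N) (Fin N) (Polynomial F)) i j) :=
  rfl

lemma ratMat_mul (g h : PMat F N) : ratMat (g * h) = ratMat g * ratMat h := by
  simp [ratMat, Matrix.map_mul]

@[simp] lemma ratMat_one : ratMat (1 : PMat F N) = 1 := by
  simp [ratMat]

lemma gMap_mul_apply (g h : PMat F N) (v : RVec F N) :
    gMap F N (g * h) v = gMap F N g (gMap F N h v) := by
  simp [gMap_apply, ratMat_mul, Matrix.mulVec_mulVec]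

lemma gMap_mul (g h : PMat F N) : gMap F N (g * h) = (gMap F N g).comp (gMap F N h) :=
  LinearMap.ext fun v => gMap_mul_apply g h v

@[simp] lemma gMap_one_apply (v : RVec F N) : gMap F N 1 v = v := by
  simp [gMap_apply]

lemma gMap_one : gMap F N 1 = LinearMap.id := LinearMap.ext gMap_one_apply

@[simp] lemma gMap_inv_gMap (g : PMat F N) (v : RVec F N) :
    gMap F N g⁻¹ (gMap F N g v) = v := by
  rw [← gMap_mul_apply, inv_mul_cancel, gMap_one_apply]

@[simp] lemma gMap_gMap_inv (g : PMat F N) (v : RVec F N) :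
    gMap F N g (gMap F N g⁻¹ v) = v := by
  rw [← gMap_mul_apply, mul_inv_cancel, gMap_one_apply]

lemma gMap_injective (g : PMat F N) : Function.Injective (gMap F N g) :=
  Function.LeftInverse.injective (gMap_inv_gMap g)

lemma gMap_smul (g : PMat F N) (x : RatFunc F) (v : RVec F N) :
    gMap F N g (x • v) = x • gMap F N g v := by
  simp [gMap_apply, Matrix.mulVec_smul]

lemma mem_lat {g : PMat F N} {lam : Fin N → ℤ} {v : RVec F N} :
    v ∈ lat F N g lam ↔ ∀ i, degLE (gMap F N g⁻¹ v i) (lam i) := by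
  rw [← mem_stdLat, lat, Submodule.mem_map]
  constructor
  · rintro ⟨u, hu, rfl⟩
    simpa using hu
  · exact fun h => ⟨_, h, gMap_gMap_inv g v⟩

@[simp] lemma lat_one (lam : Fin N → ℤ) : lat F N 1 lam = stdLat F N lam := by
  simp [lat, gMap_one]

lemma map_gMap_lat (g h : PMat F N) (lam : Fin N → ℤ) :
    (lat F N h lam).map (gMap F N g) = lat F N (g * h) lam := by
  rw [lat, lat, gMap_mul, Submodule.map_comp]

lemma lat_le_iff {g : PMat F N} {lam lam' : Fin N → ℤ} :
    lat F N g lam ≤ lat F N g lam' ↔ lam ≤ lam' := by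
  rw [lat, lat, Submodule.map_le_map_iff_of_injective (gMap_injective g), stdLat_le_iff]

lemma lat_lam_inj {g : PMat F N} {lam lam' : Fin N → ℤ}
    (h : lat F N g lam = lat F N g lam') : lam = lam' :=
  le_antisymm (lat_le_iff.1 h.le) (lat_le_iff.1 h.ge)

/-! ### Scaling -/

lemma mem_scaleL {z : ℤ} {L : LSub F N} {v : RVec F N} :
    v ∈ scaleL F N z L ↔ tpow F (-z) • v ∈ L := by
  simp only [scaleL, Submodule.mem_map, LinearMap.smul_apply, LinearMap.id_coe, id_eq]
  constructor
  · rintro ⟨u, hu, rfl⟩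
    rwa [smul_smul, ← tpow_add, neg_add_cancel, tpow_zero, one_smul]
  · exact fun h => ⟨_, h, by rw [smul_smul, ← tpow_add, add_neg_cancel, tpow_zero, one_smul]⟩

@[simp] lemma scaleL_zero (L : LSub F N) : scaleL F N 0 L = L := by
  ext v
  simp [mem_scaleL]

@[simp] lemma scaleL_scaleL (a b : ℤ) (L : LSub F N) :
    scaleL F N a (scaleL F N b L) = scaleL F N (a + b) L := by
  ext v
  rw [mem_scaleL, mem_scaleL, mem_scaleL, smul_smul, ← tpow_add]
  ring_nf

@[gcongr] lemma scaleL_mono (z : ℤ) {L L' : LSub F N} (h : L ≤ L') :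
    scaleL F N z L ≤ scaleL F N z L' :=
  Submodule.map_mono h

lemma scaleL_le_iff (z : ℤ) {L L' : LSub F N} :
    scaleL F N z L ≤ scaleL F N z L' ↔ L ≤ L' :=
  ⟨fun h => by simpa using scaleL_mono (-z) h, scaleL_mono z⟩

lemma scaleL_le_comm {z : ℤ} {L L' : LSub F N} :
    scaleL F N z L ≤ L' ↔ L ≤ scaleL F N (-z) L' := by
  rw [← scaleL_le_iff (-z)]
  simp

lemma le_scaleL {z : ℤ} (hz : 0 ≤ z) (L : LSub F N) : L ≤ scaleL F N z L := by
  intro v hv
  rw [mem_scaleL]
  exact L.smul_mem ⟨_, mem_infRing_tpow (by omega : -z ≤ 0)⟩ hv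

lemma scaleL_mono_left {a b : ℤ} (h : a ≤ b) (L : LSub F N) :
    scaleL F N a L ≤ scaleL F N b L := by
  calc scaleL F N a L ≤ scaleL F N (b - a) (scaleL F N a L) := le_scaleL (by omega) _
    _ = scaleL F N b L := by simp

lemma scaleL_lat (z : ℤ) (g : PMat F N) (lam : Fin N → ℤ) :
    scaleL F N z (lat F N g lam) = lat F N g (fun i => lam i + z) := by
  ext v
  simp only [mem_scaleL, mem_lat, gMap_smul, Pi.smul_apply, smul_eq_mul, degLE_tpow_mul,
    sub_neg_eq_add]

lemma map_gMap_scaleL (g : PMat F N) (z : ℤ) (L : LSub F N) :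
    (scaleL F N z L).map (gMap F N g) = scaleL F N z (L.map (gMap F N g)) := by
  ext v
  simp only [mem_scaleL, Submodule.mem_map]
  constructor
  · rintro ⟨u, hu, rfl⟩
    exact ⟨_, hu, gMap_smul g _ u⟩
  · rintro ⟨u, hu, hv⟩
    refine ⟨tpow F z • u, ?_, ?_⟩
    · rwa [smul_smul, ← tpow_add, neg_add_cancel, tpow_zero, one_smul]
    · rw [gMap_smul, hv, smul_smul, ← tpow_add, add_neg_cancel, tpow_zero, one_smul]

/-! ### Lattices and classes -/

variable (F N) in
/-- The lattice given by a basis and degree bounds, bundled. -/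
noncomputable def mkLat (g : PMat F N) (lam : Fin N → ℤ) : Lattice F N :=
  ⟨lat F N g lam, g, lam, rfl⟩

/-- Scaling a bundled lattice. -/
noncomputable def scaleLat (z : ℤ) (L : Lattice F N) : Lattice F N :=
  ⟨scaleL F N z L.1, by
    obtain ⟨g, lam, h⟩ := L.2
    exact ⟨g, fun i => lam i + z, by rw [h, scaleL_lat]⟩⟩

@[simp] lemma scaleLat_val (z : ℤ) (L : Lattice F N) :
    (scaleLat z L).1 = scaleL F N z L.1 := rfl

lemma homothety_equiv : Equivalence (homothety F N) where
  refl L := ⟨0, by simp⟩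
  symm := by
    rintro L L' ⟨z, hz⟩
    exact ⟨-z, by simp [hz]⟩
  trans := by
    rintro L L' L'' ⟨a, ha⟩ ⟨b, hb⟩
    exact ⟨b + a, by simp [ha, hb]⟩

lemma cls_eq_iff {L L' : Lattice F N} :
    (Quot.mk (homothety F N) L : BVert F N) = Quot.mk _ L' ↔
      ∃ z : ℤ, L'.1 = scaleL F N z L.1 := by
  change Quot.mk (homothety F N) L = Quot.mk _ L' ↔ homothety F N L L'
  rw [Quot.eq, homothety_equiv.eqvGen_iff]

@[simp] lemma cls_scaleLat (z : ℤ) (L : Lattice F N) :
    (Quot.mk (homothety F N) (scaleLat z L) : BVert F N) = Quot.mk _ L :=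
  (cls_eq_iff.2 ⟨z, rfl⟩).symm

lemma latClass_eq_iff {g g' : PMat F N} {lam lam' : Fin N → ℤ} :
    latClass F N g lam = latClass F N g' lam' ↔
      ∃ z : ℤ, lat F N g' lam' = lat F N g (fun i => lam i + z) := by
  refine cls_eq_iff.trans (exists_congr fun z => ?_)
  rw [scaleL_lat]

lemma latClass_add (g : PMat F N) (lam : Fin N → ℤ) (z : ℤ) :
    latClass F N g (fun i => lam i + z) = latClass F N g lam :=
  (latClass_eq_iff.2 ⟨z, rfl⟩).symm

lemma exists_latClass (v : BVert F N) : ∃ g lam, v = latClass F N g lam := by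
  induction v using Quot.ind with
  | mk L =>
    obtain ⟨g, lam, h⟩ := L.2
    exact ⟨g, lam, congrArg (Quot.mk _) (Subtype.ext h)⟩

end Vale.Agent.P067
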