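import Vale.Agent.P067.LatticeAction

/-!
Reduction theory: intermediate submodules are lattices, the volume, and uniqueness of the degree
bounds up to permutation and shift.
-/

namespace Vale.Agent.P067

open Polynomial

variable {F : Type*} [Field F] {N : ℕ}

lemma ratFunc_C_eq (a : F) :
    RatFunc.C a = algebraMap (Polynomial F) (RatFunc F) (Polynomial.C a) :=
  (RatFunc.algebraMap_C a).symm

/-- Leading coefficient at a given degree. -/
lemma exists_lead {x : RatFunc F} {z : ℤ} (h : degLE x z) :
    ∃ a : F, degLE (x - RatFunc.C a * tpow F z) (z - 1) := by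
  obtain ⟨y, rfl⟩ : ∃ y, x = tpow F z * y :=
    ⟨tpow F (-z) * x, by rw [← mul_assoc, ← tpow_add, add_neg_cancel, tpow_zero, one_mul]⟩
  rw [degLE_tpow_mul, sub_self] at h
  set p := y.num with hp
  set q := y.denom with hq
  have hq0 : q ≠ 0 := y.denom_ne_zero
  have hy : algebraMap _ (RatFunc F) p / algebraMap _ (RatFunc F) q = y := RatFunc.num_div_denom y
  have hdeg : p.natDegree ≤ q.natDegree := by
    rcases h with h | h
    · simp [hp, h]
    · unfold RatFunc.intDegree at h
      rw [← hp, ← hq] at h
      omega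
  refine ⟨p.coeff q.natDegree / q.leadingCoeff, ?_⟩
  set a := p.coeff q.natDegree / q.leadingCoeff
  rw [mul_comm (RatFunc.C a), ← mul_sub, degLE_tpow_mul, show z - 1 - z = (-1 : ℤ) by ring]
  set r := p - Polynomial.C a * q with hr
  have hyr : y - RatFunc.C a = algebraMap _ (RatFunc F) r / algebraMap _ (RatFunc F) q := by
    rw [hr, map_sub, sub_div, map_mul, hy, ← ratFunc_C_eq,
      mul_div_cancel_right₀ _ (RatFunc.algebraMap_ne_zero hq0)]
  rw [hyr]
  rcases eq_or_ne r 0 with h0 | h0
  · simp [h0]
  refine Or.inr ?_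
  rw [RatFunc.intDegree_div (RatFunc.algebraMap_ne_zero h0) (RatFunc.algebraMap_ne_zero hq0),
    RatFunc.intDegree_polynomial, RatFunc.intDegree_polynomial]
  have h1 : r.coeff q.natDegree = 0 := by
    rw [hr, coeff_sub, coeff_C_mul, ← Polynomial.leadingCoeff,
      div_mul_cancel₀ _ (leadingCoeff_ne_zero.2 hq0), sub_self]
  have h2 : r.natDegree ≤ q.natDegree :=
    (natDegree_sub_le _ _).trans (max_le hdeg (natDegree_C_mul_le _ _))
  have h3 : r.natDegree ≠ q.natDegree := fun he => h0 (leadingCoeff_eq_zero.1 (by
    rw [Polynomial.leadingCoeff, he, h1]))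
  omega

lemma smul_mem_of_degLE {L : LSub F N} {v : RVec F N} (hv : v ∈ L) {c : RatFunc F}
    (hc : degLE c 0) : c • v ∈ L :=
  L.smul_mem (⟨c, mem_infRing.2 hc⟩ : infRing F) hv

/-- If a lattice is strictly inside `L'`, another lattice with one more degree also is. -/
lemma exists_step {g : PMat F N} {mu : Fin N → ℤ} {L' : LSub F N}
    (hle : lat F N g mu ≤ L') (hne : ¬ L' ≤ lat F N g mu) :
    ∃ g' : PMat F N, ∃ mu' : Fin N → ℤ, lat F N g' mu' ≤ L' ∧ ∑ i, mu' i = ∑ i, mu i + 1 := by
  classical
  obtain ⟨x, hxL, hxn⟩ := Set.not_subset.1 hne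
  set u := gMap F N g⁻¹ x with hu
  have hne0 : ∃ i, ¬ degLE (u i) (mu i) := by
    by_contra h
    exact hxn (mem_lat.2 fun i => not_not.1 (not_exists.1 h i))
  set I := Finset.univ.filter fun i => ¬ degLE (u i) (mu i) with hI
  have hIne : I.Nonempty := by
    obtain ⟨i, hi⟩ := hne0
    exact ⟨i, by simp [hI, hi]⟩
  obtain ⟨i₀, hi₀, hmax⟩ := Finset.exists_max_image I (fun i => (u i).intDegree - mu i) hIne
  have hi₀' : ¬ degLE (u i₀) (mu i₀) := by simpa [hI] using hi₀
  set e := (u i₀).intDegree - mu i₀ with he
  have he1 : 1 ≤ e := by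
    simp only [degLE, not_or, not_le] at hi₀'
    omega
  set w : RVec F N := tpow F (1 - e) • u with hw
  have hwle : ∀ i, degLE (w i) (mu i + 1) := by
    intro i
    rw [hw, Pi.smul_apply, smul_eq_mul, degLE_tpow_mul]
    by_cases hi : degLE (u i) (mu i)
    · exact hi.mono (by omega)
    · have := hmax i (by simp [hI, hi])
      exact Or.inr (by omega)
  have hwn : ¬ degLE (w i₀) (mu i₀) := by
    rw [hw, Pi.smul_apply, smul_eq_mul, degLE_tpow_mul]
    rintro (h | h)
    · exact hi₀' (Or.inl h)
    · omega
  have hy : gMap F N g w ∈ L' := by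
    rw [hw, gMap_smul, hu, gMap_gMap_inv]
    exact smul_mem_of_degLE hxL (degLE_tpow.2 (by omega))
  choose a ha using fun i => exists_lead (hwle i)
  have hJne : (Finset.univ.filter fun i => a i ≠ 0).Nonempty := by
    refine ⟨i₀, by
      simp only [Finset.mem_filter, Finset.mem_univ, true_and]
      intro h
      apply hwn
      simpa [h] using ha i₀⟩
  obtain ⟨j, hj, hjmin⟩ := Finset.exists_min_image _ mu hJne
  have haj : a j ≠ 0 := by simpa using hj
  set c : Fin N → Polynomial F := fun i => Polynomial.C (a i) * X ^ (mu i - mu j).toNat with hc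
  have hdet : IsUnit ((1 : Matrix (Fin N) (Fin N) (Polynomial F)).updateCol j c).det := by
    rw [← Matrix.cramer_apply, Matrix.cramer_one]
    simpa [hc] using (Polynomial.isUnit_C.2 (isUnit_iff_ne_zero.2 haj))
  set E : PMat F N := Matrix.GeneralLinearGroup.mk'' _ hdet with hE
  have hEval : ∀ (v : RVec F N) (i : Fin N), gMap F N E v i =
      (if i = j then 0 else v i) + algebraMap (Polynomial F) (RatFunc F) (c i) * v j := by
    intro v i
    rw [gMap_apply, Matrix.mulVec, dotProduct]
    have : ∀ k, ratMat E i k = if k = j then algebraMap (Polynomial F) (RatFunc F) (c i)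
        else if i = k then 1 else 0 := by
      intro k
      rw [ratMat_apply]
      change algebraMap _ _ ((1 : Matrix (Fin N) (Fin N) (Polynomial F)).updateCol j c i k) = _
      by_cases hk : k = j
      · subst hk
        simp
      · rw [Matrix.updateCol_ne hk, Matrix.one_apply, if_neg hk]
        split_ifs <;> simp
    simp only [this, ite_mul, one_mul, zero_mul]
    rw [← Finset.add_sum_erase _ _ (Finset.mem_univ j), if_pos rfl, add_comm]
    congr 1
    rw [Finset.sum_congr rfl (g := fun k => if i = k then v k else 0) (fun k hk => by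
      rw [if_neg (Finset.mem_erase.1 hk).1]), Finset.sum_ite_eq]
    by_cases hij : i = j <;> simp [hij]
  have hpiv : gMap F N (g * E) (Pi.single j (tpow F (mu j + 1))) ∈ L' := by
    have hEp : gMap F N E (Pi.single j (tpow F (mu j + 1))) =
        fun i => RatFunc.C (a i) * tpow F (mu i + 1) := by
      funext i
      rw [hEval, Pi.single_eq_same]
      have h1 : (if i = j then 0 else Pi.single (M := fun _ => RatFunc F) j (tpow F (mu j + 1)) i)
          = 0 := by
        by_cases hij : i = j <;> simp [hij]
      rw [h1, zero_add]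
      by_cases hai : a i = 0
      · simp [hc, hai]
      · have hmin := hjmin i (by simp [hai])
        rw [hc, map_mul, ← tpow_natCast, ← ratFunc_C_eq, mul_assoc, ← tpow_add]
        congr 2
        omega
    rw [gMap_mul_apply, hEp]
    have hr : gMap F N g (w - fun i => RatFunc.C (a i) * tpow F (mu i + 1)) ∈ lat F N g mu := by
      rw [mem_lat, gMap_inv_gMap]
      intro i
      simpa using ha i
    have := L'.sub_mem hy (hle hr)
    rwa [map_sub, sub_sub_cancel] at this
  refine ⟨g * E, Function.update mu j (mu j + 1), ?_, ?_⟩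
  · rintro x' hx'
    rw [lat, Submodule.mem_map] at hx'
    obtain ⟨v, hv, rfl⟩ := hx'
    rw [mem_stdLat] at hv
    set k := tpow F (-(mu j + 1)) * v j with hk
    have hkd : degLE k 0 := by
      rw [hk, degLE_tpow_mul]
      simpa using hv j
    set v' : RVec F N := Function.update v j 0 with hv'
    have hsplit : v = k • Pi.single j (tpow F (mu j + 1)) + v' := by
      funext i
      by_cases hij : i = j
      · subst hij
        rw [hv', hk, Pi.add_apply, Function.update_self, Pi.smul_apply, Pi.single_eq_same,
          smul_eq_mul, add_zero, mul_right_comm, ← tpow_add, neg_add_cancel, tpow_zero, one_mul]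
      · simp [hv', hij]
    rw [hsplit, map_add, gMap_smul]
    refine L'.add_mem (smul_mem_of_degLE hpiv hkd) (hle ?_)
    have hEv' : gMap F N E v' = v' := by
      funext i
      rw [hEval]
      by_cases hij : i = j <;> simp [hv', hij]
    rw [mem_lat, gMap_mul_apply, hEv', gMap_inv_gMap]
    intro i
    by_cases hij : i = j
    · simp [hv', hij]
    · simpa [hv', hij] using hv i
  · have h1 : ∀ i, Function.update mu j (mu j + 1) i = mu i + if i = j then 1 else 0 := by
      intro i
      by_cases hij : i = j <;> simp [hij]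
    simp [h1, Finset.sum_add_distrib]

lemma degLE_det {M : Matrix (Fin N) (Fin N) (RatFunc F)} (h : ∀ i j, degLE (M i j) 0) :
    degLE M.det 0 := by
  let M0 : Matrix (Fin N) (Fin N) (infRing F) := fun i j => ⟨M i j, mem_infRing.2 (h i j)⟩
  have : M = M0.map (infRing F).subtype := rfl
  rw [this, ← RingHom.mapMatrix_apply, ← RingHom.map_det]
  exact mem_infRing.1 M0.det.2

lemma intDegree_prod_tpow (l : Fin N → ℤ) : ∏ i, tpow F (l i) = tpow F (∑ i, l i) := by
  induction (Finset.univ : Finset (Fin N)) using Finset.induction_on with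
  | empty => simp
  | insert a s ha ih => rw [Finset.prod_insert ha, Finset.sum_insert ha, tpow_add, ih]

lemma intDegree_det_ratMat (g : PMat F N) :
    (ratMat g).det ≠ 0 ∧ (ratMat g).det.intDegree = 0 := by
  have h := Matrix.GeneralLinearGroup.det g
  have hu : IsUnit (g : Matrix (Fin N) (Fin N) (Polynomial F)).det :=
    (Matrix.GeneralLinearGroup.det g).isUnit
  rw [ratMat, ← RingHom.mapMatrix_apply, ← RingHom.map_det]
  refine ⟨RatFunc.algebraMap_ne_zero hu.ne_zero, ?_⟩
  rw [RatFunc.intDegree_polynomial, natDegree_eq_zero_of_isUnit hu]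
  rfl

/-- Monotonicity of the total degree. -/
lemma sum_le_of_lat_le {g g' : PMat F N} {lam lam' : Fin N → ℤ}
    (h : lat F N g lam ≤ lat F N g' lam') : ∑ i, lam i ≤ ∑ i, lam' i := by
  classical
  set A := g'⁻¹ * g with hA
  set M : Matrix (Fin N) (Fin N) (RatFunc F) :=
    Matrix.diagonal (fun i => tpow F (-lam' i)) * ratMat A *
      Matrix.diagonal (fun i => tpow F (lam i)) with hM
  have hent : ∀ i j, degLE (M i j) 0 := by
    intro i j
    have hmem : gMap F N g (Pi.single j (tpow F (lam j))) ∈ lat F N g lam := by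
      rw [mem_lat, gMap_inv_gMap]
      intro k
      by_cases hk : k = j
      · subst hk; simp [degLE_tpow]
      · simp [hk]
    have := mem_lat.1 (h hmem) i
    rw [← gMap_mul_apply, ← hA, gMap_apply, Matrix.mulVec_single] at this
    rw [hM, Matrix.mul_diagonal, Matrix.diagonal_mul, mul_assoc, degLE_tpow_mul]
    simpa using this
  obtain ⟨h0, h1⟩ := intDegree_det_ratMat A
  have hdet : M.det = tpow F (∑ i, lam i - ∑ i, lam' i) * (ratMat A).det := by
    rw [hM, Matrix.det_mul, Matrix.det_mul, Matrix.det_diagonal, Matrix.det_diagonal,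
      intDegree_prod_tpow, intDegree_prod_tpow, mul_right_comm, ← tpow_add,
      Finset.sum_neg_distrib, neg_add_eq_sub]
  have := degLE_det hent
  rw [hdet, degLE_tpow_mul] at this
  have := this.resolve_left h0
  omega

/-- A submodule between two lattices is a lattice. -/
lemma exists_lat_of_between {g g' : PMat F N} {lam lam' : Fin N → ℤ} {L : LSub F N}
    (h₁ : lat F N g lam ≤ L) (h₂ : L ≤ lat F N g' lam') :
    ∃ h mu, L = lat F N h mu := by
  suffices ∀ (n : ℕ) (g : PMat F N) (lam : Fin N → ℤ), lat F N g lam ≤ L →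
      (∑ i, lam' i - ∑ i, lam i).toNat = n → ∃ h mu, L = lat F N h mu from
    this _ g lam h₁ rfl
  intro n
  induction n using Nat.strong_induction_on with
  | _ n ih =>
    intro g lam h hn
    by_cases hL : L ≤ lat F N g lam
    · exact ⟨g, lam, le_antisymm hL h⟩
    · obtain ⟨g1, lam1, h1, hs⟩ := exists_step h hL
      have := sum_le_of_lat_le (h1.trans h₂)
      exact ih _ (by omega) g1 lam1 h1 rfl

/-- A submodule between two lattices, bundled. -/
lemma exists_lattice_between {L₁ L₂ : Lattice F N} {L : LSub F N} (h₁ : L₁.1 ≤ L)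
    (h₂ : L ≤ L₂.1) : ∃ L' : Lattice F N, L'.1 = L := by
  obtain ⟨g, lam, hg⟩ := L₁.2
  obtain ⟨g', lam', hg'⟩ := L₂.2
  exact ⟨⟨L, exists_lat_of_between (hg ▸ h₁) (hg' ▸ h₂)⟩, rfl⟩

/-- The volume of a lattice: the sum of the degree bounds. -/
noncomputable def vol (L : Lattice F N) : ℤ := ∑ i, L.2.choose_spec.choose i

lemma vol_eq {L : Lattice F N} {g : PMat F N} {lam : Fin N → ℤ} (h : L.1 = lat F N g lam) :
    vol L = ∑ i, lam i := by
  have h' := L.2.choose_spec.choose_spec
  exact le_antisymm (sum_le_of_lat_le (h'.symm.trans h).le) (sum_le_of_lat_le (h.symm.trans h').le)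

lemma vol_mono {L L' : Lattice F N} (h : L.1 ≤ L'.1) : vol L ≤ vol L' := by
  obtain ⟨g, lam, hg⟩ := L.2
  obtain ⟨g', lam', hg'⟩ := L'.2
  rw [vol_eq hg, vol_eq hg']
  exact sum_le_of_lat_le (hg ▸ hg' ▸ h)

lemma vol_lt {L L' : Lattice F N} (h : L.1 ≤ L'.1) (hne : ¬ L'.1 ≤ L.1) : vol L < vol L' := by
  obtain ⟨g, lam, hg⟩ := L.2
  obtain ⟨g', lam', hg'⟩ := L'.2
  rw [vol_eq hg, vol_eq hg']
  obtain ⟨g1, lam1, h1, hs⟩ := exists_step (hg ▸ h : lat F N g lam ≤ L'.1) (hg ▸ hne)
  have := sum_le_of_lat_le (h1.trans hg'.le)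
  omega

/-- Counting degree bounds is monotone along inclusions of equal lattices. -/
lemma card_le_of_lat_le {g g' : PMat F N} {lam lam' : Fin N → ℤ}
    (h : lat F N g lam ≤ lat F N g' lam') (c : ℤ) :
    (Finset.univ.filter fun i => c ≤ lam i).card ≤
      (Finset.univ.filter fun i => c ≤ lam' i).card := by
  classical
  set A := g'⁻¹ * g with hA
  have hz : ∀ i j, lam' i < lam j → ratMat A i j = 0 := by
    intro i j hij
    have hmem : gMap F N g (Pi.single j (tpow F (lam j))) ∈ lat F N g lam := by
      rw [mem_lat, gMap_inv_gMap]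
      intro k
      by_cases hk : k = j
      · subst hk; simp [degLE_tpow]
      · simp [hk]
    have h2 := mem_lat.1 (h hmem) i
    rw [← gMap_mul_apply, ← hA, gMap_apply, Matrix.mulVec_single] at h2
    simp only [Pi.smul_apply, Matrix.col_apply, op_smul_eq_smul, smul_eq_mul, degLE_tpow_mul] at h2
    rw [ratMat_apply] at h2 ⊢
    rcases degLE_polynomial_iff.1 h2 with h3 | h3
    · rw [h3, map_zero]
    · omega
  let J := {i // c ≤ lam i}
  let I := {i // c ≤ lam' i}
  let B : Matrix I J (RatFunc F) := (ratMat A).submatrix Subtype.val Subtype.val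
  have hinj : Function.Injective (Matrix.toLin' B) := by
    rw [injective_iff_map_eq_zero]
    intro v hv
    let v' : RVec F N := fun j => if hj : c ≤ lam j then v ⟨j, hj⟩ else 0
    have hsum : ∀ i, (ratMat A).mulVec v' i = ∑ j : J, ratMat A i j * v j := by
      intro i
      rw [Matrix.mulVec, dotProduct]
      rw [← Finset.sum_filter_add_sum_filter_not Finset.univ (fun j => c ≤ lam j)]
      rw [Finset.sum_eq_zero (s := Finset.univ.filter fun j => ¬ c ≤ lam j) (fun j hj => by
        simp only [Finset.mem_filter, Finset.mem_univ, true_and] at hj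
        simp [v', hj]), add_zero]
      rw [Finset.sum_subtype (p := fun j => c ≤ lam j) (Finset.univ.filter fun j => c ≤ lam j)
        (by simp)]
      refine Finset.sum_congr rfl fun j _ => ?_
      simp [v', j.2]
    have hz' : gMap F N A v' = 0 := by
      funext i
      rw [gMap_apply, hsum]
      by_cases hi : c ≤ lam' i
      · simpa [B, Matrix.mulVec, dotProduct] using congrFun hv ⟨i, hi⟩
      · exact Finset.sum_eq_zero fun j _ => by
          have := j.2
          rw [hz i j (by omega), zero_mul]
    have hv' : v' = 0 := gMap_injective A (hz'.trans (map_zero _).symm)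
    funext j
    simpa [v', j.2] using congrFun hv' j.1
  have := LinearMap.finrank_le_finrank_of_injective hinj
  simpa [Module.finrank_pi, Fintype.card_subtype, I, J] using this

/-- The degree bounds are unique up to order and shift. -/
theorem lam_unique {g g' : PMat F N} {lam lam' : Fin N → ℤ}
    (h : latClass F N g lam = latClass F N g' lam') :
    ∃ s : Equiv.Perm (Fin N), ∃ z : ℤ, lam' = fun i => lam (s i) + z := by
  classical
  obtain ⟨z, hz⟩ := latClass_eq_iff.1 h
  have hge : ∀ c, (Finset.univ.filter fun i => c ≤ lam' i).card =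
      (Finset.univ.filter fun i => c ≤ lam i + z).card := fun c =>
    le_antisymm (card_le_of_lat_le hz.le c) (card_le_of_lat_le hz.ge c)
  have hsplit : ∀ (f : Fin N → ℤ) (c : ℤ), (Finset.univ.filter fun i => c ≤ f i).card =
      (Finset.univ.filter fun i => f i = c).card +
        (Finset.univ.filter fun i => c + 1 ≤ f i).card := by
    intro f c
    rw [← Finset.card_union_of_disjoint]
    · congr 1
      ext i
      simp
      omega
    · rw [Finset.disjoint_filter]
      intro i _ h1
      omega
  have hfib : ∀ c, Fintype.card {i // lam' i = c} = Fintype.card {i // lam i + z = c} := by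
    intro c
    rw [Fintype.card_subtype, Fintype.card_subtype]
    have := hge c
    have := hge (c + 1)
    have := hsplit lam' c
    have := hsplit (fun i => lam i + z) c
    omega
  refine ⟨Equiv.ofFiberEquiv (f := lam') (g := fun i => lam i + z)
    (fun c => Fintype.equivOfCardEq (hfib c)), z, funext fun i => ?_⟩
  exact (Equiv.ofFiberEquiv_map (f := lam') (g := fun i => lam i + z) _ i).symm

end Vale.Agent.P067
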