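import Vale.Agent.P067.CobdBasic

/-!
Links of faces: transport of faces, chamber counts and coboundaries along `σ ↦ σ ∪ ρ`.
-/

namespace Vale.Agent.P067

open Finset

variable {V : Type*} [DecidableEq V]

/-- Cochains of the link of `ρ` seen in the ambient complex. -/
def lift (ρ : Finset V) (A : Finset (Finset V)) : Finset (Finset V) := A.image (fun σ => σ ∪ ρ)

lemma mem_chLink_union {C : Finset (Finset V)} {ρ b : Finset V} :
    b ∈ chLink C ρ ↔ Disjoint b ρ ∧ b ∪ ρ ∈ C := by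
  simp only [chLink, mem_image, mem_filter]
  constructor
  · rintro ⟨a, ⟨ha, hρ⟩, rfl⟩
    exact ⟨sdiff_disjoint, by rwa [sdiff_union_of_subset hρ]⟩
  · rintro ⟨hd, hb⟩
    exact ⟨_, ⟨hb, subset_union_right⟩, union_sdiff_cancel_right hd⟩

lemma union_inj {ρ σ τ : Finset V} (hσ : Disjoint σ ρ) (hτ : Disjoint τ ρ)
    (h : σ ∪ ρ = τ ∪ ρ) : σ = τ := by
  rw [← union_sdiff_cancel_right hσ, h, union_sdiff_cancel_right hτ]

lemma mem_faces_chLink {C : Finset (Finset V)} {ρ σ : Finset V} {k : ℕ} :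
    σ ∈ faces (chLink C ρ) k ↔ Disjoint σ ρ ∧ σ ∪ ρ ∈ faces C (k + ρ.card) := by
  simp only [mem_faces_card, mem_chLink_union]
  constructor
  · rintro ⟨rfl, b, ⟨hd, hb⟩, hs⟩
    have hd' := disjoint_of_subset_left hs hd
    exact ⟨hd', card_union_of_disjoint hd', _, hb, union_subset_union hs (Finset.Subset.refl _)⟩
  · rintro ⟨hd, hk, a, ha, hs⟩
    rw [card_union_of_disjoint hd] at hk
    refine ⟨by omega, a \ ρ, ⟨sdiff_disjoint, ?_⟩, ?_⟩
    · rwa [sdiff_union_of_subset (subset_union_right.trans hs)]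
    · rw [subset_sdiff]
      exact ⟨subset_union_left.trans hs, hd⟩

lemma cnt_chLink {C : Finset (Finset V)} {ρ σ : Finset V} (hd : Disjoint σ ρ) :
    cnt (chLink C ρ) σ = cnt C (σ ∪ ρ) := by
  refine card_bij' (fun b _ => b ∪ ρ) (fun a _ => a \ ρ) ?_ ?_ ?_ ?_
  · intro b hb
    obtain ⟨hb, hs⟩ := mem_filter.1 hb
    exact mem_filter.2 ⟨(mem_chLink_union.1 hb).2, union_subset_union hs (Finset.Subset.refl _)⟩
  · intro a ha
    obtain ⟨ha, hs⟩ := mem_filter.1 ha
    refine mem_filter.2 ⟨mem_chLink_union.2 ⟨sdiff_disjoint, ?_⟩, ?_⟩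
    · rwa [sdiff_union_of_subset (subset_union_right.trans hs)]
    · rw [subset_sdiff]
      exact ⟨subset_union_left.trans hs, hd⟩
  · intro b hb
    exact union_sdiff_cancel_right (mem_chLink_union.1 (mem_filter.1 hb).1).1
  · intro a ha
    exact sdiff_union_of_subset (subset_union_right.trans (mem_filter.1 ha).2)

lemma card_chLink (C : Finset (Finset V)) (ρ : Finset V) : (chLink C ρ).card = cnt C ρ := by
  rw [← cnt_empty, cnt_chLink (disjoint_empty_left _), empty_union]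

lemma mass_lift {C : Finset (Finset V)} {ρ : Finset V} {A : Finset (Finset V)}
    (hA : ∀ σ ∈ A, Disjoint σ ρ) : mass C (lift ρ A) = mass (chLink C ρ) A := by
  rw [mass, lift, sum_image fun x hx y hy h => union_inj (hA x hx) (hA y hy) h]
  exact sum_congr rfl fun σ hσ => (cnt_chLink (hA σ hσ)).symm

lemma lift_sub_faces {C : Finset (Finset V)} {ρ : Finset V} {A : Finset (Finset V)} {k : ℕ}
    (hA : A ⊆ faces (chLink C ρ) k) : lift ρ A ⊆ faces C (k + ρ.card) := by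
  intro x hx
  obtain ⟨σ, hσ, rfl⟩ := mem_image.1 hx
  exact (mem_faces_chLink.1 (hA hσ)).2

lemma mem_lift {ρ x : Finset V} {A : Finset (Finset V)} (hA : ∀ σ ∈ A, Disjoint σ ρ) :
    x ∈ lift ρ A ↔ ρ ⊆ x ∧ x \ ρ ∈ A := by
  constructor
  · intro hx
    obtain ⟨σ, hσ, rfl⟩ := mem_image.1 hx
    exact ⟨subset_union_right, by rwa [union_sdiff_cancel_right (hA σ hσ)]⟩
  · rintro ⟨hρ, hx⟩
    exact mem_image.2 ⟨_, hx, sdiff_union_of_subset hρ⟩

lemma lift_symmDiff {ρ : Finset V} {A B : Finset (Finset V)} (hA : ∀ σ ∈ A, Disjoint σ ρ)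
    (hB : ∀ σ ∈ B, Disjoint σ ρ) :
    lift ρ (symmDiff A B) = symmDiff (lift ρ A) (lift ρ B) := by
  ext x
  have hAB : ∀ σ ∈ symmDiff A B, Disjoint σ ρ := fun σ hσ =>
    (mem_symmDiff.1 hσ).elim (fun h => hA σ h.1) fun h => hB σ h.1
  simp only [mem_symmDiff, mem_lift hA, mem_lift hB, mem_lift hAB]
  tauto

lemma cobd_lift {C : Finset (Finset V)} {ρ : Finset V} {A : Finset (Finset V)} {k : ℕ}
    (hA : ∀ σ ∈ A, Disjoint σ ρ) :
    cobd C (k + ρ.card) (lift ρ A) = lift ρ (cobd (chLink C ρ) k A) := by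
  have hB : ∀ σ ∈ cobd (chLink C ρ) k A, Disjoint σ ρ := fun σ hσ =>
    (mem_faces_chLink.1 (cobd_subset _ _ _ hσ)).1
  ext τ
  rw [mem_lift hB, mem_cobd, mem_cobd, mem_faces_chLink]
  by_cases hρ : ρ ⊆ τ
  · have hsum : ∑ v ∈ τ, ind (lift ρ A) (τ.erase v) = ∑ v ∈ τ \ ρ, ind A ((τ \ ρ).erase v) := by
      rw [← sum_sdiff hρ]
      have h0 : ∑ v ∈ ρ, ind (lift ρ A) (τ.erase v) = 0 := by
        refine sum_eq_zero fun v hv => if_neg fun h => ?_
        exact notMem_erase v τ (((mem_lift hA).1 h).1 hv)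
      rw [h0, add_zero]
      refine sum_congr rfl fun v hv => ?_
      have hv' := (mem_sdiff.1 hv).2
      refine if_congr ?_ rfl rfl
      rw [mem_lift hA, show (τ.erase v) \ ρ = (τ \ ρ).erase v from erase_sdiff_comm _ _ _]
      exact and_iff_right (subset_erase.2 ⟨hρ, hv'⟩)
    have e : k + 1 + ρ.card = k + ρ.card + 1 := by omega
    rw [hsum, sdiff_union_of_subset hρ, e]
    simp [hρ, sdiff_disjoint]
  · have hsum : ∑ v ∈ τ, ind (lift ρ A) (τ.erase v) = 0 :=
      sum_eq_zero fun v _ => if_neg fun h => hρ (((mem_lift hA).1 h).1.trans (erase_subset _ _))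
    simp [hsum, hρ]

end Vale.Agent.P067
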