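import Vale.Agent.P067.LatticeReduce

/-!
Permutation matrices and the vertices of spread at most one.
-/

namespace Vale.Agent.P067

open Polynomial

variable {F : Type*} [Field F] {N : ℕ}

variable (F) in
/-- A permutation matrix. -/
noncomputable def permMat (σ : Equiv.Perm (Fin N)) : PMat F N :=
  Matrix.GeneralLinearGroup.mk'' (σ.permMatrix (Polynomial F)) (by
    rw [Matrix.det_permutation]
    exact (Units.isUnit (Equiv.Perm.sign σ)).map (Int.castRingHom (Polynomial F)))

lemma gMap_permMat (σ : Equiv.Perm (Fin N)) (v : RVec F N) (i : Fin N) :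
    gMap F N (permMat F σ) v i = v (σ i) := by
  classical
  have h : ∀ j, ratMat (permMat F σ) i j = if σ i = j then 1 else 0 := by
    intro j
    rw [ratMat_apply]
    change algebraMap _ _ ((σ.permMatrix (Polynomial F)) i j) = _
    simp [Equiv.Perm.permMatrix, PEquiv.toMatrix_apply, apply_ite]
  rw [gMap_apply, Matrix.mulVec, dotProduct]
  simp [h]

lemma lat_permMat (g : PMat F N) (σ : Equiv.Perm (Fin N)) (lam : Fin N → ℤ) :
    lat F N (g * permMat F σ) lam = lat F N g (fun i => lam (σ i)) := by
  rw [← map_gMap_lat]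
  refine congrArg (Submodule.map (gMap F N g)) (le_antisymm ?_ ?_)
  · rintro _ ⟨v, hv, rfl⟩
    rw [SetLike.mem_coe, mem_stdLat] at hv
    exact mem_stdLat.2 fun i => by rw [gMap_permMat]; exact hv (σ i)
  · intro u hu
    rw [mem_stdLat] at hu
    refine ⟨fun i => u (σ.symm i), mem_stdLat.2 fun i => ?_, funext fun i => ?_⟩
    · simpa using hu (σ.symm i)
    · rw [gMap_permMat]
      simp

lemma latClass_permMat (g : PMat F N) (σ : Equiv.Perm (Fin N)) (lam : Fin N → ℤ) :
    latClass F N (g * permMat F σ) lam = latClass F N g (fun i => lam (σ i)) :=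
  congrArg (Quot.mk _) (Subtype.ext (lat_permMat g σ lam))

lemma stdLam_le_one (a : ℕ) (i k : Fin N) : stdLam N a i ≤ stdLam N a k + 1 := by
  unfold stdLam
  split_ifs <;> omega

/-- The vertices of spread at most one. -/
theorem latClass_mem_lowSet_iff {g : PMat F N} {lam : Fin N → ℤ} :
    latClass F N g lam ∈ lowSet F N ↔ ∀ i k, lam i ≤ lam k + 1 := by
  classical
  constructor
  · rintro ⟨g', a, h⟩ i k
    obtain ⟨s, z, hz⟩ := lam_unique h.symm
    rw [hz]
    have := stdLam_le_one a (s i) (s k)
    simp only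
    omega
  · intro h
    rcases isEmpty_or_nonempty (Fin N) with hN | hN
    · exact ⟨g, 0, congrArg (latClass F N g) (funext fun i => isEmptyElim i)⟩
    obtain ⟨k, -, hk⟩ := Finset.exists_min_image Finset.univ lam Finset.univ_nonempty
    set H : Finset (Fin N) := Finset.univ.filter fun i => lam i = lam k + 1 with hH
    have hcard : Fintype.card {i : Fin N // i ∈ H} =
        Fintype.card {i : Fin N // (i : ℕ) < H.card} := by
      rw [Fintype.card_coe]
      have hle : H.card ≤ N := by simpa using H.card_le_univ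
      refine (Fintype.card_fin H.card).symm.trans (Fintype.card_congr ?_)
      exact ⟨fun i => ⟨⟨i, lt_of_lt_of_le i.2 hle⟩, i.2⟩, fun i => ⟨i.1, i.2⟩,
        fun _ => rfl, fun _ => rfl⟩
    obtain ⟨σ, hσ⟩ : ∃ σ : Equiv.Perm (Fin N), ∀ i, (σ i : ℕ) < H.card ↔ i ∈ H := by
      refine ⟨(Fintype.equivOfCardEq hcard).extendSubtype, fun i => ⟨fun hi => ?_, fun hi => ?_⟩⟩
      · by_contra hiH
        exact (Fintype.equivOfCardEq hcard).extendSubtype_not_mem i hiH hi
      · exact (Fintype.equivOfCardEq hcard).extendSubtype_mem i hi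
    refine ⟨g * permMat F σ, H.card, ?_⟩
    rw [latClass_permMat]
    have hlam : lam = fun i => stdLam N H.card (σ i) + lam k := by
      funext i
      have h1 := hk i (Finset.mem_univ i)
      have h2 := h i k
      unfold stdLam
      by_cases hi : i ∈ H
      · rw [if_pos ((hσ i).2 hi)]
        have := (Finset.mem_filter.1 hi).2
        omega
      · rw [if_neg (fun hh => hi ((hσ i).1 hh))]
        have : lam i ≠ lam k + 1 := fun e => hi (Finset.mem_filter.2 ⟨Finset.mem_univ _, e⟩)
        omega
    conv_lhs => rw [hlam]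
    exact latClass_add g _ _

end Vale.Agent.P067
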