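import Vale.Agent.P067.LatticeNbr
import Vale.Agent.P067.LowSet
import Vale.Agent.P067.FlagModel

/-!
Links in the complex of vertices of spread at most one, its dimension, and its vertices modulo
congruence subgroups.
-/

namespace Vale.Agent.P067

open Polynomial Module

variable {F : Type} [Field F] {N : ℕ}

variable (F N) in
/-- The fixed subspace at a standard vertex. -/
noncomputable def stdSub (a : ℕ) : Submodule F (Fin N → F) :=
  coordSub F (Finset.univ.filter fun i : Fin N => (i : ℕ) < a)

lemma mem_coordSub {J : Finset (Fin N)} {c : Fin N → F} :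
    c ∈ coordSub F J ↔ ∀ i ∉ J, c i = 0 := Iff.rfl

lemma single_mem_coordSub {J : Finset (Fin N)} {i : Fin N} (hi : i ∈ J) :
    (Pi.single i (1 : F) : Fin N → F) ∈ coordSub F J :=
  fun _ hk => Pi.single_eq_of_ne (by rintro rfl; exact hk hi) _

lemma genPos_coordSub_iff {A J : Finset (Fin N)} :
    GenPos F (coordSub F A) (coordSub F J) ↔ A ∩ J = ∅ ∨ A ∪ J = Finset.univ := by
  classical
  refine or_congr ?_ ?_
  · constructor
    · intro h
      by_contra hne
      obtain ⟨i, hi⟩ := Finset.nonempty_iff_ne_empty.2 hne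
      obtain ⟨h1, h2⟩ := Finset.mem_inter.1 hi
      have : (Pi.single i (1 : F) : Fin N → F) ∈ (⊥ : Submodule F (Fin N → F)) :=
        h ▸ ⟨single_mem_coordSub h1, single_mem_coordSub h2⟩
      simp at this
    · intro h
      rw [Submodule.eq_bot_iff]
      rintro c ⟨h1, h2⟩
      funext i
      by_cases hi : i ∈ A
      · exact h2 i fun hiJ => by
          have := Finset.mem_inter.2 ⟨hi, hiJ⟩
          simp [h] at this
      · exact h1 i hi
  · constructor
    · intro h
      rw [Finset.eq_univ_iff_forall]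
      intro i
      by_contra hne
      rw [Finset.mem_union, not_or] at hne
      have : (Pi.single i (1 : F) : Fin N → F) ∈ coordSub F A ⊔ coordSub F J := h ▸ trivial
      obtain ⟨x, hx, y, hy, hxy⟩ := Submodule.mem_sup.1 this
      have := congrFun hxy i
      simp [hx i hne.1, hy i hne.2] at this
    · intro h
      refine eq_top_iff.2 fun c _ => ?_
      refine Submodule.mem_sup.2 ⟨fun i => if i ∈ A then c i else 0, fun i hi => if_neg hi,
        fun i => if i ∈ A then 0 else c i, fun i hi => ?_, funext fun i => ?_⟩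
      · have := Finset.eq_univ_iff_forall.1 h i
        simp only [Finset.mem_union, hi, or_false] at this
        exact if_pos this
      · by_cases hi : i ∈ A <;> simp [hi]

lemma Fl_stdLam (a : ℕ) : Fl F (stdLam N a) 1 = stdSub F N a := by
  ext c
  change (∀ i, stdLam N a i < 1 → c i = 0) ↔
    ∀ i ∉ (Finset.univ.filter fun i : Fin N => (i : ℕ) < a), c i = 0
  refine forall_congr' fun i => ?_
  unfold stdLam
  by_cases hi : (i : ℕ) < a <;> simp [hi]

/-- A neighbour of a standard vertex has spread at most one iff its subspace is in general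
position. -/
theorem nbr_mem_lowSet_iff {g : PMat F N} {a : ℕ} {V : Submodule F (Fin N → F)} :
    nbr g (stdLam N a) V ∈ lowSet F N ↔ GenPos F (stdSub F N a) V := by
  classical
  obtain ⟨p, J, hp, hV⟩ := exists_adapted (stdLam N a) V
  obtain ⟨h, -, -, hh⟩ := exists_lift hp g
  have hS : (stdSub F N a).map p.toLinearMap = stdSub F N a := by
    rw [← Fl_stdLam]
    refine Submodule.eq_of_le_of_finrank_eq ?_ (LinearEquiv.finrank_map_eq p _)
    rintro _ ⟨y, hy, rfl⟩
    exact hp 1 y hy
  have hgen : GenPos F (stdSub F N a) V ↔ GenPos F (stdSub F N a) (coordSub F J) := by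
    conv_lhs => rw [hV, ← hS]
    refine or_congr ?_ ?_
    · rw [← Submodule.map_inf _ p.injective, Submodule.map_eq_bot_iff, ]
    · rw [← Submodule.map_sup]
      constructor
      · intro h
        refine eq_top_iff.2 fun c _ => ?_
        have : p c ∈ Submodule.map p.toLinearMap (stdSub F N a ⊔ coordSub F J) := h ▸ trivial
        obtain ⟨d, hd, hdc⟩ := this
        exact p.injective hdc ▸ hd
      · intro h
        rw [h, Submodule.map_top, LinearMap.range_eq_top]
        exact p.surjective
  rw [hgen, hV, ← hh, nbr_coordSub, latClass_mem_lowSet_iff, stdSub, genPos_coordSub_iff]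
  unfold stdLam
  constructor
  · intro hle
    by_contra hne
    rw [not_or] at hne
    obtain ⟨i, hi⟩ := Finset.nonempty_iff_ne_empty.2 hne.1
    obtain ⟨k, hk⟩ := not_forall.1 (mt Finset.eq_univ_iff_forall.2 hne.2)
    have := hle i k
    simp only [Finset.mem_inter, Finset.mem_filter, Finset.mem_univ, true_and] at hi
    simp only [Finset.mem_union, Finset.mem_filter, Finset.mem_univ, true_and, not_or] at hk
    simp [hi.1, hi.2, hk.1, hk.2] at this
  · intro hor i k
    rcases hor with h | h
    · have := Finset.eq_empty_iff_forall_notMem.1 h i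
      simp only [Finset.mem_inter, Finset.mem_filter, Finset.mem_univ, true_and, not_and] at this
      by_cases hi : (i : ℕ) < a
      · simp [hi, this hi]
        split_ifs <;> omega
      · simp [hi]
        split_ifs <;> omega
    · have := Finset.eq_univ_iff_forall.1 h k
      simp only [Finset.mem_union, Finset.mem_filter, Finset.mem_univ, true_and] at this
      rcases this with hk | hk
      · simp [hk]
        split_ifs <;> omega
      · simp [hk]
        split_ifs <;> omega

lemma latClass_stdLam_mem_lowSet (g : PMat F N) (a : ℕ) :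
    latClass F N g (stdLam N a) ∈ lowSet F N := ⟨g, a, rfl⟩

/-- The link of a vertex of spread at most one. -/
theorem mem_link_low_iff [hdec : DecidableEq (BVert F N)] {g : PMat F N} {a : ℕ}
    {s : Finset (BVert F N)} :
    s ∈ link (lowCx F N) (latClass F N g (stdLam N a)) ↔
      ∃ T : Finset (Submodule F (Fin N → F)), (↑T : Set (Submodule F (Fin N → F))) ⊆
        genSub (stdSub F N a) ∧ IsChainF T ∧ s = T.image (nbr g (stdLam N a)) := by
  obtain rfl : hdec = fun x y => Classical.propDecidable (x = y) := Subsingleton.elim _ _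
  classical
  constructor
  · rintro ⟨hv, hins, hlow⟩
    have hl : s ∈ link (Bldg F N) (latClass F N g (stdLam N a)) := ⟨hv, by convert hins⟩
    obtain ⟨S, hS, hch, hs⟩ := mem_link_iff.1 hl
    refine ⟨S, fun V hV => ⟨(hS V hV).1, (hS V hV).2, ?_⟩, hch, by convert hs⟩
    refine (nbr_mem_lowSet_iff (g := g)).1 (hlow _ (Finset.mem_insert_of_mem ?_))
    rw [hs]
    exact Finset.mem_image_of_mem _ hV
  · rintro ⟨T, hT, hch, rfl⟩
    obtain ⟨hv, hins⟩ := (mem_link_iff (g := g) (lam := stdLam N a)).2
      ⟨T, fun V hV => ⟨(hT hV).1, (hT hV).2.1⟩, hch, rfl⟩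
    refine ⟨by convert hv, by convert hins, fun w hw => ?_⟩
    rcases Finset.mem_insert.1 hw with rfl | hw
    · exact latClass_stdLam_mem_lowSet g a
    · obtain ⟨V, hV, rfl⟩ := Finset.mem_image.1 hw
      exact nbr_mem_lowSet_iff.2 (hT hV).2.2

/-- Simplices have at most `N` vertices. -/
theorem card_le_of_mem_bldg (hN : 1 ≤ N) {s : Finset (BVert F N)} (hs : s ∈ Bldg F N) :
    s.card ≤ N := by
  classical
  rcases s.eq_empty_or_nonempty with rfl | ⟨v, hv⟩
  · simp
  obtain ⟨g, lam, rfl⟩ := exists_latClass v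
  have hl : s.erase (latClass F N g lam) ∈ link (Bldg F N) (latClass F N g lam) :=
    ⟨Finset.notMem_erase _ _, by rwa [Finset.insert_erase hv]⟩
  obtain ⟨S, hS, hch, he⟩ := mem_link_iff.1 hl
  have h1 : (s.erase (latClass F N g lam)).card ≤ S.card := by
    rw [he]; exact Finset.card_image_le
  have h2 : S.card ≤ (Finset.Ioo 0 N).card := by
    refine Finset.card_le_card_of_injOn (fun V => finrank F V) (fun V hV => ?_) (chain_injOn hch)
    have := genSub_finrank (S := (⊥ : Submodule F (Fin N → F))) (V := V)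
      ⟨(hS V hV).1, (hS V hV).2, Or.inl (bot_inf_eq V)⟩
    rw [Module.finrank_fin_fun] at this
    simpa using this
  rw [Finset.card_erase_of_mem hv] at h1
  simp at h2
  omega

theorem card_le_of_mem_lowCx (hN : 1 ≤ N) {s : Finset (BVert F N)} (hs : s ∈ lowCx F N) :
    s.card ≤ N :=
  card_le_of_mem_bldg hN hs.1

/-- Purity. -/
theorem exists_top_simplex (hN : 1 ≤ N) {s : Finset (BVert F N)} (hs : s ∈ lowCx F N) :
    ∃ c ∈ lowCx F N, s ⊆ c ∧ c.card = N := by
  classical
  obtain ⟨g, a, T, hT, hTc, hsub⟩ : ∃ (g : PMat F N) (a : ℕ)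
      (T : Finset (Submodule F (Fin N → F))), (∀ V ∈ T, V ∈ genSub (stdSub F N a)) ∧ IsChainF T ∧
        s ⊆ insert (latClass F N g (stdLam N a)) (T.image (nbr g (stdLam N a))) := by
    rcases s.eq_empty_or_nonempty with rfl | ⟨v, hv⟩
    · exact ⟨1, 0, ∅, by simp, by simp [IsChainF], by simp⟩
    obtain ⟨g, a, rfl⟩ := hs.2 v hv
    have hl : s.erase (latClass F N g (stdLam N a)) ∈
        link (lowCx F N) (latClass F N g (stdLam N a)) :=
      ⟨Finset.notMem_erase _ _, by rwa [Finset.insert_erase hv]⟩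
    obtain ⟨T, hT, hTc, he⟩ := mem_link_low_iff.1 hl
    refine ⟨g, a, T, hT, hTc, ?_⟩
    rw [← he, Finset.insert_erase hv]
  obtain ⟨c, hTsub, hcg, hcc, hcd⟩ := exists_full hT hTc
  have hl : c.image (nbr g (stdLam N a)) ∈ link (lowCx F N) (latClass F N g (stdLam N a)) :=
    mem_link_low_iff.2 ⟨c, fun V hV => hcg V hV, hcc, rfl⟩
  refine ⟨_, hl.2, hsub.trans (Finset.insert_subset_insert _ (Finset.image_subset_image hTsub)),
    ?_⟩
  rw [Finset.card_insert_of_notMem hl.1, Finset.card_image_of_injOn (fun V hV W hW h =>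
    nbr_injOn g (stdLam N a) ⟨(hcg V hV).1, (hcg V hV).2.1⟩ ⟨(hcg W hW).1, (hcg W hW).2.1⟩ h)]
  have h1 : (Finset.Ioo 0 N).card ≤ c.card := by
    refine le_trans (Finset.card_le_card fun j hj => ?_)
      (Finset.card_image_le (s := c) (f := fun V : Submodule F (Fin N → F) => finrank F V))
    rw [Finset.mem_Ioo] at hj
    obtain ⟨V, hV, hd⟩ := hcd j hj.1 (by rw [Module.finrank_fin_fun]; exact hj.2)
    exact Finset.mem_image.2 ⟨V, hV, hd⟩
  have h2 := card_le_of_mem_lowCx hN hl.2
  rw [Finset.card_insert_of_notMem hl.1, Finset.card_image_of_injOn (fun V hV W hW h =>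
    nbr_injOn g (stdLam N a) ⟨(hcg V hV).1, (hcg V hV).2.1⟩ ⟨(hcg W hW).1, (hcg W hW).2.1⟩ h)] at h2
  simp at h1
  omega

/-- The truncated polynomial ring over a finite field is finite. -/
theorem finite_quot_X_pow [Finite F] (m : ℕ) :
    Finite (Polynomial F ⧸ Ideal.span {(X : Polynomial F) ^ m}) := by
  refine Finite.of_surjective (fun c : Fin m → F =>
    Ideal.Quotient.mk _ (∑ i : Fin m, Polynomial.C (c i) * X ^ (i : ℕ))) fun q => ?_
  obtain ⟨p, rfl⟩ := Ideal.Quotient.mk_surjective q
  refine ⟨fun i => p.coeff i, ?_⟩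
  rw [Ideal.Quotient.eq, Ideal.mem_span_singleton, X_pow_dvd_iff]
  intro d hd
  rw [coeff_sub, finsetSum_coeff, Finset.sum_eq_single ⟨d, hd⟩]
  · simp
  · intro b _ hb
    rw [coeff_C_mul, coeff_X_pow, if_neg (fun e => hb (Fin.ext e.symm)), mul_zero]
  · simp

/-- Finitely many orbits of vertices of spread at most one. -/
theorem exists_lowSet_reps [Finite F] (m : ℕ) :
    ∃ T : Finset (BVert F N), (↑T : Set (BVert F N)) ⊆ lowSet F N ∧
      ∀ v ∈ lowSet F N, ∃ t ∈ T, ∃ γ ∈ congr F N m, actB F N γ t = v := by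
  classical
  have := finite_quot_X_pow (F := F) m
  set red := Matrix.GeneralLinearGroup.map (n := Fin N)
    (Ideal.Quotient.mk (Ideal.span {(X : Polynomial F) ^ m})) with hred
  have : Fintype red.range := Fintype.ofFinite _
  refine ⟨(Finset.univ : Finset (red.range × Fin (N + 1))).image
    fun p => latClass F N p.1.2.choose (stdLam N p.2), ?_, ?_⟩
  · intro v hv
    rw [Finset.mem_coe, Finset.mem_image] at hv
    obtain ⟨p, -, rfl⟩ := hv
    exact latClass_stdLam_mem_lowSet _ _
  · rintro v ⟨g, a, rfl⟩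
    have hmin : stdLam N a = stdLam N (min a N) := by
      funext i
      have := i.2
      unfold stdLam
      split_ifs <;> omega
    let q : red.range := ⟨red g, g, rfl⟩
    set g₀ := q.2.choose with hg₀
    refine ⟨latClass F N g₀ (stdLam N (min a N)), Finset.mem_image.2
      ⟨(q, ⟨min a N, by omega⟩), Finset.mem_univ _, rfl⟩, g * g₀⁻¹, ?_, ?_⟩
    · have h0 : red g₀ = red g := q.2.choose_spec
      rw [congr, MonoidHom.mem_ker, map_mul, map_inv, ← hred, h0, mul_inv_cancel]
    · rw [actB_latClass, inv_mul_cancel_right, hmin]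

lemma lat_eq_std_const {x : PMat F N}
    (h : latClass F N x 0 = latClass F N (1 : PMat F N) 0) (i j : Fin N) :
    ((x : Matrix (Fin N) (Fin N) (Polynomial F)) i j).natDegree = 0 := by
  obtain ⟨z, hz⟩ := latClass_eq_iff.1 h.symm
  simp only [Pi.zero_apply, zero_add] at hz
  have h1 := sum_le_of_lat_le hz.le
  have h2 := sum_le_of_lat_le hz.ge
  have hN : 0 < N := i.pos
  simp only [Pi.zero_apply, Finset.sum_const_zero, Finset.sum_const, Finset.card_univ,
    Fintype.card_fin, nsmul_eq_mul] at h1 h2
  have hz0 : z = 0 := by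
    have : (N : ℤ) * z = 0 := le_antisymm h2 h1
    exact (mul_eq_zero.1 this).resolve_left (by omega)
  subst hz0
  have h3 : (stdLat F N 0).map (gMap F N x) ≤ stdLat F N 0 := by
    have := hz.le
    rw [lat_one] at this
    exact this
  have h4 := map_stdLat_le_iff.1 h3 i j
  rw [ratMat_apply, degLE_polynomial_iff] at h4
  rcases h4 with h4 | h4
  · simp [h4]
  · simpa using h4

/-- Many pairwise inequivalent vertices. -/
theorem exists_inequiv_vertices (hN : 2 ≤ N) (M : ℕ) :
    ∃ m, 8 ≤ m ∧ ∃ S : Finset (BVert F N), (↑S : Set (BVert F N)) ⊆ lowSet F N ∧ S.card = M ∧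
      ∀ v ∈ S, ∀ w ∈ S, ∀ γ ∈ congr F N m, actB F N γ v = w → v = w := by
  classical
  let i0 : Fin N := ⟨0, by omega⟩
  let i1 : Fin N := ⟨1, by omega⟩
  have h01 : i0 ≠ i1 := by simp [i0, i1, Fin.ext_iff]
  let E : Polynomial F → PMat F N := fun c => Matrix.GeneralLinearGroup.mk''
    (Matrix.transvection i0 i1 c) (by rw [Matrix.det_transvection_of_ne i0 i1 h01]; exact isUnit_one)
  have hE : ∀ c d, E c * E d = E (c + d) := fun c d =>
    Units.ext (Matrix.transvection_mul_transvection_same i0 i1 h01 c d)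
  have hE0 : E 0 = 1 := Units.ext (Matrix.transvection_zero i0 i1)
  have hEinv : ∀ c, (E c)⁻¹ = E (-c) := fun c =>
    inv_eq_of_mul_eq_one_right (by rw [hE, add_neg_cancel, hE0])
  refine ⟨M + 8, by omega, ?_⟩
  let f : ℕ → BVert F N := fun j => latClass F N (E (X ^ (j + 1))) 0
  have key : ∀ i j : ℕ, i < M → j < M → ∀ γ ∈ congr F N (M + 8),
      actB F N γ (f i) = f j → i = j := by
    intro i j hi hj γ hγ h
    by_contra hij
    simp only [f, actB_latClass] at h
    set x := (E (X ^ (j + 1)))⁻¹ * (γ * E (X ^ (i + 1))) with hx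
    have hxo : latClass F N x 0 = latClass F N (1 : PMat F N) 0 := by
      have := congrArg (actB F N (E (X ^ (j + 1)))⁻¹) h
      rwa [actB_latClass, actB_latClass, inv_mul_cancel] at this
    have hdeg := lat_eq_std_const hxo i0 i1
    set π := Ideal.Quotient.mk (Ideal.span {(X : Polynomial F) ^ (M + 8)}) with hπ
    have hγ1 : Matrix.GeneralLinearGroup.map π γ = 1 := hγ
    have hxe : Matrix.GeneralLinearGroup.map π x =
        Matrix.GeneralLinearGroup.map π (E (-(X ^ (j + 1)) + X ^ (i + 1))) := by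
      rw [hx, map_mul, map_mul, hγ1, one_mul, ← map_mul, hEinv, hE]
    have hent := congrArg (fun g : GL (Fin N) _ =>
      (g : Matrix (Fin N) (Fin N) (Polynomial F ⧸ Ideal.span {(X : Polynomial F) ^ (M + 8)})) i0 i1)
      hxe
    simp only [Matrix.GeneralLinearGroup.map_apply] at hent
    rw [Ideal.Quotient.eq, Ideal.mem_span_singleton, X_pow_dvd_iff] at hent
    have := hent (i + 1) (by omega)
    have hc0 : ((x : Matrix (Fin N) (Fin N) (Polynomial F)) i0 i1).coeff (i + 1) = 0 :=
      coeff_eq_zero_of_natDegree_lt (by omega)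
    have hEe : (E (-(X ^ (j + 1)) + X ^ (i + 1)) : Matrix (Fin N) (Fin N) (Polynomial F)) i0 i1 =
        -(X ^ (j + 1)) + X ^ (i + 1) := by
      change Matrix.transvection i0 i1 _ i0 i1 = _
      simp [Matrix.transvection, Matrix.single_apply_same, h01]
    rw [hEe] at this
    simp [hc0, coeff_X_pow, Ne.symm (show j ≠ i from Ne.symm hij)] at this
  have hinj : Set.InjOn f ↑(Finset.range M) := by
    intro i hi j hj h
    refine key i j (Finset.mem_range.1 hi) (Finset.mem_range.1 hj) 1 (one_mem _) ?_
    rw [map_one, Equiv.Perm.one_apply, h]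
  refine ⟨(Finset.range M).image f, ?_, ?_, ?_⟩
  · intro v hv
    rw [Finset.mem_coe, Finset.mem_image] at hv
    obtain ⟨j, -, rfl⟩ := hv
    exact ⟨E (X ^ (j + 1)), 0, congrArg (latClass F N _) (funext fun i => by simp [stdLam])⟩
  · rw [Finset.card_image_of_injOn hinj, Finset.card_range]
  · intro v hv w hw γ hγ h
    obtain ⟨i, hi, rfl⟩ := Finset.mem_image.1 hv
    obtain ⟨j, hj, rfl⟩ := Finset.mem_image.1 hw
    rw [key i j (Finset.mem_range.1 hi) (Finset.mem_range.1 hj) γ hγ h]

end Vale.Agent.P067
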