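import Vale.Agent.P067.Core

/-!
Polynomial general linear groups, principal congruence subgroups at `X`, and partial basis
complexes.
-/

namespace Vale.Agent.P067

open Polynomial

/-- The group of invertible polynomial matrices. -/
abbrev PMat (F : Type*) [CommRing F] (N : ℕ) := GL (Fin N) (Polynomial F)

/-- Matrices congruent to the identity modulo `X ^ m`. -/
noncomputable def congr (F : Type*) [CommRing F] (N m : ℕ) : Subgroup (PMat F N) :=
  MonoidHom.ker (Matrix.GeneralLinearGroup.map (n := Fin N)
    (Ideal.Quotient.mk (Ideal.span {(X : Polynomial F) ^ m})))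

variable (R : Type*) [CommRing R] (U : Subgroup Rˣ) (N : ℕ)

/-- Columns of invertible matrices. -/
def UVec : Type _ :=
  {v : Fin N → R // ∃ (g : GL (Fin N) R) (i : Fin N), ∀ j, v j = (g : Matrix (Fin N) (Fin N) R) j i}

/-- Two columns are equivalent up to a scalar from `U`. -/
def uvecSetoid : Setoid (UVec R N) where
  r v w := ∃ u ∈ U, ∀ j, w.1 j = (u : R) * v.1 j
  iseqv :=
    { refl := fun v => ⟨1, U.one_mem, fun j => by simp⟩
      symm := fun {v w} => by
        rintro ⟨u, hu, h⟩
        exact ⟨u⁻¹, U.inv_mem hu, fun j => by rw [h j, ← mul_assoc, Units.inv_mul, one_mul]⟩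
      trans := fun {u v w} => by
        rintro ⟨a, ha, h1⟩ ⟨b, hb, h2⟩
        exact ⟨b * a, U.mul_mem hb ha, fun j => by rw [h2 j, h1 j, Units.val_mul, mul_assoc]⟩ }

/-- Vertices of the partial basis complex. -/
def PBVert : Type _ := Quotient (uvecSetoid R U N)

/-- The complex of partial bases up to scalars from `U`. -/
def PB : Set (Finset (PBVert R U N)) :=
  {s | ∃ (g : GL (Fin N) R) (idx : PBVert R U N → Fin N), Set.InjOn idx ↑s ∧
    ∀ v ∈ s, ∃ w : UVec R N, v = Quotient.mk _ w ∧
      ∀ j, w.1 j = (g : Matrix (Fin N) (Fin N) R) j (idx v)}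

/-- The scalars of the base field inside an algebra. -/
def baseUnits (F : Type*) [CommRing F] [Algebra F R] : Subgroup Rˣ :=
  (Units.map (algebraMap F R).toMonoidHom).range

end Vale.Agent.P067
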