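import Vale.Agent.P067.Core

/-!
Vertex-function pushing (discrete Morse theory for chains).
-/

namespace Vale.Agent.P067

open Finset

variable {V : Type*} [DecidableEq V] {α : Type*} [LinearOrder α] [WellFoundedLT α]

/-- Vertices occurring in a chain. -/
def verts (y : Chain V) : Finset V := y.support.biUnion id

lemma mem_verts {y : Chain V} {v : V} : v ∈ verts y ↔ ∃ s, y s ≠ 0 ∧ v ∈ s := by
  simp [verts]

/-- Push a chain whose boundary lies in the base `P` into `P`, keeping the boundary, provided that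
all descending links outside `P` are acyclic in the relevant degree. -/
theorem morse_push (K : Set (Finset V)) (hK : DownClosed K) (h : V → α) (P : Set V)
    (hne : ∀ v w, v ∉ P → w ∉ P → v ≠ w → ({v, w} : Finset V) ∈ K → h v ≠ h w)
    (hlow : ∀ v w, v ∉ P → w ∈ P → ({v, w} : Finset V) ∈ K → h w < h v)
    (j : ℕ) (hac : ∀ v, v ∉ P → Acyclic (descLink K h v) j)
    (y : Chain V) (hy : y ∈ chainsOf K (j + 1))
    (hb : ∀ s, bdry y s ≠ 0 → ∀ w ∈ s, w ∈ P) :
    ∃ y' ∈ chainsOf (fullSub K P) (j + 1), bdry y' = bdry y := by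
  classical
  suffices key : ∀ (a : α) (n : ℕ) (y : Chain V), y ∈ chainsOf K (j + 1) →
      (∀ s, bdry y s ≠ 0 → ∀ w ∈ s, w ∈ P) → (∀ v ∈ verts y, v ∉ P → h v ≤ a) →
      ((verts y).filter (fun v => v ∉ P ∧ h v = a)).card ≤ n →
      ∃ y' ∈ chainsOf (fullSub K P) (j + 1), bdry y' = bdry y by
    rcases ((verts y).filter (fun v => v ∉ P)).eq_empty_or_nonempty with he | hn
    · refine ⟨y, mem_chainsOf.2 fun s hs => ⟨⟨(mem_chainsOf.1 hy s hs).1, fun w hw => ?_⟩,
        (mem_chainsOf.1 hy s hs).2⟩, rfl⟩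
      by_contra hwP
      have : w ∈ (verts y).filter (fun v => v ∉ P) :=
        Finset.mem_filter.2 ⟨mem_verts.2 ⟨s, hs, hw⟩, hwP⟩
      simp [he] at this
    · obtain ⟨v, hv, hmax⟩ := Finset.exists_max_image _ h hn
      exact key (h v) _ y hy hb
        (fun w hw hwP => hmax w (Finset.mem_filter.2 ⟨hw, hwP⟩)) le_rfl
  intro a
  induction a using WellFoundedLT.induction with
  | ind a iha =>
  intro n
  induction n with
  | zero =>
    intro y hy hb hle hn
    rcases ((verts y).filter (fun v => v ∉ P)).eq_empty_or_nonempty with he | hne'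
    · refine ⟨y, mem_chainsOf.2 fun s hs => ⟨⟨(mem_chainsOf.1 hy s hs).1, fun w hw => ?_⟩,
        (mem_chainsOf.1 hy s hs).2⟩, rfl⟩
      by_contra hwP
      have : w ∈ (verts y).filter (fun v => v ∉ P) :=
        Finset.mem_filter.2 ⟨mem_verts.2 ⟨s, hs, hw⟩, hwP⟩
      simp [he] at this
    · obtain ⟨v, hv, hmax⟩ := Finset.exists_max_image _ h hne'
      rw [Finset.mem_filter] at hv
      have hva : h v < a := by
        refine lt_of_le_of_ne (hle v hv.1 hv.2) fun he => ?_
        have : v ∈ (verts y).filter (fun v => v ∉ P ∧ h v = a) :=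
          Finset.mem_filter.2 ⟨hv.1, hv.2, he⟩
        have := Finset.card_pos.2 ⟨v, this⟩
        omega
      exact iha (h v) hva _ y hy hb
        (fun w hw hwP => hmax w (Finset.mem_filter.2 ⟨hw, hwP⟩)) le_rfl
  | succ n ihn =>
    intro y hy hb hle hn
    rcases ((verts y).filter (fun v => v ∉ P ∧ h v = a)).eq_empty_or_nonempty with he | hne'
    · exact ihn y hy hb hle (by simp [he])
    obtain ⟨v, hv⟩ := hne'
    obtain ⟨hvy, hvP, hva⟩ := Finset.mem_filter.1 hv
    have hc : delV v y ∈ chainsOf (descLink K h v) j := by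
      refine mem_chainsOf.2 fun t ht => ?_
      obtain ⟨h1, h2⟩ := mem_chainsOf.1 (delV_mem_chainsOf hy v) t ht
      refine ⟨⟨h1, fun w hw => ?_⟩, h2⟩
      have hne2 : v ≠ w := fun e => h1.1 (e ▸ hw)
      have hedge : ({v, w} : Finset V) ∈ K := by
        refine hK _ h1.2 _ ?_
        simp [Finset.insert_subset_iff, hw]
      by_cases hwP : w ∈ P
      · exact hlow v w hvP hwP hedge
      · have hwy : w ∈ verts y := by
          rw [delV_apply, if_neg h1.1] at ht
          exact mem_verts.2 ⟨_, ht, Finset.mem_insert_of_mem hw⟩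
        exact lt_of_le_of_ne (hva ▸ hle w hwy hwP) (hne v w hvP hwP hne2 hedge).symm
    have hcy : bdry (delV v y) = 0 := by
      rw [bdry_delV, delV_eq_zero_iff]
      intro s hs hvs
      exact hvP (hb s hs v hvs)
    obtain ⟨e, he, hbe⟩ := hac v hvP _ hc hcy
    set y₁ := y.filter (fun s => v ∉ s) + e with hy₁
    have hdK : descLink K h v ⊆ K := fun s hs => link_subset hK v hs.1
    have hy1mem : y₁ ∈ chainsOf K (j + 1) := by
      refine Submodule.add_mem _ (mem_chainsOf.2 fun s hs => ?_)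
        (chainsOf_mono (fun s hs _ => hdK hs) he)
      refine mem_chainsOf.1 hy s fun h0 => hs ?_
      rw [Finsupp.filter_apply]
      split_ifs <;> simp [h0]
    have hbd : bdry y₁ = bdry y := bdry_replace hbe
    have hverts : ∀ w ∈ verts y₁, w ∉ P → h w < a ∨ (w ∈ verts y ∧ w ≠ v) := by
      intro w hw _
      obtain ⟨s, hs, hws⟩ := mem_verts.1 hw
      rw [hy₁, Finsupp.add_apply] at hs
      by_cases hes : e s = 0
      · rw [hes, add_zero, Finsupp.filter_apply] at hs
        by_cases hvs : v ∈ s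
        · simp [hvs] at hs
        · refine Or.inr ⟨mem_verts.2 ⟨s, ?_, hws⟩, fun e' => hvs (e' ▸ hws)⟩
          simpa [hvs] using hs
      · exact Or.inl (hva ▸ (mem_chainsOf.1 he s hes).1.2 w hws)
    obtain ⟨y', hy', hby'⟩ := ihn y₁ hy1mem (by rw [hbd]; exact hb)
      (fun w hw hwP => (hverts w hw hwP).elim le_of_lt (fun h => hle w h.1 hwP))
      (by
        have hsub : (verts y₁).filter (fun w => w ∉ P ∧ h w = a) ⊆
            ((verts y).filter (fun w => w ∉ P ∧ h w = a)).erase v := by
          intro w hw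
          obtain ⟨h1, h2, h3⟩ := Finset.mem_filter.1 hw
          rcases hverts w h1 h2 with h4 | h4
          · exact absurd h3 (ne_of_lt h4)
          · exact Finset.mem_erase.2 ⟨h4.2, Finset.mem_filter.2 ⟨h4.1, h2, h3⟩⟩
        have := Finset.card_le_card hsub
        rw [Finset.card_erase_of_mem hv] at this
        omega)
    exact ⟨y', hy', hby'.trans hbd⟩

/-- Acyclicity passes to the base. -/
theorem morse_acyclic (K : Set (Finset V)) (hK : DownClosed K) (h : V → α) (P : Set V)
    (hne : ∀ v w, v ∉ P → w ∉ P → v ≠ w → ({v, w} : Finset V) ∈ K → h v ≠ h w)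
    (hlow : ∀ v w, v ∉ P → w ∈ P → ({v, w} : Finset V) ∈ K → h w < h v)
    (k : ℕ) (hac : ∀ v, v ∉ P → Acyclic (descLink K h v) k) (hKk : Acyclic K k) :
    Acyclic (fullSub K P) k := by
  intro z hz hbz
  obtain ⟨y, hy, hby⟩ := hKk z (chainsOf_mono (fun s hs _ => hs.1) hz) hbz
  obtain ⟨y', hy', hby'⟩ := morse_push K hK h P hne hlow k hac y hy
    (by rw [hby]; exact fun s hs => (mem_chainsOf.1 hz s hs).1.2)
  exact ⟨y', hy', hby'.trans hby⟩

end Vale.Agent.P067
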