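import Vale.Agent.P067.PBBasic

/-!
High acyclicity of partial basis complexes of rings with a Euclidean size function, and of all
their links.
-/

namespace Vale.Agent.P067

open Matrix Finset

section ChainMap

variable {V : Type*} [DecidableEq V]

/-- Push a chain forward along a vertex map. -/
noncomputable def pushC (r : V → V) : Chain V →ₗ[ZMod 2] Chain V :=
  Finsupp.lmapDomain (ZMod 2) (ZMod 2) (Finset.image r)

lemma pushC_single (r : V → V) (s : Finset V) (a : ZMod 2) :
    pushC r (Finsupp.single s a) = Finsupp.single (s.image r) a := by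
  simp [pushC, Finsupp.mapDomain_single]

lemma bdry_pushC (r : V → V) {K : Set (Finset V)} {k : ℕ}
    (hr : ∀ s ∈ K, s.card = k → Set.InjOn r ↑s) {z : Chain V} (hz : z ∈ chainsOf K k) :
    bdry (pushC r z) = pushC r (bdry z) := by
  rw [chainsOf, Finsupp.supported_eq_span_single] at hz
  refine Submodule.span_induction ?_ ?_ ?_ ?_ hz
  · rintro x ⟨s, ⟨hsK, hsc⟩, rfl⟩
    have hinj := hr s hsK hsc
    simp only [pushC_single, bdry_single_one, bdryS, map_sum, Finset.sum_image hinj]
    refine Finset.sum_congr rfl fun v hv => ?_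
    congr 1
    ext x
    simp only [Finset.mem_erase, Finset.mem_image]
    constructor
    · rintro ⟨hne, w, hw, rfl⟩
      exact ⟨w, ⟨fun e => hne (e ▸ rfl), hw⟩, rfl⟩
    · rintro ⟨w, ⟨hne, hw⟩, rfl⟩
      exact ⟨fun e => hne (hinj hw hv e), w, hw, rfl⟩
  · simp
  · intro x y _ _ hx hy
    simp only [map_add, hx, hy]
  · intro a x _ hx
    simp only [map_smul, hx]

lemma pushC_mem_chainsOf (r : V → V) {K K' : Set (Finset V)} {k : ℕ}
    (hr : ∀ s ∈ K, s.card = k → s.image r ∈ K' ∧ (s.image r).card = k) {z : Chain V}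
    (hz : z ∈ chainsOf K k) : pushC r z ∈ chainsOf K' k := by
  rw [chainsOf, Finsupp.supported_eq_span_single] at hz
  refine Submodule.span_induction ?_ ?_ ?_ ?_ hz
  · rintro x ⟨s, ⟨hsK, hsc⟩, rfl⟩
    rw [pushC_single]
    exact single_mem_chainsOf (hr s hsK hsc).1 (hr s hsK hsc).2 1
  · simp
  · intro x y _ _ hx hy
    simpa [map_add] using Submodule.add_mem _ hx hy
  · intro a x _ hx
    simpa [map_smul] using Submodule.smul_mem _ a hx

lemma exists_of_pushC_ne (r : V → V) (z : Chain V) {s : Finset V} (hs : pushC r z s ≠ 0) :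
    ∃ s₀, z s₀ ≠ 0 ∧ s₀.image r = s := by
  have h : s ∈ (Finsupp.mapDomain (Finset.image r) z).support := Finsupp.mem_support_iff.2 hs
  obtain ⟨s₀, h0, e⟩ := Finset.mem_image.1 (Finsupp.mapDomain_support h)
  exact ⟨s₀, Finsupp.mem_support_iff.1 h0, e⟩

lemma pushC_eq_self (r : V → V) (z : Chain V) (h : ∀ s, z s ≠ 0 → ∀ v ∈ s, r v = v) :
    pushC r z = z := by
  show Finsupp.mapDomain (Finset.image r) z = z
  conv_rhs => rw [← Finsupp.mapDomain_id (v := z)]
  refine Finsupp.mapDomain_congr fun s hs => ?_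
  rw [Finset.image_congr (g := id) fun v hv => h s (Finsupp.mem_support_iff.1 hs) v hv,
    Finset.image_id]
  rfl

end ChainMap

section Size

variable {R : Type*} [CommRing R]

/-- A size function allowing division with remainder. -/
def IsSize (size : R → ℕ) : Prop :=
  ∀ a b : R, b ≠ 0 → ∃ q, a - q * b = 0 ∨ size (a - q * b) < size b

open Classical in
/-- The least size in an orbit of the chosen units, shifted so that only zero has height zero. -/
noncomputable def hgt (U : Subgroup Rˣ) (size : R → ℕ) (a : R) : ℕ :=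
  if a = 0 then 0 else sInf ((fun u : U => size (((u : Rˣ) : R) * a)) '' Set.univ) + 1

lemma hgt_eq_zero {U : Subgroup Rˣ} {size : R → ℕ} {a : R} : hgt U size a = 0 ↔ a = 0 := by
  unfold hgt
  split_ifs with h <;> simp [h]

lemma hgt_unit_mul (U : Subgroup Rˣ) (size : R → ℕ) (a : R) {u : Rˣ} (hu : u ∈ U) :
    hgt U size ((u : R) * a) = hgt U size a := by
  by_cases ha : a = 0
  · simp [ha]
  have h' : (u : R) * a ≠ 0 := by simpa using ha
  unfold hgt
  rw [if_neg ha, if_neg h']
  congr 2
  ext x
  constructor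
  · rintro ⟨v, _, rfl⟩
    refine ⟨v * ⟨u, hu⟩, trivial, ?_⟩
    simp only [Subgroup.coe_mul, Units.val_mul, mul_assoc]
  · rintro ⟨v, _, rfl⟩
    refine ⟨v * ⟨u, hu⟩⁻¹, trivial, ?_⟩
    simp only [Subgroup.coe_mul, Subgroup.coe_inv, Units.val_mul, mul_assoc,
      Units.inv_mul_cancel_left]

lemma exists_reduce (U : Subgroup Rˣ) {size : R → ℕ} (hs : IsSize size) (a : R) {b : R}
    (hb : b ≠ 0) : ∃ q, hgt U size (a - q * b) < hgt U size b := by
  obtain ⟨v, -, hv⟩ := Nat.sInf_mem
    (s := (fun u : U => size (((u : Rˣ) : R) * b)) '' Set.univ) ⟨_, 1, trivial, rfl⟩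
  have hb' : ((v : Rˣ) : R) * b ≠ 0 := by simpa using hb
  obtain ⟨q, hq⟩ := hs a (((v : Rˣ) : R) * b) hb'
  refine ⟨q * ((v : Rˣ) : R), ?_⟩
  rw [mul_assoc]
  set c := a - q * (((v : Rˣ) : R) * b) with hc
  unfold hgt
  rw [if_neg hb]
  by_cases hc0 : c = 0
  · rw [if_pos hc0]
    omega
  · rw [if_neg hc0]
    have h1 : size c < size (((v : Rˣ) : R) * b) := hq.resolve_left hc0
    have h2 : sInf ((fun u : U => size (((u : Rˣ) : R) * c)) '' Set.univ) ≤ size c :=
      Nat.sInf_le ⟨1, trivial, by simp⟩
    simp only at hv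
    omega

end Size

variable {R : Type*} [CommRing R] {U : Subgroup Rˣ} {N : ℕ}

/-- The operation adding multiples of column `j` to the other columns. -/
def addColGL (j : Fin N) (c : Fin N → R) (hc : c j = 0) : GL (Fin N) R :=
  have key : ∀ d : Fin N → R, d j = 0 →
      ∀ e : Fin N → R, (Matrix.of fun a b => if a = j then d b else 0) *
        (Matrix.of fun a b => if a = j then e b else 0) = (0 : Matrix (Fin N) (Fin N) R) := by
    intro d hd e
    ext a b
    simp only [Matrix.mul_apply, Matrix.of_apply, Matrix.zero_apply]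
    refine Finset.sum_eq_zero fun x _ => ?_
    by_cases hx : x = j
    · simp [hx, hd]
    · simp [hx]
  ⟨1 + Matrix.of fun a b => if a = j then c b else 0,
    1 - Matrix.of fun a b => if a = j then c b else 0,
    by rw [mul_sub, add_mul, add_mul, key c hc c]; simp,
    by rw [mul_add, sub_mul, sub_mul, key c hc c]; simp⟩

lemma mul_addColGL_apply (g : GL (Fin N) R) (j : Fin N) (c : Fin N → R) (hc : c j = 0)
    (a i : Fin N) :
    ((g * addColGL j c hc : GL (Fin N) R) : Matrix (Fin N) (Fin N) R) a i =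
      (g : Matrix (Fin N) (Fin N) R) a i + (g : Matrix (Fin N) (Fin N) R) a j * c i := by
  rw [Units.val_mul]
  show ((g : Matrix (Fin N) (Fin N) R) * (1 + _)) a i = _
  rw [mul_add, mul_one, Matrix.add_apply, Matrix.mul_apply]
  simp

lemma colV_mul_addColGL (g : GL (Fin N) R) (j : Fin N) (c : Fin N → R) (hc : c j = 0)
    (i : Fin N) (hi : c i = 0) : colV U (g * addColGL j c hc) i = colV U g i :=
  (colV_eq_of_mul U.one_mem fun a => by simp [mul_addColGL_apply, hi]).symm

/-- Make row `l` supported at one column, keeping the columns in `J`, where that row vanishes. -/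
lemma exists_row_single [Nontrivial R] {size : R → ℕ} (hs : IsSize size) (l : Fin N)
    (J : Finset (Fin N)) (g : GL (Fin N) R)
    (hJ : ∀ i ∈ J, (g : Matrix (Fin N) (Fin N) R) l i = 0) :
    ∃ (g' : GL (Fin N) R) (j₀ : Fin N), j₀ ∉ J ∧
      (∀ a, ∀ i ∈ J, (g' : Matrix (Fin N) (Fin N) R) a i = (g : Matrix (Fin N) (Fin N) R) a i) ∧
      ∀ i, i ≠ j₀ → (g' : Matrix (Fin N) (Fin N) R) l i = 0 := by
  induction hn : ∑ i, hgt (⊥ : Subgroup Rˣ) size ((g : Matrix (Fin N) (Fin N) R) l i)
    using Nat.strong_induction_on generalizing g with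
  | _ n ih =>
  classical
  have hne : ∃ i, (g : Matrix (Fin N) (Fin N) R) l i ≠ 0 := by
    by_contra h
    push Not at h
    have h0 : (g : Matrix (Fin N) (Fin N) R).det = 0 :=
      Matrix.det_eq_zero_of_row_eq_zero l h
    have hu : IsUnit (g : Matrix (Fin N) (Fin N) R).det :=
      (Matrix.isUnit_iff_isUnit_det _).1 g.isUnit
    exact hu.ne_zero h0
  set f : Fin N → ℕ := fun i => hgt (⊥ : Subgroup Rˣ) size ((g : Matrix (Fin N) (Fin N) R) l i)
    with hf
  obtain ⟨j, hj, hmin⟩ := Finset.exists_min_image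
    (Finset.univ.filter fun i => (g : Matrix (Fin N) (Fin N) R) l i ≠ 0) f
    (by obtain ⟨i, hi⟩ := hne; exact ⟨i, by simp [hi]⟩)
  rw [Finset.mem_filter] at hj
  have hjJ : j ∉ J := fun h => hj.2 (hJ j h)
  by_cases hall : ∀ i, i ≠ j → (g : Matrix (Fin N) (Fin N) R) l i = 0
  · exact ⟨g, j, hjJ, fun a i _ => rfl, hall⟩
  push Not at hall
  obtain ⟨i, hij, hi⟩ := hall
  obtain ⟨q, hq⟩ := exists_reduce (⊥ : Subgroup Rˣ) hs ((g : Matrix (Fin N) (Fin N) R) l i) hj.2
  set c : Fin N → R := fun x => if x = i then -q else 0 with hc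
  have hcj : c j = 0 := by simp [hc, Ne.symm hij]
  have hiJ : i ∉ J := fun h => hi (hJ i h)
  have hkeep : ∀ a, ∀ x, x ≠ i →
      ((g * addColGL j c hcj : GL (Fin N) R) : Matrix (Fin N) (Fin N) R) a x =
        (g : Matrix (Fin N) (Fin N) R) a x := by
    intro a x hx
    simp [mul_addColGL_apply, hc, hx]
  have hlt : ∑ x, hgt (⊥ : Subgroup Rˣ) size
      (((g * addColGL j c hcj : GL (Fin N) R) : Matrix (Fin N) (Fin N) R) l x) < n := by
    rw [← hn]
    refine Finset.sum_lt_sum (fun x _ => ?_) ⟨i, Finset.mem_univ _, ?_⟩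
    · by_cases hx : x = i
      · subst hx
        have h1 := hmin x (by simp [hi])
        rw [mul_addColGL_apply]
        simp only [hc, if_true, hf] at h1 ⊢
        rw [show (g : Matrix (Fin N) (Fin N) R) l x + (g : Matrix (Fin N) (Fin N) R) l j * -q =
          (g : Matrix (Fin N) (Fin N) R) l x - q * (g : Matrix (Fin N) (Fin N) R) l j by ring]
        omega
      · rw [hkeep l x hx]
    · have h1 := hmin i (by simp [hi])
      rw [mul_addColGL_apply]
      simp only [hc, if_true, hf] at h1 ⊢
      rw [show (g : Matrix (Fin N) (Fin N) R) l i + (g : Matrix (Fin N) (Fin N) R) l j * -q =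
        (g : Matrix (Fin N) (Fin N) R) l i - q * (g : Matrix (Fin N) (Fin N) R) l j by ring]
      omega
  obtain ⟨g', j₀, h1, h2, h3⟩ := ih _ hlt (g * addColGL j c hcj)
    (fun x hx => by rw [hkeep l x (fun e => hiJ (e ▸ hx))]; exact hJ x hx) rfl
  exact ⟨g', j₀, h1, fun a x hx => by rw [h2 a x hx, hkeep a x (fun e => hiJ (e ▸ hx))], h3⟩

/-- Columns with vanishing coordinate `l` form a partial basis together with the unit vector. -/
lemma exists_frame_unit [Nontrivial R] {size : R → ℕ} (hs : IsSize size) (l : Fin N)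
    (J : Finset (Fin N)) (g : GL (Fin N) R)
    (hJ : ∀ i ∈ J, (g : Matrix (Fin N) (Fin N) R) l i = 0) :
    ∃ (g' : GL (Fin N) R) (j₀ : Fin N),
      (∀ i ∈ J, colV U g' i = colV U g i) ∧ colV U g' j₀ = colV U (1 : GL (Fin N) R) l := by
  classical
  obtain ⟨g₁, j₀, hj₀, hcols, hrow⟩ := exists_row_single hs l J g hJ
  set A : Matrix (Fin N) (Fin N) R := (g₁ : Matrix (Fin N) (Fin N) R) with hA
  have hdet : IsUnit A.det := (Matrix.isUnit_iff_isUnit_det _).1 g₁.isUnit
  have hrowA : A = A.updateRow l (A l j₀ • Pi.single j₀ 1) := by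
    ext a b
    by_cases ha : a = l
    · subst ha
      rw [Matrix.updateRow_self]
      by_cases hb : b = j₀
      · simp [hb]
      · simp [hb, hrow b hb]
    · rw [Matrix.updateRow_ne ha]
  have hd2 : A.det = A l j₀ * A.adjugate j₀ l := by
    conv_lhs => rw [hrowA, Matrix.det_updateRow_smul, ← Matrix.adjugate_apply]
  set B : Matrix (Fin N) (Fin N) R := A.updateCol j₀ (Pi.single l 1) with hB
  have hBdet : B.det = A.adjugate j₀ l := by
    rw [hB, ← Matrix.cramer_apply, Matrix.cramer_eq_adjugate_mulVec, Matrix.mulVec_single]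
    simp
  have hBu : IsUnit B := by
    rw [Matrix.isUnit_iff_isUnit_det, hBdet]
    exact isUnit_of_mul_isUnit_right (hd2 ▸ hdet)
  refine ⟨hBu.unit, j₀, fun i hi => ?_, ?_⟩
  · refine (colV_eq_of_mul U.one_mem fun a => ?_).symm
    have hne : i ≠ j₀ := fun e => hj₀ (e ▸ hi)
    simp [hB, Matrix.updateCol_ne hne, hcols a i hi]
  · refine (colV_eq_of_mul U.one_mem fun a => ?_).symm
    simp [hB, Matrix.updateCol_self, Matrix.one_apply, Pi.single_apply]

/-- The height of a vertex at coordinate `l` in the coordinates of a frame. -/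
noncomputable def vHgt (size : R → ℕ) (g₀ : GL (Fin N) R) (l : Fin N) (v : PBVert R U N) : ℕ :=
  hgt U size ((((g₀⁻¹ : GL (Fin N) R) : Matrix (Fin N) (Fin N) R) *ᵥ repV v) l)

lemma vHgt_colV (size : R → ℕ) (g₀ g : GL (Fin N) R) (l i : Fin N) :
    vHgt size g₀ l (colV U g i) =
      hgt U size (((g₀⁻¹ * g : GL (Fin N) R) : Matrix (Fin N) (Fin N) R) l i) := by
  obtain ⟨u, hu, e⟩ := repV_colV (U := U) g i
  unfold vHgt
  rw [show repV (colV U g i) = (u : R) • fun j => (g : Matrix (Fin N) (Fin N) R) j i from funext e,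
    mulVec_smul, col_eq_mulVec, mulVec_mulVec, ← Units.val_mul, ← col_eq_mulVec]
  exact hgt_unit_mul U size _ hu

open Classical in
/-- Reduce a vertex by a multiple of another one. -/
noncomputable def redV (q : R) (v w : PBVert R U N) : PBVert R U N :=
  if h : ∃ z : UVec R N, z.1 = repV w - q • repV v then Quotient.mk _ h.choose else w

lemma redV_eq {q : R} {v w : PBVert R U N} {g : GL (Fin N) R} {i : Fin N}
    (e : ∀ a, (g : Matrix (Fin N) (Fin N) R) a i = repV w a - q * repV v a) :
    redV q v w = colV U g i := by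
  have h : ∃ z : UVec R N, z.1 = repV w - q • repV v :=
    ⟨colU g i, funext fun a => by simp [colU, e a]⟩
  refine (dif_pos h).trans ?_
  refine congrArg (Quotient.mk _) (Subtype.ext ?_)
  rw [h.choose_spec]
  exact funext fun a => by simp [colU, e a]

/-- Reduce a chain through links: a cycle in a link bounds. -/
theorem linkF_pb_acyclic [Nontrivial R] {size : R → ℕ} (hs : IsSize size) :
    ∀ (k : ℕ) (σ : Finset (PBVert R U N)), σ ∈ PB R U N → σ.card + k + 1 ≤ N →
      Acyclic (linkF (PB R U N) σ) k := by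
  classical
  intro k
  induction k using Nat.strong_induction_on with
  | _ k ihk =>
  intro σ hσ hcard
  obtain ⟨g₀, I, hσI, hIc⟩ := exists_indexSet hσ
  obtain ⟨l, hl⟩ : ∃ l, l ∉ I := by
    by_contra h
    push Not at h
    have : I = Finset.univ := Finset.eq_univ_iff_forall.2 h
    rw [this, Finset.card_univ, Fintype.card_fin] at hIc
    omega
  have hσ0 : ∀ w ∈ σ, vHgt size g₀ l w = 0 := by
    intro w hw
    rw [hσI] at hw
    obtain ⟨i, hi, rfl⟩ := Finset.mem_image.1 hw
    rw [vHgt_colV, inv_mul_cancel, hgt_eq_zero, Units.val_one,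
      Matrix.one_apply_ne fun e : l = i => hl (e ▸ hi)]
  suffices key : ∀ (a m : ℕ) (z : Chain (PBVert R U N)), z ∈ chainsOf (linkF (PB R U N) σ) k →
      bdry z = 0 → (∀ s, z s ≠ 0 → ∀ w ∈ s, vHgt size g₀ l w ≤ a) →
      ((z.support.biUnion id).filter fun w => vHgt size g₀ l w = a ∧ 0 < a).card ≤ m →
      ∃ y ∈ chainsOf (linkF (PB R U N) σ) (k + 1), bdry y = z by
    intro z hz hbz
    refine key ((z.support.biUnion id).sup (vHgt size g₀ l)) _ z hz hbz ?_ le_rfl
    intro s hsz w hw
    exact Finset.le_sup (f := vHgt size g₀ l)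
      (Finset.mem_biUnion.2 ⟨s, Finsupp.mem_support_iff.2 hsz, hw⟩)
  intro a
  induction a using Nat.strong_induction_on with
  | _ a iha =>
  intro m
  induction m with
  | zero =>
    intro z hz hbz hle hm
    rcases Nat.eq_zero_or_pos a with rfl | ha
    · -- cone at the unit vector
      set e₀ : PBVert R U N := colV U g₀ l with he₀
      refine ⟨cone e₀ z, cone_mem_chainsOf (mem_chainsOf.2 fun s hsz => ?_), ?_⟩
      · obtain ⟨⟨hdis, hsK⟩, hsc⟩ := mem_chainsOf.1 hz s hsz
        have he1 : vHgt size g₀ l e₀ ≠ 0 := by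
          rw [he₀, vHgt_colV, inv_mul_cancel, Ne, hgt_eq_zero, Units.val_one, Matrix.one_apply_eq]
          exact one_ne_zero
        have hes : e₀ ∉ s := fun h => he1 (Nat.le_zero.1 (hle s hsz _ h))
        have heσ : e₀ ∉ σ := fun h => he1 (hσ0 _ h)
        refine ⟨⟨hes, Finset.disjoint_insert_left.2 ⟨heσ, hdis⟩, ?_⟩, hsc⟩
        obtain ⟨g, J, hJ, -⟩ := exists_indexSet hsK
        have hrow : ∀ i ∈ J,
            ((g₀⁻¹ * g : GL (Fin N) R) : Matrix (Fin N) (Fin N) R) l i = 0 := by
          intro i hi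
          rw [← hgt_eq_zero (U := U) (size := size), ← vHgt_colV]
          have hmem : colV U g i ∈ s ∪ σ := hJ ▸ Finset.mem_image_of_mem _ hi
          rcases Finset.mem_union.1 hmem with h | h
          · exact Nat.le_zero.1 (hle s hsz _ h)
          · exact hσ0 _ h
        obtain ⟨g', j₀, h1, h2⟩ := exists_frame_unit (U := U) hs l J (g₀⁻¹ * g) hrow
        refine mem_PB.2 ⟨g₀ * g', fun w hw => ?_⟩
        rw [Finset.insert_union, Finset.mem_insert] at hw
        rcases hw with rfl | hw
        · exact ⟨j₀, by rw [← pbAct_colV, h2, pbAct_colV, mul_one]⟩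
        · rw [hJ] at hw
          obtain ⟨i, hi, rfl⟩ := Finset.mem_image.1 hw
          exact ⟨i, by rw [← pbAct_colV, h1 i hi, pbAct_colV, mul_inv_cancel_left]⟩
      · have := bdry_cone e₀ z
        rwa [hbz, map_zero, add_zero] at this
    · refine iha (a - 1) (by omega) _ z hz hbz (fun s hsz w hw => ?_) le_rfl
      have h1 := hle s hsz w hw
      by_contra h2
      have : w ∈ (z.support.biUnion id).filter fun w => vHgt size g₀ l w = a ∧ 0 < a :=
        Finset.mem_filter.2 ⟨Finset.mem_biUnion.2 ⟨s, Finsupp.mem_support_iff.2 hsz, hw⟩,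
          by omega, ha⟩
      rw [Finset.card_eq_zero.1 (Nat.le_zero.1 hm)] at this
      simp at this
  | succ m ihm =>
    intro z hz hbz hle hm
    rcases ((z.support.biUnion id).filter fun w => vHgt size g₀ l w = a ∧ 0 < a).eq_empty_or_nonempty
      with he | ⟨v, hv⟩
    · exact ihm z hz hbz hle (by simp [he])
    obtain ⟨hvz, hva, ha⟩ := Finset.mem_filter.1 hv
    obtain ⟨s₁, hs₁, hvs₁⟩ := Finset.mem_biUnion.1 hvz
    obtain ⟨⟨hdis₁, hK₁⟩, hc₁⟩ := mem_chainsOf.1 hz s₁ (Finsupp.mem_support_iff.1 hs₁)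
    simp only [id_eq] at hvs₁
    have hk : 1 ≤ k := hc₁ ▸ Finset.card_pos.2 ⟨v, hvs₁⟩
    have hvσ : v ∉ σ := Finset.disjoint_left.1 hdis₁ hvs₁
    have hσv : insert v σ ∈ PB R U N :=
      pb_downClosed _ hK₁ _ (Finset.insert_subset (Finset.mem_union_left _ hvs₁)
        Finset.subset_union_right)
    obtain ⟨j, rfl⟩ : ∃ j, k = j + 1 := ⟨k - 1, by omega⟩
    -- the link part and its filling
    have hlk : ∀ t, t ∈ link (linkF (PB R U N) σ) v ↔ t ∈ linkF (PB R U N) (insert v σ) := by
      intro t
      simp only [link, linkF, Set.mem_ofPred_eq, Finset.disjoint_insert_right,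
        Finset.disjoint_insert_left, Finset.union_insert, Finset.insert_union]
      tauto
    have hc : delV v z ∈ chainsOf (linkF (PB R U N) (insert v σ)) j :=
      chainsOf_mono (fun t ht _ => (hlk t).1 ht) (delV_mem_chainsOf hz v)
    obtain ⟨e, he, hbe⟩ := ihk j (by omega) (insert v σ) hσv
      (by rw [Finset.card_insert_of_notMem hvσ]; omega) _ hc (bdry_delV_eq_zero hbz)
    -- retraction
    set f : PBVert R U N → R := fun w =>
      (((g₀⁻¹ : GL (Fin N) R) : Matrix (Fin N) (Fin N) R) *ᵥ repV w) l with hf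
    have hfv : f v ≠ 0 := by
      intro h0
      have : vHgt size g₀ l v = 0 := hgt_eq_zero.2 h0
      omega
    choose q hq using fun w => exists_reduce U hs (f w) hfv
    set fixed : Finset (PBVert R U N) := (delV v z).support.biUnion id with hfixed
    set r : PBVert R U N → PBVert R U N :=
      fun w => if w ∈ fixed then w else redV (q w) v w with hr
    have hgood : ∀ t ∈ linkF (PB R U N) (insert v σ),
        (t.image r ∈ linkF (PB R U N) (insert v σ) ∧ (t.image r).card = t.card ∧ Set.InjOn r ↑t) ∧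
        ∀ w ∈ t, w ∉ fixed → vHgt size g₀ l (r w) < a := by
      rintro t ⟨htd, htK⟩
      obtain ⟨g, hg⟩ := exists_frame_rep htK
      choose idx hidx hrep using hg
      have hvm : v ∈ t ∪ insert v σ := Finset.mem_union_right _ (Finset.mem_insert_self _ _)
      set jv := idx v hvm
      set c : Fin N → R := fun x =>
        if colV U g x ∈ t ∧ colV U g x ∉ fixed then -q (colV U g x) else 0 with hcdef
      have hcjv : c jv = 0 := by
        simp only [hcdef, jv, hidx v hvm]
        rw [if_neg]
        exact fun h => Finset.disjoint_left.1 htd h.1 (Finset.mem_insert_self _ _)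
      have hmap : ∀ w, ∀ hw : w ∈ t,
          r w = colV U (g * addColGL jv c hcjv) (idx w (Finset.mem_union_left _ hw)) := by
        intro w hw
        have hwm := Finset.mem_union_left (insert v σ) hw
        by_cases hwf : w ∈ fixed
        · rw [colV_mul_addColGL _ _ _ _ _ (by simp [hcdef, hidx w hwm, hwf]), hidx w hwm]
          simp [hr, hwf]
        · simp only [hr, if_neg hwf]
          refine redV_eq fun x => ?_
          rw [mul_addColGL_apply, hrep w hwm, hrep v hvm]
          simp only [hcdef, hidx w hwm, hw, hwf, not_false_eq_true, and_self, if_true]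
          ring
      have hinj : Set.InjOn r ↑t := by
        intro w hw w' hw' e
        rw [hmap w hw, hmap w' hw'] at e
        have e' := colV_injective _ e
        rw [← hidx w (Finset.mem_union_left _ hw), ← hidx w' (Finset.mem_union_left _ hw'), e']
      have hfix : ∀ w, ∀ hw : w ∈ insert v σ,
          colV U (g * addColGL jv c hcjv) (idx w (Finset.mem_union_right _ hw)) = w := by
        intro w hw
        rw [colV_mul_addColGL _ _ _ _ _ ?_, hidx w _]
        simp only [hcdef, hidx w _]
        rw [if_neg]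
        exact fun h => Finset.disjoint_left.1 htd h.1 hw
      refine ⟨⟨⟨?_, ?_⟩, Finset.card_image_of_injOn hinj, hinj⟩, ?_⟩
      · rw [Finset.disjoint_left]
        intro x hx hxσ
        obtain ⟨w, hw, rfl⟩ := Finset.mem_image.1 hx
        have e := (hmap w hw).symm.trans (hfix (r w) hxσ).symm
        have e' := colV_injective _ e
        have : w = r w := (hidx w (Finset.mem_union_left _ hw)).symm.trans
          ((congrArg (colV U g) e').trans (hidx (r w) (Finset.mem_union_right _ hxσ)))
        exact Finset.disjoint_left.1 htd hw (this ▸ hxσ)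
      · refine mem_PB.2 ⟨g * addColGL jv c hcjv, fun x hx => ?_⟩
        rcases Finset.mem_union.1 hx with hx | hx
        · obtain ⟨w, hw, rfl⟩ := Finset.mem_image.1 hx
          exact ⟨_, (hmap w hw).symm⟩
        · exact ⟨_, hfix x hx⟩
      · intro w hw hwf
        rw [hmap w hw, vHgt_colV]
        have hwm := Finset.mem_union_left (insert v σ) hw
        have h1 := hq w
        have h2 : vHgt size g₀ l v = hgt U size (f v) := rfl
        rw [← h2, hva] at h1
        refine lt_of_le_of_lt (le_of_eq ?_) h1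
        congr 1
        rw [Units.val_mul, hf]
        simp only [Matrix.mul_apply, mulVec, dotProduct, Finset.mul_sum, ← Finset.sum_sub_distrib]
        refine Finset.sum_congr rfl fun x _ => ?_
        rw [mul_addColGL_apply, hrep w hwm, hrep v hvm]
        simp only [hcdef, hidx w hwm, hw, hwf, not_false_eq_true, and_self, if_true]
        ring
    -- the pushed filling
    have he' : pushC r e ∈ chainsOf (linkF (PB R U N) (insert v σ)) (j + 1) :=
      pushC_mem_chainsOf r (fun t ht hc => ⟨(hgood t ht).1.1, hc ▸ (hgood t ht).1.2.1⟩) he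
    have hbe' : bdry (pushC r e) = delV v z := by
      rw [bdry_pushC r (fun t ht _ => (hgood t ht).1.2.2) he, hbe]
      refine pushC_eq_self r _ fun t ht w hw => ?_
      simp only [hr]
      rw [if_pos]
      exact Finset.mem_biUnion.2 ⟨t, Finsupp.mem_support_iff.2 ht, hw⟩
    have hverts : ∀ t, pushC r e t ≠ 0 → ∀ w ∈ t,
        v ≠ w ∧ (vHgt size g₀ l w < a ∨ w ∈ z.support.biUnion id) := by
      intro t ht w hw
      refine ⟨fun h => Finset.disjoint_left.1 (mem_chainsOf.1 he' t ht).1.1 hw
        (h ▸ Finset.mem_insert_self _ _), ?_⟩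
      obtain ⟨t₀, ht₀, rfl⟩ := exists_of_pushC_ne r e ht
      obtain ⟨w₀, hw₀, rfl⟩ := Finset.mem_image.1 hw
      by_cases hwf : w₀ ∈ fixed
      · right
        obtain ⟨t₁, ht₁, hwt₁⟩ := Finset.mem_biUnion.1 hwf
        rw [Finsupp.mem_support_iff, delV_apply] at ht₁
        have hv1 : v ∉ t₁ := fun h => ht₁ (by simp [h])
        rw [if_neg hv1] at ht₁
        simp only [hr, if_pos hwf]
        exact Finset.mem_biUnion.2
          ⟨_, Finsupp.mem_support_iff.2 ht₁, Finset.mem_insert_of_mem hwt₁⟩
      · exact Or.inl ((hgood t₀ (mem_chainsOf.1 he t₀ ht₀).1).2 w₀ hw₀ hwf)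
    have hdc : DownClosed (linkF (PB R U N) σ) := fun s hs t hts =>
      ⟨Finset.disjoint_of_subset_left hts hs.1,
        pb_downClosed _ hs.2 _ (Finset.union_subset_union hts subset_rfl)⟩
    have he'σ : pushC r e ∈ chainsOf (linkF (PB R U N) σ) (j + 1) :=
      chainsOf_mono (fun t ht _ => link_subset hdc v ((hlk t).2 ht)) he'
    set z' := z.filter (fun s => v ∉ s) + pushC r e with hz'def
    have hz'mem : z' ∈ chainsOf (linkF (PB R U N) σ) (j + 1) := by
      refine Submodule.add_mem _ (mem_chainsOf.2 fun s hs' => mem_chainsOf.1 hz s fun h0 => hs' ?_)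
        he'σ
      rw [Finsupp.filter_apply]
      split_ifs <;> simp [h0]
    have hbz' : bdry z' = 0 := by rw [hz'def, bdry_replace hbe', hbz]
    have hz'verts : ∀ s, z' s ≠ 0 → ∀ w ∈ s,
        v ≠ w ∧ (vHgt size g₀ l w < a ∨ w ∈ z.support.biUnion id) := by
      intro s hs' w hw
      rw [hz'def, Finsupp.add_apply] at hs'
      by_cases hes : pushC r e s = 0
      · rw [hes, add_zero, Finsupp.filter_apply] at hs'
        by_cases hvs : v ∈ s
        · simp [hvs] at hs'
        · refine ⟨fun h => hvs (h ▸ hw), Or.inr (Finset.mem_biUnion.2 ⟨s, ?_, hw⟩)⟩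
          simpa [hvs] using hs'
      · exact hverts s hes w hw
    obtain ⟨y', hy', hby'⟩ := ihm z' hz'mem hbz'
      (fun s hs' w hw => (hz'verts s hs' w hw).2.elim le_of_lt fun h => by
        obtain ⟨s₂, h2, h3⟩ := Finset.mem_biUnion.1 h
        exact hle s₂ (Finsupp.mem_support_iff.1 h2) w h3)
      (by
        have hsub : ((z'.support.biUnion id).filter fun w => vHgt size g₀ l w = a ∧ 0 < a) ⊆
            ((z.support.biUnion id).filter fun w => vHgt size g₀ l w = a ∧ 0 < a).erase v := by
          intro w hw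
          obtain ⟨h1, h2⟩ := Finset.mem_filter.1 hw
          obtain ⟨s, hs', hws⟩ := Finset.mem_biUnion.1 h1
          obtain ⟨hne, hor⟩ := hz'verts s (Finsupp.mem_support_iff.1 hs') w hws
          exact Finset.mem_erase.2 ⟨hne.symm, Finset.mem_filter.2
            ⟨hor.resolve_left (by omega), h2⟩⟩
        have := Finset.card_le_card hsub
        rw [Finset.card_erase_of_mem hv] at this
        omega)
    refine ⟨y' + cone v (pushC r e), Submodule.add_mem _ hy'
      (cone_mem_chainsOf (chainsOf_mono (fun t ht _ => (hlk t).2 ht) he')), ?_⟩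
    have h1 := bdry_cone v (pushC r e)
    rw [hbe'] at h1
    rw [map_add, hby', hz'def]
    calc z.filter (fun s => v ∉ s) + pushC r e + bdry (cone v (pushC r e))
        = z.filter (fun s => v ∉ s) +
          ((bdry (cone v (pushC r e)) + cone v (delV v z)) + bdry (cone v (pushC r e))) := by
          rw [h1, add_assoc]
      _ = cone v (delV v z) + z.filter (fun s => v ∉ s) +
          (bdry (cone v (pushC r e)) + bdry (cone v (pushC r e))) := by abel
      _ = z := by rw [cone_delV_add_filter, add_self_chain, add_zero]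

/-- The partial basis complex is acyclic in all degrees below the top one. -/
theorem pb_acyclic (R : Type*) [CommRing R] [Nontrivial R] (size : R → ℕ)
    (hs : ∀ a b : R, b ≠ 0 → ∃ q, a - q * b = 0 ∨ size (a - q * b) < size b)
    (U : Subgroup Rˣ) (N k : ℕ) (hk : k + 1 ≤ N) : Acyclic (PB R U N) k := by
  have h0 : (∅ : Finset (PBVert R U N)) ∈ PB R U N := mem_PB.2 ⟨1, by simp⟩
  have h := linkF_pb_acyclic (R := R) (U := U) (size := size) hs k ∅ h0 (by simpa using hk)
  have e : linkF (PB R U N) (∅ : Finset (PBVert R U N)) = PB R U N := by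
    ext s
    simp [linkF]
  rwa [e] at h

end Vale.Agent.P067
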