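import Vale.Agent.P067.MatDefs

/-!
Basic facts on partial basis complexes: columns, frames, the action of the general linear group.
-/

namespace Vale.Agent.P067

open Matrix

variable {R : Type*} [CommRing R] {U : Subgroup Rˣ} {N : ℕ}

noncomputable instance instDecidableEqPBVert (R : Type*) [CommRing R] (U : Subgroup Rˣ) (N : ℕ) :
    DecidableEq (PBVert R U N) := Classical.decEq _

/-- A column of an invertible matrix. -/
def colU (g : GL (Fin N) R) (i : Fin N) : UVec R N :=
  ⟨fun j => (g : Matrix (Fin N) (Fin N) R) j i, g, i, fun _ => rfl⟩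

/-- The class of a column. -/
def colV (U : Subgroup Rˣ) (g : GL (Fin N) R) (i : Fin N) : PBVert R U N :=
  Quotient.mk _ (colU g i)

/-- A chosen representative of a vertex. -/
noncomputable def repV (v : PBVert R U N) : Fin N → R := (Quotient.out v).1

lemma mk_eq_mk_iff {a b : UVec R N} :
    (Quotient.mk (uvecSetoid R U N) a : PBVert R U N) = Quotient.mk _ b ↔
      ∃ u ∈ U, ∀ j, b.1 j = (u : R) * a.1 j :=
  Quotient.eq (r := uvecSetoid R U N)

lemma mk_repV_unit (a : UVec R N) :
    ∃ u ∈ U, ∀ j, repV (Quotient.mk _ a : PBVert R U N) j = (u : R) * a.1 j := by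
  have h : (Quotient.mk _ a : PBVert R U N) = Quotient.mk _ (Quotient.out (Quotient.mk _ a : PBVert R U N)) :=
    (Quotient.out_eq _).symm
  exact mk_eq_mk_iff.1 h

lemma repV_colV (g : GL (Fin N) R) (i : Fin N) :
    ∃ u ∈ U, ∀ j, repV (colV U g i) j = (u : R) * (g : Matrix (Fin N) (Fin N) R) j i :=
  mk_repV_unit (colU g i)

lemma colV_eq_of_mul {g h : GL (Fin N) R} {i i' : Fin N} {u : Rˣ} (hu : u ∈ U)
    (e : ∀ j, (h : Matrix (Fin N) (Fin N) R) j i' = (u : R) * (g : Matrix (Fin N) (Fin N) R) j i) :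
    colV U g i = colV U h i' :=
  mk_eq_mk_iff.2 ⟨u, hu, e⟩

lemma colV_eq_iff {g h : GL (Fin N) R} {i i' : Fin N} :
    colV U g i = colV U h i' ↔ ∃ u ∈ U,
      ∀ j, (h : Matrix (Fin N) (Fin N) R) j i' = (u : R) * (g : Matrix (Fin N) (Fin N) R) j i :=
  mk_eq_mk_iff

lemma exists_colV (v : PBVert R U N) : ∃ (g : GL (Fin N) R) (i : Fin N), v = colV U g i := by
  obtain ⟨g, i, h⟩ := (Quotient.out v).2
  refine ⟨g, i, ?_⟩
  rw [← Quotient.out_eq v]
  exact congrArg (Quotient.mk _) (Subtype.ext (funext h))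

lemma col_eq_mulVec (g : Matrix (Fin N) (Fin N) R) (i : Fin N) :
    (fun j => g j i) = g *ᵥ Pi.single i 1 := by
  ext j
  simp [mulVec_single]

lemma glInv_mul_self (g : GL (Fin N) R) :
    ((g⁻¹ : GL (Fin N) R) : Matrix (Fin N) (Fin N) R) * (g : Matrix (Fin N) (Fin N) R) = 1 := by
  rw [← Units.val_mul, inv_mul_cancel, Units.val_one]

lemma colV_injective [Nontrivial R] (g : GL (Fin N) R) : Function.Injective (colV U g) := by
  intro i i' h
  obtain ⟨u, _, e⟩ := colV_eq_iff.1 h
  by_contra hne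
  have h1 : ((g⁻¹ : GL (Fin N) R) : Matrix (Fin N) (Fin N) R) *ᵥ
      (fun j => (g : Matrix (Fin N) (Fin N) R) j i') =
      (u : R) • (((g⁻¹ : GL (Fin N) R) : Matrix (Fin N) (Fin N) R) *ᵥ
      (fun j => (g : Matrix (Fin N) (Fin N) R) j i)) := by
    rw [← mulVec_smul]
    exact congrArg _ (funext e)
  rw [col_eq_mulVec _ i', col_eq_mulVec _ i, mulVec_mulVec, mulVec_mulVec, glInv_mul_self,
    one_mulVec, one_mulVec] at h1
  have := congrFun h1 i'
  simp [Ne.symm hne] at this

/-- Simplices are the finite sets of columns of one matrix. -/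
lemma mem_PB {s : Finset (PBVert R U N)} :
    s ∈ PB R U N ↔ ∃ g : GL (Fin N) R, ∀ v ∈ s, ∃ i, colV U g i = v := by
  classical
  constructor
  · rintro ⟨g, idx, _, h⟩
    refine ⟨g, fun v hv => ⟨idx v, ?_⟩⟩
    obtain ⟨w, rfl, hw⟩ := h v hv
    exact congrArg (Quotient.mk _) (Subtype.ext (funext fun j => (hw j).symm))
  · rintro ⟨g, h⟩
    have hidx : ∀ v : PBVert R U N, ∃ i : Fin N, v ∈ s → colV U g i = v := by
      intro v
      by_cases hv : v ∈ s
      · obtain ⟨i, hi⟩ := h v hv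
        exact ⟨i, fun _ => hi⟩
      · exact ⟨(Quotient.out v).2.choose_spec.choose, fun h' => absurd h' hv⟩
    choose idx hidx using hidx
    refine ⟨g, idx, ?_, fun v hv => ⟨colU g (idx v), (hidx v hv).symm, fun j => rfl⟩⟩
    intro v hv w hw e
    rw [← hidx v hv, ← hidx w hw, e]

lemma pb_downClosed : DownClosed (PB R U N) := by
  intro s hs t ht
  obtain ⟨g, h⟩ := mem_PB.1 hs
  exact mem_PB.2 ⟨g, fun v hv => h v (ht hv)⟩

lemma card_le_of_mem_PB {s : Finset (PBVert R U N)} (hs : s ∈ PB R U N) : s.card ≤ N := by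
  obtain ⟨g, h⟩ := mem_PB.1 hs
  calc s.card ≤ (Finset.univ.image (colV U g)).card :=
        Finset.card_le_card fun v hv => by
          obtain ⟨i, hi⟩ := h v hv
          simp only [Finset.mem_image, Finset.mem_univ, true_and]
          exact ⟨i, hi⟩
    _ ≤ Finset.univ.card := Finset.card_image_le
    _ = N := by simp

lemma colV_image_mem_PB (g : GL (Fin N) R) (J : Finset (Fin N)) :
    J.image (colV U g) ∈ PB R U N :=
  mem_PB.2 ⟨g, fun v hv => by
    obtain ⟨i, _, hi⟩ := Finset.mem_image.1 hv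
    exact ⟨i, hi⟩⟩

/-- A simplex is the image of an index set of the same size. -/
lemma exists_indexSet [Nontrivial R] {s : Finset (PBVert R U N)} (hs : s ∈ PB R U N) :
    ∃ (g : GL (Fin N) R) (J : Finset (Fin N)), s = J.image (colV U g) ∧ J.card = s.card := by
  classical
  obtain ⟨g, h⟩ := mem_PB.1 hs
  have e : s = (Finset.univ.filter fun i => colV U g i ∈ s).image (colV U g) := by
    ext v
    simp only [Finset.mem_image, Finset.mem_filter, Finset.mem_univ, true_and]
    constructor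
    · intro hv
      obtain ⟨i, hi⟩ := h v hv
      exact ⟨i, hi ▸ hv, hi⟩
    · rintro ⟨i, hi, rfl⟩
      exact hi
  refine ⟨g, _, e, ?_⟩
  conv_rhs => rw [e]
  exact (Finset.card_image_of_injective _ (colV_injective g)).symm

/-- Diagonal scaling of columns. -/
def diagGL (d : Fin N → Rˣ) : GL (Fin N) R :=
  ⟨diagonal fun i => (d i : R), diagonal fun i => ((d i)⁻¹ : Rˣ),
    by rw [diagonal_mul_diagonal]; simp, by rw [diagonal_mul_diagonal]; simp⟩

lemma mul_diagGL_apply (g : GL (Fin N) R) (d : Fin N → Rˣ) (j i : Fin N) :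
    ((g * diagGL d : GL (Fin N) R) : Matrix (Fin N) (Fin N) R) j i =
      (g : Matrix (Fin N) (Fin N) R) j i * (d i : R) := by
  rw [Units.val_mul]
  exact mul_diagonal _ _ _ _

lemma colV_mul_diagGL (g : GL (Fin N) R) (d : Fin N → Rˣ) (i : Fin N) (hd : d i ∈ U) :
    colV U (g * diagGL d) i = colV U g i :=
  (colV_eq_of_mul hd fun j => by rw [mul_diagGL_apply, mul_comm]).symm

/-- A frame whose columns are the chosen representatives on a given simplex. -/
lemma exists_frame_rep [Nontrivial R] {s : Finset (PBVert R U N)} (hs : s ∈ PB R U N) :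
    ∃ g : GL (Fin N) R, ∀ v ∈ s, ∃ i, colV U g i = v ∧
      ∀ j, (g : Matrix (Fin N) (Fin N) R) j i = repV v j := by
  classical
  obtain ⟨g, h⟩ := mem_PB.1 hs
  choose u hu e using fun i => repV_colV (U := U) g i
  refine ⟨g * diagGL u, fun v hv => ?_⟩
  obtain ⟨i, rfl⟩ := h v hv
  exact ⟨i, colV_mul_diagGL g u i (hu i), fun j => by rw [mul_diagGL_apply, e i j, mul_comm]⟩

/-- Multiplication on columns. -/
def uMul (g : GL (Fin N) R) (w : UVec R N) : UVec R N :=
  ⟨(g : Matrix (Fin N) (Fin N) R) *ᵥ w.1, by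
    obtain ⟨h, i, e⟩ := w.2
    refine ⟨g * h, i, fun j => ?_⟩
    simp only [Units.val_mul, Matrix.mul_apply, mulVec, dotProduct, e]⟩

/-- The action of a matrix on vertices. -/
def pbMul (g : GL (Fin N) R) : PBVert R U N → PBVert R U N :=
  Quotient.map (uMul g) (by
    rintro a b ⟨u, hu, e⟩
    refine ⟨u, hu, fun j => ?_⟩
    show ((g : Matrix (Fin N) (Fin N) R) *ᵥ b.1) j =
      (u : R) * ((g : Matrix (Fin N) (Fin N) R) *ᵥ a.1) j
    rw [show b.1 = (u : R) • a.1 from funext e, mulVec_smul]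
    rfl)

lemma pbMul_colV (g h : GL (Fin N) R) (i : Fin N) :
    pbMul g (colV U h i) = colV U (g * h) i := by
  refine congrArg (Quotient.mk _) (Subtype.ext (funext fun j => ?_))
  simp [uMul, colU, mulVec, dotProduct, Matrix.mul_apply]

lemma pbMul_mul (g h : GL (Fin N) R) (v : PBVert R U N) :
    pbMul (g * h) v = pbMul g (pbMul h v) := by
  obtain ⟨k, i, rfl⟩ := exists_colV v
  simp only [pbMul_colV, mul_assoc]

lemma pbMul_one (v : PBVert R U N) : pbMul 1 v = v := by
  obtain ⟨k, i, rfl⟩ := exists_colV v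
  simp only [pbMul_colV, one_mul]

variable (R U N) in
/-- The general linear group acting on vertices. -/
def pbAct : GL (Fin N) R →* Equiv.Perm (PBVert R U N) where
  toFun g :=
    { toFun := pbMul g
      invFun := pbMul g⁻¹
      left_inv := fun v => by rw [← pbMul_mul, inv_mul_cancel, pbMul_one]
      right_inv := fun v => by rw [← pbMul_mul, mul_inv_cancel, pbMul_one] }
  map_one' := Equiv.ext fun v => pbMul_one v
  map_mul' g h := Equiv.ext fun v => pbMul_mul g h v

lemma pbAct_colV (g h : GL (Fin N) R) (i : Fin N) :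
    pbAct R U N g (colV U h i) = colV U (g * h) i :=
  pbMul_colV g h i

lemma pbAct_image_mem_PB (g : GL (Fin N) R) {s : Finset (PBVert R U N)} (hs : s ∈ PB R U N) :
    s.image (pbAct R U N g) ∈ PB R U N := by
  obtain ⟨h, hh⟩ := mem_PB.1 hs
  refine mem_PB.2 ⟨g * h, fun v hv => ?_⟩
  obtain ⟨w, hw, rfl⟩ := Finset.mem_image.1 hv
  obtain ⟨i, rfl⟩ := hh w hw
  exact ⟨i, (pbAct_colV g h i).symm⟩

end Vale.Agent.P067
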