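import Vale.Agent.P067.Chambers

/-!
M7: spectral bounds for weighted 1-skeletons.

Everything is phrased with chamber sums: for `n`-uniform `C`, `GapLe n C lam` says that for every
`φ` with `∑_c ∑_{v ∈ c} φ v = 0` we have
`∑_c (∑_{v ∈ c} φ v)^2 ≤ (1 + (n-1) lam) ∑_c ∑_{v ∈ c} φ v ^ 2` (`gapLe_iff`).
The trickle down step takes a maximiser of this Rayleigh quotient, which is an eigenfunction by
first variation, and sums the inequalities of the vertex links (Oppenheim).
-/

namespace Vale.Agent.P067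

open Finset

variable {V : Type*} [DecidableEq V]

/-- `∑_c (∑_{v ∈ c} φ v)^2`. -/
def sqS (C : Finset (Finset V)) (φ : V → ℝ) : ℝ := ∑ c ∈ C, (∑ v ∈ c, φ v) ^ 2

/-- `∑_c ∑_{v ∈ c} φ v`. -/
def sumT (C : Finset (Finset V)) (φ : V → ℝ) : ℝ := ∑ c ∈ C, ∑ v ∈ c, φ v

omit [DecidableEq V] in
lemma sumT_nonneg_sq (C : Finset (Finset V)) (φ : V → ℝ) : 0 ≤ sumT C (fun v => φ v ^ 2) :=
  Finset.sum_nonneg fun _ _ => Finset.sum_nonneg fun _ _ => sq_nonneg _

lemma sum_powersetCard_two (s : Finset V) (φ : V → ℝ) :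
    2 * ∑ e ∈ s.powersetCard 2, ∏ v ∈ e, φ v = (∑ v ∈ s, φ v) ^ 2 - ∑ v ∈ s, φ v ^ 2 := by
  induction s using Finset.induction_on with
  | empty =>
    rw [Finset.powersetCard_eq_empty.2 (by simp)]
    simp
  | @insert a s ha ih =>
    have hd : Disjoint (s.powersetCard 2) ((s.powersetCard 1).image (insert a)) := by
      rw [Finset.disjoint_left]
      intro e he he'
      obtain ⟨e', -, rfl⟩ := Finset.mem_image.1 he'
      exact ha ((Finset.mem_powersetCard.1 he).1 (Finset.mem_insert_self a e'))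
    have hi : Set.InjOn (insert a : Finset V → Finset V) ↑(s.powersetCard 1) := by
      intro x hx y hy hxy
      have hx' : a ∉ x := fun h => ha ((Finset.mem_powersetCard.1 hx).1 h)
      have hy' : a ∉ y := fun h => ha ((Finset.mem_powersetCard.1 hy).1 h)
      rw [← Finset.erase_insert hx', ← Finset.erase_insert hy']
      simp [hxy]
    rw [Finset.powersetCard_succ_insert ha, Finset.sum_union hd, Finset.sum_image hi,
      Finset.powersetCard_one, Finset.sum_map]
    have : ∑ x ∈ s, ∏ v ∈ insert a ({x} : Finset V), φ v = φ a * ∑ x ∈ s, φ x := by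
      rw [Finset.mul_sum]
      refine Finset.sum_congr rfl fun x hx => ?_
      have hax : a ∉ ({x} : Finset V) := by
        rw [Finset.mem_singleton]; rintro rfl; exact ha hx
      rw [Finset.prod_insert hax, Finset.prod_singleton]
    simp only [Function.Embedding.coeFn_mk]
    rw [this, Finset.sum_insert ha, Finset.sum_insert ha, mul_add, ih]
    ring

lemma sum_faces_wt (n : ℕ) (C : Finset (Finset V)) (k : ℕ) (F : Finset V → ℝ) :
    ∑ e ∈ faces C k, wt n C e * F e =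
      (∑ c ∈ C, ∑ e ∈ c.powersetCard k, F e) / ((n.choose k : ℝ) * (C.card : ℝ)) := by
  have hk : ∀ e ∈ faces C k, e.card = k := fun e he => by
    obtain ⟨c, -, hce⟩ := Finset.mem_biUnion.1 he
    exact (Finset.mem_powersetCard.1 hce).2
  have hswap : ∑ e ∈ faces C k, ∑ _c ∈ C.filter (fun c => e ⊆ c), F e =
      ∑ c ∈ C, ∑ e ∈ c.powersetCard k, F e := by
    refine Finset.sum_comm' fun e c => ?_
    simp only [Finset.mem_filter, Finset.mem_powersetCard, faces, Finset.mem_biUnion]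
    constructor
    · rintro ⟨⟨c', -, -, hk'⟩, hc, hec⟩; exact ⟨⟨hec, hk'⟩, hc⟩
    · rintro ⟨⟨hec, hk'⟩, hc⟩; exact ⟨⟨c, hc, hec, hk'⟩, hc, hec⟩
  rw [← hswap, Finset.sum_div]
  refine Finset.sum_congr rfl fun e he => ?_
  rw [wt, hk e he, Finset.sum_const, nsmul_eq_mul]
  ring

lemma sum_verts (C : Finset (Finset V)) (F : V → Finset V → ℝ) :
    ∑ v ∈ C.biUnion id, ∑ c ∈ C.filter (fun c => v ∈ c), F v c = ∑ c ∈ C, ∑ v ∈ c, F v c := by
  refine Finset.sum_comm' fun v c => ?_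
  simp only [Finset.mem_filter, Finset.mem_biUnion, id]
  constructor
  · rintro ⟨-, hc, hv⟩; exact ⟨hv, hc⟩
  · rintro ⟨hv, hc⟩; exact ⟨⟨c, hc, hv⟩, hc, hv⟩

lemma sum_verts_wt (n : ℕ) (C : Finset (Finset V)) (f : V → ℝ) :
    ∑ v ∈ C.biUnion id, wt n C {v} * f v = sumT C f / ((n : ℝ) * (C.card : ℝ)) := by
  rw [sumT, ← sum_verts C (fun v _ => f v), Finset.sum_div]
  refine Finset.sum_congr rfl fun v _ => ?_
  simp only [wt, Finset.card_singleton, Nat.choose_one_right, Finset.singleton_subset_iff,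
    Finset.sum_const, nsmul_eq_mul]
  ring

lemma sum_edges_wt (n : ℕ) (C : Finset (Finset V)) (φ : V → ℝ) :
    ∑ e ∈ faces C 2, wt n C e * ∏ v ∈ e, φ v =
      (sqS C φ - sumT C (fun v => φ v ^ 2)) / ((n : ℝ) * ((n : ℝ) - 1) * (C.card : ℝ)) := by
  rw [sum_faces_wt]
  have h : sqS C φ - sumT C (fun v => φ v ^ 2) =
      2 * ∑ c ∈ C, ∑ e ∈ c.powersetCard 2, ∏ v ∈ e, φ v := by
    rw [sqS, sumT, ← Finset.sum_sub_distrib, Finset.mul_sum]
    exact Finset.sum_congr rfl fun c _ => (sum_powersetCard_two c φ).symm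
  rw [h, Nat.cast_choose_two]
  have : (n : ℝ) * ((n : ℝ) - 1) / 2 * (C.card : ℝ) = (n : ℝ) * ((n : ℝ) - 1) * C.card / 2 := by
    ring
  rw [this, div_div_eq_mul_div, mul_comm _ (2 : ℝ)]

/-- The chamber form of the spectral bound. -/
lemma gapLe_iff {n : ℕ} {C : Finset (Finset V)} (hC : Uniform n C) (hn : 2 ≤ n) (lam : ℝ) :
    GapLe n C lam ↔ ∀ φ : V → ℝ, sumT C φ = 0 →
      sqS C φ ≤ (1 + ((n : ℝ) - 1) * lam) * sumT C (fun v => φ v ^ 2) := by
  have hN : (0 : ℝ) < C.card := by exact_mod_cast hC.1.card_pos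
  have hn2 : (2 : ℝ) ≤ n := by exact_mod_cast hn
  have hn1 : (0 : ℝ) < (n : ℝ) - 1 := by linarith
  refine forall_congr' fun φ => ?_
  rw [sum_verts_wt n C φ, sum_edges_wt n, sum_verts_wt n C (fun v => φ v ^ 2)]
  have h0 : sumT C φ / ((n : ℝ) * C.card) = 0 ↔ sumT C φ = 0 := by
    rw [div_eq_zero_iff, or_iff_left (by positivity)]
  rw [h0]
  refine imp_congr_right fun _ => ?_
  have e : lam * (sumT C (fun v => φ v ^ 2) / ((n : ℝ) * C.card)) =
      ((n : ℝ) - 1) * lam * sumT C (fun v => φ v ^ 2) / ((n : ℝ) * ((n : ℝ) - 1) * C.card) := by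
    field_simp
  rw [e, div_le_div_iff_of_pos_right (by positivity), sub_le_iff_le_add]
  constructor <;> intro h <;> linarith

/-- The spectral bound for functions of arbitrary mean. -/
lemma gap_centred {n : ℕ} {C : Finset (Finset V)} (hC : Uniform n C) (hn : 2 ≤ n) {lam : ℝ}
    (h : GapLe n C lam) (φ : V → ℝ) :
    sqS C φ - sumT C φ ^ 2 / C.card ≤
      (1 + ((n : ℝ) - 1) * lam) *
        (sumT C (fun v => φ v ^ 2) - sumT C φ ^ 2 / ((n : ℝ) * C.card)) := by
  have hN : (0 : ℝ) < C.card := by exact_mod_cast hC.1.card_pos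
  have hn0 : (0 : ℝ) < n := by exact_mod_cast (show 0 < n by omega)
  obtain ⟨t, ht⟩ : ∃ t : ℝ, t = sumT C φ / ((n : ℝ) * C.card) := ⟨_, rfl⟩
  have e1 : ∀ c ∈ C, ∑ v ∈ c, (φ v - t) = ∑ v ∈ c, φ v - n * t := fun c hc => by
    rw [Finset.sum_sub_distrib, Finset.sum_const, hC.2 c hc, nsmul_eq_mul]
  have eT : sumT C (fun v => φ v - t) = sumT C φ - C.card * (n * t) := by
    simp only [sumT]
    rw [Finset.sum_congr rfl e1, Finset.sum_sub_distrib, Finset.sum_const, nsmul_eq_mul]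
  have eA : sqS C (fun v => φ v - t) =
      sqS C φ - 2 * (n * t) * sumT C φ + C.card * (n * t) ^ 2 := by
    simp only [sqS, sumT]
    rw [Finset.sum_congr rfl fun c hc => by rw [e1 c hc, sub_sq],
      Finset.sum_add_distrib, Finset.sum_sub_distrib, Finset.sum_const, nsmul_eq_mul,
      Finset.mul_sum]
    congr 1
    congr 1
    exact Finset.sum_congr rfl fun c _ => by ring
  have eB : sumT C (fun v => (φ v - t) ^ 2) =
      sumT C (fun v => φ v ^ 2) - 2 * t * sumT C φ + C.card * (n * t ^ 2) := by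
    simp only [sumT]
    rw [Finset.sum_congr rfl fun c hc => show ∑ v ∈ c, (φ v - t) ^ 2 =
      ∑ v ∈ c, φ v ^ 2 - 2 * t * ∑ v ∈ c, φ v + n * t ^ 2 by
        rw [Finset.sum_congr rfl fun v _ => sub_sq (φ v) t, Finset.sum_add_distrib,
          Finset.sum_sub_distrib, Finset.sum_const, hC.2 c hc, nsmul_eq_mul, Finset.mul_sum]
        congr 1
        congr 1
        exact Finset.sum_congr rfl fun v _ => by ring,
      Finset.sum_add_distrib, Finset.sum_sub_distrib, Finset.sum_const, nsmul_eq_mul,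
      Finset.mul_sum]
  have hz : sumT C (fun v => φ v - t) = 0 := by
    rw [eT, ht]; field_simp; ring
  have := (gapLe_iff hC hn lam).1 h _ hz
  rw [eA, eB, ht] at this
  convert this using 2 <;> field_simp <;> ring

/-- Edge mixing from the spectral bound. -/
theorem mixing_of_gap {n : ℕ} {C : Finset (Finset V)} (hC : Uniform n C) {lam : ℝ} (h0 : 0 ≤ lam)
    (h : GapLe n C lam) : Mixing n C 1 lam := by
  intro S hS
  rw [one_mul]
  have hπ : ∀ v, 0 ≤ wt n C {v} := fun v => by unfold wt; positivity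
  rcases Nat.lt_or_ge n 2 with hn | hn
  · have hf : faces C 2 = ∅ := by
      refine Finset.eq_empty_of_forall_notMem fun e he => ?_
      obtain ⟨c, hc, hec⟩ := Finset.mem_biUnion.1 he
      rw [Finset.powersetCard_eq_empty.2 (by rw [hC.2 c hc]; omega)] at hec
      exact Finset.notMem_empty e hec
    rw [hf, Finset.filter_empty, Finset.sum_empty]
    exact add_nonneg (sq_nonneg _) (mul_nonneg h0 (Finset.sum_nonneg fun v _ => hπ v))
  have hN : (0 : ℝ) < C.card := by exact_mod_cast hC.1.card_pos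
  have hn2 : (2 : ℝ) ≤ n := by exact_mod_cast hn
  have hn1 : (0 : ℝ) < (n : ℝ) - 1 := by linarith
  obtain ⟨φ, hφ⟩ : ∃ φ : V → ℝ, φ = fun v => if v ∈ S then 1 else 0 := ⟨_, rfl⟩
  have hl : ∑ e ∈ (faces C 2).filter (fun e => e ⊆ S), wt n C e =
      ∑ e ∈ faces C 2, wt n C e * ∏ v ∈ e, φ v := by
    rw [Finset.sum_filter]
    refine Finset.sum_congr rfl fun e _ => ?_
    subst hφ
    by_cases he : e ⊆ S
    · rw [if_pos he, Finset.prod_eq_one fun v hv => if_pos (he hv), mul_one]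
    · rw [if_neg he]
      obtain ⟨v, hv, hvS⟩ := Finset.not_subset.1 he
      rw [Finset.prod_eq_zero hv (if_neg hvS), mul_zero]
  have hsq : sumT C (fun v => φ v ^ 2) = sumT C φ := by
    subst hφ; simp only [sumT, ite_pow, one_pow, zero_pow two_ne_zero]
  have hμ : ∑ v ∈ S, wt n C {v} = sumT C φ / ((n : ℝ) * C.card) := by
    rw [← sum_verts_wt, hφ]
    simp only [mul_ite, mul_one, mul_zero]
    rw [← Finset.sum_filter, Finset.filter_mem_eq_inter, Finset.inter_eq_right.2 hS]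
  have hg := gap_centred hC hn h φ
  rw [hsq] at hg
  rw [hl, sum_edges_wt n, hμ, hsq]
  generalize sqS C φ = A at hg ⊢
  generalize sumT C φ = T at hg ⊢
  have hg2 : A - T ≤ ((n : ℝ) - 1) * (T ^ 2 / (n * C.card)) +
      ((n : ℝ) - 1) * lam * (T - T ^ 2 / (n * C.card)) := by
    have : T ^ 2 / (C.card : ℝ) = n * (T ^ 2 / (n * C.card)) := by field_simp
    rw [this] at hg
    linarith
  have hle : A - T ≤ ((n : ℝ) - 1) * (T ^ 2 / (n * C.card)) + ((n : ℝ) - 1) * lam * T := by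
    have : 0 ≤ ((n : ℝ) - 1) * lam * (T ^ 2 / (n * C.card)) := by positivity
    linarith
  rw [div_le_iff₀ (by positivity)]
  refine hle.trans (le_of_eq ?_)
  field_simp

/-- One trickle down step, in chamber form (`T` is the link sum at a vertex). -/
theorem gap_step {n : ℕ} {C : Finset (Finset V)} (hC : Uniform n C) (hn : 3 ≤ n) {lam : ℝ}
    (hlam : lam < 1) (hconn : Conn C)
    (hv : ∀ v ∈ C.biUnion id, GapLe (n - 1) (chLink C {v}) lam) :
    GapLe n C (lam / (1 - lam)) := by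
  classical
  have hn0 : (3 : ℝ) ≤ n := by exact_mod_cast hn
  rw [gapLe_iff hC (by omega)]
  intro φ hT
  by_contra hcon
  push Not at hcon
  obtain ⟨Vs, hVs⟩ : ∃ Vs : Finset V, Vs = C.biUnion id := ⟨_, rfl⟩
  have hmemVs : ∀ c ∈ C, ∀ v ∈ c, v ∈ Vs := fun c hc v hv => by
    rw [hVs]; exact Finset.mem_biUnion.2 ⟨c, hc, hv⟩
  let ext : (↥Vs → ℝ) → V → ℝ := fun x v => if h : v ∈ Vs then x ⟨v, h⟩ else 0
  have hext : ∀ (ψ : V → ℝ) (c), c ∈ C → ∀ v ∈ c, ext (fun w => ψ w.1) v = ψ v :=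
    fun ψ c hc v hv => by simp only [ext, dif_pos (hmemVs c hc v hv)]
  have hcont : ∀ v, Continuous fun x => ext x v := fun v => by
    by_cases h : v ∈ Vs
    · simp only [ext, dif_pos h]; exact continuous_apply (⟨v, h⟩ : ↥Vs)
    · simp only [ext, dif_neg h]; exact continuous_const
  have hcS : Continuous fun x => sqS C (ext x) :=
    continuous_finsetSum _ fun c _ => (continuous_finsetSum _ fun v _ => hcont v).pow 2
  have hcT : Continuous fun x => sumT C (ext x) :=
    continuous_finsetSum _ fun c _ => continuous_finsetSum _ fun v _ => hcont v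
  have hcB : Continuous fun x => sumT C (fun v => ext x v ^ 2) :=
    continuous_finsetSum _ fun c _ => continuous_finsetSum _ fun v _ => (hcont v).pow 2
  let K : Set (↥Vs → ℝ) := {x | sumT C (ext x) = 0 ∧ sumT C (fun v => ext x v ^ 2) = 1}
  have hKc : IsCompact K := by
    refine (isCompact_Icc (a := fun _ : ↥Vs => (-1 : ℝ)) (b := fun _ => 1)).of_isClosed_subset
      ((isClosed_eq hcT continuous_const).inter (isClosed_eq hcB continuous_const)) ?_
    rintro x ⟨-, hx⟩
    have : ∀ w : ↥Vs, x w ^ 2 ≤ 1 := by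
      intro w
      obtain ⟨c, hc, hwc⟩ := Finset.mem_biUnion.1 (hVs ▸ w.2 : w.1 ∈ C.biUnion id)
      calc x w ^ 2 = ext x w.1 ^ 2 := by simp only [ext, dif_pos w.2]
        _ ≤ ∑ v ∈ c, ext x v ^ 2 :=
            Finset.single_le_sum (f := fun v => ext x v ^ 2) (fun v _ => sq_nonneg _) hwc
        _ ≤ sumT C (fun v => ext x v ^ 2) :=
            Finset.single_le_sum (f := fun c => ∑ v ∈ c, ext x v ^ 2)
              (fun c _ => Finset.sum_nonneg fun v _ => sq_nonneg _) hc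
        _ = 1 := hx
    exact ⟨fun w => (abs_le.1 (abs_le_one_iff_mul_self_le_one.2 (by nlinarith [this w]))).1,
      fun w => (abs_le.1 (abs_le_one_iff_mul_self_le_one.2 (by nlinarith [this w]))).2⟩
  -- normalisation of a mean zero function
  have hnorm : ∀ ψ : V → ℝ, sumT C ψ = 0 → 0 < sumT C (fun v => ψ v ^ 2) →
      ∃ x ∈ K, sqS C (ext x) * sumT C (fun v => ψ v ^ 2) = sqS C ψ := by
    intro ψ h0 hB
    obtain ⟨s, hs⟩ : ∃ s : ℝ, s = Real.sqrt (sumT C (fun v => ψ v ^ 2)) := ⟨_, rfl⟩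
    have hs0 : 0 < s := hs ▸ Real.sqrt_pos.2 hB
    have hs2 : sumT C (fun v => ψ v ^ 2) = s ^ 2 := by rw [hs, Real.sq_sqrt hB.le]
    refine ⟨fun w => ψ w.1 / s, ⟨?_, ?_⟩, ?_⟩
    · simp only [sumT] at h0 ⊢
      rw [Finset.sum_congr rfl fun c hc => Finset.sum_congr rfl fun v hv =>
        hext (fun v => ψ v / s) c hc v hv]
      simp only [← Finset.sum_div, h0, zero_div]
    · simp only [sumT] at hs2 ⊢
      rw [Finset.sum_congr rfl fun c hc => Finset.sum_congr rfl fun v hv => show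
        ext (fun w => ψ w.1 / s) v ^ 2 = ψ v ^ 2 / s ^ 2 by
          rw [hext (fun v => ψ v / s) c hc v hv, div_pow]]
      simp only [← Finset.sum_div, hs2]
      exact div_self (by positivity)
    · simp only [sqS]
      rw [Finset.sum_congr rfl fun c hc => show
        (∑ v ∈ c, ext (fun w => ψ w.1 / s) v) ^ 2 = (∑ v ∈ c, ψ v) ^ 2 / s ^ 2 by
          rw [Finset.sum_congr rfl fun v hv => hext (fun v => ψ v / s) c hc v hv,
            ← Finset.sum_div, div_pow]]
      rw [← Finset.sum_div, hs2, div_mul_cancel₀ _ (by positivity)]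
  have hBpos : 0 < sumT C (fun v => φ v ^ 2) := by
    rcases (sumT_nonneg_sq C φ).lt_or_eq with h | h
    · exact h
    · exfalso
      have hz : ∀ c ∈ C, ∑ v ∈ c, φ v = 0 := fun c hc => Finset.sum_eq_zero fun v hv => by
        have h1 := (Finset.sum_eq_zero_iff_of_nonneg
          fun c _ => Finset.sum_nonneg fun v _ => sq_nonneg (φ v)).1 h.symm c hc
        have h2 := (Finset.sum_eq_zero_iff_of_nonneg fun v _ => sq_nonneg (φ v)).1 h1 v hv
        exact pow_eq_zero_iff two_ne_zero |>.1 h2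
      have : sqS C φ = 0 := Finset.sum_eq_zero fun c hc => by rw [hz c hc]; ring
      rw [this, ← h, mul_zero] at hcon
      exact lt_irrefl _ hcon
  obtain ⟨x₁, hx₁, hx₁'⟩ := hnorm φ hT hBpos
  obtain ⟨x₀, hx₀, hmax⟩ := hKc.exists_isMaxOn ⟨x₁, hx₁⟩ hcS.continuousOn
  obtain ⟨hT₀, hB₀⟩ := hx₀
  rw [isMaxOn_iff] at hmax
  generalize ext x₀ = f at hT₀ hB₀ hmax
  obtain ⟨R, hR⟩ : ∃ R : ℝ, R = sqS C f := ⟨_, rfl⟩
  have hAll : ∀ ψ : V → ℝ, sumT C ψ = 0 → sqS C ψ ≤ R * sumT C (fun v => ψ v ^ 2) := by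
    intro ψ h0
    rcases (sumT_nonneg_sq C ψ).lt_or_eq with h | h
    · obtain ⟨x, hx, hx'⟩ := hnorm ψ h0 h
      rw [← hx', hR]
      exact mul_le_mul_of_nonneg_right (hmax x hx) h.le
    · rw [← h, mul_zero]
      refine le_of_eq (Finset.sum_eq_zero fun c hc => ?_)
      rw [Finset.sum_eq_zero, zero_pow two_ne_zero]
      intro v hv
      have h1 := (Finset.sum_eq_zero_iff_of_nonneg
        fun c _ => Finset.sum_nonneg fun v _ => sq_nonneg (ψ v)).1 h.symm c hc
      have h2 := (Finset.sum_eq_zero_iff_of_nonneg fun v _ => sq_nonneg (ψ v)).1 h1 v hv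
      exact pow_eq_zero_iff two_ne_zero |>.1 h2
  have hbig : 1 + ((n : ℝ) - 1) * (lam / (1 - lam)) < R := by
    by_contra h
    push Not at h
    exact absurd ((hAll φ hT).trans (mul_le_mul_of_nonneg_right h hBpos.le)) (not_le.2 hcon)
  -- `f` is not constant on all chambers
  have hRn : R < n := by
    by_contra h
    push Not at h
    have hcs : ∀ c ∈ C, (∑ v ∈ c, f v) ^ 2 ≤ n * ∑ v ∈ c, f v ^ 2 := fun c hc => by
      have := sq_sum_le_card_mul_sum_sq (s := c) (f := f)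
      rwa [hC.2 c hc] at this
    have hle : sqS C f ≤ ∑ c ∈ C, (n : ℝ) * ∑ v ∈ c, f v ^ 2 := Finset.sum_le_sum hcs
    have hsum : ∑ c ∈ C, (n : ℝ) * ∑ v ∈ c, f v ^ 2 = n := by
      rw [← Finset.mul_sum]; exact (congrArg ((n : ℝ) * ·) hB₀).trans (mul_one _)
    have heq := (Finset.sum_eq_sum_iff_of_le hcs).1 (le_antisymm hle (by rw [hsum]; linarith : _ ≤ sqS C f))
    have hcst : ∀ c ∈ C, ∀ u ∈ c, ∀ w ∈ c, f u = f w := by
      intro c hc u hu w hw
      have hz : ∑ v ∈ c, ((n : ℝ) * f v - ∑ v' ∈ c, f v') ^ 2 = 0 := by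
        simp only [sub_sq, mul_pow, Finset.sum_add_distrib, Finset.sum_sub_distrib,
          Finset.sum_const, nsmul_eq_mul, hC.2 c hc, ← Finset.mul_sum, ← Finset.sum_mul]
        linear_combination -(n : ℝ) * heq c hc
      have hh := fun v hv => pow_eq_zero_iff two_ne_zero |>.1
        ((Finset.sum_eq_zero_iff_of_nonneg fun v _ => sq_nonneg _).1 hz v hv)
      exact mul_left_cancel₀ (show (n : ℝ) ≠ 0 by linarith) (by linarith [hh u hu, hh w hw])
    have hc' := hconn f fun e he u hu w hw => by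
      obtain ⟨c, hc, hce⟩ := Finset.mem_biUnion.1 he
      exact hcst c hc u ((Finset.mem_powersetCard.1 hce).1 hu) w
        ((Finset.mem_powersetCard.1 hce).1 hw)
    obtain ⟨c₀, hc₀⟩ := hC.1
    obtain ⟨v₀, hv₀⟩ := Finset.card_pos.1 (show 0 < c₀.card by rw [hC.2 c₀ hc₀]; omega)
    have hfv : ∀ c ∈ C, ∀ v ∈ c, f v = f v₀ := fun c hc v hv =>
      hc' v (Finset.mem_biUnion.2 ⟨c, hc, hv⟩) v₀ (Finset.mem_biUnion.2 ⟨c₀, hc₀, hv₀⟩)
    have h1 : sumT C f = C.card * ((n : ℝ) * f v₀) := by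
      rw [sumT, Finset.sum_congr rfl fun c hc => show ∑ v ∈ c, f v = n * f v₀ by
        rw [Finset.sum_congr rfl (hfv c hc), Finset.sum_const, hC.2 c hc, nsmul_eq_mul],
        Finset.sum_const, nsmul_eq_mul]
    have h2 : f v₀ = 0 := by
      rw [hT₀] at h1
      have hN : (C.card : ℝ) ≠ 0 := by exact_mod_cast hC.1.card_pos.ne'
      rcases mul_eq_zero.1 h1.symm with h3 | h3
      · exact absurd h3 hN
      · exact (mul_eq_zero.1 h3).resolve_left (by linarith)
    have : sumT C (fun v => f v ^ 2) = 0 := Finset.sum_eq_zero fun c hc =>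
      Finset.sum_eq_zero fun v hv => by rw [hfv c hc v hv, h2]; ring
    rw [this] at hB₀; exact zero_ne_one hB₀
  -- first variation
  obtain ⟨m, hm⟩ : ∃ m : V → ℝ, m = fun v => ((C.filter (fun c => v ∈ c)).card : ℝ) := ⟨_, rfl⟩
  obtain ⟨s, hs⟩ : ∃ s : V → ℝ,
      s = fun v => ∑ c ∈ C.filter (fun c => v ∈ c), ∑ w ∈ c, f w := ⟨_, rfl⟩
  have hmpos : ∀ v ∈ C.biUnion id, 0 < m v := fun v hv => by
    obtain ⟨c, hc, hvc⟩ := Finset.mem_biUnion.1 hv
    simp only [hm]
    have hmem : c ∈ C.filter (fun c => v ∈ c) := Finset.mem_filter.2 ⟨hc, hvc⟩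
    exact_mod_cast Finset.card_pos.2 ⟨c, hmem⟩
  have hTm : ∀ g : V → ℝ, sumT C g = ∑ v ∈ C.biUnion id, m v * g v := fun g => by
    rw [sumT, ← sum_verts C (fun v _ => g v), hm]
    simp only [Finset.sum_const, nsmul_eq_mul]
  have hPs : ∀ g : V → ℝ, ∑ c ∈ C, (∑ v ∈ c, f v) * ∑ v ∈ c, g v =
      ∑ v ∈ C.biUnion id, s v * g v := fun g => by
    rw [hs]
    refine ((Finset.sum_congr rfl fun v _ => Finset.sum_mul _ _ _).trans ?_).symm
    rw [sum_verts C (fun v c => (∑ w ∈ c, f w) * g v)]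
    exact Finset.sum_congr rfl fun c _ => (Finset.mul_sum _ _ _).symm
  have hvar : ∀ g : V → ℝ, sumT C g = 0 →
      ∑ v ∈ C.biUnion id, s v * g v = R * ∑ v ∈ C.biUnion id, m v * (f v * g v) := by
    intro g hg
    rw [← hPs, ← hTm (fun v => f v * g v)]
    have hq : ∀ t : ℝ, 2 * t * (∑ c ∈ C, (∑ v ∈ c, f v) * ∑ v ∈ c, g v -
        R * sumT C (fun v => f v * g v)) +
        t ^ 2 * (sqS C g - R * sumT C (fun v => g v ^ 2)) ≤ 0 := by
      intro t
      have h0 : sumT C (fun v => f v + t * g v) = 0 := by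
        simp only [sumT, Finset.sum_add_distrib, ← Finset.mul_sum] at hT₀ hg ⊢
        rw [hT₀, hg]; ring
      have h := hAll _ h0
      have eA : sqS C (fun v => f v + t * g v) = R +
          2 * t * (∑ c ∈ C, (∑ v ∈ c, f v) * ∑ v ∈ c, g v) + t ^ 2 * sqS C g := by
        rw [hR]
        simp only [sqS, Finset.sum_add_distrib, ← Finset.mul_sum, add_sq]
        rw [Finset.mul_sum, Finset.mul_sum]
        congr 1
        · congr 1
          exact Finset.sum_congr rfl fun c _ => by ring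
        · exact Finset.sum_congr rfl fun c _ => by ring
      have eB : sumT C (fun v => (f v + t * g v) ^ 2) =
          1 + 2 * t * sumT C (fun v => f v * g v) + t ^ 2 * sumT C (fun v => g v ^ 2) := by
        rw [← hB₀]
        simp only [sumT, add_sq, mul_pow, Finset.sum_add_distrib, Finset.mul_sum]
        congr 1
        congr 1
        exact Finset.sum_congr rfl fun c _ => Finset.sum_congr rfl fun v _ => by ring
      rw [eA, eB] at h
      linarith
    generalize hb : ∑ c ∈ C, (∑ v ∈ c, f v) * ∑ v ∈ c, g v -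
      R * sumT C (fun v => f v * g v) = b at hq
    generalize sqS C g - R * sumT C (fun v => g v ^ 2) = a at hq
    have hb0 : b = 0 := by
      have h := hq (b / (|a| + 1))
      have ha : 0 < |a| + 1 := by positivity
      have h2 : (2 * (b / (|a| + 1)) * b + (b / (|a| + 1)) ^ 2 * a) * (|a| + 1) ^ 2 ≤ 0 :=
        mul_nonpos_of_nonpos_of_nonneg h (by positivity)
      have e : (2 * (b / (|a| + 1)) * b + (b / (|a| + 1)) ^ 2 * a) * (|a| + 1) ^ 2 =
          b ^ 2 * (2 * (|a| + 1) + a) := by field_simp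
      rw [e] at h2
      have : 0 < 2 * (|a| + 1) + a := by linarith [neg_abs_le a, abs_nonneg a]
      have h3 : b ^ 2 ≤ 0 := nonpos_of_mul_nonpos_left h2 this
      exact pow_eq_zero_iff two_ne_zero |>.1 (le_antisymm h3 (sq_nonneg b))
    linarith
  have heig : ∀ v ∈ C.biUnion id, s v = R * (m v * f v) := by
    have hsum : ∑ v ∈ C.biUnion id, s v = 0 := by
      rw [hs]
      simp only
      rw [sum_verts C (fun _ c => ∑ w ∈ c, f w)]
      rw [Finset.sum_congr rfl fun c hc => show ∑ _v ∈ c, ∑ w ∈ c, f w = n * ∑ w ∈ c, f w by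
        rw [Finset.sum_const, hC.2 c hc, nsmul_eq_mul], ← Finset.mul_sum]
      exact mul_eq_zero_of_right _ hT₀
    have hg0 : sumT C (fun v => (s v - R * (m v * f v)) / m v) = 0 := by
      rw [hTm, Finset.sum_congr rfl fun v hv => mul_div_cancel₀ _ (hmpos v hv).ne',
        Finset.sum_sub_distrib, hsum, ← Finset.mul_sum, ← hTm f, hT₀]
      ring
    have h := hvar _ hg0
    have hz : ∑ v ∈ C.biUnion id, (s v - R * (m v * f v)) ^ 2 / m v = 0 := by
      rw [← sub_eq_zero.2 h, Finset.mul_sum, ← Finset.sum_sub_distrib]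
      exact Finset.sum_congr rfl fun v _ => by ring
    intro v hv
    have := (Finset.sum_eq_zero_iff_of_nonneg fun v hv =>
      div_nonneg (sq_nonneg _) (hmpos v hv).le).1 hz v hv
    rw [div_eq_zero_iff, or_iff_left (hmpos v hv).ne', pow_eq_zero_iff two_ne_zero] at this
    linarith
  -- sum the inequalities of the links
  have hlink : ∀ v ∈ C.biUnion id,
      (∑ c ∈ C.filter (fun c => v ∈ c), (∑ w ∈ c, f w - f v) ^ 2) - (s v - m v * f v) ^ 2 / m v ≤
        (1 + ((n : ℝ) - 2) * lam) *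
          ((∑ c ∈ C.filter (fun c => v ∈ c), (∑ w ∈ c, f w ^ 2 - f v ^ 2)) -
            (s v - m v * f v) ^ 2 / (((n : ℝ) - 1) * m v)) := by
    intro v hv'
    have hinj : Set.InjOn (fun c : Finset V => c \ {v}) ↑(C.filter (fun c => v ∈ c)) := by
      intro a ha b hb hab
      rw [Finset.mem_coe, Finset.mem_filter] at ha hb
      simp only [Finset.sdiff_singleton_eq_erase] at hab
      rw [← Finset.insert_erase ha.2, ← Finset.insert_erase hb.2, hab]
    have hlk : chLink C {v} = (C.filter (fun c => v ∈ c)).image (fun c => c \ {v}) := by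
      simp only [chLink, Finset.singleton_subset_iff]
    have hU : Uniform (n - 1) (chLink C {v}) := by
      rw [hlk]
      refine ⟨Finset.Nonempty.image ?_ _, fun c hc => ?_⟩
      · rw [← Finset.card_pos]
        have h0 := hmpos v hv'
        simp only [hm] at h0
        exact_mod_cast h0
      · obtain ⟨c', hc', rfl⟩ := Finset.mem_image.1 hc
        obtain ⟨hc'C, hvc⟩ := Finset.mem_filter.1 hc'
        rw [Finset.sdiff_singleton_eq_erase, Finset.card_erase_of_mem hvc, hC.2 c' hc'C]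
    have h := gap_centred hU (by omega) (hv v hv') f
    have esum : ∀ (g : V → ℝ) (c), c ∈ C.filter (fun c => v ∈ c) →
        ∑ w ∈ c \ {v}, g w = ∑ w ∈ c, g w - g v := fun g c hc => by
      rw [Finset.sdiff_singleton_eq_erase, Finset.sum_erase_eq_sub (Finset.mem_filter.1 hc).2]
    have eT : sumT (chLink C {v}) f = s v - m v * f v := by
      rw [sumT, hlk, Finset.sum_image hinj, Finset.sum_congr rfl (esum f), Finset.sum_sub_distrib,
        Finset.sum_const, nsmul_eq_mul, hs, hm]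
    have eA : sqS (chLink C {v}) f =
        ∑ c ∈ C.filter (fun c => v ∈ c), (∑ w ∈ c, f w - f v) ^ 2 := by
      rw [sqS, hlk, Finset.sum_image hinj]
      exact Finset.sum_congr rfl fun c hc => by rw [esum f c hc]
    have eB : sumT (chLink C {v}) (fun w => f w ^ 2) =
        ∑ c ∈ C.filter (fun c => v ∈ c), (∑ w ∈ c, f w ^ 2 - f v ^ 2) := by
      rw [sumT, hlk, Finset.sum_image hinj]
      exact Finset.sum_congr rfl fun c hc => esum (fun w => f w ^ 2) c hc
    have eN : ((chLink C {v}).card : ℝ) = m v := by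
      rw [hlk, Finset.card_image_of_injOn hinj, hm]
    rw [eT, eA, eB, eN, Nat.cast_sub (show 1 ≤ n by omega), Nat.cast_one] at h
    convert h using 2
    ring
  have hsum := Finset.sum_le_sum hlink
  rw [Finset.sum_sub_distrib, ← Finset.mul_sum, Finset.sum_sub_distrib,
    sum_verts C (fun v c => (∑ w ∈ c, f w - f v) ^ 2),
    sum_verts C (fun v c => ∑ w ∈ c, f w ^ 2 - f v ^ 2)] at hsum
  have e1 : ∀ c ∈ C, ∑ v ∈ c, (∑ w ∈ c, f w - f v) ^ 2 =
      ((n : ℝ) - 2) * (∑ w ∈ c, f w) ^ 2 + ∑ w ∈ c, f w ^ 2 := fun c hc => by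
    simp only [sub_sq, Finset.sum_add_distrib, Finset.sum_sub_distrib, Finset.sum_const,
      hC.2 c hc, nsmul_eq_mul, ← Finset.mul_sum]
    ring
  have e2 : ∀ c ∈ C, ∑ v ∈ c, (∑ w ∈ c, f w ^ 2 - f v ^ 2) =
      ((n : ℝ) - 1) * ∑ w ∈ c, f w ^ 2 := fun c hc => by
    simp only [Finset.sum_sub_distrib, Finset.sum_const, hC.2 c hc, nsmul_eq_mul]
    ring
  have e3 : ∀ v ∈ C.biUnion id,
      (s v - m v * f v) ^ 2 / m v = (R - 1) ^ 2 * (m v * f v ^ 2) := fun v hv => by
    rw [heig v hv, div_eq_iff (hmpos v hv).ne']; ring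
  have e4 : ∀ v ∈ C.biUnion id, (s v - m v * f v) ^ 2 / (((n : ℝ) - 1) * m v) =
      (R - 1) ^ 2 * (m v * f v ^ 2) / ((n : ℝ) - 1) := fun v hv => by
    rw [← e3 v hv, div_div, mul_comm ((n : ℝ) - 1)]
  rw [Finset.sum_congr rfl e1, Finset.sum_congr rfl e2, Finset.sum_congr rfl e3,
    Finset.sum_congr rfl e4, Finset.sum_add_distrib] at hsum
  simp only [← Finset.sum_div, ← Finset.mul_sum, ← hTm] at hsum
  rw [show ∑ c ∈ C, (∑ w ∈ c, f w) ^ 2 = R from hR.symm,
    show ∑ c ∈ C, ∑ w ∈ c, f w ^ 2 = 1 from hB₀, hB₀] at hsum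
  -- the quadratic inequality
  have hn1 : (0 : ℝ) < (n : ℝ) - 1 := by linarith
  have hn2 : (0 : ℝ) < (n : ℝ) - 2 := by linarith
  obtain ⟨γ, hγ⟩ : ∃ γ : ℝ, R = 1 + ((n : ℝ) - 1) * γ :=
    ⟨(R - 1) / ((n : ℝ) - 1), by rw [mul_div_cancel₀ _ hn1.ne']; ring⟩
  subst hγ
  have hγ1 : γ < 1 := by nlinarith
  have hγl : lam / (1 - lam) < γ := lt_of_mul_lt_mul_left (by linarith) hn1.le
  have e5 : (1 + ((n : ℝ) - 1) * γ - 1) ^ 2 * 1 / ((n : ℝ) - 1) = ((n : ℝ) - 1) * γ ^ 2 := by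
    field_simp
    ring
  rw [e5] at hsum
  have key : ((n : ℝ) - 1) * (((n : ℝ) - 2) * ((1 - γ) * (γ - lam * (1 + γ)))) ≤ 0 := by
    linarith [hsum]
  have h1 : (1 - γ) * (γ - lam * (1 + γ)) ≤ 0 := by
    have := nonpos_of_mul_nonpos_right key hn1
    exact nonpos_of_mul_nonpos_right this hn2
  have h2 : γ - lam * (1 + γ) ≤ 0 := nonpos_of_mul_nonpos_right h1 (by linarith)
  have h3 : γ ≤ lam / (1 - lam) := by
    rw [le_div_iff₀ (by linarith)]; linarith
  linarith

lemma gapLe_mono {n : ℕ} {C : Finset (Finset V)} {a b : ℝ} (hab : a ≤ b) (h : GapLe n C a) :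
    GapLe n C b := fun φ hφ => (h φ hφ).trans (mul_le_mul_of_nonneg_right hab
  (Finset.sum_nonneg fun v _ => mul_nonneg (by unfold wt; positivity) (sq_nonneg _)))

lemma mem_chLink_iff {C : Finset (Finset V)} {ρ x : Finset V} :
    x ∈ chLink C ρ ↔ ∃ c ∈ C, ρ ⊆ c ∧ c \ ρ = x := by
  simp [chLink, and_assoc]

lemma chLink_empty (C : Finset (Finset V)) : chLink C ∅ = C := by
  simp [chLink]

lemma chLink_uniform {n : ℕ} {C : Finset (Finset V)} (hC : Uniform n C) {ρ : Finset V}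
    (hρ : ρ ∈ facesCx C) : Uniform (n - ρ.card) (chLink C ρ) := by
  obtain ⟨c, hc, hsub⟩ := hρ
  refine ⟨⟨c \ ρ, mem_chLink_iff.2 ⟨c, hc, hsub, rfl⟩⟩, fun x hx => ?_⟩
  obtain ⟨c', hc', hsub', rfl⟩ := mem_chLink_iff.1 hx
  rw [Finset.card_sdiff_of_subset hsub', hC.2 c' hc']

lemma chLink_chLink (C : Finset (Finset V)) {ρ : Finset V} {v : V} (hv : v ∉ ρ) :
    chLink (chLink C ρ) {v} = chLink C (insert v ρ) := by
  ext x
  simp only [mem_chLink_iff, Finset.singleton_subset_iff]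
  constructor
  · rintro ⟨-, ⟨c, hc, hρ, rfl⟩, hvc, rfl⟩
    refine ⟨c, hc, Finset.insert_subset (Finset.mem_sdiff.1 hvc).1 hρ, ?_⟩
    ext w; simp; tauto
  · rintro ⟨c, hc, hsub, rfl⟩
    refine ⟨c \ ρ, ⟨c, hc, fun w hw => hsub (Finset.mem_insert_of_mem hw), rfl⟩,
      Finset.mem_sdiff.2 ⟨hsub (Finset.mem_insert_self v ρ), hv⟩, ?_⟩
    ext w; simp; tauto

lemma mem_verts_chLink {C : Finset (Finset V)} {ρ : Finset V} {v : V}
    (hv : v ∈ (chLink C ρ).biUnion id) : v ∉ ρ ∧ insert v ρ ∈ facesCx C := by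
  obtain ⟨x, hx, hvx⟩ := Finset.mem_biUnion.1 hv
  obtain ⟨c, hc, hsub, rfl⟩ := mem_chLink_iff.1 hx
  simp only [id, Finset.mem_sdiff] at hvx
  exact ⟨hvx.2, c, hc, Finset.insert_subset hvx.1 hsub⟩

/-- Trickling down. -/
theorem trickle {n : ℕ} {C : Finset (Finset V)} (hC : Uniform n C) {lam : ℝ} (h0 : 0 ≤ lam)
    (hsmall : (n : ℝ) * lam ≤ 1 / 2)
    (h2 : ∀ ρ ∈ facesCx C, ρ.card + 2 = n → GapLe 2 (chLink C ρ) lam)
    (hconn : ∀ ρ ∈ facesCx C, ρ.card + 3 ≤ n → Conn (chLink C ρ)) :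
    ∀ ρ ∈ facesCx C, ρ.card + 2 ≤ n → GapLe (n - ρ.card) (chLink C ρ) (2 * lam) := by
  have main : ∀ k : ℕ, ∀ ρ ∈ facesCx C, ρ.card + (k + 2) = n →
      GapLe (k + 2) (chLink C ρ) (lam / (1 - (k : ℝ) * lam)) := by
    intro k
    induction k with
    | zero => intro ρ hρ hk; simpa using h2 ρ hρ hk
    | succ k ih =>
      intro ρ hρ hk
      have hkn : ((k : ℝ) + 3) * lam ≤ 1 / 2 := le_trans
        (mul_le_mul_of_nonneg_right (by exact_mod_cast (show k + 3 ≤ n by omega)) h0) hsmall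
      have hpos : 0 < 1 - (k : ℝ) * lam := by nlinarith
      have hlt : lam / (1 - (k : ℝ) * lam) < 1 := by rw [div_lt_one hpos]; nlinarith
      have hU : Uniform (k + 3) (chLink C ρ) := by
        have := chLink_uniform hC hρ
        rwa [show n - ρ.card = k + 3 by omega] at this
      have h := gap_step hU (by omega) hlt (hconn ρ hρ (by omega)) fun v hv => by
        obtain ⟨hvρ, hins⟩ := mem_verts_chLink hv
        rw [chLink_chLink C hvρ, show k + 3 - 1 = k + 2 by omega]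
        exact ih _ hins (by rw [Finset.card_insert_of_notMem hvρ]; omega)
      have e : lam / (1 - (k : ℝ) * lam) / (1 - lam / (1 - (k : ℝ) * lam)) =
          lam / (1 - ((k + 1 : ℕ) : ℝ) * lam) := by
        rw [one_sub_div hpos.ne', div_div_div_cancel_right₀ hpos.ne']
        push_cast
        ring
      rwa [e] at h
  intro ρ hρ hle
  obtain ⟨k, hk⟩ : ∃ k, ρ.card + (k + 2) = n := ⟨n - ρ.card - 2, by omega⟩
  rw [show n - ρ.card = k + 2 by omega]
  refine gapLe_mono ?_ (main k ρ hρ hk)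
  have hkn : ((k : ℝ) + 2) * lam ≤ 1 / 2 := le_trans
    (mul_le_mul_of_nonneg_right (by exact_mod_cast (show k + 2 ≤ n by omega)) h0) hsmall
  rw [div_le_iff₀ (by nlinarith)]
  nlinarith [mul_le_mul_of_nonneg_left (show (k : ℝ) * lam ≤ 1 / 2 by nlinarith) h0]

/-- Spectral bounds only depend on the complex up to relabelling. -/
theorem gap_image {W : Type*} [DecidableEq W] {n : ℕ} {C : Finset (Finset V)} (hC : Uniform n C)
    (hn : 2 ≤ n) {f : V → W} (hf : Set.InjOn f ↑(C.biUnion id)) {lam : ℝ} (h : GapLe n C lam) :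
    GapLe n (C.image (Finset.image f)) lam := by
  have hsub : ∀ c ∈ C, (c : Set V) ⊆ ↑(C.biUnion id) := fun c hc v hv =>
    Finset.mem_coe.2 (Finset.mem_biUnion.2 ⟨c, hc, hv⟩)
  have hinj : Set.InjOn (Finset.image f) ↑C := by
    intro a ha b hb hab
    ext v
    constructor <;> intro hv
    · obtain ⟨w, hw, hwv⟩ := Finset.mem_image.1 (hab ▸ Finset.mem_image_of_mem f hv)
      rwa [← hf (hsub b hb hw) (hsub a ha hv) hwv]
    · obtain ⟨w, hw, hwv⟩ := Finset.mem_image.1 (hab.symm ▸ Finset.mem_image_of_mem f hv)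
      rwa [← hf (hsub a ha hw) (hsub b hb hv) hwv]
  have hU : Uniform n (C.image (Finset.image f)) := by
    refine ⟨hC.1.image _, fun x hx => ?_⟩
    obtain ⟨c, hc, rfl⟩ := Finset.mem_image.1 hx
    rw [Finset.card_image_of_injOn (hf.mono (hsub c hc)), hC.2 c hc]
  have hs : ∀ g : W → ℝ, ∀ c ∈ C, ∑ w ∈ c.image f, g w = ∑ v ∈ c, g (f v) := fun g c hc =>
    Finset.sum_image (hf.mono (hsub c hc))
  have eT : ∀ g : W → ℝ, sumT (C.image (Finset.image f)) g = sumT C (fun v => g (f v)) := fun g => by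
    rw [sumT, Finset.sum_image hinj]; exact Finset.sum_congr rfl (hs g)
  rw [gapLe_iff hU hn]
  intro g hg
  rw [eT] at hg ⊢
  have eA : sqS (C.image (Finset.image f)) g = sqS C (fun v => g (f v)) := by
    rw [sqS, Finset.sum_image hinj]
    exact Finset.sum_congr rfl fun c hc => by rw [hs g c hc]
  rw [eA]
  exact (gapLe_iff hC hn lam).1 h _ hg

/-- Complete bipartite rank two complexes. -/
theorem bipartite {A B : Finset V} (hA : A.Nonempty) (hB : B.Nonempty) (hAB : Disjoint A B)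
    {C : Finset (Finset V)} (hC : ∀ c, c ∈ C ↔ ∃ a ∈ A, ∃ b ∈ B, c = {a, b}) :
    GapLe 2 C 0 := by
  have hne : ∀ p ∈ A ×ˢ B, p.1 ≠ p.2 := fun p hp h => by
    obtain ⟨h1, h2⟩ := Finset.mem_product.1 hp
    exact Finset.disjoint_left.1 hAB h1 (h ▸ h2)
  have hCi : C = (A ×ˢ B).image (fun p => ({p.1, p.2} : Finset V)) := by
    ext c
    simp only [hC, Finset.mem_image, Finset.mem_product, Prod.exists]
    constructor
    · rintro ⟨a, ha, b, hb, rfl⟩; exact ⟨a, b, ⟨ha, hb⟩, rfl⟩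
    · rintro ⟨a, b, ⟨ha, hb⟩, rfl⟩; exact ⟨a, ha, b, hb, rfl⟩
  have hinj : Set.InjOn (fun p : V × V => ({p.1, p.2} : Finset V)) ↑(A ×ˢ B) := by
    rintro ⟨a, b⟩ hp ⟨a', b'⟩ hp' h
    obtain ⟨ha, hb⟩ := Finset.mem_product.1 (Finset.mem_coe.1 hp)
    obtain ⟨ha', hb'⟩ := Finset.mem_product.1 (Finset.mem_coe.1 hp')
    simp only at h ha hb ha' hb'
    have h1 : a ∈ ({a', b'} : Finset V) := h ▸ Finset.mem_insert_self a {b}
    have h2 : b ∈ ({a', b'} : Finset V) :=
      h ▸ Finset.mem_insert_of_mem (Finset.mem_singleton_self b)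
    simp only [Finset.mem_insert, Finset.mem_singleton] at h1 h2
    have e1 : a = a' := h1.resolve_right fun e => Finset.disjoint_left.1 hAB ha (e ▸ hb')
    have e2 : b = b' := h2.resolve_left fun e => Finset.disjoint_left.1 hAB (e ▸ ha') hb
    rw [e1, e2]
  have hU : Uniform 2 C := by
    rw [hCi]
    refine ⟨(hA.product hB).image _, fun c hc => ?_⟩
    obtain ⟨p, hp, rfl⟩ := Finset.mem_image.1 hc
    exact Finset.card_pair (hne p hp)
  rw [gapLe_iff hU le_rfl]
  intro φ hT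
  rw [mul_zero, add_zero, one_mul]
  have hpair : ∀ g : V → ℝ, ∀ p ∈ A ×ˢ B,
      ∑ v ∈ ({p.1, p.2} : Finset V), g v = g p.1 + g p.2 := fun g p hp => Finset.sum_pair (hne p hp)
  simp only [sqS, sumT, hCi, Finset.sum_image hinj] at hT ⊢
  rw [Finset.sum_congr rfl (hpair φ)] at hT
  rw [Finset.sum_congr rfl (hpair (fun v => φ v ^ 2)),
    Finset.sum_congr rfl fun p hp => by rw [hpair φ p hp]]
  simp only [add_sq, Finset.sum_add_distrib, Finset.sum_product, Finset.sum_const, nsmul_eq_mul,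
    ← Finset.mul_sum, ← Finset.sum_mul] at hT ⊢
  have hAc : (0 : ℝ) < A.card := by exact_mod_cast hA.card_pos
  have hBc : (0 : ℝ) < B.card := by exact_mod_cast hB.card_pos
  generalize ∑ a ∈ A, φ a = x at hT ⊢
  generalize ∑ b ∈ B, φ b = y at hT ⊢
  have : x * y ≤ 0 := by
    have hy : (A.card : ℝ) * (x * y) = -((B.card : ℝ) * x ^ 2) := by linear_combination x * hT
    have : (A.card : ℝ) * (x * y) ≤ 0 := by rw [hy]; nlinarith
    exact nonpos_of_mul_nonpos_right this hAc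
  linarith

end Vale.Agent.P067
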