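import Vale.Agent.P067.PBAcyclic

/-!
P067: congruence groups acting on partial bases of a polynomial ring.
-/

open Matrix Polynomial

namespace Vale.Agent.P067
namespace Stab

variable {F : Type} [Field F] {N : ℕ}

/-- The action of a congruence group on partial basis vertices. -/
noncomputable def pbRho (F : Type) [Field F] (N m : ℕ) :
    congr F N m →* Equiv.Perm (PBVert F[X] (baseUnits F[X] F) N) :=
  (pbAct F[X] (baseUnits F[X] F) N).comp (congr F N m).subtype

lemma pb_empty : (∅ : Finset (PBVert F[X] (baseUnits F[X] F) N)) ∈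
    PB F[X] (baseUnits F[X] F) N :=
  mem_PB.2 ⟨1, by simp⟩

lemma pbRho_inv {m : ℕ} (g : congr F N m) {s : Finset (PBVert F[X] (baseUnits F[X] F) N)}
    (hs : s ∈ PB F[X] (baseUnits F[X] F) N) :
    s.image (pbRho F N m g) ∈ PB F[X] (baseUnits F[X] F) N :=
  pbAct_image_mem_PB _ hs

lemma pb_acyclicX {k : ℕ} (h : k + 1 ≤ N) : Acyclic (PB F[X] (baseUnits F[X] F) N) k := by
  classical
  refine pb_acyclic F[X] (fun a => a.natDegree + 1) (fun a b hb => ⟨a / b, ?_⟩) _ N k h
  have e : a - a / b * b = a % b := by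
    rw [sub_eq_iff_eq_add, mul_comm, EuclideanDomain.mod_add_div]
  rw [e]
  rcases eq_or_ne (a % b) 0 with h0 | h0
  · exact Or.inl h0
  · right
    have := Polynomial.natDegree_lt_natDegree h0 (EuclideanDomain.mod_lt a hb)
    omega

/-- A congruence element fixing a vertex fixes its representing vectors. -/
lemma pbRho_fix_iff {m : ℕ} (hm : 1 ≤ m) (g : congr F N m) (w : UVec F[X] N) :
    pbRho F N m g (Quotient.mk _ w : PBVert F[X] (baseUnits F[X] F) N) = Quotient.mk _ w ↔
      ((g : PMat F N) : Matrix (Fin N) (Fin N) F[X]) *ᵥ w.1 = w.1 := by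
  constructor
  · intro h
    change pbMul (g : PMat F N) (Quotient.mk _ w) = _ at h
    obtain ⟨u, hu, e⟩ := mk_eq_mk_iff.1 (show (Quotient.mk _ (uMul (g : PMat F N) w) :
      PBVert F[X] (baseUnits F[X] F) N) = Quotient.mk _ w from h)
    obtain ⟨c, rfl⟩ := hu
    set G := ((g : PMat F N) : Matrix (Fin N) (Fin N) F[X]) with hG
    set ev : F[X] →+* F := Polynomial.evalRingHom 0 with hev
    have hG0 : G.map ev = 1 := by
      have h1 := congrArg (fun x : GL (Fin N) (F[X] ⧸ Ideal.span {(X : F[X]) ^ m}) =>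
        (x : Matrix (Fin N) (Fin N) (F[X] ⧸ Ideal.span {(X : F[X]) ^ m})))
        (MonoidHom.mem_ker.1 g.2)
      have hk : ∀ a ∈ Ideal.span {(X : F[X]) ^ m}, ev a = 0 := by
        intro a ha
        obtain ⟨b, rfl⟩ := Ideal.mem_span_singleton.1 ha
        simp [hev, zero_pow (show m ≠ 0 by omega)]
      have h2 : G.map (Ideal.Quotient.mk (Ideal.span {(X : F[X]) ^ m})) = 1 := h1
      have h3 := congrArg (fun M : Matrix (Fin N) (Fin N) (F[X] ⧸ Ideal.span {(X : F[X]) ^ m}) =>
        M.map (Ideal.Quotient.lift _ ev hk)) h2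
      simpa [Matrix.map_map, Function.comp_def, Matrix.map_one] using h3
    obtain ⟨h', i, hi⟩ := w.2
    have hne : ∃ j, ev (w.1 j) ≠ 0 := by
      by_contra hc
      push Not at hc
      have h4 : ev (∑ j, ((h'⁻¹ : GL (Fin N) F[X]) : Matrix (Fin N) (Fin N) F[X]) i j * w.1 j)
          = 0 := by
        rw [map_sum]
        exact Finset.sum_eq_zero fun j _ => by rw [map_mul, hc j, mul_zero]
      simp only [hi] at h4
      rw [← Matrix.mul_apply, ← Units.val_mul, inv_mul_cancel, Units.val_one, Matrix.one_apply_eq,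
        map_one] at h4
      exact one_ne_zero h4
    obtain ⟨j, hj⟩ := hne
    have h5 : ev ((G *ᵥ w.1) j) = ev (w.1 j) := by
      rw [RingHom.map_mulVec, hG0, Matrix.one_mulVec]
      rfl
    have h6 : ev (w.1 j) = (c : F) * ev ((G *ᵥ w.1) j) := by
      conv_lhs => rw [e j]
      rw [map_mul]
      congr 1
      simp [hev]
    rw [h5] at h6
    have hc1 : (c : F) = 1 := mul_right_cancel₀ hj (by rw [one_mul]; exact h6.symm)
    funext k
    have := e k
    simp only [Units.coe_map, hc1, map_one, one_mul] at this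
    simpa [uMul, hG] using this.symm
  · intro h
    show pbMul (g : PMat F N) (Quotient.mk _ w) = _
    exact congrArg (Quotient.mk _) (Subtype.ext h)

end Stab
end Vale.Agent.P067
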