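import Vale.Agent.P067.XModel
import Vale.Agent.P067.FlagExpansion
import Vale.Agent.P067.FlagRankTwo
import Vale.Agent.P067.Spectral

/-!
Link expansion and mixing in the quotient complexes.
-/

namespace Vale.Agent.P067

open Finset Module

variable {F : Type} [Field F] [Fintype F] {N m : ℕ} [DecidableEq (BVert F N)]
  [DecidableEq (XVert F N m)] [Fintype (Submodule F (Fin N → F))]

/-- Links of nonempty faces expand as soon as the flag complexes do. -/
theorem xCh_linkExp (hN : 1 ≤ N) (hc : CloseFree F N m) {d : ℕ} {β : ℝ}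
    (hflag : ∀ (S : Submodule F (Fin N → F)) (P : Finset (Submodule F (Fin N → F))),
      (∀ V ∈ P, V ∈ genSub S) → IsChainF P → P.card ≤ d → ∀ k, 1 ≤ k → k ≤ d →
      LinkExp (N - 1 - P.card) (flagCh S P) k β) :
    ∀ ρ : Finset (XVert F N m), ρ ∈ facesCx (xCh F N m) → 1 ≤ ρ.card → ∀ k, ρ.card < k →
      k ≤ d + 1 → LinkExp (N - ρ.card) (chLink (xCh F N m) ρ) (k - ρ.card) β := by
  intro ρ hρ h1 k hk hkd
  obtain ⟨S, P, f, hP, hPc, hcard, hf, heq⟩ := chLink_xCh hN hc hρ (Finset.card_pos.1 h1)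
  rw [heq, show N - ρ.card = N - 1 - P.card by omega]
  exact linkExp_mapC hf (hflag S P hP hPc (by omega) _ (by omega) (by omega))

/-- All links have a spectral gap as soon as the field is large. -/
theorem xCh_gap (hN : 3 ≤ N) (hc : CloseFree F N m) (hq : 6 ≤ Fintype.card F)
    (hsmall : (N : ℝ) * (2 / Real.sqrt (Nat.card F)) ≤ 1 / 2)
    (hconn : Conn (xCh F N m)) :
    ∀ ρ ∈ facesCx (xCh F N m), ρ.card + 2 ≤ N →
      GapLe (N - ρ.card) (chLink (xCh F N m) ρ) (2 * (2 / Real.sqrt (Nat.card F))) := by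
  refine trickle (uniform_xCh (by omega) hc) (by positivity) hsmall ?_ ?_
  · intro ρ hρ hcard
    obtain ⟨S, P, f, hP, hPc, hPcard, hf, heq⟩ :=
      chLink_xCh (by omega) hc hρ (Finset.card_pos.1 (by omega))
    rw [heq]
    refine gapLe_mapC hf (flag_gap_two S P hP hPc ?_)
    rw [Module.finrank_fin_fun]; omega
  · intro ρ hρ hcard
    rcases ρ.eq_empty_or_nonempty with rfl | hne
    · rw [chLink_empty]; exact hconn
    obtain ⟨S, P, f, hP, hPc, hPcard, hf, heq⟩ := chLink_xCh (by omega) hc hρ hne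
    rw [heq]
    refine conn_mapC hf (flag_conn hq hP hPc ?_)
    rw [Module.finrank_fin_fun]; omega

/-- Mixing in all links of small faces. -/
theorem xCh_mixing (hc : CloseFree F N m) (hq : 6 ≤ Fintype.card F)
    (hsmall : (N : ℝ) * (2 / Real.sqrt (Nat.card F)) ≤ 1 / 2)
    (hconn : Conn (xCh F N m)) {d : ℕ} (hd : d + 3 ≤ N) :
    ∀ ρ : Finset (XVert F N m), ρ ∈ facesCx (xCh F N m) → ρ.card ≤ d →
      Mixing (N - ρ.card) (chLink (xCh F N m) ρ) 1 (2 * (2 / Real.sqrt (Nat.card F))) :=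
  fun ρ hρ hρd => mixing_of_gap (chLink_uniform (uniform_xCh (by omega) hc) hρ) (by positivity)
    (xCh_gap (by omega) hc hq hsmall hconn ρ hρ (by omega))

end Vale.Agent.P067
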