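import Vale.Agent.P067.LowLink
import Vale.Agent.P067.LatticeAction
import Vale.Agent.P067.Transport
import Vale.Agent.P067.FlagInterval

/-!
The finite complexes: quotients of the complex of vertices of spread at most one by congruence
subgroups, with their links.
-/

namespace Vale.Agent.P067

open Finset Module

variable (F : Type) [Field F] (N m : ℕ)

/-- Orbit relation of a congruence subgroup. -/
def orbSetoid : Setoid (BVert F N) where
  r v w := ∃ γ ∈ congr F N m, actB F N γ v = w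
  iseqv :=
    { refl := fun v => ⟨1, one_mem _, by rw [map_one, Equiv.Perm.one_apply]⟩
      symm := fun {v w} => by
        rintro ⟨γ, hγ, rfl⟩
        exact ⟨γ⁻¹, inv_mem hγ, by rw [← Equiv.Perm.mul_apply, ← map_mul, inv_mul_cancel,
          map_one, Equiv.Perm.one_apply]⟩
      trans := fun {u v w} => by
        rintro ⟨a, ha, rfl⟩ ⟨b, hb, rfl⟩
        exact ⟨b * a, mul_mem hb ha, by rw [map_mul, Equiv.Perm.mul_apply]⟩ }

/-- Vertices of the quotient. -/
def XVert : Type := Quotient (orbSetoid F N m)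

/-- Projection to the quotient. -/
def projX (v : BVert F N) : XVert F N m := Quotient.mk _ v

variable {F N m}

lemma projX_eq_iff {v w : BVert F N} :
    projX F N m v = projX F N m w ↔ ∃ γ ∈ congr F N m, actB F N γ v = w :=
  Quotient.eq

lemma projX_actB {γ : PMat F N} (hγ : γ ∈ congr F N m) (v : BVert F N) :
    projX F N m (actB F N γ v) = projX F N m v :=
  (projX_eq_iff.2 ⟨γ, hγ, rfl⟩).symm

/-- The freeness property of the congruence subgroup used throughout. -/
def CloseFree (F : Type) [Field F] (N m : ℕ) [DecidableEq (BVert F N)] : Prop :=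
  ∀ γ ∈ congr F N m, ∀ v ∈ lowSet F N, ∀ u ∈ lowSet F N, ({v, u} : Finset (BVert F N)) ∈ Bldg F N →
    ({u, actB F N γ v} : Finset (BVert F N)) ∈ Bldg F N → γ = 1

variable [DecidableEq (BVert F N)] [DecidableEq (XVert F N m)]

lemma pair_mem_bldg {s : Finset (BVert F N)} (hs : s ∈ lowCx F N) {v w : BVert F N} (hv : v ∈ s)
    (hw : w ∈ s) : ({v, w} : Finset (BVert F N)) ∈ Bldg F N :=
  bldg_downClosed s hs.1 _ (by simp [Finset.insert_subset_iff, hv, hw])

lemma actB_eq_self_of (γ : PMat F N) (h : γ = 1) (v : BVert F N) : actB F N γ v = v := by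
  rw [h, map_one, Equiv.Perm.one_apply]

/-- The projection is injective on simplices. -/
lemma projX_injOn (hc : CloseFree F N m) {s : Finset (BVert F N)} (hs : s ∈ lowCx F N) :
    Set.InjOn (projX F N m) (s : Set (BVert F N)) := by
  intro v hv w hw h
  obtain ⟨γ, hγ, hγv⟩ := projX_eq_iff.1 h
  have : γ = 1 := hc γ hγ v (hs.2 v hv) v (hs.2 v hv) (pair_mem_bldg hs hv hv)
    (hγv ▸ pair_mem_bldg hs hv hw)
  rw [← hγv, actB_eq_self_of γ this]

/-- Freeness on vertices. -/
lemma free_vertex (hc : CloseFree F N m) {γ : PMat F N} (hγ : γ ∈ congr F N m) {v : BVert F N}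
    (hv : ({v} : Finset (BVert F N)) ∈ lowCx F N) (h : actB F N γ v = v) : γ = 1 := by
  have hvl := hv.2 v (Finset.mem_singleton_self v)
  refine hc γ hγ v hvl v hvl (pair_mem_bldg hv (by simp) (by simp)) ?_
  rw [h]
  exact pair_mem_bldg hv (by simp) (by simp)

/-- Simplices with the same image are translates. -/
lemma projX_lift (hc : CloseFree F N m) {s t : Finset (BVert F N)} (hs : s ∈ lowCx F N)
    (ht : t ∈ lowCx F N) (h : s.image (projX F N m) = t.image (projX F N m)) :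
    ∃ γ ∈ congr F N m, s.image (actB F N γ) = t := by
  have hcard : s.card = t.card := by
    rw [← Finset.card_image_of_injOn (projX_injOn hc hs), h,
      Finset.card_image_of_injOn (projX_injOn hc ht)]
  rcases s.eq_empty_or_nonempty with rfl | ⟨v, hv⟩
  · refine ⟨1, one_mem _, ?_⟩
    rw [Finset.card_empty] at hcard
    rw [Finset.image_empty, Finset.card_eq_zero.1 hcard.symm]
  have hmem : ∀ w ∈ s, ∃ w' ∈ t, projX F N m w = projX F N m w' := by
    intro w hw
    have : projX F N m w ∈ t.image (projX F N m) := h ▸ Finset.mem_image_of_mem _ hw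
    obtain ⟨w', hw', he⟩ := Finset.mem_image.1 this
    exact ⟨w', hw', he.symm⟩
  obtain ⟨v', hv', hvv'⟩ := hmem v hv
  obtain ⟨γ, hγ, hγv⟩ := projX_eq_iff.1 hvv'
  have hs' := image_actB_mem_lowCx γ hs
  refine ⟨γ, hγ, Finset.eq_of_subset_of_card_le (fun x hx => ?_)
    (by rw [Finset.card_image_of_injective _ (Equiv.injective _), hcard])⟩
  obtain ⟨w, hw, rfl⟩ := Finset.mem_image.1 hx
  obtain ⟨w', hw', hww'⟩ := hmem w hw
  rw [← projX_actB hγ w] at hww'
  obtain ⟨δ, hδ, hδw⟩ := projX_eq_iff.1 hww'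
  have hwm : actB F N γ w ∈ s.image (actB F N γ) := Finset.mem_image_of_mem _ hw
  have hvm : v' ∈ s.image (actB F N γ) := hγv ▸ Finset.mem_image_of_mem _ hv
  have : δ = 1 := hc δ hδ _ (hs'.2 _ hwm) v' (ht.2 v' hv') (pair_mem_bldg hs' hwm hvm)
    (hδw ▸ pair_mem_bldg ht hv' hw')
  rw [actB_eq_self_of δ this] at hδw
  rw [hδw]
  exact hw'

variable (F N m)

lemma xCh_finite [Finite F] :
    (Set.image (Finset.image (projX F N m)) {c | c ∈ lowCx F N ∧ c.card = N}).Finite := by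
  obtain ⟨T, -, hT⟩ := exists_lowSet_reps (F := F) (N := N) m
  refine Set.Finite.subset (T.image (projX F N m)).powerset.finite_toSet ?_
  rintro _ ⟨c, ⟨hc, -⟩, rfl⟩
  rw [Finset.mem_coe, Finset.mem_powerset]
  intro x hx
  obtain ⟨v, hv, rfl⟩ := Finset.mem_image.1 hx
  obtain ⟨t, ht, γ, hγ, rfl⟩ := hT v (hc.2 v hv)
  exact Finset.mem_image.2 ⟨t, ht, (projX_actB hγ t).symm⟩

/-- The chambers of the quotient complex. -/
noncomputable def xCh [Finite F] : Finset (Finset (XVert F N m)) :=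
  (xCh_finite F N m).toFinset

variable {F N m}

lemma mem_xCh [Finite F] {c : Finset (XVert F N m)} :
    c ∈ xCh F N m ↔ ∃ c₀ ∈ lowCx F N, c₀.card = N ∧ c₀.image (projX F N m) = c := by
  simp only [xCh, Set.Finite.mem_toFinset, Set.mem_image, Set.mem_ofPred_eq]
  exact ⟨fun ⟨c₀, ⟨h1, h2⟩, h3⟩ => ⟨c₀, h1, h2, h3⟩, fun ⟨c₀, h1, h2, h3⟩ => ⟨c₀, ⟨h1, h2⟩, h3⟩⟩

/-- The faces are the images of simplices. -/
lemma facesCx_xCh [Finite F] (hN : 1 ≤ N) :
    facesCx (xCh F N m) = Set.image (Finset.image (projX F N m)) (lowCx F N) := by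
  ext s
  constructor
  · rintro ⟨c, hc, hs⟩
    obtain ⟨c₀, h1, -, rfl⟩ := mem_xCh.1 hc
    obtain ⟨s₀, hs₀, rfl⟩ := Finset.subset_image_iff.1 hs
    exact ⟨s₀, lowCx_downClosed c₀ h1 s₀ (Finset.coe_subset.1 hs₀), rfl⟩
  · rintro ⟨s₀, hs₀, rfl⟩
    obtain ⟨c₀, h1, h2, h3⟩ := exists_top_simplex hN hs₀
    exact ⟨_, mem_xCh.2 ⟨c₀, h1, h3, rfl⟩, Finset.image_subset_image h2⟩

lemma uniform_xCh [Finite F] (hN : 1 ≤ N) (hc : CloseFree F N m) : Uniform N (xCh F N m) := by
  refine ⟨?_, fun c h => ?_⟩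
  · have h0 : (∅ : Finset (BVert F N)) ∈ lowCx F N :=
      ⟨⟨fun v => (Quot.exists_rep v).choose, by simp, by simp⟩, by simp⟩
    obtain ⟨c₀, h1, -, h3⟩ := exists_top_simplex hN h0
    exact ⟨_, mem_xCh.2 ⟨c₀, h1, h3, rfl⟩⟩
  · obtain ⟨c₀, h1, h2, rfl⟩ := mem_xCh.1 h
    rw [Finset.card_image_of_injOn (projX_injOn hc h1), h2]

lemma nbr_injOn_gen (g : PMat F N) (a : ℕ) :
    Set.InjOn (nbr g (stdLam N a)) (genSub (stdSub F N a)) :=
  fun _ hV _ hW h => nbr_injOn g (stdLam N a) ⟨hV.1, hV.2.1⟩ ⟨hW.1, hW.2.1⟩ h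

/-- Lifts of chambers through a lifted face. -/
lemma xCh_lift_above [Finite F] (hc : CloseFree F N m) {s₀ : Finset (BVert F N)}
    (hs₀ : s₀ ∈ lowCx F N) {c : Finset (XVert F N m)} (hcm : c ∈ xCh F N m)
    (hsub : s₀.image (projX F N m) ⊆ c) :
    ∃ c₀ ∈ lowCx F N, c₀.card = N ∧ c₀.image (projX F N m) = c ∧ s₀ ⊆ c₀ := by
  obtain ⟨c₁, h1, h2, rfl⟩ := mem_xCh.1 hcm
  obtain ⟨s₁, hs₁, hs₁e⟩ := Finset.subset_image_iff.1 hsub
  have hs₁' : s₁ ∈ lowCx F N := lowCx_downClosed c₁ h1 s₁ (Finset.coe_subset.1 hs₁)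
  obtain ⟨γ, hγ, hγs⟩ := projX_lift hc hs₁' hs₀ hs₁e
  refine ⟨c₁.image (actB F N γ), image_actB_mem_lowCx γ h1, ?_, ?_, ?_⟩
  · rw [Finset.card_image_of_injective _ (Equiv.injective _), h2]
  · rw [Finset.image_image]
    exact Finset.image_congr fun x _ => projX_actB hγ x
  · rw [← hγs]
    exact Finset.image_subset_image (Finset.coe_subset.1 hs₁)

/-- The link of a nonempty face is a flag complex of subspaces. -/
theorem chLink_xCh [Finite F] [Fintype (Submodule F (Fin N → F))] (hN : 1 ≤ N)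
    (hc : CloseFree F N m) {σ : Finset (XVert F N m)} (hσ : σ ∈ facesCx (xCh F N m))
    (hne : σ.Nonempty) :
    ∃ (S : Submodule F (Fin N → F)) (P : Finset (Submodule F (Fin N → F)))
      (f : Submodule F (Fin N → F) → XVert F N m),
      (∀ V ∈ P, V ∈ genSub S) ∧ IsChainF P ∧ P.card + 1 = σ.card ∧
      Set.InjOn f ((flagCh S P).biUnion id : Set (Submodule F (Fin N → F))) ∧
      chLink (xCh F N m) σ = mapC f (flagCh S P) := by
  classical
  rw [facesCx_xCh hN] at hσ
  obtain ⟨s₀, hs₀, rfl⟩ := hσ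
  obtain ⟨v₀, hv₀⟩ := Finset.image_nonempty.1 hne
  obtain ⟨g, a, rfl⟩ := hs₀.2 v₀ hv₀
  set v₀ := latClass F N g (stdLam N a) with hv₀def
  set S := stdSub F N a with hS
  set ν := nbr g (stdLam N a) with hν
  have hl : s₀.erase v₀ ∈ link (lowCx F N) v₀ :=
    ⟨Finset.notMem_erase _ _, by rwa [Finset.insert_erase hv₀]⟩
  obtain ⟨P, hP, hPc, hPe⟩ := mem_link_low_iff.1 hl
  have hPcard : P.card + 1 = s₀.card := by
    rw [← Finset.card_erase_add_one hv₀, hPe,
      Finset.card_image_of_injOn ((nbr_injOn_gen g a).mono hP)]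
  have hvert : ∀ V, V ∈ genSub S → ({v₀, ν V} : Finset (BVert F N)) ∈ lowCx F N ∧ ν V ≠ v₀ := by
    intro V hV
    have h1 : ({ν V} : Finset (BVert F N)) ∈ link (lowCx F N) v₀ := by
      refine mem_link_low_iff.2 ⟨{V}, ?_, ?_, (Finset.image_singleton _ _).symm⟩
      · intro W hW
        rw [Finset.coe_singleton, Set.mem_singleton_iff] at hW
        exact hW ▸ hV
      · intro A hA B hB
        rw [Finset.mem_singleton] at hA hB
        exact Or.inl (by rw [hA, hB])
    exact ⟨h1.2, fun e => h1.1 (by rw [e]; exact Finset.mem_singleton_self _)⟩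
  have hflag : ∀ V ∈ (flagCh S P).biUnion id, V ∈ genSub S := by
    intro V hV
    obtain ⟨c, hc', hVc⟩ := Finset.mem_biUnion.1 hV
    exact (mem_flagCh.1 hc').1.2.1 V (Finset.mem_union_left _ hVc)
  have hfinj : Set.InjOn (fun V => projX F N m (ν V))
      ((flagCh S P).biUnion id : Set (Submodule F (Fin N → F))) := by
    intro U hU V hV h
    obtain ⟨hU1, -⟩ := hvert U (hflag U hU)
    obtain ⟨hV1, -⟩ := hvert V (hflag V hV)
    obtain ⟨γ, hγ, hγU⟩ := projX_eq_iff.1 h
    have : γ = 1 := hc γ hγ (ν U) (hU1.2 (ν U) (by simp)) v₀ (hU1.2 v₀ (by simp))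
      (pair_mem_bldg hU1 (by simp) (by simp))
      (by rw [hγU]; exact pair_mem_bldg hV1 (by simp) (by simp))
    rw [actB_eq_self_of γ this] at hγU
    exact nbr_injOn_gen g a (hflag U hU) (hflag V hV) hγU
  refine ⟨S, P, fun V => projX F N m (ν V), hP, hPc, ?_, hfinj, ?_⟩
  · rw [Finset.card_image_of_injOn (projX_injOn hc hs₀), hPcard]
  have hcs : ∀ c₀ : Finset (BVert F N), c₀ ∈ lowCx F N → s₀ ⊆ c₀ →
      c₀.image (projX F N m) \ s₀.image (projX F N m) = (c₀ \ s₀).image (projX F N m) := by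
    intro c₀ h1 h2
    ext x
    simp only [Finset.mem_sdiff, Finset.mem_image]
    constructor
    · rintro ⟨⟨w, hw, rfl⟩, hn⟩
      exact ⟨w, ⟨hw, fun h => hn ⟨w, h, rfl⟩⟩, rfl⟩
    · rintro ⟨w, ⟨hw, hn⟩, rfl⟩
      exact ⟨⟨w, hw, rfl⟩, fun ⟨u, hu, he⟩ => hn ((projX_injOn hc h1 (h2 hu) hw he) ▸ hu)⟩
  ext d
  simp only [chLink, mapC, Finset.mem_image, Finset.mem_filter]
  constructor
  · rintro ⟨c, ⟨hcm, hsub⟩, rfl⟩
    obtain ⟨c₀, h1, h2, rfl, h4⟩ := xCh_lift_above hc hs₀ hcm hsub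
    have hl' : c₀.erase v₀ ∈ link (lowCx F N) v₀ :=
      ⟨Finset.notMem_erase _ _, by rwa [Finset.insert_erase (h4 hv₀)]⟩
    obtain ⟨T, hT, hTc, hTe⟩ := mem_link_low_iff.1 hl'
    have hPT : P ⊆ T := by
      intro V hV
      have : ν V ∈ c₀.erase v₀ := by
        refine Finset.erase_subset_erase _ h4 ?_
        rw [hPe]; exact Finset.mem_image_of_mem _ hV
      rw [hTe] at this
      obtain ⟨U, hU, he⟩ := Finset.mem_image.1 this
      exact nbr_injOn_gen g a (hT hU) (hP hV) he ▸ hU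
    have hTcard : T.card + 1 = N := by
      rw [← Finset.card_image_of_injOn ((nbr_injOn_gen g a).mono hT), ← hTe,
        Finset.card_erase_add_one (h4 hv₀), h2]
    refine ⟨T \ P, mem_flagCh.2 ⟨⟨Finset.sdiff_disjoint, ?_, ?_⟩, ?_⟩, ?_⟩
    · rw [Finset.sdiff_union_of_subset hPT]; exact fun V hV => hT hV
    · rw [Finset.sdiff_union_of_subset hPT]; exact hTc
    · rw [Finset.card_sdiff_of_subset hPT, Module.finrank_fin_fun]
      have := Finset.card_le_card hPT
      omega
    · rw [hcs c₀ h1 h4, ← Function.comp_def (projX F N m) ν, ← Finset.image_image]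
      congr 1
      ext w
      simp only [Finset.mem_image, Finset.mem_sdiff]
      constructor
      · rintro ⟨V, ⟨hVT, hVP⟩, rfl⟩
        have hw : ν V ∈ c₀.erase v₀ := by rw [hTe]; exact Finset.mem_image_of_mem _ hVT
        refine ⟨Finset.mem_of_mem_erase hw, fun hs => hVP ?_⟩
        have : ν V ∈ s₀.erase v₀ := Finset.mem_erase.2 ⟨(Finset.mem_erase.1 hw).1, hs⟩
        rw [hPe] at this
        obtain ⟨U, hU, he⟩ := Finset.mem_image.1 this
        exact nbr_injOn_gen g a (hP hU) (hT hVT) he ▸ hU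
      · rintro ⟨hw, hws⟩
        have hwe : w ∈ c₀.erase v₀ := Finset.mem_erase.2 ⟨fun e => hws (e ▸ hv₀), hw⟩
        rw [hTe] at hwe
        obtain ⟨V, hV, rfl⟩ := Finset.mem_image.1 hwe
        refine ⟨V, ⟨hV, fun hVP => hws ?_⟩, rfl⟩
        refine Finset.mem_of_mem_erase (a := v₀) ?_
        rw [hPe]; exact Finset.mem_image_of_mem _ hVP
  · rintro ⟨t, ht, rfl⟩
    obtain ⟨⟨hdis, hg, hch⟩, hcard⟩ := mem_flagCh.1 ht
    have hl' : (t ∪ P).image ν ∈ link (lowCx F N) v₀ :=
      mem_link_low_iff.2 ⟨t ∪ P, fun V hV => hg V hV, hch, rfl⟩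
    set c₀ := insert v₀ ((t ∪ P).image ν) with hc₀
    have hs₀c : s₀ ⊆ c₀ := by
      rw [← Finset.insert_erase hv₀, hPe]
      exact Finset.insert_subset_insert _ (Finset.image_subset_image Finset.subset_union_right)
    have hc₀card : c₀.card = N := by
      rw [hc₀, Finset.card_insert_of_notMem hl'.1,
        Finset.card_image_of_injOn ((nbr_injOn_gen g a).mono fun V hV => hg V hV),
        Finset.card_union_of_disjoint hdis]
      rw [Module.finrank_fin_fun] at hcard
      exact hcard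
    refine ⟨c₀.image (projX F N m), ⟨mem_xCh.2 ⟨c₀, hl'.2, hc₀card, rfl⟩,
      Finset.image_subset_image hs₀c⟩, ?_⟩
    rw [hcs c₀ hl'.2 hs₀c, ← Function.comp_def (projX F N m) ν, ← Finset.image_image]
    congr 1
    ext w
    simp only [Finset.mem_sdiff, Finset.mem_image, hc₀, Finset.mem_insert]
    constructor
    · rintro ⟨hw | ⟨V, hV, rfl⟩, hn⟩
      · exact absurd (hw ▸ hv₀) hn
      · refine ⟨V, (Finset.mem_union.1 hV).resolve_right fun hVP => hn ?_, rfl⟩
        refine Finset.mem_of_mem_erase (a := v₀) ?_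
        rw [hPe]; exact Finset.mem_image_of_mem _ hVP
    · rintro ⟨V, hV, rfl⟩
      refine ⟨Or.inr ⟨V, Finset.mem_union_left _ hV, rfl⟩, fun hs => ?_⟩
      have hne' : ν V ≠ v₀ := (hvert V (hg V (Finset.mem_union_left _ hV))).2
      have : ν V ∈ s₀.erase v₀ := Finset.mem_erase.2 ⟨hne', hs⟩
      rw [hPe] at this
      obtain ⟨U, hU, he⟩ := Finset.mem_image.1 this
      have := nbr_injOn_gen g a (hP hU) (hg V (Finset.mem_union_left _ hV)) he
      exact Finset.disjoint_left.1 hdis hV (this ▸ hU)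

/-- Every vertex lies in boundedly many chambers. -/
theorem xCh_degree [Finite F] [Fintype (Submodule F (Fin N → F))] (hN : 1 ≤ N)
    (hc : CloseFree F N m) (x : XVert F N m) :
    ((xCh F N m).filter (fun c => x ∈ c)).card ≤
      2 ^ Fintype.card (Submodule F (Fin N → F)) := by
  classical
  rcases ((xCh F N m).filter (fun c => x ∈ c)).eq_empty_or_nonempty with he | ⟨c, hcx⟩
  · simp [he]
  obtain ⟨hcm, hxc⟩ := Finset.mem_filter.1 hcx
  have hσ : ({x} : Finset (XVert F N m)) ∈ facesCx (xCh F N m) :=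
    ⟨c, hcm, Finset.singleton_subset_iff.2 hxc⟩
  obtain ⟨S, P, f, -, -, -, -, heq⟩ := chLink_xCh hN hc hσ (Finset.singleton_nonempty x)
  have h1 : ((xCh F N m).filter (fun c => x ∈ c)).card = (chLink (xCh F N m) {x}).card := by
    unfold chLink
    rw [Finset.card_image_of_injOn]
    · simp only [Finset.singleton_subset_iff]
    · intro a ha b hb hab
      simp only [Finset.coe_filter, Set.mem_ofPred_eq] at ha hb
      calc a = a \ {x} ∪ {x} := (Finset.sdiff_union_of_subset ha.2).symm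
        _ = b \ {x} ∪ {x} := by simp only at hab; rw [hab]
        _ = b := Finset.sdiff_union_of_subset hb.2
  rw [h1, heq, ← Fintype.card_finset]
  exact le_trans Finset.card_image_le (Finset.card_le_univ _)

end Vale.Agent.P067
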